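import Crest.Prelude.Def_Laughlin

-- ▼ part R340/Quad
section

set_option autoImplicit false

open Crest.MathPhysics.Laughlin
open scoped BigOperators

namespace Crest.Agent.R340

variable {q N : ℕ}

/-- Replace the orbitals at positions `a` and `b` by `i` and `j`. -/
def upd2 (m : Fin N → Fin (q + 1)) (a b : Fin N) (i j : Fin (q + 1)) : Fin N → Fin (q + 1) :=
  Function.update (Function.update m a i) b j

theorem upd2_left {a b : Fin N} (h : a ≠ b) (m : Fin N → Fin (q + 1)) (i j : Fin (q + 1)) :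
    upd2 m a b i j a = i := by
  simp [upd2, Function.update_of_ne h]

theorem upd2_right (a b : Fin N) (m : Fin N → Fin (q + 1)) (i j : Fin (q + 1)) :
    upd2 m a b i j b = j := by
  simp [upd2]

theorem upd2_of_ne {a b c : Fin N} (ha : c ≠ a) (hb : c ≠ b) (m : Fin N → Fin (q + 1))
    (i j : Fin (q + 1)) : upd2 m a b i j c = m c := by
  simp [upd2, Function.update_of_ne ha, Function.update_of_ne hb]

theorem upd2_self (a b : Fin N) (m : Fin N → Fin (q + 1)) :
    upd2 m a b (m a) (m b) = m := by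
  funext c
  by_cases hb : c = b
  · subst hb; simp [upd2]
  · by_cases ha : c = a
    · subst ha; simp [upd2, Function.update_of_ne hb]
    · rw [upd2_of_ne ha hb]

theorem upd2_upd2 {a b : Fin N} (h : a ≠ b) (m : Fin N → Fin (q + 1))
    (i j i' j' : Fin (q + 1)) : upd2 (upd2 m a b i j) a b i' j' = upd2 m a b i' j' := by
  funext c
  by_cases hb : c = b
  · subst hb; rw [upd2_right, upd2_right]
  · by_cases ha : c = a
    · subst ha; rw [upd2_left h, upd2_left h]
    · rw [upd2_of_ne ha hb, upd2_of_ne ha hb, upd2_of_ne ha hb]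

/-- The amplitude of the pair vector `w_p` at positions `a, b`. -/
noncomputable def amp (a b : Fin N) (p : Fin (2 * q - 1)) (ψ : (Fin N → Fin (q + 1)) → ℂ)
    (m : Fin N → Fin (q + 1)) : ℂ :=
  ∑ i, ∑ j, (pairVec q p i j : ℂ) * ψ (upd2 m a b i j)

theorem amp_upd2 {a b : Fin N} (h : a ≠ b) (p : Fin (2 * q - 1))
    (ψ : (Fin N → Fin (q + 1)) → ℂ) (m : Fin N → Fin (q + 1)) (i j : Fin (q + 1)) :
    amp a b p ψ (upd2 m a b i j) = amp a b p ψ m := by
  simp only [amp, upd2_upd2 h]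

theorem sum_agree {M : Type*} [AddCommMonoid M] {a b : Fin N} (h : a ≠ b)
    (m : Fin N → Fin (q + 1)) (F : (Fin N → Fin (q + 1)) → M) :
    (∑ m', if (∀ c, c ≠ a → c ≠ b → m c = m' c) then F m' else 0) =
      ∑ i, ∑ j, F (upd2 m a b i j) := by
  rw [← Finset.sum_filter, ← Finset.sum_product']
  refine Finset.sum_nbij' (fun m' => (m' a, m' b)) (fun ij => upd2 m a b ij.1 ij.2) ?_ ?_ ?_ ?_ ?_
  · intro m' _; simp
  · intro ij _
    simp only [Finset.mem_filter, Finset.mem_univ, true_and]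
    intro c hca hcb
    rw [upd2_of_ne hca hcb]
  · intro m' hm'
    simp only [Finset.mem_filter, Finset.mem_univ, true_and] at hm'
    funext c
    by_cases hb : c = b
    · subst hb; simp [upd2]
    · by_cases ha : c = a
      · subst ha; simp [upd2, Function.update_of_ne hb]
      · simp only [upd2_of_ne ha hb]
        exact hm' c ha hb
  · intro ij _
    simp [upd2_left h, upd2_right]
  · intro m' hm'
    simp only [Finset.mem_filter, Finset.mem_univ, true_and] at hm'
    congr 1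
    funext c
    by_cases hb : c = b
    · subst hb; simp [upd2]
    · by_cases ha : c = a
      · subst ha; simp [upd2, Function.update_of_ne hb]
      · simp only [upd2_of_ne ha hb]
        exact (hm' c ha hb).symm

theorem pairProj_mulVec {a b : Fin N} (h : a ≠ b) (ψ : (Fin N → Fin (q + 1)) → ℂ)
    (m : Fin N → Fin (q + 1)) :
    (pairProj q N a b).mulVec ψ m =
      ∑ p : Fin (2 * q - 1), (pairVec q p (m a) (m b) : ℂ) * amp a b p ψ m := by
  have h1 : (pairProj q N a b).mulVec ψ m =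
      ∑ m', if (∀ c, c ≠ a → c ≠ b → m c = m' c) then
        ((∑ p : Fin (2 * q - 1), pairVec q p (m a) (m b) * pairVec q p (m' a) (m' b) : ℝ) : ℂ)
          * ψ m' else 0 := by
    simp only [Matrix.mulVec, dotProduct, pairProj, Matrix.of_apply]
    refine Finset.sum_congr rfl fun m' _ => ?_
    split_ifs <;> simp
  rw [h1, sum_agree h m (fun m' =>
    ((∑ p : Fin (2 * q - 1), pairVec q p (m a) (m b) * pairVec q p (m' a) (m' b) : ℝ) : ℂ)
          * ψ m')]
  simp only [upd2_left h, upd2_right, amp]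
  simp only [Complex.ofReal_sum, Complex.ofReal_mul, Finset.sum_mul, Finset.mul_sum]
  rw [show (∑ x : Fin (q + 1), ∑ x_1 : Fin (q + 1), ∑ i : Fin (2 * q - 1),
      (↑(pairVec q i (m a) (m b)) : ℂ) * ↑(pairVec q i x x_1) * ψ (upd2 m a b x x_1)) =
      ∑ x : Fin (q + 1), ∑ i : Fin (2 * q - 1), ∑ x_1 : Fin (q + 1),
      (↑(pairVec q i (m a) (m b)) : ℂ) * ↑(pairVec q i x x_1) * ψ (upd2 m a b x x_1) from
      Finset.sum_congr rfl fun _ _ => Finset.sum_comm, Finset.sum_comm]
  refine Finset.sum_congr rfl fun p _ => Finset.sum_congr rfl fun i _ =>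
    Finset.sum_congr rfl fun j _ => ?_
  ring

/-- Summing over all replacements at `a, b` counts every configuration `(q+1)^2` times. -/
theorem sum_upd2 {a b : Fin N} (h : a ≠ b) (f : (Fin N → Fin (q + 1)) → ℂ) :
    (∑ m, ∑ i, ∑ j, f (upd2 m a b i j)) = ((q : ℂ) + 1) ^ 2 * ∑ m, f m := by
  have key : (∑ x : (Fin N → Fin (q + 1)) × Fin (q + 1) × Fin (q + 1),
      f (upd2 x.1 a b x.2.1 x.2.2)) =
      ∑ x : (Fin N → Fin (q + 1)) × Fin (q + 1) × Fin (q + 1), f x.1 := by
    refine Finset.sum_nbij' (fun x => (upd2 x.1 a b x.2.1 x.2.2, x.1 a, x.1 b))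
      (fun x => (upd2 x.1 a b x.2.1 x.2.2, x.1 a, x.1 b)) ?_ ?_ ?_ ?_ ?_
    · intro x _; simp
    · intro x _; simp
    · rintro ⟨m, i, j⟩ _
      simp [upd2_upd2 h, upd2_self, upd2_left h, upd2_right]
    · rintro ⟨m, i, j⟩ _
      simp [upd2_upd2 h, upd2_self, upd2_left h, upd2_right]
    · rintro ⟨m, i, j⟩ _
      rfl
  rw [Fintype.sum_prod_type, Fintype.sum_prod_type] at key
  simp only [Fintype.sum_prod_type] at key
  rw [key, Finset.mul_sum]
  refine Finset.sum_congr rfl fun m _ => ?_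
  simp only [Finset.sum_const, Finset.card_univ, Fintype.card_fin, nsmul_eq_mul]
  push_cast
  ring

theorem dot_pairProj {a b : Fin N} (h : a ≠ b) (χ ψ : (Fin N → Fin (q + 1)) → ℂ) :
    star χ ⬝ᵥ (pairProj q N a b).mulVec ψ =
      (((q : ℂ) + 1) ^ 2)⁻¹ *
        ∑ p : Fin (2 * q - 1), ∑ m, star (amp a b p χ m) * amp a b p ψ m := by
  have hq : (((q : ℂ) + 1) ^ 2) ≠ 0 := by
    have : ((q : ℂ) + 1) ≠ 0 := by exact_mod_cast Nat.succ_ne_zero q
    positivity
  rw [eq_inv_mul_iff_mul_eq₀ hq]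
  have h1 : star χ ⬝ᵥ (pairProj q N a b).mulVec ψ =
      ∑ m, ∑ p : Fin (2 * q - 1),
        star (χ m) * ((pairVec q p (m a) (m b) : ℂ) * amp a b p ψ m) := by
    simp only [dotProduct, pairProj_mulVec h, Pi.star_apply, Finset.mul_sum]
  rw [h1, Finset.sum_comm, Finset.mul_sum]
  refine Finset.sum_congr rfl fun p _ => ?_
  rw [← sum_upd2 h (fun m => star (χ m) * ((pairVec q p (m a) (m b) : ℂ) * amp a b p ψ m))]
  refine Finset.sum_congr rfl fun m _ => ?_
  simp only [upd2_left h, upd2_right, amp_upd2 h]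
  rw [show star (amp a b p χ m) = ∑ i, ∑ j, (pairVec q p i j : ℂ) * star (χ (upd2 m a b i j)) by
    simp only [amp, star_sum, star_mul', Complex.star_def, Complex.conj_ofReal]]
  rw [Finset.sum_mul]
  refine Finset.sum_congr rfl fun i _ => ?_
  rw [Finset.sum_mul]
  refine Finset.sum_congr rfl fun j _ => ?_
  ring

theorem interaction_mulVec (ψ : (Fin N → Fin (q + 1)) → ℂ) :
    (interaction q N).mulVec ψ =
      ∑ a : Fin N, ∑ b : Fin N, if a < b then (pairProj q N a b).mulVec ψ else 0 := by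
  simp only [interaction, Matrix.sum_mulVec]
  refine Finset.sum_congr rfl fun a _ => Finset.sum_congr rfl fun b _ => ?_
  split_ifs <;> simp

theorem dot_interaction (χ ψ : (Fin N → Fin (q + 1)) → ℂ) :
    star χ ⬝ᵥ (interaction q N).mulVec ψ =
      ∑ a : Fin N, ∑ b : Fin N, if a < b then
        (((q : ℂ) + 1) ^ 2)⁻¹ *
        ∑ p : Fin (2 * q - 1), ∑ m, star (amp a b p χ m) * amp a b p ψ m else 0 := by
  rw [interaction_mulVec]
  simp only [dotProduct_sum]
  refine Finset.sum_congr rfl fun a _ => Finset.sum_congr rfl fun b _ => ?_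
  split_ifs with hab
  · exact dot_pairProj hab.ne χ ψ
  · simp

theorem dot_interaction_self_re (ψ : (Fin N → Fin (q + 1)) → ℂ) :
    (star ψ ⬝ᵥ (interaction q N).mulVec ψ).re =
      ∑ a : Fin N, ∑ b : Fin N, if a < b then
        (((q : ℝ) + 1) ^ 2)⁻¹ *
        ∑ p : Fin (2 * q - 1), ∑ m, ‖amp a b p ψ m‖ ^ 2 else 0 := by
  rw [dot_interaction]
  rw [Complex.re_sum]
  refine Finset.sum_congr rfl fun a _ => ?_
  rw [Complex.re_sum]
  refine Finset.sum_congr rfl fun b _ => ?_
  split_ifs with hab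
  · have h1 : ∀ z : ℂ, star z * z = ((‖z‖ ^ 2 : ℝ) : ℂ) := by
      intro z
      rw [Complex.star_def, ← Complex.normSq_eq_conj_mul_self, Complex.normSq_eq_norm_sq]
    simp only [h1]
    have h2 : (((q : ℂ) + 1) ^ 2)⁻¹ *
        ∑ p : Fin (2 * q - 1), ∑ m, ((‖amp a b p ψ m‖ ^ 2 : ℝ) : ℂ) =
        (((((q : ℝ) + 1) ^ 2)⁻¹ *
          ∑ p : Fin (2 * q - 1), ∑ m, ‖amp a b p ψ m‖ ^ 2 : ℝ) : ℂ) := by
      push_cast
      ring
    rw [h2, Complex.ofReal_re]
  · simp

theorem dot_interaction_self_nonneg (ψ : (Fin N → Fin (q + 1)) → ℂ) :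
    0 ≤ (star ψ ⬝ᵥ (interaction q N).mulVec ψ).re := by
  rw [dot_interaction_self_re]
  refine Finset.sum_nonneg fun a _ => Finset.sum_nonneg fun b _ => ?_
  split_ifs
  · positivity
  · exact le_refl _

theorem amp_eq_zero_of_dot_eq_zero {ψ : (Fin N → Fin (q + 1)) → ℂ}
    (h : (star ψ ⬝ᵥ (interaction q N).mulVec ψ).re = 0) {a b : Fin N} (hab : a < b)
    (p : Fin (2 * q - 1)) (m : Fin N → Fin (q + 1)) : amp a b p ψ m = 0 := by
  rw [dot_interaction_self_re] at h
  have hnn : ∀ a b : Fin N, 0 ≤ (if a < b then (((q : ℝ) + 1) ^ 2)⁻¹ *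
        ∑ p : Fin (2 * q - 1), ∑ m, ‖amp a b p ψ m‖ ^ 2 else 0) := by
    intro a b
    split_ifs
    · positivity
    · exact le_refl _
  have h1 := (Finset.sum_eq_zero_iff_of_nonneg
    (fun a _ => Finset.sum_nonneg fun b _ => hnn a b)).1 h a (Finset.mem_univ _)
  have h2 := (Finset.sum_eq_zero_iff_of_nonneg (fun b _ => hnn a b)).1 h1 b (Finset.mem_univ _)
  rw [if_pos hab] at h2
  have hq : (((q : ℝ) + 1) ^ 2)⁻¹ ≠ 0 := by positivity
  have h3 := (mul_eq_zero.1 h2).resolve_left hq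
  have h4 := (Finset.sum_eq_zero_iff_of_nonneg
    (fun p _ => Finset.sum_nonneg fun m _ => by positivity)).1 h3 p (Finset.mem_univ _)
  have h5 := (Finset.sum_eq_zero_iff_of_nonneg
    (fun m _ => by positivity)).1 h4 m (Finset.mem_univ _)
  simpa using h5

theorem interaction_mulVec_eq_zero {ψ : (Fin N → Fin (q + 1)) → ℂ}
    (h : ∀ a b : Fin N, a < b → ∀ p m, amp a b p ψ m = 0) :
    (interaction q N).mulVec ψ = 0 := by
  rw [interaction_mulVec]
  refine Finset.sum_eq_zero fun a _ => Finset.sum_eq_zero fun b _ => ?_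
  split_ifs with hab
  · funext m
    rw [pairProj_mulVec hab.ne]
    simp [h a b hab]
  · rfl

/-- Hermitian symmetry of the interaction. -/
theorem dot_interaction_symm (χ ψ : (Fin N → Fin (q + 1)) → ℂ) :
    star χ ⬝ᵥ (interaction q N).mulVec ψ = star (star ψ ⬝ᵥ (interaction q N).mulVec χ) := by
  rw [dot_interaction, dot_interaction, star_sum]
  refine Finset.sum_congr rfl fun a _ => ?_
  rw [star_sum]
  refine Finset.sum_congr rfl fun b _ => ?_
  split_ifs with hab
  · rw [star_mul', star_sum]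
    congr 1
    · simp
    · refine Finset.sum_congr rfl fun p _ => ?_
      rw [star_sum]
      refine Finset.sum_congr rfl fun m _ => ?_
      rw [star_mul', star_star, mul_comm]
  · simp

end Crest.Agent.R340
end

-- ▼ part R340/Kernel

set_option autoImplicit false

open Crest.MathPhysics.Laughlin
open scoped BigOperators

namespace Crest.Agent.R340

variable {q N : ℕ}

theorem pairNorm_pos {q b : ℕ} (hb : 1 ≤ b) (hb2 : b < 2 * q) : 0 < pairNorm q b := by
  unfold pairNorm
  have hq : 1 ≤ q := by omega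
  have h1 : (0 : ℝ) < b := by exact_mod_cast hb
  have h2 : (0 : ℝ) < 2 * q - b := by
    have : (b : ℝ) < ((2 * q : ℕ) : ℝ) := by exact_mod_cast hb2
    push_cast at this
    linarith
  have h3 : (0 : ℝ) < (Nat.choose (2 * q) b : ℝ) := by
    exact_mod_cast Nat.choose_pos hb2.le
  have h4 : (0 : ℝ) < 2 * (q : ℝ) - 1 := by
    have : (1 : ℝ) ≤ q := by exact_mod_cast hq
    linarith
  positivity

theorem pairVec_swap (q : ℕ) (p : Fin (2 * q - 1)) (i j : Fin (q + 1)) :
    pairVec q p j i = - pairVec q p i j := by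
  unfold pairVec
  rw [add_comm (j : ℕ) (i : ℕ)]
  split_ifs with h
  · rw [mul_comm ((Nat.choose q j : ℕ) : ℝ)]
    ring
  · simp

theorem pairVec_ne_zero {q : ℕ} {p : Fin (2 * q - 1)} {i j : Fin (q + 1)} (hij : i ≠ j)
    (h : (i : ℕ) + j = p + 1) : pairVec q p i j ≠ 0 := by
  unfold pairVec
  rw [if_pos h]
  have hi := i.isLt
  have hj := j.isLt
  have hp := p.isLt
  have h1 : ((j : ℝ) - (i : ℝ)) ≠ 0 := by
    intro h0
    apply hij
    have : ((j : ℕ) : ℝ) = ((i : ℕ) : ℝ) := by linarith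
    exact (Fin.ext (by exact_mod_cast this)).symm
  have h2 : 0 < Real.sqrt ((Nat.choose q i : ℝ) * Nat.choose q j) := by
    apply Real.sqrt_pos.2
    have hi' : (0 : ℝ) < (Nat.choose q i : ℝ) := by
      exact_mod_cast Nat.choose_pos (by omega)
    have hj' : (0 : ℝ) < (Nat.choose q j : ℝ) := by
      exact_mod_cast Nat.choose_pos (by omega)
    positivity
  have h3 : 0 < Real.sqrt (2 * pairNorm q ((p : ℕ) + 1)) := by
    apply Real.sqrt_pos.2
    have := pairNorm_pos (q := q) (b := (p : ℕ) + 1) (by omega) (by omega)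
    positivity
  exact div_ne_zero (mul_ne_zero h1 h2.ne') h3.ne'

/-- Sum of squares of the orbital indices. -/
def sqSum (m : Fin N → Fin (q + 1)) : ℕ := ∑ a, (m a : ℕ) ^ 2

theorem sqSum_upd2 {a b : Fin N} (h : a ≠ b) (m : Fin N → Fin (q + 1)) (i j : Fin (q + 1)) :
    sqSum (upd2 m a b i j) + ((m a : ℕ) ^ 2 + (m b : ℕ) ^ 2) =
      sqSum m + ((i : ℕ) ^ 2 + (j : ℕ) ^ 2) := by
  have hb : b ∈ (Finset.univ.erase a : Finset (Fin N)) := by simp [h.symm]
  have e1 : ∀ f : Fin N → ℕ, ∑ c, f c = f a + (f b + ∑ c ∈ (Finset.univ.erase a).erase b, f c) := by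
    intro f
    rw [← Finset.add_sum_erase Finset.univ f (Finset.mem_univ a),
      ← Finset.add_sum_erase _ f hb]
  unfold sqSum
  rw [e1 (fun c => ((upd2 m a b i j c : Fin (q + 1)) : ℕ) ^ 2), e1 (fun c => ((m c : ℕ)) ^ 2)]
  rw [upd2_left h, upd2_right]
  have e2 : ∑ c ∈ (Finset.univ.erase a).erase b, ((upd2 m a b i j c : Fin (q + 1)) : ℕ) ^ 2 =
      ∑ c ∈ (Finset.univ.erase a).erase b, ((m c : Fin (q + 1)) : ℕ) ^ 2 := by
    refine Finset.sum_congr rfl fun c hc => ?_
    simp only [Finset.mem_erase, Finset.mem_univ, and_true] at hc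
    rw [upd2_of_ne hc.2 hc.1]
  rw [e2]
  ring

theorem upd2_swap_eq {a b : Fin N} (h : a ≠ b) (m : Fin N → Fin (q + 1)) :
    upd2 m a b (m b) (m a) = m ∘ (Equiv.swap a b) := by
  funext c
  by_cases hb : c = b
  · subst hb; rw [upd2_right]; simp
  · by_cases ha : c = a
    · subst ha; rw [upd2_left h]; simp
    · rw [upd2_of_ne ha hb]; simp [Equiv.swap_apply_of_ne_of_ne ha hb]

theorem anti_swap {ψ : (Fin N → Fin (q + 1)) → ℂ} (hψ : IsAntisymmetric ψ) {a b : Fin N}
    (h : a ≠ b) (m : Fin N → Fin (q + 1)) : ψ (m ∘ (Equiv.swap a b)) = - ψ m := by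
  rw [hψ (Equiv.swap a b) m, Equiv.Perm.sign_swap h]
  simp

theorem anti_eq_zero {ψ : (Fin N → Fin (q + 1)) → ℂ} (hψ : IsAntisymmetric ψ) {a b : Fin N}
    (h : a ≠ b) {m : Fin N → Fin (q + 1)} (hm : m a = m b) : ψ m = 0 := by
  have h1 := anti_swap hψ h m
  have h2 : m ∘ (Equiv.swap a b) = m := by
    rw [← upd2_swap_eq h m, ← hm]
    conv_lhs => rw [show upd2 m a b (m a) (m a) = upd2 m a b (m a) (m b) by rw [hm]]
    exact upd2_self a b m
  rw [h2] at h1
  have : (2 : ℂ) * ψ m = 0 := by linear_combination h1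
  simpa using this

theorem arith_gap {A B I J : ℕ} (hs : I + J = A + B) (hAB : A ≠ B) (h1 : B < A + 3)
    (h2 : A < B + 3) (hIJ : I ≠ J) (h4 : ¬ ((I = A ∧ J = B) ∨ (I = B ∧ J = A))) :
    A ^ 2 + B ^ 2 < I ^ 2 + J ^ 2 := by
  have hd : I + 3 ≤ J ∨ J + 3 ≤ I := by omega
  have hAB' : (A : ℤ) - B ≤ 2 ∧ -2 ≤ (A : ℤ) - B := by omega
  have hs' : (I : ℤ) + J = A + B := by exact_mod_cast hs
  have h5 : ((A : ℤ) - B) ^ 2 ≤ 4 := by nlinarith [hAB'.1, hAB'.2]
  have h6 : (9 : ℤ) ≤ ((I : ℤ) - J) ^ 2 := by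
    rcases hd with hd | hd
    · have : (I : ℤ) + 3 ≤ J := by exact_mod_cast hd
      nlinarith
    · have : (J : ℤ) + 3 ≤ I := by exact_mod_cast hd
      nlinarith
  have h7 : ((A : ℤ) ^ 2 + B ^ 2) < (I : ℤ) ^ 2 + J ^ 2 := by
    have e1 : 2 * ((A : ℤ) ^ 2 + B ^ 2) = (A + B) ^ 2 + (A - B) ^ 2 := by ring
    have e2 : 2 * ((I : ℤ) ^ 2 + J ^ 2) = (I + J) ^ 2 + (I - J) ^ 2 := by ring
    rw [hs'] at e2
    linarith
  exact_mod_cast h7

/-- In a zero mode, a configuration of the support with maximal sum of squares has all its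
orbital indices at distance at least three. -/
theorem gap_of_maximal {ψ : (Fin N → Fin (q + 1)) → ℂ} (hψ : IsAntisymmetric ψ)
    (hamp : ∀ a b : Fin N, a < b → ∀ p m, amp a b p ψ m = 0)
    {m : Fin N → Fin (q + 1)} (hm : ψ m ≠ 0)
    (hmax : ∀ m', ψ m' ≠ 0 → sqSum m' ≤ sqSum m) {a b : Fin N} (hab : a < b) :
    (m a : ℕ) + 3 ≤ m b ∨ (m b : ℕ) + 3 ≤ m a := by
  by_contra hcon
  push Not at hcon
  have hne : a ≠ b := hab.ne
  have hmne : m a ≠ m b := fun h => hm (anti_eq_zero hψ hne h)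
  have hmne' : (m a : ℕ) ≠ m b := fun h => hmne (Fin.ext h)
  have ha := (m a).isLt
  have hb := (m b).isLt
  have hp : (m a : ℕ) + m b - 1 < 2 * q - 1 := by omega
  set p : Fin (2 * q - 1) := ⟨(m a : ℕ) + m b - 1, hp⟩ with hpdef
  have hps : (p : ℕ) + 1 = (m a : ℕ) + m b := by simp [hpdef]; omega
  have hz := hamp a b hab p m
  -- every term vanishes except the two
  have hterm : ∀ i j : Fin (q + 1), ¬ ((i = m a ∧ j = m b) ∨ (i = m b ∧ j = m a)) →
      (pairVec q p i j : ℂ) * ψ (upd2 m a b i j) = 0 := by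
    intro i j hij
    by_cases hs : (i : ℕ) + j = p + 1
    · by_cases hij' : i = j
      · subst hij'
        simp [pairVec]
      · have : ψ (upd2 m a b i j) = 0 := by
          by_contra hne0
          have h1 := hmax _ hne0
          have h2 := sqSum_upd2 hne m i j
          rw [hps] at hs
          have hijn : (i : ℕ) ≠ j := fun h => hij' (Fin.ext h)
          have h3 : ((i : ℕ) ^ 2 + (j : ℕ) ^ 2) ≤ ((m a : ℕ) ^ 2 + (m b : ℕ) ^ 2) := by omega
          -- derive contradiction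
          have h4 : ¬ (((i : ℕ) = m a ∧ (j : ℕ) = m b) ∨ ((i : ℕ) = m b ∧ (j : ℕ) = m a)) := by
            intro h
            apply hij
            rcases h with ⟨h, h'⟩ | ⟨h, h'⟩
            · exact Or.inl ⟨Fin.ext h, Fin.ext h'⟩
            · exact Or.inr ⟨Fin.ext h, Fin.ext h'⟩
          have h5 := arith_gap hs hmne' hcon.1 hcon.2 hijn h4
          omega
        rw [this, mul_zero]
    · simp [pairVec, hs]
  have hsum : amp a b p ψ m =
      (pairVec q p (m a) (m b) : ℂ) * ψ m + (pairVec q p (m b) (m a) : ℂ) * (- ψ m) := by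
    unfold amp
    rw [← Finset.sum_product']
    have hsub : ({(m a, m b), (m b, m a)} : Finset (Fin (q + 1) × Fin (q + 1))) ⊆
        Finset.univ ×ˢ Finset.univ := by
      intro x _; simp
    rw [← Finset.sum_subset hsub]
    · rw [Finset.sum_pair]
      · rw [upd2_self, upd2_swap_eq hne, anti_swap hψ hne]
      · intro h
        exact hmne (congrArg Prod.fst h)
    · intro x _ hx
      apply hterm
      rintro (⟨h1, h2⟩ | ⟨h1, h2⟩)
      · apply hx
        simp [← h1, ← h2]
      · apply hx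
        simp [← h1, ← h2]
  rw [hz] at hsum
  rw [pairVec_swap q p (m a) (m b)] at hsum
  have h2 : (2 : ℂ) * ((pairVec q p (m a) (m b) : ℂ) * ψ m) = 0 := by
    push_cast at hsum
    linear_combination -hsum
  have h3 := pairVec_ne_zero (q := q) (p := p) hmne hps.symm
  simp only [mul_eq_zero, OfNat.ofNat_ne_zero, Complex.ofReal_eq_zero, false_or] at h2
  rcases h2 with h2 | h2
  · exact h3 h2
  · exact hm h2

/-- A non-zero zero mode has an admissible configuration (gaps at least three) in its support. -/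
theorem exists_admissible {ψ : (Fin N → Fin (q + 1)) → ℂ} (hψ : IsAntisymmetric ψ)
    (hamp : ∀ a b : Fin N, a < b → ∀ p m, amp a b p ψ m = 0) (h0 : ψ ≠ 0) :
    ∃ m, ψ m ≠ 0 ∧ ∀ a b : Fin N, a < b → (m a : ℕ) + 3 ≤ m b := by
  classical
  have hne : (Finset.univ.filter fun m => ψ m ≠ 0).Nonempty := by
    obtain ⟨m, hm⟩ := Function.ne_iff.1 h0
    exact ⟨m, by simpa using hm⟩
  obtain ⟨m, hm, hmax⟩ := Finset.exists_max_image _ (fun m => sqSum m) hne
  simp only [Finset.mem_filter, Finset.mem_univ, true_and] at hm hmax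
  set π := Tuple.sort m with hπ
  refine ⟨m ∘ π, ?_, ?_⟩
  · rw [hψ π m]
    refine mul_ne_zero ?_ hm
    rcases Int.units_eq_one_or (Equiv.Perm.sign π) with h | h <;> simp [h]
  · intro a b hab
    have hmono : Monotone (m ∘ π) := Tuple.monotone_sort m
    have h1 : (m (π a) : ℕ) ≤ m (π b) := by exact_mod_cast hmono hab.le
    have hne' : π a ≠ π b := fun h => hab.ne (π.injective h)
    have h2 : (m (π a) : ℕ) + 3 ≤ m (π b) ∨ (m (π b) : ℕ) + 3 ≤ m (π a) := by
      rcases lt_or_gt_of_ne hne' with h | h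
      · exact gap_of_maximal hψ hamp hm hmax h
      · exact (gap_of_maximal hψ hamp hm hmax h).symm
    simp only [Function.comp]
    omega

/-- The root configuration 0, 3, 6, …. -/
def root (N : ℕ) (a : Fin N) : Fin (3 * (N - 1) + 1) := ⟨3 * (a : ℕ), by omega⟩

theorem admissible_ge {m : Fin N → Fin (q + 1)} (h : ∀ a b : Fin N, a < b → (m a : ℕ) + 3 ≤ m b) :
    ∀ a : Fin N, 3 * (a : ℕ) ≤ m a := by
  rintro ⟨a, ha⟩
  induction a with
  | zero => simp
  | succ a ih =>
    have h1 := ih (by omega)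
    have h2 := h ⟨a, by omega⟩ ⟨a + 1, ha⟩ (by simp)
    simp only at h1 h2 ⊢
    omega

theorem admissible_eq_root {m : Fin N → Fin (3 * (N - 1) + 1)}
    (h : ∀ a b : Fin N, a < b → (m a : ℕ) + 3 ≤ m b) : m = root N := by
  have hge := admissible_ge h
  have hle : ∀ k : ℕ, ∀ a : Fin N, (a : ℕ) + 1 + k = N → (m a : ℕ) ≤ 3 * a := by
    intro k
    induction k with
    | zero =>
      intro a ha
      have := (m a).isLt
      omega
    | succ k ih =>
      intro a ha
      have h1 := ih ⟨(a : ℕ) + 1, by omega⟩ (by simp; omega)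
      have h2 := h a ⟨(a : ℕ) + 1, by omega⟩ (by simp [Fin.lt_def])
      simp only at h1 h2
      omega
  funext a
  apply Fin.ext
  have h1 := hge a
  have h2 := hle (N - 1 - a) a (by have := a.isLt; omega)
  simp only [root]
  omega

/-- Uniqueness of the zero mode at filling 1/3. -/
theorem zero_mode_unique {ψ : (Fin N → Fin (3 * (N - 1) + 1)) → ℂ} (hψ : IsAntisymmetric ψ)
    (hamp : ∀ a b : Fin N, a < b → ∀ p m, amp a b p ψ m = 0) (h0 : ψ (root N) = 0) :
    ψ = 0 := by
  by_contra hne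
  obtain ⟨m, hm, hadm⟩ := exists_admissible hψ hamp hne
  rw [admissible_eq_root hadm] at hm
  exact hm h0


end Crest.Agent.R340
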