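import Crest.Agent.R340.Rot1_303
import Crest.Agent.R340.Kernel
import Crest.Agent.R340.Fock_649

-- ▼ part R340/Rot2_303
section

/-!
# R340 (helper303), rotation layer 2: covariance of the pair vectors

`PV Q p` = the pair vector `w_p` as a complex matrix. `PV_cov`:
`sp Q g * PV Q p' * (sp Q g)ᵀ = det g • ∑ p, D2 Q g p p' • PV Q p` for every `2 × 2` matrix `g`,
where `D2 Q g` is the spin-`(Q-1)` matrix `sp (2Q-2) g` on the index type `Fin (2Q-1)`.
-/

set_option autoImplicit false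

open Matrix Polynomial

namespace Crest.Agent.R340.Rot303

open Crest.Agent.R340.CS809 Crest.MathPhysics.Laughlin

noncomputable section

/-! ## the index type of pairs -/

/-- index change -/
def cst {Q : ℕ} (p : Fin (2 * Q - 1)) : Fin (2 * Q - 2 + 1) := ⟨p, by omega⟩

@[simp] lemma coe_cst {Q : ℕ} (p : Fin (2 * Q - 1)) : ((cst p : Fin _) : ℕ) = p := rfl

lemma cst_injective {Q : ℕ} : Function.Injective (cst (Q := Q)) := by
  intro p q h
  exact Fin.ext (congrArg (fun x : Fin (2 * Q - 2 + 1) => (x : ℕ)) h)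

lemma cst_bijective {Q : ℕ} (hQ : 1 ≤ Q) : Function.Bijective (cst (Q := Q)) := by
  refine ⟨cst_injective, fun p => ⟨⟨p, by omega⟩, rfl⟩⟩

lemma sum_cst {M : Type*} [AddCommMonoid M] {Q : ℕ} (hQ : 1 ≤ Q) (f : Fin (2 * Q - 2 + 1) → M) :
    ∑ p : Fin (2 * Q - 1), f (cst p) = ∑ p, f p :=
  (cst_bijective hQ).sum_comp f

/-- coherent vectors of the pair multiplet -/
def kp (Q : ℕ) (a : Fin 2 → ℂ) (p : Fin (2 * Q - 1)) : ℂ := kap (2 * Q - 2) a (cst p)

/-- the spin-`(Q-1)` matrices on the index type of pairs -/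
def D2 (Q : ℕ) (g : Matrix (Fin 2) (Fin 2) ℂ) : Matrix (Fin (2 * Q - 1)) (Fin (2 * Q - 1)) ℂ :=
  (sp (2 * Q - 2) g).submatrix cst cst

lemma D2_apply (Q : ℕ) (g : Matrix (Fin 2) (Fin 2) ℂ) (p q : Fin (2 * Q - 1)) :
    D2 Q g p q = sp (2 * Q - 2) g (cst p) (cst q) := rfl

lemma pair_index_cases (Q : ℕ) : 1 ≤ Q ∨ IsEmpty (Fin (2 * Q - 1)) := by
  rcases Nat.eq_zero_or_pos Q with rfl | h
  · right; exact (inferInstance : IsEmpty (Fin 0))
  · exact Or.inl h

theorem D2_mul (Q : ℕ) (g h : Matrix (Fin 2) (Fin 2) ℂ) : D2 Q (g * h) = D2 Q g * D2 Q h := by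
  rcases pair_index_cases Q with hQ | hQ
  · ext p q
    rw [D2_apply, sp_mul, Matrix.mul_apply, Matrix.mul_apply, ← sum_cst hQ]
    rfl
  · exact Subsingleton.elim _ _

theorem D2_one (Q : ℕ) : D2 Q 1 = 1 := by
  ext p q
  rw [D2_apply, sp_one, Matrix.one_apply, Matrix.one_apply]
  simp only [cst_injective.eq_iff]

theorem D2_conjTranspose (Q : ℕ) (g : Matrix (Fin 2) (Fin 2) ℂ) : (D2 Q g)ᴴ = D2 Q gᴴ := by
  ext p q
  rw [Matrix.conjTranspose_apply, D2_apply, D2_apply, ← sp_conjTranspose,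
    Matrix.conjTranspose_apply]


theorem D2_mulVec_kp (Q : ℕ) (g : Matrix (Fin 2) (Fin 2) ℂ) (a : Fin 2 → ℂ) :
    D2 Q g *ᵥ kp Q a = kp Q (g *ᵥ a) := by
  rcases pair_index_cases Q with hQ | hQ
  · funext p
    have h := congrFun (sp_mulVec_kap (2 * Q - 2) g a) (cst p)
    rw [mulVec, dotProduct, ← sum_cst hQ] at h
    exact h
  · funext p; exact hQ.elim p


theorem D2_diagonal (Q : ℕ) (d : Fin 2 → ℂ) :
    D2 Q (Matrix.diagonal d) =
      Matrix.diagonal fun p : Fin (2 * Q - 1) => d 0 ^ (2 * Q - 2 - (p : ℕ)) * d 1 ^ (p : ℕ) := by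
  ext p q
  rw [D2_apply, sp_diagonal, Matrix.diagonal_apply, Matrix.diagonal_apply]
  simp only [cst_injective.eq_iff, coe_cst]

theorem continuous_D2 (Q : ℕ) : Continuous fun g : Matrix (Fin 2) (Fin 2) ℂ => D2 Q g := by
  refine continuous_matrix fun p q => ?_
  exact (continuous_apply_apply (cst p) (cst q)).comp (continuous_sp (2 * Q - 2))

theorem kp_sep {Q : ℕ} {f : Fin (2 * Q - 1) → ℂ} (h : ∀ a, ∑ p, kp Q a p * f p = 0) : f = 0 := by
  rcases pair_index_cases Q with hQ | hQ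
  · have h1 : (fun p : Fin (2 * Q - 2 + 1) => f ⟨p, by omega⟩) = 0 := by
      refine kap_sep fun a => ?_
      rw [← h a, dotProduct, ← sum_cst hQ]
      refine Finset.sum_congr rfl fun p _ => ?_
      rw [mul_comm]
      rfl
    funext p
    exact congrFun h1 (cst p)
  · funext p; exact hQ.elim p

/-! ## the normalisation of the pair vectors -/

theorem pairNorm_succ (n p : ℕ) (hp : p ≤ 2 * n) :
    pairNorm (n + 1) (p + 1) = (n + 1 : ℝ) * (Nat.choose (2 * n) p : ℝ) := by
  unfold pairNorm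
  have h1 : ((2 * n + 2 : ℕ) : ℝ) * (Nat.choose (2 * n + 1) p : ℝ) =
      (Nat.choose (2 * n + 2) (p + 1) : ℝ) * ((p + 1 : ℕ) : ℝ) := by
    exact_mod_cast Nat.add_one_mul_choose_eq (2 * n + 1) p
  have h2 : (Nat.choose (2 * n) p : ℝ) * ((2 * n + 1 : ℕ) : ℝ) =
      (Nat.choose (2 * n + 1) p : ℝ) * (((2 * n + 1 - p : ℕ)) : ℝ) := by
    exact_mod_cast Nat.choose_mul_succ_eq (2 * n) p
  have h3 : ((2 * n + 1 - p : ℕ) : ℝ) = 2 * n + 1 - p := by
    rw [Nat.cast_sub (by omega)]; push_cast; ring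
  rw [h3] at h2
  have h4 : 2 * (n + 1) = 2 * n + 2 := by ring
  rw [h4]
  push_cast at h1 h2 ⊢
  have h5 : (2 : ℝ) * (2 * (n + 1) - 1) ≠ 0 := by
    have : (0 : ℝ) ≤ n := Nat.cast_nonneg n
    nlinarith
  rw [div_eq_iff h5]
  have h6 : ((p : ℝ) + 1) * (2 * (n + 1) - (p + 1)) * (Nat.choose (2 * n + 2) (p + 1) : ℝ) =
      (2 * n + 2) * ((Nat.choose (2 * n + 1) p : ℝ) * (2 * n + 1 - p)) := by
    linear_combination (-(2 * (n + 1) - (p + 1)) : ℝ) * h1
  rw [h6, ← h2]
  ring

/-- the pair vector as a complex matrix -/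
def PV (Q : ℕ) (p : Fin (2 * Q - 1)) : Matrix (Fin (Q + 1)) (Fin (Q + 1)) ℂ :=
  Matrix.of fun i j => (pairVec Q p i j : ℂ)

lemma PV_apply (Q : ℕ) (p : Fin (2 * Q - 1)) (i j : Fin (Q + 1)) :
    PV Q p i j = (pairVec Q p i j : ℂ) := rfl



theorem sum_kp_PV (n : ℕ) (a : Fin 2 → ℂ) (i j : Fin (n + 1 + 1)) :
    ∑ p, kp (n + 1) a p * PV (n + 1) p i j =
      ((j : ℕ) - (i : ℕ) : ℂ) * (sb (n + 1) i : ℂ) * (sb (n + 1) j : ℂ) *
        (Real.sqrt (2 * (n + 1)) : ℂ)⁻¹ *
        (a 0 ^ (2 * n + 1 - ((i : ℕ) + j)) * a 1 ^ ((i : ℕ) + j - 1)) := by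
  have hi := i.2
  have hj := j.2
  by_cases h0 : (i : ℕ) + j = 0
  · have h1 : (i : ℕ) = 0 := by omega
    have h2 : (j : ℕ) = 0 := by omega
    rw [Finset.sum_eq_zero]
    · simp [h1, h2]
    · intro p _
      rw [PV_apply, pairVec, if_neg (by omega)]
      simp
  by_cases h3 : (i : ℕ) + j = 2 * n + 2
  · have h1 : (i : ℕ) = n + 1 := by omega
    have h2 : (j : ℕ) = n + 1 := by omega
    rw [Finset.sum_eq_zero]
    · simp [h1, h2]
    · intro p _
      have := p.2
      rw [PV_apply, pairVec, if_neg (by omega)]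
      simp
  have hp : (i : ℕ) + j - 1 < 2 * (n + 1) - 1 := by omega
  rw [Finset.sum_eq_single (⟨(i : ℕ) + j - 1, hp⟩ : Fin (2 * (n + 1) - 1))]
  · rw [PV_apply, pairVec]
    have e1 : (i : ℕ) + j = ((i : ℕ) + j - 1) + 1 := by omega
    rw [if_pos e1]
    simp only
    rw [pairNorm_succ n ((i : ℕ) + j - 1) (by omega)]
    have e2 : Real.sqrt (2 * ((n + 1 : ℝ) * (Nat.choose (2 * n) ((i : ℕ) + j - 1) : ℝ))) =
        Real.sqrt (2 * (n + 1)) * sb (2 * n) ((i : ℕ) + j - 1) := by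
      rw [← mul_assoc, Real.sqrt_mul (by positivity)]
      rfl
    have e3 : Real.sqrt ((Nat.choose (n + 1) i : ℝ) * (Nat.choose (n + 1) j : ℝ)) =
        sb (n + 1) i * sb (n + 1) j := by
      rw [Real.sqrt_mul (by positivity)]
      rfl
    rw [e2, e3]
    have e4 : (sb (2 * n) ((i : ℕ) + j - 1) : ℂ) ≠ 0 := by
      exact_mod_cast (sb_pos (by omega)).ne'
    have e5 : (Real.sqrt (2 * (n + 1)) : ℂ) ≠ 0 := by
      have : 0 < Real.sqrt (2 * ((n : ℝ) + 1)) := Real.sqrt_pos.2 (by positivity)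
      exact_mod_cast this.ne'
    have e6 : kp (n + 1) a ⟨(i : ℕ) + j - 1, hp⟩ =
        (sb (2 * n) ((i : ℕ) + j - 1) : ℂ) *
          (a 0 ^ (2 * n + 1 - ((i : ℕ) + j)) * a 1 ^ ((i : ℕ) + j - 1)) := by
      unfold kp kap
      simp only [coe_cst]
      have e7 : 2 * (n + 1) - 2 = 2 * n := by omega
      have e8 : 2 * n - ((i : ℕ) + j - 1) = 2 * n + 1 - ((i : ℕ) + j) := by omega
      rw [e7, e8]
    rw [e6]
    push_cast
    field_simp
  · intro p _ hne
    rw [PV_apply, pairVec, if_neg]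
    · simp
    · intro h
      apply hne
      apply Fin.ext
      simp only
      omega
  · intro h; exact absurd (Finset.mem_univ _) h

lemma choose_pow_aux (n m k : ℕ) (hm : m ≤ n) (hk : k ≤ n) (a0 z0 : ℂ) :
    (Nat.choose n (m + 1) : ℂ) * (a0 ^ (2 * n - 1 - (m + k)) * z0 ^ (n - m)) =
      (Nat.choose n (m + 1) : ℂ) * (z0 * (a0 * z0) ^ (n - (m + 1)) * a0 ^ (n - k)) := by
  rcases Nat.lt_or_ge m n with h | h
  · have e1 : n - m = (n - (m + 1)) + 1 := by omega
    have e2 : 2 * n - 1 - (m + k) = (n - (m + 1)) + (n - k) := by omega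
    rw [e1, e2, mul_pow, pow_add, pow_succ]
    ring
  · rw [Nat.choose_eq_zero_of_lt (by omega)]
    simp

/-- first binomial factor -/
def bF (n : ℕ) (u v : ℂ) (i : ℕ) : ℂ := (Nat.choose n i : ℂ) * u ^ (n - i) * v ^ i

/-- second binomial factor -/
def bG (n : ℕ) (u v : ℂ) (i : ℕ) : ℂ :=
  if i = 0 then 0 else (Nat.choose n (i - 1) : ℂ) * u ^ (n - (i - 1)) * v ^ (i - 1)

lemma sum_bF (n : ℕ) (u v : ℂ) : ∑ i : Fin (n + 1 + 1), bF n u v i = (u + v) ^ n := by
  rw [Fin.sum_univ_castSucc]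
  have h1 : bF n u v ((Fin.last (n + 1) : Fin (n + 1 + 1)) : ℕ) = 0 := by
    simp [bF]
  rw [h1, add_zero, add_comm u v, add_pow]
  rw [← Fin.sum_univ_eq_sum_range (fun m => v ^ m * u ^ (n - m) * (Nat.choose n m : ℂ)) (n + 1)]
  refine Finset.sum_congr rfl fun i _ => ?_
  simp only [bF, Fin.val_castSucc]
  ring

lemma sum_bG (n : ℕ) (u v : ℂ) : ∑ i : Fin (n + 1 + 1), bG n u v i = (u + v) ^ n := by
  rw [Fin.sum_univ_succ]
  have h1 : bG n u v ((0 : Fin (n + 1 + 1)) : ℕ) = 0 := by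
    simp [bG]
  rw [h1, zero_add, add_comm u v, add_pow]
  rw [← Fin.sum_univ_eq_sum_range (fun m => v ^ m * u ^ (n - m) * (Nat.choose n m : ℂ)) (n + 1)]
  refine Finset.sum_congr rfl fun i _ => ?_
  simp only [bG, Fin.val_succ, Nat.succ_ne_zero, if_false, Nat.add_sub_cancel]
  ring

lemma cast_succ_mul_choose (n k : ℕ) :
    ((k : ℂ) + 1) * (Nat.choose (n + 1) (k + 1) : ℂ) = ((n : ℂ) + 1) * (Nat.choose n k : ℂ) := by
  have h : ((n + 1 : ℕ) : ℂ) * (Nat.choose n k : ℂ) =
      (Nat.choose (n + 1) (k + 1) : ℂ) * ((k + 1 : ℕ) : ℂ) := by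
    exact_mod_cast Nat.add_one_mul_choose_eq n k
  push_cast at h
  rw [h]; ring

lemma cast_choose_succ (n k : ℕ) :
    (Nat.choose (n + 1) (k + 1) : ℂ) = (Nat.choose n k : ℂ) + (Nat.choose n (k + 1) : ℂ) := by
  exact_mod_cast Nat.choose_succ_succ n k

lemma pair_term (n i j : ℕ) (hi : i ≤ n + 1) (hj : j ≤ n + 1) (a0 a1 z0 z1 y0 y1 : ℂ) :
    ((j : ℂ) - i) * (Nat.choose (n + 1) i : ℂ) * (Nat.choose (n + 1) j : ℂ) *
      (a0 ^ (2 * n + 1 - (i + j)) * a1 ^ (i + j - 1)) *
      (z0 ^ (n + 1 - i) * z1 ^ i) * (y0 ^ (n + 1 - j) * y1 ^ j) =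
    ((n : ℂ) + 1) * (z0 * y1 * (bF n (a0 * z0) (a1 * z1) i * bG n (a0 * y0) (a1 * y1) j) -
      z1 * y0 * (bG n (a0 * z0) (a1 * z1) i * bF n (a0 * y0) (a1 * y1) j)) := by
  rcases Nat.eq_zero_or_pos i with rfl | hi0
  · rcases Nat.eq_zero_or_pos j with rfl | hj0
    · simp [bG]
    · obtain ⟨k, rfl⟩ : ∃ k, j = k + 1 := ⟨j - 1, by omega⟩
      have h1 := cast_succ_mul_choose n k
      have e1 : 2 * n + 1 - (0 + (k + 1)) = n + (n - k) := by omega
      have e2 : 0 + (k + 1) - 1 = k := by omega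
      have e3 : n + 1 - (k + 1) = n - k := by omega
      rw [e1, e2, e3]
      simp only [bF, bG, Nat.add_sub_cancel, if_true, Nat.succ_ne_zero, if_false,
        Nat.choose_zero_right, Nat.cast_one, Nat.sub_zero, pow_zero, mul_pow, pow_succ, pow_add]
      push_cast
      linear_combination (a0 ^ n * a0 ^ (n - k) * a1 ^ k * (z0 ^ n * z0) *
        (y0 ^ (n - k) * (y1 ^ k * y1))) * h1
  · obtain ⟨m, rfl⟩ : ∃ m, i = m + 1 := ⟨i - 1, by omega⟩
    rcases Nat.eq_zero_or_pos j with rfl | hj0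
    · have h1 := cast_succ_mul_choose n m
      have e1 : 2 * n + 1 - (m + 1 + 0) = n + (n - m) := by omega
      have e2 : m + 1 + 0 - 1 = m := by omega
      have e3 : n + 1 - (m + 1) = n - m := by omega
      rw [e1, e2, e3]
      simp only [bF, bG, Nat.add_sub_cancel, if_true, Nat.succ_ne_zero, if_false,
        Nat.choose_zero_right, Nat.cast_one, Nat.sub_zero, pow_zero, mul_pow, pow_succ, pow_add]
      push_cast
      linear_combination (-(a0 ^ n * a0 ^ (n - m) * a1 ^ m * (z0 ^ (n - m) * (z1 ^ m * z1)) *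
        (y0 ^ n * y0))) * h1
    · obtain ⟨k, rfl⟩ : ∃ k, j = k + 1 := ⟨j - 1, by omega⟩
      have hm : m ≤ n := by omega
      have hk : k ≤ n := by omega
      have h1 := cast_succ_mul_choose n k
      have h2 := cast_succ_mul_choose n m
      have h3 := cast_choose_succ n k
      have h4 := cast_choose_succ n m
      have t1 := choose_pow_aux n m k hm hk a0 z0
      have t2 := choose_pow_aux n k m hk hm a0 y0
      have e1 : 2 * n + 1 - (m + 1 + (k + 1)) = 2 * n - 1 - (m + k) := by omega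
      have e1' : 2 * n - 1 - (k + m) = 2 * n - 1 - (m + k) := by omega
      have e2 : m + 1 + (k + 1) - 1 = m + k + 1 := by omega
      have e3 : n + 1 - (m + 1) = n - m := by omega
      have e4 : n + 1 - (k + 1) = n - k := by omega
      rw [e1'] at t2
      rw [e1, e2, e3, e4]
      have hc : (((k : ℂ) + 1) - (m + 1)) * (Nat.choose (n + 1) (m + 1) : ℂ) *
          (Nat.choose (n + 1) (k + 1) : ℂ) =
          ((n : ℂ) + 1) * ((Nat.choose n (m + 1) : ℂ) * (Nat.choose n k : ℂ) -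
            (Nat.choose n m : ℂ) * (Nat.choose n (k + 1) : ℂ)) := by
        linear_combination (Nat.choose (n + 1) (m + 1) : ℂ) * h1 -
          (Nat.choose (n + 1) (k + 1) : ℂ) * h2 +
          ((n : ℂ) + 1) * (Nat.choose n k : ℂ) * h4 - ((n : ℂ) + 1) * (Nat.choose n m : ℂ) * h3
      push_cast
      rw [hc]
      simp only [bF, bG, Nat.add_sub_cancel, Nat.succ_ne_zero, if_false]
      have hA : ((Nat.choose n (m + 1) : ℂ) * (Nat.choose n k : ℂ)) *
          (a0 ^ (2 * n - 1 - (m + k)) * a1 ^ (m + k + 1)) *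
          (z0 ^ (n - m) * z1 ^ (m + 1)) * (y0 ^ (n - k) * y1 ^ (k + 1)) =
          z0 * y1 * ((Nat.choose n (m + 1) : ℂ) * (a0 * z0) ^ (n - (m + 1)) *
            (a1 * z1) ^ (m + 1) *
            ((Nat.choose n k : ℂ) * (a0 * y0) ^ (n - k) * (a1 * y1) ^ k)) := by
        rw [mul_pow a1 z1, mul_pow a1 y1, mul_pow a0 y0, pow_succ y1 k, pow_succ a1 (m + k),
          pow_add a1 m k, pow_succ a1 m]
        linear_combination ((Nat.choose n k : ℂ) * (a1 ^ m * a1 ^ k * a1) * z1 ^ (m + 1) *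
          (y0 ^ (n - k) * (y1 ^ k * y1))) * t1
      have hB : ((Nat.choose n m : ℂ) * (Nat.choose n (k + 1) : ℂ)) *
          (a0 ^ (2 * n - 1 - (m + k)) * a1 ^ (m + k + 1)) *
          (z0 ^ (n - m) * z1 ^ (m + 1)) * (y0 ^ (n - k) * y1 ^ (k + 1)) =
          z1 * y0 * ((Nat.choose n m : ℂ) * (a0 * z0) ^ (n - m) * (a1 * z1) ^ m *
            ((Nat.choose n (k + 1) : ℂ) * (a0 * y0) ^ (n - (k + 1)) *
            (a1 * y1) ^ (k + 1))) := by
        rw [mul_pow a1 z1, mul_pow a1 y1, mul_pow a0 z0, pow_succ z1 m, pow_succ a1 (m + k),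
          pow_add a1 m k, pow_succ a1 k]
        linear_combination ((Nat.choose n m : ℂ) * (a1 ^ m * a1 ^ k * a1) * y1 ^ (k + 1) *
          (z0 ^ (n - m) * (z1 ^ m * z1))) * t2
      linear_combination ((n : ℂ) + 1) * hA - ((n : ℂ) + 1) * hB

/-- **Generating function of the pair vectors.** -/
theorem sum_kp_PV_kap (n : ℕ) (a z y : Fin 2 → ℂ) :
    ∑ p, kp (n + 1) a p * (kap (n + 1) z ⬝ᵥ (PV (n + 1) p *ᵥ kap (n + 1) y)) =
      ((n : ℂ) + 1) * (Real.sqrt (2 * (n + 1)) : ℂ)⁻¹ * (z 0 * y 1 - z 1 * y 0) *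
        ((a 0 * z 0 + a 1 * z 1) ^ n * (a 0 * y 0 + a 1 * y 1) ^ n) := by
  have h1 : ∑ p, kp (n + 1) a p * (kap (n + 1) z ⬝ᵥ (PV (n + 1) p *ᵥ kap (n + 1) y)) =
      ∑ i, ∑ j, (∑ p, kp (n + 1) a p * PV (n + 1) p i j) *
        (kap (n + 1) z i * kap (n + 1) y j) := by
    simp only [mulVec, dotProduct, Finset.mul_sum, Finset.sum_mul]
    rw [Finset.sum_comm]
    refine Finset.sum_congr rfl fun i _ => ?_
    rw [Finset.sum_comm]
    refine Finset.sum_congr rfl fun j _ => ?_
    refine Finset.sum_congr rfl fun p _ => ?_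
    ring
  have h2 : ∀ i j : Fin (n + 1 + 1), (∑ p, kp (n + 1) a p * PV (n + 1) p i j) *
        (kap (n + 1) z i * kap (n + 1) y j) =
      (Real.sqrt (2 * (n + 1)) : ℂ)⁻¹ * (((n : ℂ) + 1) * (z 0 * y 1 *
        (bF n (a 0 * z 0) (a 1 * z 1) i * bG n (a 0 * y 0) (a 1 * y 1) j) -
      z 1 * y 0 * (bG n (a 0 * z 0) (a 1 * z 1) i * bF n (a 0 * y 0) (a 1 * y 1) j))) := by
    intro i j
    have hs : ∀ k : ℕ, (sb (n + 1) k : ℂ) * (sb (n + 1) k : ℂ) = (Nat.choose (n + 1) k : ℂ) := by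
      intro k
      rw [← Complex.ofReal_mul, sb_mul_self, Complex.ofReal_natCast]
    rw [sum_kp_PV, ← pair_term n i j (by have := i.2; omega) (by have := j.2; omega)]
    unfold kap
    rw [← hs i, ← hs j]
    ring
  rw [h1]
  simp only [h2]
  simp only [← Finset.mul_sum, Finset.sum_sub_distrib]
  simp only [← Finset.sum_mul]
  rw [sum_bF, sum_bG, sum_bF, sum_bG]
  ring

/-- separation by coherent vectors on both sides -/
theorem mat_sep {Q : ℕ} {M : Matrix (Fin (Q + 1)) (Fin (Q + 1)) ℂ}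
    (h : ∀ z y, kap Q z ⬝ᵥ (M *ᵥ kap Q y) = 0) : M = 0 := by
  refine ext_kap fun y => ?_
  rw [Matrix.zero_mulVec]
  refine eq_of_sum_kap fun z => ?_
  have := h z y
  rw [dotProduct] at this
  simp only [Pi.zero_apply, zero_mul, Finset.sum_const_zero]
  rw [← this]
  exact Finset.sum_congr rfl fun j _ => mul_comm _ _

/-- **Covariance of the pair vectors.** -/
theorem PV_cov (Q : ℕ) (g : Matrix (Fin 2) (Fin 2) ℂ) (p' : Fin (2 * Q - 1)) :
    sp Q g * PV Q p' * (sp Q g)ᵀ = g.det • ∑ p, D2 Q g p p' • PV Q p := by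
  rcases Nat.eq_zero_or_pos Q with rfl | hQ
  · exact (IsEmpty.elim (inferInstance : IsEmpty (Fin 0)) p')
  obtain ⟨n, rfl⟩ : ∃ n, Q = n + 1 := ⟨Q - 1, by omega⟩
  rw [← sub_eq_zero]
  refine mat_sep fun z y => ?_
  have key : (fun q : Fin (2 * (n + 1) - 1) => kap (n + 1) z ⬝ᵥ
      ((sp (n + 1) g * PV (n + 1) q * (sp (n + 1) g)ᵀ -
        g.det • ∑ p, D2 (n + 1) g p q • PV (n + 1) p) *ᵥ kap (n + 1) y)) = 0 := by
    refine kp_sep fun a => ?_
    have hL : ∀ q, kap (n + 1) z ⬝ᵥ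
        ((sp (n + 1) g * PV (n + 1) q * (sp (n + 1) g)ᵀ) *ᵥ kap (n + 1) y) =
        kap (n + 1) (gᵀ *ᵥ z) ⬝ᵥ (PV (n + 1) q *ᵥ kap (n + 1) (gᵀ *ᵥ y)) := by
      intro q
      rw [sp_transpose, ← Matrix.mulVec_mulVec, sp_mulVec_kap, ← Matrix.mulVec_mulVec,
        Matrix.dotProduct_mulVec, ← Matrix.mulVec_transpose, sp_transpose, sp_mulVec_kap]
    have hR : ∀ q, kap (n + 1) z ⬝ᵥ
        ((g.det • ∑ p, D2 (n + 1) g p q • PV (n + 1) p) *ᵥ kap (n + 1) y) =
        g.det * ∑ p, D2 (n + 1) g p q * (kap (n + 1) z ⬝ᵥ (PV (n + 1) p *ᵥ kap (n + 1) y)) := by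
      intro q
      rw [Matrix.smul_mulVec, dotProduct_smul, smul_eq_mul, Matrix.sum_mulVec, dotProduct_sum]
      congr 1
      refine Finset.sum_congr rfl fun p _ => ?_
      rw [Matrix.smul_mulVec, dotProduct_smul, smul_eq_mul]
    have hsum : ∑ q, kp (n + 1) a q * (g.det * ∑ p, D2 (n + 1) g p q *
        (kap (n + 1) z ⬝ᵥ (PV (n + 1) p *ᵥ kap (n + 1) y))) =
        g.det * ∑ p, kp (n + 1) (g *ᵥ a) p *
          (kap (n + 1) z ⬝ᵥ (PV (n + 1) p *ᵥ kap (n + 1) y)) := by
      rw [← D2_mulVec_kp]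
      simp only [mulVec, dotProduct, Finset.mul_sum, Finset.sum_mul]
      rw [Finset.sum_comm]
      refine Finset.sum_congr rfl fun p _ => ?_
      rw [Finset.sum_comm]
      refine Finset.sum_congr rfl fun i _ => ?_
      rw [Finset.sum_comm]
      refine Finset.sum_congr rfl fun j _ => ?_
      refine Finset.sum_congr rfl fun q _ => ?_
      ring
    have hsplit : ∑ q, kp (n + 1) a q * (kap (n + 1) z ⬝ᵥ
      ((sp (n + 1) g * PV (n + 1) q * (sp (n + 1) g)ᵀ -
        g.det • ∑ p, D2 (n + 1) g p q • PV (n + 1) p) *ᵥ kap (n + 1) y)) =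
        ∑ q, kp (n + 1) a q * (kap (n + 1) (gᵀ *ᵥ z) ⬝ᵥ
          (PV (n + 1) q *ᵥ kap (n + 1) (gᵀ *ᵥ y))) -
        ∑ q, kp (n + 1) a q * (g.det * ∑ p, D2 (n + 1) g p q *
        (kap (n + 1) z ⬝ᵥ (PV (n + 1) p *ᵥ kap (n + 1) y))) := by
      rw [← Finset.sum_sub_distrib]
      refine Finset.sum_congr rfl fun q _ => ?_
      rw [Matrix.sub_mulVec, dotProduct_sub, hL, hR, mul_sub]
    rw [hsplit, hsum, sum_kp_PV_kap, sum_kp_PV_kap]
    have d1 : (gᵀ *ᵥ z) 0 = g 0 0 * z 0 + g 1 0 * z 1 := by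
      simp [Matrix.mulVec, dotProduct, Fin.sum_univ_two]
    have d2 : (gᵀ *ᵥ z) 1 = g 0 1 * z 0 + g 1 1 * z 1 := by
      simp [Matrix.mulVec, dotProduct, Fin.sum_univ_two]
    have d3 : (gᵀ *ᵥ y) 0 = g 0 0 * y 0 + g 1 0 * y 1 := by
      simp [Matrix.mulVec, dotProduct, Fin.sum_univ_two]
    have d4 : (gᵀ *ᵥ y) 1 = g 0 1 * y 0 + g 1 1 * y 1 := by
      simp [Matrix.mulVec, dotProduct, Fin.sum_univ_two]
    have d5 : (g *ᵥ a) 0 = g 0 0 * a 0 + g 0 1 * a 1 := by
      simp [Matrix.mulVec, dotProduct, Fin.sum_univ_two]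
    have d6 : (g *ᵥ a) 1 = g 1 0 * a 0 + g 1 1 * a 1 := by
      simp [Matrix.mulVec, dotProduct, Fin.sum_univ_two]
    have d7 : a 0 * (gᵀ *ᵥ z) 0 + a 1 * (gᵀ *ᵥ z) 1 =
        (g *ᵥ a) 0 * z 0 + (g *ᵥ a) 1 * z 1 := by
      rw [d1, d2, d5, d6]; ring
    have d8 : a 0 * (gᵀ *ᵥ y) 0 + a 1 * (gᵀ *ᵥ y) 1 =
        (g *ᵥ a) 0 * y 0 + (g *ᵥ a) 1 * y 1 := by
      rw [d3, d4, d5, d6]; ring
    rw [d7, d8, d1, d2, d3, d4, Matrix.det_fin_two]
    ring
  exact congrFun key p'

end

end Crest.Agent.R340.Rot303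
end

-- ▼ part R340/Gam_303

/-!
# R340 (helper303): multiplicative second quantisation `Gam U` of a one-particle matrix

On helper649's Fock model. For EVERY matrix `U : Matrix ι ι ℂ`:
`Gam_cr : Gam U * cr v = cr (mv U v) * Gam U`, `an_Gam : an v * Gam U = Gam U * an (mv Uᴴ v)`,
`Gam_vac`, `Gam_mul`, `Gam_one`, `star_Gam`, `pa_Gam`, `Gam_dG`, `Gam_Nh`, `continuous_Gam`,
`Gam_diagonal`, uniqueness `op_eq_of_cr`. For unitary `U`: conjugation formulas.
-/

set_option autoImplicit false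
set_option linter.unusedSectionVars false

namespace Crest.Agent.R340.Gam303

open Finset Crest.Agent.R340.Fock649

variable {ι : Type*} [LinearOrder ι] [Fintype ι]

/-! ### one-particle action -/

theorem mv_mul (A B : Matrix ι ι ℂ) (v : L ι) : mv (A * B) v = mv A (mv B v) := by
  unfold mv
  simp [Matrix.mulVec_mulVec]

theorem mv_add (A : Matrix ι ι ℂ) (v w : L ι) : mv A (v + w) = mv A v + mv A w := by
  unfold mv
  simp [Matrix.mulVec_add]

theorem mv_smul (A : Matrix ι ι ℂ) (a : ℂ) (v : L ι) : mv A (a • v) = a • mv A v := by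
  unfold mv
  simp [Matrix.mulVec_smul]

theorem mv_zero (A : Matrix ι ι ℂ) : mv A (0 : L ι) = 0 := by
  unfold mv
  simp

theorem mv_sum (A : Matrix ι ι ℂ) {κ : Type*} (s : Finset κ) (v : κ → L ι) :
    mv A (∑ k ∈ s, v k) = ∑ k ∈ s, mv A (v k) := by
  classical
  induction s using Finset.induction_on with
  | empty => simp [mv_zero]
  | insert a s ha ih => rw [Finset.sum_insert ha, Finset.sum_insert ha, mv_add, ih]

theorem mv_e (A : Matrix ι ι ℂ) (i j : ι) : mv A (e i) j = A j i := by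
  rw [mv_apply]
  simp [e_apply]

theorem l_eq_sum (v : L ι) : v = ∑ i, v i • e i := by
  ext j
  rw [WithLp.ofLp_sum, Finset.sum_apply]
  simp [e_apply]

theorem inner_mv (A : Matrix ι ι ℂ) (v w : L ι) :
    inner ℂ v (mv A w) = (inner ℂ (mv A.conjTranspose v) w : ℂ) := by
  rw [inner_eq_sum, inner_eq_sum]
  simp only [mv_apply, Finset.mul_sum, map_sum, map_mul, Finset.sum_mul,
    Matrix.conjTranspose_apply]
  rw [Finset.sum_comm]
  refine Finset.sum_congr rfl fun j _ => Finset.sum_congr rfl fun i _ => ?_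
  have : (starRingEnd ℂ) (star (A i j)) = A i j := star_star _
  rw [this]
  ring

theorem continuous_mv_left (v : L ι) : Continuous fun A : Matrix ι ι ℂ => mv A v := by
  unfold mv
  refine (PiLp.continuous_toLp 2 _).comp ?_
  exact continuous_pi fun i => continuous_finsetSum _ fun j _ =>
    ((continuous_apply_apply i j)).mul continuous_const

theorem continuous_cr : Continuous (cr : L ι → Op ι) := by
  unfold cr
  refine continuous_finsetSum _ fun i _ => ?_
  exact ((continuous_apply i).comp (PiLp.continuous_ofLp 2 _)).smul continuous_const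

theorem continuous_an : Continuous (an : L ι → Op ι) := by
  have : (an : L ι → Op ι) = fun v => star (cr v) := by
    funext v; rw [star_cr]
  rw [this]
  exact continuous_star.comp continuous_cr

/-! ### the vacuum -/

/-- vacuum vector -/
noncomputable def vac : Fk ι := ket ∅

theorem an_vac (v : L ι) : an v (vac : Fk ι) = 0 := by
  unfold an vac
  rw [sum_ap]
  refine Finset.sum_eq_zero fun i _ => ?_
  rw [smul_ap, c_ket]
  simp

/-- `ket (insert m S) = d m (ket S)` for `m` below `S` -/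
theorem ket_insert_min {m : ι} {S : Finset ι} (h : ∀ x ∈ S, m < x) :
    ket (insert m S) = d m (ket S) := by
  have hm : m ∉ S := fun hm => lt_irrefl _ (h m hm)
  rw [d_ket, if_neg hm]
  have : sg m S = 1 := by
    unfold sg
    rw [Finset.filter_eq_empty_iff.2]
    · simp
    · intro x hx
      exact not_lt.2 (h x hx).le
  rw [this, one_smul]

/-- **Uniqueness.** An operator is determined by its value on the vacuum and an exchange relation
with the creators. -/
theorem op_eq_of_cr {A B : Op ι} {X : ι → Op ι} (h0 : A vac = B vac)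
    (hA : ∀ i, A * d i = X i * A) (hB : ∀ i, B * d i = X i * B) : A = B := by
  refine op_ext fun S => ?_
  induction S using Finset.induction_on_min with
  | empty => exact h0
  | insert a S h ih =>
    rw [ket_insert_min h, ← mul_ap, ← mul_ap, hA, hB, mul_ap, mul_ap, ih]

/-! ### definition -/

/-- ordered product of creators -/
noncomputable def prodCr (U : Matrix ι ι ℂ) (S : Finset ι) : Op ι :=
  ((S.sort).map fun i => cr (mv U (e i))).prod

/-- `toVac S v = v S • vac` -/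
noncomputable def toVac (S : Finset ι) : Op ι := Op.ofLin
  { toFun := fun v => v S • vac
    map_add' := fun v w => by simp [add_smul]
    map_smul' := fun a v => by simp [smul_smul] }

theorem toVac_apply (S : Finset ι) (v : Fk ι) : toVac S v = v S • vac := rfl

/-- multiplicative second quantisation -/
noncomputable def Gam (U : Matrix ι ι ℂ) : Op ι := ∑ S, prodCr U S * toVac S

theorem Gam_ket (U : Matrix ι ι ℂ) (S : Finset ι) : Gam U (ket S) = prodCr U S vac := by
  unfold Gam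
  rw [sum_ap, Finset.sum_eq_single S]
  · rw [mul_ap, toVac_apply, ket_apply, if_pos rfl, one_smul]
  · intro T _ hT
    rw [mul_ap, toVac_apply, ket_apply, if_neg hT, zero_smul, map_zero]
  · intro h; exact absurd (Finset.mem_univ S) h

theorem prodCr_insert_min (U : Matrix ι ι ℂ) {m : ι} {S : Finset ι} (h : ∀ x ∈ S, m < x) :
    prodCr U (insert m S) = cr (mv U (e m)) * prodCr U S := by
  unfold prodCr
  rw [Finset.sort_insert _ (fun b hb => (h b hb).le) (fun hm => lt_irrefl _ (h m hm))]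
  simp

theorem Gam_vac (U : Matrix ι ι ℂ) : Gam U (vac : Fk ι) = vac := by
  unfold vac
  rw [Gam_ket]
  unfold prodCr vac
  simp [one_ap]

theorem Gam_ket_insert_min (U : Matrix ι ι ℂ) {m : ι} {S : Finset ι} (h : ∀ x ∈ S, m < x) :
    Gam U (ket (insert m S)) = cr (mv U (e m)) (Gam U (ket S)) := by
  rw [Gam_ket, Gam_ket, prodCr_insert_min U h, mul_ap]

/-- exchange relation on kets -/
theorem cr_Gam_ket (U : Matrix ι ι ℂ) (i : ι) (S : Finset ι) :
    cr (mv U (e i)) (Gam U (ket S)) = Gam U (d i (ket S)) := by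
  induction S using Finset.induction_on_min with
  | empty =>
    have h : ket (insert i (∅ : Finset ι)) = d i (ket ∅) := ket_insert_min (by simp)
    rw [← h, Gam_ket_insert_min U (by simp)]
  | insert a S h ih =>
    have ha : a ∉ S := fun hm => lt_irrefl _ (h a hm)
    rw [Gam_ket_insert_min U h, ket_insert_min h]
    rcases lt_trichotomy i a with hi | rfl | hi
    · -- i below everything
      have h2 : ∀ x ∈ insert a S, i < x := by
        intro x hx
        rcases Finset.mem_insert.1 hx with rfl | hx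
        · exact hi
        · exact hi.trans (h x hx)
      rw [← ket_insert_min h, ← ket_insert_min h2, Gam_ket_insert_min U h2,
        Gam_ket_insert_min U h]
    · rw [← mul_ap (cr (mv U (e i))) (cr (mv U (e i))), cr_mul_self, ← mul_ap (d i) (d i),
        d_mul_self, zero_ap, zero_ap, map_zero]
    · -- i above a
      have e1 : cr (mv U (e i)) * cr (mv U (e a)) = - (cr (mv U (e a)) * cr (mv U (e i))) := by
        rw [eq_neg_iff_add_eq_zero]; exact cr_cr _ _
      have e2 : d i * d a = - (d a * d i) := by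
        rw [eq_neg_iff_add_eq_zero]; exact d_d _ _
      rw [← mul_ap, e1, neg_ap, mul_ap, ih, ← mul_ap (d i), e2, neg_ap, map_neg, mul_ap (d a),
        d_ket]
      split_ifs with hiS
      · simp
      · rw [map_smul, map_smul, map_smul, map_smul]
        have h2 : ∀ x ∈ insert i S, a < x := by
          intro x hx
          rcases Finset.mem_insert.1 hx with rfl | hx
          · exact hi
          · exact h x hx
        rw [← ket_insert_min h2, Gam_ket_insert_min U h2]

theorem Gam_mul_d (U : Matrix ι ι ℂ) (i : ι) : Gam U * d i = cr (mv U (e i)) * Gam U := by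
  refine op_ext fun S => ?_
  rw [mul_ap, mul_ap, cr_Gam_ket]

theorem Gam_mul_cr (U : Matrix ι ι ℂ) (v : L ι) : Gam U * cr v = cr (mv U v) * Gam U := by
  have h1 : cr v = ∑ i, v i • d i := rfl
  have h2 : mv U v = ∑ i, v i • mv U (e i) := by
    conv_lhs => rw [l_eq_sum v]
    rw [mv_sum]
    exact Finset.sum_congr rfl fun i _ => mv_smul _ _ _
  rw [h1, h2, cr_sum, Finset.mul_sum, Finset.sum_mul]
  refine Finset.sum_congr rfl fun i _ => ?_
  rw [mul_smul_comm, Gam_mul_d, cr_smul, smul_mul_assoc]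

/-- **Uniqueness of the second quantisation.** -/
theorem eq_Gam {A : Op ι} {U : Matrix ι ι ℂ} (h0 : A vac = vac)
    (hA : ∀ i, A * d i = cr (mv U (e i)) * A) : A = Gam U :=
  op_eq_of_cr (by rw [h0, Gam_vac]) hA (Gam_mul_d U)

theorem Gam_mul (U V : Matrix ι ι ℂ) : Gam (U * V) = Gam U * Gam V := by
  symm
  refine eq_Gam ?_ fun i => ?_
  · rw [mul_ap, Gam_vac, Gam_vac]
  · rw [mul_assoc, Gam_mul_d, ← mul_assoc, Gam_mul_cr, mul_assoc, mv_mul]

theorem Gam_one : Gam (1 : Matrix ι ι ℂ) = 1 := by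
  symm
  refine eq_Gam ?_ fun i => ?_
  · rw [one_ap]
  · rw [mv_one, cr_e, one_mul, mul_one]

theorem an_mul_Gam (U : Matrix ι ι ℂ) (v : L ι) :
    an v * Gam U = Gam U * an (mv U.conjTranspose v) := by
  refine op_ext fun S => ?_
  induction S using Finset.induction_on_min with
  | empty =>
    have h1 := Gam_vac U
    have h2 := an_vac (mv U.conjTranspose v)
    have h3 := an_vac v
    unfold vac at h1 h2 h3
    rw [mul_ap, mul_ap, h1, h2, h3, map_zero]
  | insert a S h ih =>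
    rw [ket_insert_min h]
    have e1 : an v * Gam U * d a = (inner ℂ v (mv U (e a)) : ℂ) • Gam U -
        cr (mv U (e a)) * (an v * Gam U) := by
      have e2 : an v * cr (mv U (e a)) = (inner ℂ v (mv U (e a)) : ℂ) • (1 : Op ι) -
          cr (mv U (e a)) * an v := by
        rw [← an_cr]; abel
      rw [mul_assoc, Gam_mul_d, ← mul_assoc, e2, sub_mul, smul_mul_assoc, one_mul, mul_assoc]
    have e3 : Gam U * an (mv U.conjTranspose v) * d a = (inner ℂ v (mv U (e a)) : ℂ) • Gam U -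
        cr (mv U (e a)) * (Gam U * an (mv U.conjTranspose v)) := by
      have e4 : an (mv U.conjTranspose v) * d a =
          (inner ℂ v (mv U (e a)) : ℂ) • (1 : Op ι) - d a * an (mv U.conjTranspose v) := by
        rw [inner_mv, ← an_cr, cr_e]; abel
      rw [mul_assoc, e4, mul_sub, mul_smul_comm, mul_one, ← mul_assoc, Gam_mul_d, mul_assoc]
    rw [← mul_ap, ← mul_ap, e1, e3, sub_ap, sub_ap, mul_ap (cr _), mul_ap (cr _), ih]

theorem c_mul_Gam (U : Matrix ι ι ℂ) (i : ι) :
    c i * Gam U = Gam U * an (mv U.conjTranspose (e i)) := by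
  rw [← an_e, an_mul_Gam]

theorem star_Gam (U : Matrix ι ι ℂ) : star (Gam U) = Gam U.conjTranspose := by
  refine eq_Gam ?_ fun i => ?_
  · -- the vacuum
    have h1 : ∀ S, inner ℂ (ket S) (star (Gam U) (vac : Fk ι)) = (inner ℂ (ket S) vac : ℂ) := by
      intro S
      rw [inner_star_right]
      induction S using Finset.induction_on_min with
      | empty =>
        have h1 := Gam_vac U
        unfold vac at h1 ⊢
        rw [h1]
      | insert a S h ih =>
        rw [Gam_ket_insert_min U h, ket_insert_min h, ← star_an, inner_star_left, an_vac,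
          inner_zero_right, ← star_c, inner_star_left, ← an_e, an_vac, inner_zero_right]
    ext S
    have := h1 S
    rwa [inner_ket, inner_ket] at this
  · have h := an_mul_Gam U (e i)
    have h2 := congrArg star h
    rw [star_mul, star_mul, star_an, star_an, cr_e] at h2
    exact h2


/-! ### one-body operators -/

theorem Gam_mul_dG (U A : Matrix ι ι ℂ) : Gam U * dG (A * U) = dG (U * A) * Gam U := by
  have h1 : dG (A * U) = ∑ i, ∑ k, A i k • (d i * an (mv U.conjTranspose (e k))) := by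
    have h2 : ∀ k, an (mv U.conjTranspose (e k)) = ∑ j, U k j • c j := by
      intro k
      unfold an
      refine Finset.sum_congr rfl fun j _ => ?_
      rw [mv_e, Matrix.conjTranspose_apply]
      have : (starRingEnd ℂ) (star (U k j)) = U k j := star_star _
      rw [this]
    simp only [h2, Finset.mul_sum, mul_smul_comm, Finset.smul_sum, smul_smul]
    unfold dG
    refine Finset.sum_congr rfl fun i _ => ?_
    rw [Finset.sum_comm]
    refine Finset.sum_congr rfl fun j _ => ?_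
    rw [Matrix.mul_apply, Finset.sum_smul]
  have h3 : dG (U * A) = ∑ i, ∑ k, A i k • (cr (mv U (e i)) * c k) := by
    unfold dG cr
    simp only [Finset.sum_mul, smul_mul_assoc, Finset.smul_sum, smul_smul, mv_e,
      Matrix.mul_apply, Finset.sum_smul]
    -- ∑ l, ∑ k, ∑ i, (U l i * A i k) • _ = ∑ i, ∑ k, ∑ l, (A i k * U l i) • _
    have h4 : ∀ f : ι → ι → ι → Op ι, (∑ l, ∑ k, ∑ i, f l k i) = ∑ i, ∑ k, ∑ l, f l k i := by
      intro f
      rw [Finset.sum_comm]
      conv_lhs => enter [2, k]; rw [Finset.sum_comm]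
      rw [Finset.sum_comm]
    rw [h4]
    refine Finset.sum_congr rfl fun i _ => Finset.sum_congr rfl fun k _ =>
      Finset.sum_congr rfl fun l _ => ?_
    rw [mul_comm]
  rw [h1, h3, Finset.mul_sum, Finset.sum_mul]
  refine Finset.sum_congr rfl fun i _ => ?_
  rw [Finset.mul_sum, Finset.sum_mul]
  refine Finset.sum_congr rfl fun k _ => ?_
  rw [mul_smul_comm, smul_mul_assoc, ← mul_assoc, Gam_mul_d, mul_assoc, mul_assoc, ← c_mul_Gam]

theorem Gam_mul_Nh (U : Matrix ι ι ℂ) : Gam U * Nh = Nh * Gam U := by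
  refine op_ext fun S => ?_
  rw [mul_ap, mul_ap, Nh_ket, map_smul]
  induction S using Finset.induction_on_min with
  | empty =>
    have h1 := Gam_vac U
    unfold vac at h1
    rw [h1, Nh_ket]
  | insert a S h ih =>
    have ha : a ∉ S := fun hm => lt_irrefl _ (h a hm)
    rw [Gam_ket_insert_min U h]
    have h2 := Nh_comm_cr (mv U (e a))
    have h3 : Nh * cr (mv U (e a)) = cr (mv U (e a)) * Nh + cr (mv U (e a)) :=
      sub_eq_iff_eq_add'.1 h2
    rw [← mul_ap Nh (cr (mv U (e a))), h3, add_ap, mul_ap, ← ih,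
      Finset.card_insert_of_notMem ha, map_smul]
    push_cast
    rw [add_smul, one_smul]

/-! ### pair annihilators -/

theorem an_eq_sum (U : Matrix ι ι ℂ) (k : ι) :
    an (mv U.conjTranspose (e k)) = ∑ j, U k j • c j := by
  unfold an
  refine Finset.sum_congr rfl fun j _ => ?_
  rw [mv_e, Matrix.conjTranspose_apply]
  have : (starRingEnd ℂ) (star (U k j)) = U k j := star_star _
  rw [this]

theorem pa_mul_Gam (U w : Matrix ι ι ℂ) :
    pa w * Gam U = Gam U * pa (U.conjTranspose * w * U.map (starRingEnd ℂ)) := by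
  have h1 : ∀ i j, (c j * c i) * Gam U =
      Gam U * ∑ k, ∑ l, (U j k * U i l) • (c k * c l) := by
    intro i j
    rw [mul_assoc, c_mul_Gam, ← mul_assoc, c_mul_Gam, an_eq_sum, an_eq_sum, mul_assoc,
      Finset.sum_mul_sum]
    congr 1
    refine Finset.sum_congr rfl fun k _ => Finset.sum_congr rfl fun l _ => ?_
    rw [smul_mul_smul_comm]
  have h2 : pa w * Gam U = Gam U * (((Real.sqrt 2 : ℂ)⁻¹) •
      ∑ i, ∑ j, ∑ k, ∑ l, ((starRingEnd ℂ) (w i j) * (U j k * U i l)) • (c k * c l)) := by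
    unfold pa
    rw [smul_mul_assoc, mul_smul_comm]
    congr 1
    rw [Finset.sum_mul, Finset.mul_sum]
    refine Finset.sum_congr rfl fun i _ => ?_
    rw [Finset.sum_mul, Finset.mul_sum]
    refine Finset.sum_congr rfl fun j _ => ?_
    rw [smul_mul_assoc, h1, ← mul_smul_comm]
    congr 1
    simp only [Finset.smul_sum, smul_smul]
  rw [h2]
  congr 1
  unfold pa
  congr 1
  have h3 : ∀ f : ι → ι → ι → ι → Op ι,
      (∑ i, ∑ j, ∑ k, ∑ l, f i j k l) = ∑ l, ∑ k, ∑ i, ∑ j, f i j k l := by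
    intro f
    have e1 : ∀ i, (∑ j, ∑ k, ∑ l, f i j k l) = ∑ l, ∑ k, ∑ j, f i j k l := by
      intro i
      rw [Finset.sum_comm]
      conv_lhs => enter [2, k]; rw [Finset.sum_comm]
      rw [Finset.sum_comm]
    rw [Finset.sum_congr rfl fun i _ => e1 i, Finset.sum_comm]
    refine Finset.sum_congr rfl fun l _ => ?_
    rw [Finset.sum_comm]
  rw [h3]
  refine Finset.sum_congr rfl fun l _ => Finset.sum_congr rfl fun k _ => ?_
  have h4 : (starRingEnd ℂ) ((U.conjTranspose * w * U.map (starRingEnd ℂ)) l k) =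
      ∑ i, ∑ j, (starRingEnd ℂ) (w i j) * (U j k * U i l) := by
    rw [Matrix.mul_apply]
    simp only [Matrix.mul_apply, map_sum, map_mul, Finset.sum_mul]
    rw [Finset.sum_comm]
    refine Finset.sum_congr rfl fun i _ => Finset.sum_congr rfl fun j _ => ?_
    rw [Matrix.conjTranspose_apply, Matrix.map_apply]
    have e1 : (starRingEnd ℂ) (star (U i l)) = U i l := star_star _
    have e2 : (starRingEnd ℂ) ((starRingEnd ℂ) (U j k)) = U j k := star_star _
    rw [e1, e2]
    ring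
  rw [h4]
  simp only [Finset.sum_smul]

/-! ### unitary one-particle matrices -/

theorem Gam_mul_star_self {U : Matrix ι ι ℂ} (hU : U * U.conjTranspose = 1) :
    Gam U * star (Gam U) = 1 := by
  rw [star_Gam, ← Gam_mul, hU, Gam_one]

theorem star_Gam_mul_self {U : Matrix ι ι ℂ} (hU : U.conjTranspose * U = 1) :
    star (Gam U) * Gam U = 1 := by
  rw [star_Gam, ← Gam_mul, hU, Gam_one]

theorem conj_cr {U : Matrix ι ι ℂ} (hU : U * U.conjTranspose = 1) (v : L ι) :
    Gam U * cr v * star (Gam U) = cr (mv U v) := by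
  rw [Gam_mul_cr, mul_assoc, Gam_mul_star_self hU, mul_one]

theorem conj_an {U : Matrix ι ι ℂ} (hU : U * U.conjTranspose = 1) (v : L ι) :
    Gam U * an v * star (Gam U) = an (mv U v) := by
  have h := congrArg star (conj_cr hU v)
  rw [star_mul, star_mul, star_cr, star_cr, star_star, ← mul_assoc] at h
  exact h

theorem conj_dG {U : Matrix ι ι ℂ} (hU : U * U.conjTranspose = 1) (A : Matrix ι ι ℂ) :
    Gam U * dG A * star (Gam U) = dG (U * A * U.conjTranspose) := by
  have hU' : U.conjTranspose * U = 1 := mul_eq_one_comm.1 hU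
  have h := Gam_mul_dG U (A * U.conjTranspose)
  rw [mul_assoc A, hU', mul_one] at h
  rw [h, mul_assoc, Gam_mul_star_self hU, mul_one, mul_assoc U]

theorem conj_pa {U : Matrix ι ι ℂ} (hU : U * U.conjTranspose = 1) (w : Matrix ι ι ℂ) :
    Gam U * pa w * star (Gam U) = pa (U * w * U.transpose) := by
  have hU' : U.conjTranspose * U = 1 := mul_eq_one_comm.1 hU
  have hT : U.transpose * U.map (starRingEnd ℂ) = 1 := by
    have : U.transpose * U.map (starRingEnd ℂ) = (U.conjTranspose * U).transpose := by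
      rw [Matrix.transpose_mul]; rfl
    rw [this, hU', Matrix.transpose_one]
  have h := pa_mul_Gam U (U * w * U.transpose)
  have h2 : U.conjTranspose * (U * w * U.transpose) * U.map (starRingEnd ℂ) = w := by
    calc U.conjTranspose * (U * w * U.transpose) * U.map (starRingEnd ℂ) =
        (U.conjTranspose * U) * w * (U.transpose * U.map (starRingEnd ℂ)) := by
          simp only [Matrix.mul_assoc]
      _ = w := by rw [hU', hT, one_mul, mul_one]
  rw [h2] at h
  rw [← h, mul_assoc, Gam_mul_star_self hU, mul_one]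

theorem conj_Nh {U : Matrix ι ι ℂ} (hU : U * U.conjTranspose = 1) :
    Gam U * Nh * star (Gam U) = Nh := by
  rw [Gam_mul_Nh, mul_assoc, Gam_mul_star_self hU, mul_one]

theorem norm_Gam {U : Matrix ι ι ℂ} (hU : U * U.conjTranspose = 1) : ‖Gam U‖ = 1 := by
  have h : ‖Gam U * star (Gam U)‖ = ‖Gam U‖ * ‖Gam U‖ := CStarRing.norm_self_mul_star
  rw [Gam_mul_star_self hU, CStarRing.norm_one] at h
  nlinarith [norm_nonneg (Gam U)]

theorem norm_Gam_ap {U : Matrix ι ι ℂ} (hU : U.conjTranspose * U = 1) (v : Fk ι) :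
    ‖Gam U v‖ = ‖v‖ := by
  have h := inner_star_mul_self (Gam U) v
  rw [star_Gam_mul_self hU, one_ap, inner_self_eq_norm_sq_to_K] at h
  have h2 : ‖v‖ ^ 2 = ‖Gam U v‖ ^ 2 := by
    have h3 : ((‖v‖ ^ 2 : ℝ) : ℂ) = ((‖Gam U v‖ ^ 2 : ℝ) : ℂ) := by
      rw [Complex.ofReal_pow, Complex.ofReal_pow]; exact h
    exact Complex.ofReal_injective h3
  exact ((sq_eq_sq₀ (norm_nonneg _) (norm_nonneg _)).1 h2).symm

/-! ### continuity -/

theorem continuous_prodCr (S : Finset ι) : Continuous fun U : Matrix ι ι ℂ => prodCr U S := by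
  unfold prodCr
  generalize S.sort = l
  induction l with
  | nil => simp only [List.map_nil, List.prod_nil]; exact continuous_const
  | cons a l ih =>
    simp only [List.map_cons, List.prod_cons]
    exact (continuous_cr.comp (continuous_mv_left _)).mul ih

theorem continuous_Gam : Continuous (Gam : Matrix ι ι ℂ → Op ι) := by
  unfold Gam
  exact continuous_finsetSum _ fun S _ => (continuous_prodCr S).mul continuous_const

end Crest.Agent.R340.Gam303
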