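import Crest.Agent.R124.Haar
import Crest.Agent.R340.Gam_303_Mg

/-!
# R340 (helper814): Haar averages over `unitaryGroup (Fin 2) ℂ`

* `schur` : `∫ sp Q g i j * star (sp Q g k l) = δ_ik δ_jl / (Q+1)`;
* `avg_sp` : entries of `∫ sp Q g * M * (sp Q g)ᴴ`;
* `avg_Gam_dG` : `∫ Gam (sp Q g) * dG A * star (Gam (sp Q g)) = (tr A / (Q+1)) • Nh`.
-/

set_option autoImplicit false

open Matrix Finset MeasureTheory

namespace Crest.Agent.R340.Avg814

open Crest.Agent.R340.CS809 Crest.Agent.R340.Rot303 Crest.Agent.R124.Haar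

noncomputable section

/-- the group -/
abbrev G2 : Type := Matrix.unitaryGroup (Fin 2) ℂ

/-- the Haar probability measure -/
abbrev hm : Measure G2 := haar (Fin 2)

lemma continuous_sp_coe (Q : ℕ) : Continuous fun g : G2 => sp Q (g : Matrix (Fin 2) (Fin 2) ℂ) :=
  (continuous_sp Q).comp continuous_subtype_val

lemma continuous_sp_entry (Q : ℕ) (i j : Fin (Q + 1)) :
    Continuous fun g : G2 => sp Q (g : Matrix (Fin 2) (Fin 2) ℂ) i j :=
  (continuous_apply_apply i j).comp (continuous_sp_coe Q)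

/-- matrix coefficient integrals -/
def cf (Q : ℕ) (i j k l : Fin (Q + 1)) : ℂ :=
  ∫ g : G2, sp Q (g : Matrix (Fin 2) (Fin 2) ℂ) i j *
    star (sp Q (g : Matrix (Fin 2) (Fin 2) ℂ) k l) ∂hm

lemma continuous_cf_integrand (Q : ℕ) (i j k l : Fin (Q + 1)) :
    Continuous fun g : G2 => sp Q (g : Matrix (Fin 2) (Fin 2) ℂ) i j *
      star (sp Q (g : Matrix (Fin 2) (Fin 2) ℂ) k l) :=
  (continuous_sp_entry Q i j).mul (continuous_sp_entry Q k l).star

lemma integrable_cf (Q : ℕ) (i j k l : Fin (Q + 1)) :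
    Integrable (fun g : G2 => sp Q (g : Matrix (Fin 2) (Fin 2) ℂ) i j *
      star (sp Q (g : Matrix (Fin 2) (Fin 2) ℂ) k l)) hm :=
  integrable_of_cont (continuous_cf_integrand Q i j k l)

/-- `diag (1, z)` as an element of the group -/
def tz (z : Circle) : G2 :=
  ⟨Matrix.diagonal ![1, (z : ℂ)], by
    rw [Matrix.mem_unitaryGroup_iff, Matrix.star_eq_conjTranspose, Matrix.diagonal_conjTranspose,
      Matrix.diagonal_mul_diagonal, ← Matrix.diagonal_one]
    congr 1
    funext i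
    fin_cases i
    · simp
    · simpa using circle_mul_star z⟩

lemma coe_tz (z : Circle) : ((tz z : G2) : Matrix (Fin 2) (Fin 2) ℂ) =
    Matrix.diagonal ![1, (z : ℂ)] := rfl

lemma sp_tz (Q : ℕ) (z : Circle) : sp Q ((tz z : G2) : Matrix (Fin 2) (Fin 2) ℂ) =
    Matrix.diagonal fun j : Fin (Q + 1) => (z : ℂ) ^ (j : ℕ) := by
  rw [coe_tz, sp_diagonal]
  congr 1
  funext j
  simp

lemma coe_mul' (g h : G2) : ((g * h : G2) : Matrix (Fin 2) (Fin 2) ℂ) = g * h := rfl

lemma exists_circle {m n : ℕ} (h : m ≠ n) : ∃ z : Circle, (z : ℂ) ^ m * star (z : ℂ) ^ n ≠ 1 := by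
  have hmn : ((m : ℂ) - n) ≠ 0 := by
    rw [sub_ne_zero]; exact_mod_cast h
  refine ⟨Circle.exp (Real.pi / ((m : ℝ) - n)), ?_⟩
  have h1 : star ((Circle.exp (Real.pi / ((m : ℝ) - n)) : Circle) : ℂ) =
      Complex.exp (-(((Real.pi / ((m : ℝ) - n) : ℝ) : ℂ) * Complex.I)) := by
    rw [Circle.coe_exp, Complex.star_def, ← Complex.exp_conj]
    congr 1
    simp
  rw [h1, Circle.coe_exp, ← Complex.exp_nat_mul, ← Complex.exp_nat_mul, ← Complex.exp_add]
  have h2 : (m : ℂ) * (((Real.pi / ((m : ℝ) - n) : ℝ) : ℂ) * Complex.I) +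
      (n : ℂ) * -(((Real.pi / ((m : ℝ) - n) : ℝ) : ℂ) * Complex.I) = Real.pi * Complex.I := by
    push_cast
    field_simp
    ring
  rw [h2, Complex.exp_pi_mul_I]
  norm_num

theorem cf_left_ne {Q : ℕ} {i k : Fin (Q + 1)} (h : i ≠ k) (j l : Fin (Q + 1)) :
    cf Q i j k l = 0 := by
  obtain ⟨z, hz⟩ := exists_circle (m := (i : ℕ)) (n := (k : ℕ)) (fun e => h (Fin.ext e))
  have h1 : cf Q i j k l = ((z : ℂ) ^ (i : ℕ) * star (z : ℂ) ^ (k : ℕ)) * cf Q i j k l := by
    conv_lhs => rw [cf, ← integral_mul_left' _ (tz z)]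
    rw [cf, ← integral_const_mul]
    refine integral_congr_ae (Filter.Eventually.of_forall fun g => ?_)
    simp only [coe_mul', sp_mul, sp_tz, Matrix.diagonal_mul, star_mul', star_pow]
    ring
  have h2 : (((z : ℂ) ^ (i : ℕ) * star (z : ℂ) ^ (k : ℕ)) - 1) * cf Q i j k l = 0 := by
    rw [sub_mul, one_mul, ← h1, sub_self]
  rcases mul_eq_zero.1 h2 with h3 | h3
  · exact absurd (sub_eq_zero.1 h3) hz
  · exact h3

theorem cf_right_ne {Q : ℕ} {j l : Fin (Q + 1)} (h : j ≠ l) (i k : Fin (Q + 1)) :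
    cf Q i j k l = 0 := by
  obtain ⟨z, hz⟩ := exists_circle (m := (j : ℕ)) (n := (l : ℕ)) (fun e => h (Fin.ext e))
  have h1 : cf Q i j k l = ((z : ℂ) ^ (j : ℕ) * star (z : ℂ) ^ (l : ℕ)) * cf Q i j k l := by
    conv_lhs => rw [cf, ← integral_mul_right' _ (tz z)]
    rw [cf, ← integral_const_mul]
    refine integral_congr_ae (Filter.Eventually.of_forall fun g => ?_)
    simp only [coe_mul', sp_mul, sp_tz, Matrix.mul_diagonal, star_mul', star_pow]
    ring
  have h2 : (((z : ℂ) ^ (j : ℕ) * star (z : ℂ) ^ (l : ℕ)) - 1) * cf Q i j k l = 0 := by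
    rw [sub_mul, one_mul, ← h1, sub_self]
  rcases mul_eq_zero.1 h2 with h3 | h3
  · exact absurd (sub_eq_zero.1 h3) hz
  · exact h3

/-- a rotation all of whose entries are nonzero -/
def r0 : G2 :=
  ⟨!![3/5, -4/5; 4/5, 3/5], by
    rw [Matrix.mem_unitaryGroup_iff, Matrix.star_eq_conjTranspose]
    have e3 : (starRingEnd ℂ) 3 = 3 := map_ofNat _ 3
    have e4 : (starRingEnd ℂ) 4 = 4 := map_ofNat _ 4
    have e5 : (starRingEnd ℂ) 5 = 5 := map_ofNat _ 5
    ext i j
    fin_cases i <;> fin_cases j <;>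
      simp [Matrix.mul_apply, Fin.sum_univ_two, Matrix.conjTranspose_apply, e3, e4, e5] <;>
      norm_num⟩

lemma sp_r0_ne (Q : ℕ) (i : Fin (Q + 1)) :
    sp Q ((r0 : G2) : Matrix (Fin 2) (Fin 2) ℂ) i 0 ≠ 0 := by
  rw [sp_apply_zero]
  unfold kap
  refine mul_ne_zero (sb_ne i) (mul_ne_zero (pow_ne_zero _ ?_) (pow_ne_zero _ ?_))
  · simp [r0]
  · simp [r0]

/-- left covariance: `∫ (sp h sp g) i j conj (sp g k l)` -/
theorem cf_cov (Q : ℕ) (h : G2) (i j k l : Fin (Q + 1)) :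
    ∑ m, sp Q (h : Matrix (Fin 2) (Fin 2) ℂ) i m * cf Q m j k l =
      ∑ m, sp Q (h : Matrix (Fin 2) (Fin 2) ℂ) m k * cf Q i j m l := by
  have e1 : ∑ m, sp Q (h : Matrix (Fin 2) (Fin 2) ℂ) i m * cf Q m j k l =
      ∫ g : G2, (sp Q ((h * g : G2) : Matrix (Fin 2) (Fin 2) ℂ) i j) *
        star (sp Q (g : Matrix (Fin 2) (Fin 2) ℂ) k l) ∂hm := by
    simp only [cf]
    simp_rw [← integral_const_mul]
    rw [← integral_finsetSum _ fun m _ => (integrable_cf Q m j k l).const_mul _]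
    refine integral_congr_ae (Filter.Eventually.of_forall fun g => ?_)
    simp only [coe_mul', sp_mul, Matrix.mul_apply, Finset.sum_mul]
    exact Finset.sum_congr rfl fun m _ => by ring
  have e2 : ∑ m, sp Q (h : Matrix (Fin 2) (Fin 2) ℂ) m k * cf Q i j m l =
      ∫ g : G2, (sp Q (g : Matrix (Fin 2) (Fin 2) ℂ) i j) *
        star (sp Q ((h⁻¹ * g : G2) : Matrix (Fin 2) (Fin 2) ℂ) k l) ∂hm := by
    simp only [cf]
    simp_rw [← integral_const_mul]
    rw [← integral_finsetSum _ fun m _ => (integrable_cf Q i j m l).const_mul _]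
    refine integral_congr_ae (Filter.Eventually.of_forall fun g => ?_)
    have hinv : sp Q ((h⁻¹ : G2) : Matrix (Fin 2) (Fin 2) ℂ) =
        (sp Q (h : Matrix (Fin 2) (Fin 2) ℂ))ᴴ := by
      rw [sp_conjTranspose]; rfl
    simp only [coe_mul', sp_mul, hinv, Matrix.mul_apply, Matrix.conjTranspose_apply, star_sum,
      star_mul', star_star, Finset.mul_sum]
    exact Finset.sum_congr rfl fun m _ => by ring
  rw [e1, e2]
  have := integral_mul_left' (fun g : G2 => sp Q (g : Matrix (Fin 2) (Fin 2) ℂ) i j *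
        star (sp Q ((h⁻¹ * g : G2) : Matrix (Fin 2) (Fin 2) ℂ) k l)) h
  rw [← this]
  refine integral_congr_ae (Filter.Eventually.of_forall fun g => ?_)
  simp only [inv_mul_cancel_left]

theorem cf_diag (Q : ℕ) (i j : Fin (Q + 1)) : cf Q i j i j = ((Q : ℂ) + 1)⁻¹ := by
  have h1 : ∀ k : Fin (Q + 1), cf Q k j k j = cf Q 0 j 0 j := by
    intro k
    have h := cf_cov Q r0 k j 0 j
    rw [Finset.sum_eq_single 0, Finset.sum_eq_single k] at h
    · exact (mul_left_cancel₀ (sp_r0_ne Q k) h).symm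
    · intro m _ hm
      rw [cf_left_ne (Ne.symm hm), mul_zero]
    · simp
    · intro m _ hm
      rw [cf_left_ne hm, mul_zero]
    · simp
  have h2 : ∑ k : Fin (Q + 1), cf Q k j k j = 1 := by
    simp only [cf]
    rw [← integral_finsetSum _ fun k _ => integrable_cf Q k j k j]
    have h3 : ∀ g : G2, ∑ k, sp Q (g : Matrix (Fin 2) (Fin 2) ℂ) k j *
        star (sp Q (g : Matrix (Fin 2) (Fin 2) ℂ) k j) = 1 := by
      intro g
      have hg : (g : Matrix (Fin 2) (Fin 2) ℂ)ᴴ * (g : Matrix (Fin 2) (Fin 2) ℂ) = 1 := by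
        have := Matrix.mem_unitaryGroup_iff'.1 g.2
        rwa [Matrix.star_eq_conjTranspose] at this
      have h4 := congrFun (congrFun (sp_unitary Q hg) j) j
      rw [Matrix.mul_apply, Matrix.one_apply_eq] at h4
      rw [← h4]
      exact Finset.sum_congr rfl fun k _ => by rw [Matrix.conjTranspose_apply]; ring
    rw [integral_congr_ae (Filter.Eventually.of_forall h3)]
    simp
  rw [h1 i]
  simp only [h1] at h2
  rw [Finset.sum_const, Finset.card_univ, Fintype.card_fin, nsmul_eq_mul] at h2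
  push_cast at h2
  exact eq_inv_of_mul_eq_one_right h2

/-- **Schur orthogonality** for the spin-`Q/2` representation -/
theorem schur (Q : ℕ) (i j k l : Fin (Q + 1)) :
    ∫ g : G2, sp Q (g : Matrix (Fin 2) (Fin 2) ℂ) i j *
      star (sp Q (g : Matrix (Fin 2) (Fin 2) ℂ) k l) ∂hm =
      if i = k ∧ j = l then ((Q : ℂ) + 1)⁻¹ else 0 := by
  change cf Q i j k l = _
  by_cases hik : i = k
  · by_cases hjl : j = l
    · subst hik; subst hjl
      rw [if_pos ⟨rfl, rfl⟩, cf_diag]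
    · rw [if_neg (fun h => hjl h.2), cf_right_ne hjl]
  · rw [if_neg (fun h => hik h.1), cf_left_ne hik]

theorem schur' (Q : ℕ) (i j k l : Fin (Q + 1)) :
    ∫ g : G2, star (sp Q (g : Matrix (Fin 2) (Fin 2) ℂ) i j) *
      sp Q (g : Matrix (Fin 2) (Fin 2) ℂ) k l ∂hm =
      if i = k ∧ j = l then ((Q : ℂ) + 1)⁻¹ else 0 := by
  have h := schur Q k l i j
  simp only [mul_comm] at h ⊢
  rw [h]
  by_cases h1 : k = i ∧ l = j
  · rw [if_pos h1, if_pos ⟨h1.1.symm, h1.2.symm⟩]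
  · rw [if_neg h1, if_neg (fun h2 => h1 ⟨h2.1.symm, h2.2.symm⟩)]

/-- entries of the average of `sp g M (sp g)ᴴ` -/
theorem avg_sp (Q : ℕ) (M : Matrix (Fin (Q + 1)) (Fin (Q + 1)) ℂ) (i k : Fin (Q + 1)) :
    ∫ g : G2, (sp Q (g : Matrix (Fin 2) (Fin 2) ℂ) * M *
      (sp Q (g : Matrix (Fin 2) (Fin 2) ℂ))ᴴ) i k ∂hm =
      if i = k then M.trace / ((Q : ℂ) + 1) else 0 := by
  have h1 : ∀ g : G2, (sp Q (g : Matrix (Fin 2) (Fin 2) ℂ) * M *
      (sp Q (g : Matrix (Fin 2) (Fin 2) ℂ))ᴴ) i k =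
      ∑ l, ∑ j, M j l * (sp Q (g : Matrix (Fin 2) (Fin 2) ℂ) i j *
        star (sp Q (g : Matrix (Fin 2) (Fin 2) ℂ) k l)) := by
    intro g
    rw [Matrix.mul_apply]
    refine Finset.sum_congr rfl fun l _ => ?_
    rw [Matrix.mul_apply, Matrix.conjTranspose_apply, Finset.sum_mul]
    exact Finset.sum_congr rfl fun j _ => by ring
  simp_rw [h1]
  rw [integral_finsetSum _ fun l _ => integrable_finsetSum _ fun j _ =>
    (integrable_cf Q i j k l).const_mul _]
  have h2 : ∀ l, ∫ g : G2, ∑ j, M j l * (sp Q (g : Matrix (Fin 2) (Fin 2) ℂ) i j *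
        star (sp Q (g : Matrix (Fin 2) (Fin 2) ℂ) k l)) ∂hm =
      ∑ j, M j l * (if i = k ∧ j = l then ((Q : ℂ) + 1)⁻¹ else 0) := by
    intro l
    rw [integral_finsetSum _ fun j _ => (integrable_cf Q i j k l).const_mul _]
    refine Finset.sum_congr rfl fun j _ => ?_
    rw [integral_const_mul, schur]
  rw [Finset.sum_congr rfl fun l _ => h2 l]
  by_cases hik : i = k
  · simp only [hik, true_and, if_true]
    have h3 : ∀ l, ∑ j, M j l * (if j = l then ((Q : ℂ) + 1)⁻¹ else 0) =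
        M l l * ((Q : ℂ) + 1)⁻¹ := by
      intro l
      rw [Finset.sum_eq_single l]
      · rw [if_pos rfl]
      · intro j _ hj; rw [if_neg hj, mul_zero]
      · simp
    rw [Finset.sum_congr rfl fun l _ => h3 l, ← Finset.sum_mul, Matrix.trace, div_eq_mul_inv]
    rfl
  · simp [hik]

/-! ### the pair representation -/

theorem schur_D2 (Q : ℕ) (p q r s : Fin (2 * Q - 1)) :
    ∫ g : G2, D2 Q (g : Matrix (Fin 2) (Fin 2) ℂ) p q *
      star (D2 Q (g : Matrix (Fin 2) (Fin 2) ℂ) r s) ∂hm =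
      if p = r ∧ q = s then (2 * (Q : ℂ) - 1)⁻¹ else 0 := by
  have hQ : 1 ≤ Q := by
    have := p.2
    omega
  simp only [D2_apply]
  rw [schur]
  have h1 : (((2 * Q - 2 : ℕ) : ℂ) + 1) = 2 * (Q : ℂ) - 1 := by
    rw [Nat.cast_sub (by omega)]
    push_cast
    ring
  rw [h1]
  by_cases h : p = r ∧ q = s
  · rw [if_pos h, if_pos ⟨congrArg cst h.1, congrArg cst h.2⟩]
  · rw [if_neg h, if_neg (fun h2 => h ⟨cst_injective h2.1, cst_injective h2.2⟩)]


lemma continuous_D2_entry (Q : ℕ) (p q : Fin (2 * Q - 1)) :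
    Continuous fun g : G2 => D2 Q (g : Matrix (Fin 2) (Fin 2) ℂ) p q :=
  (continuous_apply_apply p q).comp ((continuous_D2 Q).comp continuous_subtype_val)

/-! ### averages in the Fock operator algebra -/

open Crest.Agent.R340.Fock649 Crest.Agent.R340.Gam303

section OpInt

variable {κ : Type*} [Fintype κ] {X : Type*} [MeasurableSpace X] {μ : Measure X}

/-- evaluation on a vector, as a continuous linear map -/
def evL (v : Fk κ) : Op κ →L[ℂ] Fk κ :=
  (ContinuousLinearMap.apply ℂ (Fk κ) v : (Fk κ →L[ℂ] Fk κ) →L[ℂ] Fk κ)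


theorem integral_ap {f : X → Op κ} (hf : Integrable f μ) (v : Fk κ) :
    (∫ x, f x ∂μ) v = ∫ x, f x v ∂μ :=
  ((evL v).integral_comp_comm hf).symm

theorem inner_integral_ap {f : X → Op κ} (hf : Integrable f μ) (v w : Fk κ) :
    inner ℂ v ((∫ x, f x ∂μ) w) = ∫ x, inner ℂ v (f x w) ∂μ := by
  rw [integral_ap hf]
  exact (integral_inner ((evL w).integrable_comp hf) v).symm

theorem re_inner_integral_ap {f : X → Op κ} (hf : Integrable f μ) (v w : Fk κ) :
    (inner ℂ v ((∫ x, f x ∂μ) w) : ℂ).re = ∫ x, (inner ℂ v (f x w) : ℂ).re ∂μ := by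
  rw [inner_integral_ap hf]
  have h : Integrable (fun x => (inner ℂ v (f x w) : ℂ)) μ :=
    ((innerSL ℂ v).integrable_comp ((evL w).integrable_comp hf))
  exact (integral_re h).symm

theorem star_integral_op (f : X → Op κ) : star (∫ x, f x ∂μ) = ∫ x, star (f x) ∂μ :=
  ((starL' ℝ : Op κ ≃L[ℝ] Op κ).integral_comp_comm f).symm

theorem mul_integral_op {f : X → Op κ} (hf : Integrable f μ) (A : Op κ) :
    A * ∫ x, f x ∂μ = ∫ x, A * f x ∂μ :=
  ((ContinuousLinearMap.mul ℂ (Op κ) A).integral_comp_comm hf).symm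

theorem integral_mul_op {f : X → Op κ} (hf : Integrable f μ) (A : Op κ) :
    (∫ x, f x ∂μ) * A = ∫ x, f x * A ∂μ :=
  (((ContinuousLinearMap.mul ℂ (Op κ)).flip A).integral_comp_comm hf).symm



/-- bounded measurable weight times a continuous family is integrable for a finite measure -/
theorem integrable_smul_of_bdd [TopologicalSpace X] [CompactSpace X] [OpensMeasurableSpace X]
    [SecondCountableTopology X] [IsFiniteMeasure μ] {Y : X → Op κ} (hY : Continuous Y)
    {s : X → ℝ} (hs : AEStronglyMeasurable s μ) {K : ℝ} (hb : ∀ x, |s x| ≤ K) :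
    Integrable (fun x => (s x : ℂ) • Y x) μ := by
  obtain ⟨C, hC⟩ := isCompact_univ.exists_bound_of_continuousOn (f := Y) hY.continuousOn
  refine Integrable.of_bound (C := K * C) ?_ (Filter.Eventually.of_forall fun x => ?_)
  · exact (Complex.continuous_ofReal.comp_aestronglyMeasurable hs).smul hY.aestronglyMeasurable
  · rw [norm_smul, Complex.norm_real, Real.norm_eq_abs]
    exact mul_le_mul (hb x) (hC x trivial) (norm_nonneg _) ((abs_nonneg _).trans (hb x))

end OpInt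


lemma continuous_dG (Q : ℕ) : Continuous (dG : Matrix (Fin (Q + 1)) (Fin (Q + 1)) ℂ → _) := by
  unfold dG
  exact continuous_finsetSum _ fun i _ => continuous_finsetSum _ fun j _ =>
    (continuous_apply_apply i j).smul continuous_const

/-- Haar average of a one-body operator -/
theorem avg_dG (Q : ℕ) (A : Matrix (Fin (Q + 1)) (Fin (Q + 1)) ℂ) :
    ∫ g : G2, dG (sp Q (g : Matrix (Fin 2) (Fin 2) ℂ) * A *
      (sp Q (g : Matrix (Fin 2) (Fin 2) ℂ))ᴴ) ∂hm = (A.trace / ((Q : ℂ) + 1)) • Nh := by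
  have hc : ∀ i j, Continuous fun g : G2 => (sp Q (g : Matrix (Fin 2) (Fin 2) ℂ) * A *
      (sp Q (g : Matrix (Fin 2) (Fin 2) ℂ))ᴴ) i j := fun i j =>
    (continuous_apply_apply i j).comp
      (((continuous_sp_coe Q).matrix_mul continuous_const).matrix_mul
        (continuous_sp_coe Q).matrix_conjTranspose)
  have hint : ∀ i j, Integrable (fun g : G2 => (sp Q (g : Matrix (Fin 2) (Fin 2) ℂ) * A *
      (sp Q (g : Matrix (Fin 2) (Fin 2) ℂ))ᴴ) i j • (d i * c j : Op (Fin (Q + 1)))) hm :=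
    fun i j => integrable_of_cont ((hc i j).smul continuous_const)
  simp only [dG]
  rw [integral_finsetSum _ fun i _ => integrable_finsetSum _ fun j _ => hint i j]
  have h1 : ∀ i, ∫ g : G2, ∑ j, (sp Q (g : Matrix (Fin 2) (Fin 2) ℂ) * A *
      (sp Q (g : Matrix (Fin 2) (Fin 2) ℂ))ᴴ) i j • (d i * c j : Op (Fin (Q + 1))) ∂hm =
      (A.trace / ((Q : ℂ) + 1)) • (d i * c i) := by
    intro i
    rw [integral_finsetSum _ fun j _ => hint i j, Finset.sum_eq_single i]
    · rw [integral_smul_const, avg_sp, if_pos rfl]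
    · intro j _ hj
      rw [integral_smul_const, avg_sp, if_neg (Ne.symm hj), zero_smul]
    · simp
  rw [Finset.sum_congr rfl fun i _ => h1 i, ← Finset.smul_sum]
  congr 1
  unfold Nh dG
  refine Finset.sum_congr rfl fun i _ => ?_
  rw [Finset.sum_eq_single i]
  · rw [Matrix.one_apply_eq, one_smul]
  · intro j _ hj
    rw [Matrix.one_apply_ne (Ne.symm hj), zero_smul]
  · simp

/-- Haar average of a rotated one-body operator -/
theorem avg_Gam_dG (Q : ℕ) (A : Matrix (Fin (Q + 1)) (Fin (Q + 1)) ℂ) :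
    ∫ g : G2, Gam (sp Q (g : Matrix (Fin 2) (Fin 2) ℂ)) * dG A *
      star (Gam (sp Q (g : Matrix (Fin 2) (Fin 2) ℂ))) ∂hm =
      (A.trace / ((Q : ℂ) + 1)) • Nh := by
  rw [← avg_dG]
  refine integral_congr_ae (Filter.Eventually.of_forall fun g => ?_)
  have hg : (g : Matrix (Fin 2) (Fin 2) ℂ) * (g : Matrix (Fin 2) (Fin 2) ℂ)ᴴ = 1 := by
    have := Matrix.mem_unitaryGroup_iff.1 g.2
    rwa [Matrix.star_eq_conjTranspose] at this
  exact conj_dG (sp_unitary' Q hg) A

end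

end Crest.Agent.R340.Avg814
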