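import Crest.Agent.R340.CS1_809
import Crest.Agent.R070.RotInv_260
import Crest.Prelude.Def_Laughlin
import Crest.Agent.R340.Rot1_303

-- ▼ part R340/CS2_809
section

set_option autoImplicit false

/-!
# Row 340: points of the sphere, spinors and rotations (helper809)

* `mv v` : the traceless Hermitian matrix of `v : E3`; `rotE g` : the rotation of `E3` by a unitary
  `g`; `rotS g` its action on `S2`;
* `zs x` : a unit spinor over `x : S2`; `gx x : SU(2)` with first column `zs x`;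
* `uu Q k x` : the rotated orbital number `k` with centre `x`; `uu_zero`, `uu_rot`, `uu_orth`.
-/

namespace Crest.Agent.R340.CS809

open Matrix Finset MeasureTheory Crest.MathPhysics.Laughlin Crest.Agent.R070.RotInv260
open scoped ComplexConjugate

abbrev E3 : Type := EuclideanSpace ℝ (Fin 3)

/-! ## vectors as traceless Hermitian matrices -/

/-- the traceless Hermitian matrix of a vector -/
noncomputable def mv (v : E3) : Matrix (Fin 2) (Fin 2) ℂ :=
  !![((v 2 : ℝ) : ℂ), (v 0 : ℝ) + (v 1 : ℝ) * Complex.I;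
    (v 0 : ℝ) - (v 1 : ℝ) * Complex.I, -((v 2 : ℝ) : ℂ)]

/-- the vector of a matrix -/
noncomputable def vm (A : Matrix (Fin 2) (Fin 2) ℂ) : E3 :=
  !₂[(A 1 0).re, (A 0 1).im, (A 0 0).re]

@[simp] lemma vm_mv (v : E3) : vm (mv v) = v := by
  ext i
  fin_cases i <;> simp [vm, mv]

lemma mv_vm {A : Matrix (Fin 2) (Fin 2) ℂ} (h1 : Aᴴ = A) (h2 : A 0 0 + A 1 1 = 0) :
    mv (vm A) = A := by
  have e00 : conj (A 0 0) = A 0 0 := by
    have := congrFun (congrFun h1 0) 0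
    simpa [conjTranspose_apply] using this
  have e10 : conj (A 0 1) = A 1 0 := by
    have := congrFun (congrFun h1 1) 0
    simpa [conjTranspose_apply] using this
  have f00 : ((A 0 0).re : ℂ) = A 0 0 := Complex.conj_eq_iff_re.1 e00
  have f11 : A 1 1 = - A 0 0 := by linear_combination h2
  ext i j
  fin_cases i <;> fin_cases j
  · simp [vm, mv, f00]
  · simp only [vm, mv, Fin.mk_zero, Fin.mk_one, of_apply, cons_val', cons_val_zero, cons_val_one]
    rw [← e10]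
    simp
  · simp only [vm, mv, Fin.mk_zero, Fin.mk_one, of_apply, cons_val', cons_val_zero, cons_val_one]
    rw [← e10]
    apply Complex.ext <;> simp
  · simp [vm, mv, f00, f11]

lemma mv_herm (v : E3) : (mv v)ᴴ = mv v := by
  ext i j
  fin_cases i <;> fin_cases j <;> simp [mv, conjTranspose_apply, sub_eq_add_neg]

lemma mv_trace (v : E3) : mv v 0 0 + mv v 1 1 = 0 := by simp [mv]

lemma mv_add (v w : E3) : mv (v + w) = mv v + mv w := by
  ext i j
  fin_cases i <;> fin_cases j <;> simp [mv] <;> ring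

lemma mv_smul (c : ℝ) (v : E3) : mv (c • v) = (c : ℂ) • mv v := by
  ext i j
  fin_cases i <;> fin_cases j <;> simp [mv] <;> ring

lemma mv_inj {v w : E3} (h : mv v = mv w) : v = w := by
  rw [← vm_mv v, h, vm_mv]

lemma inner_eq_tr (v w : E3) : ((inner ℝ v w : ℝ) : ℂ) = (mv v * mv w).trace / 2 := by
  simp only [PiLp.inner_apply, Fin.sum_univ_three, RCLike.inner_apply, conj_trivial, trace,
    Fin.sum_univ_two, diag_apply, mul_apply, mv, of_apply, cons_val', cons_val_zero, cons_val_one]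
  push_cast
  ring_nf
  simp only [Complex.I_sq]
  ring

/-- the rotation of a vector -/
noncomputable def rotv (g : Matrix (Fin 2) (Fin 2) ℂ) (v : E3) : E3 := vm (g * mv v * gᴴ)

lemma mv_rotv {g : Matrix (Fin 2) (Fin 2) ℂ} (hg : gᴴ * g = 1) (v : E3) :
    mv (rotv g v) = g * mv v * gᴴ := by
  apply mv_vm
  · rw [conjTranspose_mul, conjTranspose_mul, conjTranspose_conjTranspose, mv_herm, Matrix.mul_assoc]
  · have : (g * mv v * gᴴ).trace = (mv v).trace := by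
      rw [trace_mul_comm, ← Matrix.mul_assoc, hg, Matrix.one_mul]
    rw [trace_fin_two, trace_fin_two, mv_trace] at this
    exact this

lemma rotv_rotv {g h : Matrix (Fin 2) (Fin 2) ℂ} (hh : hᴴ * h = 1) (v : E3) :
    rotv g (rotv h v) = rotv (g * h) v := by
  rw [rotv, mv_rotv hh, rotv, conjTranspose_mul]
  simp only [Matrix.mul_assoc]

lemma rotv_one (v : E3) : rotv 1 v = v := by simp [rotv]

lemma mul_ct_of {g : Matrix (Fin 2) (Fin 2) ℂ} (hg : gᴴ * g = 1) : g * gᴴ = 1 :=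
  mul_eq_one_comm.1 hg

/-- the rotation by the unitary `g`, as a linear isometry of `E3` -/
noncomputable def rotE (g : Matrix (Fin 2) (Fin 2) ℂ) (hg : gᴴ * g = 1) : E3 ≃ₗᵢ[ℝ] E3 where
  toFun := rotv g
  invFun := rotv gᴴ
  map_add' v w := by
    apply mv_inj
    rw [mv_rotv hg, mv_add, mv_add, mv_rotv hg, mv_rotv hg, Matrix.mul_add, Matrix.add_mul]
  map_smul' c v := by
    apply mv_inj
    rw [mv_rotv hg, mv_smul, RingHom.id_apply, mv_smul, mv_rotv hg, Matrix.mul_smul,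
      Matrix.smul_mul]
  left_inv v := by rw [rotv_rotv hg, hg, rotv_one]
  right_inv v := by
    have h : (gᴴ)ᴴ * gᴴ = 1 := by rw [conjTranspose_conjTranspose]; exact mul_ct_of hg
    rw [rotv_rotv h, mul_ct_of hg, rotv_one]
  norm_map' v := by
    have h : ((inner ℝ (rotv g v) (rotv g v) : ℝ) : ℂ) = ((inner ℝ v v : ℝ) : ℂ) := by
      rw [inner_eq_tr, inner_eq_tr, mv_rotv hg]
      congr 1
      rw [show g * mv v * gᴴ * (g * mv v * gᴴ) = g * (mv v * (gᴴ * g) * mv v) * gᴴ by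
        simp only [Matrix.mul_assoc], hg, Matrix.mul_one, trace_mul_comm, ← Matrix.mul_assoc, hg,
        Matrix.one_mul]
    have h' := Complex.ofReal_injective h
    rw [real_inner_self_eq_norm_sq, real_inner_self_eq_norm_sq] at h'
    exact (sq_eq_sq₀ (norm_nonneg _) (norm_nonneg _)).1 h'

/-- the rotation of the sphere -/
noncomputable def rotS (g : Matrix (Fin 2) (Fin 2) ℂ) (hg : gᴴ * g = 1) (x : S2) : S2 :=
  sphMap (rotE g hg) x

lemma coe_rotS (g : Matrix (Fin 2) (Fin 2) ℂ) (hg : gᴴ * g = 1) (x : S2) :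
    ((rotS g hg x : S2) : E3) = rotv g x := rfl

lemma norm_S2 (x : S2) : ‖(x : E3)‖ = 1 := by
  simp

lemma sum_sq_S2 (x : S2) : (x : E3) 0 ^ 2 + (x : E3) 1 ^ 2 + (x : E3) 2 ^ 2 = 1 := by
  have h := norm_S2 x
  have h2 : ‖(x : E3)‖ ^ 2 = 1 := by rw [h]; norm_num
  rw [EuclideanSpace.norm_sq_eq, Fin.sum_univ_three] at h2
  simpa using h2

/-! ## spinors -/

/-- a unit spinor over `x` -/
noncomputable def zs (x : S2) : Fin 2 → ℂ :=
  ![((Real.sqrt ((1 + (x : E3) 2) / 2) : ℝ) : ℂ),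
    if (x : E3) 2 = -1 then 1 else
      (((x : E3) 0 : ℂ) - ((x : E3) 1 : ℂ) * Complex.I) /
        (2 * ((Real.sqrt ((1 + (x : E3) 2) / 2) : ℝ) : ℂ))]

lemma x2_ge (x : S2) : -1 ≤ (x : E3) 2 := by
  nlinarith [sum_sq_S2 x, sq_nonneg ((x : E3) 0), sq_nonneg ((x : E3) 1), sq_nonneg ((x : E3) 2)]


/-- the projection on the spinor line over `x` -/
noncomputable def prj (x : S2) : Matrix (Fin 2) (Fin 2) ℂ := (1 / 2 : ℂ) • (1 + mv (x : E3))

lemma prj_00 (x : S2) : prj x 0 0 = (1 + (((x : E3) 2 : ℝ) : ℂ)) / 2 := by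
  simp [prj, mv]; ring

lemma prj_11 (x : S2) : prj x 1 1 = (1 - (((x : E3) 2 : ℝ) : ℂ)) / 2 := by
  simp [prj, mv]; ring

lemma prj_01 (x : S2) :
    prj x 0 1 = ((((x : E3) 0 : ℝ) : ℂ) + (((x : E3) 1 : ℝ) : ℂ) * Complex.I) / 2 := by
  simp [prj, mv]; ring

lemma prj_10 (x : S2) :
    prj x 1 0 = ((((x : E3) 0 : ℝ) : ℂ) - (((x : E3) 1 : ℝ) : ℂ) * Complex.I) / 2 := by
  simp [prj, mv]; ring

theorem zs_prj (x : S2) : vecMulVec (zs x) (star (zs x)) = prj x := by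
  have hx := sum_sq_S2 x
  have hge := x2_ge x
  obtain ⟨s, hs⟩ : ∃ s : ℝ, s = Real.sqrt ((1 + (x : E3) 2) / 2) := ⟨_, rfl⟩
  have hs2 : s * s = (1 + (x : E3) 2) / 2 := by
    rw [hs]; exact Real.mul_self_sqrt (by linarith)
  have hs2c : (s : ℂ) * s = (1 + (((x : E3) 2 : ℝ) : ℂ)) / 2 := by
    have := congrArg (fun r : ℝ => (r : ℂ)) hs2
    push_cast at this
    exact this
  have hxc : (((x : E3) 0 : ℝ) : ℂ) ^ 2 + (((x : E3) 1 : ℝ) : ℂ) ^ 2 +
      (((x : E3) 2 : ℝ) : ℂ) ^ 2 = 1 := by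
    have := congrArg (fun r : ℝ => (r : ℂ)) hx
    push_cast at this
    exact this
  have z0 : zs x 0 = (s : ℂ) := by simp [zs, hs]
  by_cases h : (x : E3) 2 = -1
  · have h0 : (x : E3) 0 = 0 := by nlinarith [sq_nonneg ((x : E3) 0), sq_nonneg ((x : E3) 1)]
    have h1 : (x : E3) 1 = 0 := by nlinarith [sq_nonneg ((x : E3) 0), sq_nonneg ((x : E3) 1)]
    have s0 : s = 0 := by
      have : s * s = 0 := by rw [hs2, h]; norm_num
      exact mul_self_eq_zero.1 this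
    have z1 : zs x 1 = 1 := by simp [zs, h]
    ext i j
    fin_cases i <;> fin_cases j
    · simp [vecMulVec_apply, z0, prj_00, s0, h]
    · simp [vecMulVec_apply, z0, prj_01, s0, h0, h1]
    · simp [vecMulVec_apply, z0, prj_10, s0, h0, h1]
    · simp [vecMulVec_apply, z1, prj_11, h]
  · have hs0 : s ≠ 0 := by
      intro h0
      rw [h0] at hs2
      apply h
      linarith
    have hsc : (s : ℂ) ≠ 0 := by exact_mod_cast hs0
    have z1 : zs x 1 = ((((x : E3) 0 : ℝ) : ℂ) - (((x : E3) 1 : ℝ) : ℂ) * Complex.I) /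
        (2 * (s : ℂ)) := by simp [zs, h, hs]
    ext i j
    fin_cases i <;> fin_cases j
    · simp only [Fin.zero_eta, vecMulVec_apply, Pi.star_apply, z0, prj_00, Complex.star_def,
        Complex.conj_ofReal]
      exact hs2c
    · simp only [Fin.zero_eta, Fin.mk_one, vecMulVec_apply, Pi.star_apply, z0, z1, prj_01,
        Complex.star_def, map_div₀, map_sub, map_mul, Complex.conj_ofReal, Complex.conj_I,
        map_ofNat]
      field_simp
      ring
    · simp only [Fin.zero_eta, Fin.mk_one, vecMulVec_apply, Pi.star_apply, z0, z1, prj_10,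
        Complex.star_def, Complex.conj_ofReal]
      field_simp
    · simp only [Fin.mk_one, vecMulVec_apply, Pi.star_apply, z1, prj_11,
        Complex.star_def, map_div₀, map_sub, map_mul, Complex.conj_ofReal, Complex.conj_I,
        map_ofNat]
      have e1 : ((((x : E3) 0 : ℝ) : ℂ) - (((x : E3) 1 : ℝ) : ℂ) * Complex.I) *
          ((((x : E3) 0 : ℝ) : ℂ) - (((x : E3) 1 : ℝ) : ℂ) * -Complex.I) =
          (1 - (((x : E3) 2 : ℝ) : ℂ)) * (1 + (((x : E3) 2 : ℝ) : ℂ)) := by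
        linear_combination hxc - ((((x : E3) 1 : ℝ) : ℂ)) ^ 2 * Complex.I_sq
      rw [div_mul_div_comm, e1, show (2 * (s : ℂ)) * (2 * (s : ℂ)) = 4 * (s * s) by ring, hs2c]
      have h1 : (1 + (((x : E3) 2 : ℝ) : ℂ)) ≠ 0 := by
        intro h1
        apply h
        have h2 := congrArg Complex.re h1
        simp only [Complex.add_re, Complex.one_re, Complex.ofReal_re, Complex.zero_re] at h2
        linarith
      field_simp
      ring

lemma zs_norm (x : S2) : star (zs x) ⬝ᵥ zs x = 1 := by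
  have h := congrArg trace (zs_prj x)
  rw [trace_vecMulVec, dotProduct_comm, prj, trace_smul, trace_add, trace_fin_two (mv _),
    mv_trace] at h
  rw [h]
  simp

lemma zs_normSq (x : S2) : conj (zs x 0) * zs x 0 + conj (zs x 1) * zs x 1 = 1 := by
  have := zs_norm x
  simpa [dotProduct, Fin.sum_univ_two] using this


/-- the matrix in `SU(2)` with the given first column -/
noncomputable def su (a b : ℂ) : Matrix (Fin 2) (Fin 2) ℂ := !![a, -conj b; b, conj a]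

lemma su_ct_mul {a b : ℂ} (h : conj a * a + conj b * b = 1) : (su a b)ᴴ * su a b = 1 := by
  ext i j
  fin_cases i <;> fin_cases j <;>
    simp [su, mul_apply, Fin.sum_univ_two, conjTranspose_apply]
  · exact h
  · ring
  · ring
  · linear_combination h



/-- the rotation taking the north pole to `x` -/
noncomputable def gx (x : S2) : Matrix (Fin 2) (Fin 2) ℂ := su (zs x 0) (zs x 1)

lemma gx_ct_mul (x : S2) : (gx x)ᴴ * gx x = 1 := su_ct_mul (zs_normSq x)



lemma prj_rotS (g : Matrix (Fin 2) (Fin 2) ℂ) (hg : gᴴ * g = 1) (x : S2) :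
    prj (rotS g hg x) = g * prj x * gᴴ := by
  rw [prj, coe_rotS, mv_rotv hg, prj, Matrix.mul_smul, Matrix.smul_mul, Matrix.mul_add,
    Matrix.mul_one, Matrix.add_mul, mul_ct_of hg]

lemma vecMulVec_mulVec' (g : Matrix (Fin 2) (Fin 2) ℂ) (ζ : Fin 2 → ℂ) :
    vecMulVec (g *ᵥ ζ) (star (g *ᵥ ζ)) = g * vecMulVec ζ (star ζ) * gᴴ := by
  rw [star_mulVec, mul_vecMulVec, vecMulVec_mul]



/-! ## rotated orbitals -/

/-- the orbital number `k` with centre `x` -/
noncomputable def uu (Q : ℕ) (k : Fin (Q + 1)) (x : S2) : Fin (Q + 1) → ℂ :=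
  fun j => sp Q (gx x) j k






end Crest.Agent.R340.CS809
end

-- ▼ part R340/CS3_809

set_option autoImplicit false

/-!
# Row 340: points `pt g` of the sphere, chordal distance, overlaps (helper809)

* `U2` : the unitary group of `ℂ²`; `pt g : S2` the image of the north pole;
* `dist_pt_sq` : `dist (pt g) (pt h) ^ 2 = 4 * (1 - ‖(gᴴ h)₀₀‖²)`; `dist_eq_of` for points of `S2`;
* `dQ Q g h = √Q * dist (pt g) (pt h)`;
* `K1` : `‖(sp Q (gᴴ h)) k l‖ ≤ 12 exp (-(dQ Q g h)²/16)` for `k, l ≤ 1`.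
-/

namespace Crest.Agent.R340.CS809

open Matrix Finset MeasureTheory Crest.MathPhysics.Laughlin Crest.Agent.R070.RotInv260
open scoped ComplexConjugate

/-- the unitary group of `ℂ²` -/
abbrev U2 : Type := Matrix.unitaryGroup (Fin 2) ℂ

lemma U2_ct_mul (g : U2) : (g : Matrix (Fin 2) (Fin 2) ℂ)ᴴ * (g : Matrix (Fin 2) (Fin 2) ℂ) = 1 :=
  Matrix.UnitaryGroup.star_mul_self g

lemma U2_mul_ct (g : U2) : (g : Matrix (Fin 2) (Fin 2) ℂ) * (g : Matrix (Fin 2) (Fin 2) ℂ)ᴴ = 1 :=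
  mul_ct_of (U2_ct_mul g)

/-- the north pole -/
noncomputable def north : S2 :=
  ⟨!₂[0, 0, 1], by
    rw [mem_sphere_zero_iff_norm, EuclideanSpace.norm_eq, Fin.sum_univ_three]
    simp⟩

/-- the image of the north pole -/
noncomputable def pt (g : U2) : S2 := rotS g (U2_ct_mul g) north

/-- the first column of a matrix -/
def c0 (g : Matrix (Fin 2) (Fin 2) ℂ) : Fin 2 → ℂ := fun i => g i 0

lemma prj_north : prj north = vecMulVec ![1, 0] (star ![1, 0]) := by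
  ext i j
  fin_cases i <;> fin_cases j <;> (simp [prj, mv, north, vecMulVec_apply]; try norm_num)

lemma mulVec_e0 (g : Matrix (Fin 2) (Fin 2) ℂ) : g *ᵥ ![1, 0] = c0 g := by
  ext i
  simp [mulVec, dotProduct, Fin.sum_univ_two, c0]

theorem prj_pt (g : U2) : prj (pt g) = vecMulVec (c0 g) (star (c0 g)) := by
  rw [pt, prj_rotS, prj_north, ← vecMulVec_mulVec', mulVec_e0]

lemma c0_gx (x : S2) : c0 (gx x) = zs x := by
  ext i
  fin_cases i <;> simp [c0, gx, su]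

lemma prj_inj {x y : S2} (h : prj x = prj y) : x = y := by
  apply Subtype.ext
  apply mv_inj
  have h1 : (1 : Matrix (Fin 2) (Fin 2) ℂ) + mv (x : E3) = 1 + mv (y : E3) := by
    have := congrArg (fun M => (2 : ℂ) • M) h
    simpa [prj, smul_smul] using this
  exact add_left_cancel h1

/-- the element of the unitary group attached to a point of the sphere -/
noncomputable def gU (x : S2) : U2 :=
  ⟨gx x, by rw [Matrix.mem_unitaryGroup_iff']; exact gx_ct_mul x⟩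

@[simp] lemma coe_gU (x : S2) : ((gU x : U2) : Matrix (Fin 2) (Fin 2) ℂ) = gx x := rfl

@[simp] theorem pt_gU (x : S2) : pt (gU x) = x := by
  apply prj_inj
  rw [prj_pt, coe_gU, c0_gx, zs_prj]


/-- the rotation of the sphere attached to an element of `U2` -/
noncomputable def ro (g : U2) (x : S2) : S2 := rotS g (U2_ct_mul g) x

lemma prj_ro (g : U2) (x : S2) :
    prj (ro g x) = (g : Matrix (Fin 2) (Fin 2) ℂ) * prj x * (g : Matrix (Fin 2) (Fin 2) ℂ)ᴴ :=
  prj_rotS _ _ _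

theorem pt_mul (g h : U2) : pt (g * h) = ro g (pt h) := by
  apply prj_inj
  rw [prj_pt, prj_ro, prj_pt, ← vecMulVec_mulVec', show c0 ((g * h : U2) : Matrix _ _ ℂ) =
    (g : Matrix (Fin 2) (Fin 2) ℂ) *ᵥ c0 h from ?_]
  ext i
  simp [c0, mul_apply, mulVec, dotProduct]



theorem dist_ro (g : U2) (x y : S2) : dist (ro g x) (ro g y) = dist x y :=
  (rotE (g : Matrix (Fin 2) (Fin 2) ℂ) (U2_ct_mul g)).dist_map x y

/-! ## the chordal distance -/

theorem inner_eq_prj (x y : S2) :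
    ((inner ℝ (x : E3) (y : E3) : ℝ) : ℂ) = 2 * (prj x * prj y).trace - 1 := by
  have h1 : (prj x * prj y).trace = (1 / 4 : ℂ) * (2 + (mv (x : E3) * mv (y : E3)).trace) := by
    rw [prj, prj, Matrix.smul_mul, Matrix.mul_smul, smul_smul, trace_smul, Matrix.add_mul,
      Matrix.one_mul, Matrix.mul_add, Matrix.mul_one, trace_add, trace_add, trace_add, trace_one,
      trace_fin_two (mv (x : E3)), trace_fin_two (mv (y : E3)), mv_trace, mv_trace]
    simp only [smul_eq_mul, Fintype.card_fin]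
    push_cast
    ring
  rw [h1, inner_eq_tr]
  ring

theorem dist_sq_eq (x y : S2) :
    dist x y ^ 2 = 4 * (1 - (prj x * prj y).trace.re) := by
  have h := congrArg Complex.re (inner_eq_prj x y)
  rw [Complex.ofReal_re, Complex.sub_re, Complex.mul_re] at h
  simp only [Complex.re_ofNat, Complex.im_ofNat, zero_mul, sub_zero, Complex.one_re] at h
  rw [Subtype.dist_eq, dist_eq_norm, norm_sub_sq_real, norm_S2, norm_S2, h]
  ring

lemma trace_vv (a b : Fin 2 → ℂ) :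
    (vecMulVec a (star a) * vecMulVec b (star b)).trace = ((‖star a ⬝ᵥ b‖ ^ 2 : ℝ) : ℂ) := by
  rw [vecMulVec_mul_vecMulVec, trace_vecMulVec, dotProduct_smul, smul_eq_mul,
    Complex.ofReal_pow, ← Complex.mul_conj' (star a ⬝ᵥ b), ← Complex.star_def,
    ← star_dotProduct b a, dotProduct_comm a (star b)]

lemma c0_inner (g h : Matrix (Fin 2) (Fin 2) ℂ) : star (c0 g) ⬝ᵥ c0 h = (gᴴ * h) 0 0 := by
  simp [c0, dotProduct, mul_apply, conjTranspose_apply]

/-- squared overlap of the spinors over `pt g`, `pt h` -/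
noncomputable def ov (g h : U2) : ℝ :=
  ‖((g : Matrix (Fin 2) (Fin 2) ℂ)ᴴ * (h : Matrix (Fin 2) (Fin 2) ℂ)) 0 0‖ ^ 2

theorem dist_pt_sq (g h : U2) : dist (pt g) (pt h) ^ 2 = 4 * (1 - ov g h) := by
  rw [dist_sq_eq, prj_pt, prj_pt, trace_vv, Complex.ofReal_re, c0_inner, ov]


lemma dist_pt_mul (k g h : U2) : dist (pt (k * g)) (pt (k * h)) = dist (pt g) (pt h) := by
  rw [pt_mul, pt_mul, dist_ro]

/-- the distance in magnetic lengths -/
noncomputable def dQ (Q : ℕ) (g h : U2) : ℝ := Real.sqrt Q * dist (pt g) (pt h)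

lemma dQ_nonneg (Q : ℕ) (g h : U2) : 0 ≤ dQ Q g h := mul_nonneg (Real.sqrt_nonneg _) dist_nonneg

lemma dQ_comm (Q : ℕ) (g h : U2) : dQ Q g h = dQ Q h g := by rw [dQ, dQ, dist_comm]


lemma dQ_triangle (Q : ℕ) (g h k : U2) : dQ Q g k ≤ dQ Q g h + dQ Q h k := by
  rw [dQ, dQ, dQ, ← mul_add]
  exact mul_le_mul_of_nonneg_left (dist_triangle _ _ _) (Real.sqrt_nonneg _)

lemma dQ_mul (Q : ℕ) (k g h : U2) : dQ Q (k * g) (k * h) = dQ Q g h := by
  rw [dQ, dQ, dist_pt_mul]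

lemma dQ_sq (Q : ℕ) (g h : U2) : dQ Q g h ^ 2 = 4 * (Q * (1 - ov g h)) := by
  rw [dQ, mul_pow, Real.sq_sqrt (Nat.cast_nonneg _), dist_pt_sq]
  ring

/-! ## entries of a unitary 2x2 matrix -/

lemma ent_col0 {h : Matrix (Fin 2) (Fin 2) ℂ} (hh : hᴴ * h = 1) :
    ‖h 0 0‖ ^ 2 + ‖h 1 0‖ ^ 2 = 1 := by
  have := congrFun (congrFun hh 0) 0
  rw [mul_apply, Fin.sum_univ_two, one_apply_eq, conjTranspose_apply, conjTranspose_apply,
    Complex.star_def, Complex.conj_mul', Complex.conj_mul'] at this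
  exact_mod_cast this

lemma ent_col1 {h : Matrix (Fin 2) (Fin 2) ℂ} (hh : hᴴ * h = 1) :
    ‖h 0 1‖ ^ 2 + ‖h 1 1‖ ^ 2 = 1 := by
  have := congrFun (congrFun hh 1) 1
  rw [mul_apply, Fin.sum_univ_two, one_apply_eq, conjTranspose_apply, conjTranspose_apply,
    Complex.star_def, Complex.conj_mul', Complex.conj_mul'] at this
  exact_mod_cast this

lemma ent_row0 {h : Matrix (Fin 2) (Fin 2) ℂ} (hh : hᴴ * h = 1) :
    ‖h 0 0‖ ^ 2 + ‖h 0 1‖ ^ 2 = 1 := by
  have h2 : (hᴴ)ᴴ * hᴴ = 1 := by rw [conjTranspose_conjTranspose]; exact mul_ct_of hh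
  have := ent_col0 h2
  simpa [conjTranspose_apply] using this

lemma ent_10 {h : Matrix (Fin 2) (Fin 2) ℂ} (hh : hᴴ * h = 1) : ‖h 0 1‖ = ‖h 1 0‖ := by
  have h1 := ent_col0 hh
  have h2 := ent_row0 hh
  have : ‖h 0 1‖ ^ 2 = ‖h 1 0‖ ^ 2 := by linarith
  exact (sq_eq_sq₀ (norm_nonneg _) (norm_nonneg _)).1 this

lemma ent_11 {h : Matrix (Fin 2) (Fin 2) ℂ} (hh : hᴴ * h = 1) : ‖h 1 1‖ = ‖h 0 0‖ := by
  have h1 := ent_col1 hh
  have h2 := ent_row0 hh
  have : ‖h 1 1‖ ^ 2 = ‖h 0 0‖ ^ 2 := by linarith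
  exact (sq_eq_sq₀ (norm_nonneg _) (norm_nonneg _)).1 this

lemma rel_unit (g h : U2) :
    ((g : Matrix (Fin 2) (Fin 2) ℂ)ᴴ * (h : Matrix (Fin 2) (Fin 2) ℂ))ᴴ *
      ((g : Matrix (Fin 2) (Fin 2) ℂ)ᴴ * (h : Matrix (Fin 2) (Fin 2) ℂ)) = 1 := by
  rw [conjTranspose_mul, conjTranspose_conjTranspose]
  calc _ = (h : Matrix (Fin 2) (Fin 2) ℂ)ᴴ * ((g : Matrix (Fin 2) (Fin 2) ℂ) *
        (g : Matrix (Fin 2) (Fin 2) ℂ)ᴴ) * (h : Matrix (Fin 2) (Fin 2) ℂ) := by
        simp only [Matrix.mul_assoc]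
    _ = 1 := by rw [U2_mul_ct, Matrix.mul_one, U2_ct_mul]

lemma ov_nonneg (g h : U2) : 0 ≤ ov g h := sq_nonneg _

lemma ov_le_one (g h : U2) : ov g h ≤ 1 := by
  have := ent_col0 (rel_unit g h)
  rw [ov]
  nlinarith [sq_nonneg ‖((g : Matrix (Fin 2) (Fin 2) ℂ)ᴴ * (h : Matrix (Fin 2) (Fin 2) ℂ)) 1 0‖]

/-! ## the entries of `sp` needed for the overlaps -/

lemma norm_sb (Q j : ℕ) : ‖((sb Q j : ℝ) : ℂ)‖ = sb Q j := by
  rw [Complex.norm_real]
  exact Real.norm_of_nonneg (Real.sqrt_nonneg _)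


lemma sp_j_zero (Q : ℕ) (h : Matrix (Fin 2) (Fin 2) ℂ) (j : Fin (Q + 1)) :
    sp Q h j 0 = ((sb Q j : ℝ) : ℂ) * (h 0 0 ^ (Q - (j : ℕ)) * h 1 0 ^ (j : ℕ)) := by
  rw [Rot303.sp_apply_zero]
  rfl

lemma sp_zero_j (Q : ℕ) (h : Matrix (Fin 2) (Fin 2) ℂ) (j : Fin (Q + 1)) :
    sp Q h 0 j = ((sb Q j : ℝ) : ℂ) * (h 0 0 ^ (Q - (j : ℕ)) * h 0 1 ^ (j : ℕ)) := by
  have h1 := sp_j_zero Q hᵀ j
  rw [← Rot303.sp_transpose] at h1
  exact h1

/-- the entry `(1,1)` -/
lemma sp_one_one {Q : ℕ} (h : Matrix (Fin 2) (Fin 2) ℂ) (k l : Fin (Q + 1))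
    (hk : (k : ℕ) = 1) (hl : (l : ℕ) = 1) :
    sp Q h k l = h 0 0 ^ (Q - 1) * h 1 1 +
      ((Q - 1 : ℕ) : ℂ) * h 0 0 ^ (Q - 2) * h 0 1 * h 1 0 := by
  have hkl : k = l := Fin.ext (by rw [hk, hl])
  subst hkl
  have h1 : ∀ n : ℕ, (lf h 0 ^ n).coeff 0 = h 0 0 ^ n := by
    intro n
    rw [Polynomial.coeff_zero_eq_eval_zero, Polynomial.eval_pow]
    simp [lf]
  have h2 : ∀ n : ℕ, (lf h 0 ^ n).coeff 1 = (n : ℂ) * h 0 0 ^ (n - 1) * h 0 1 := by
    intro n
    induction n with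
    | zero => simp [Polynomial.coeff_one]
    | succ n ih =>
      rw [pow_succ, Polynomial.coeff_mul, Finset.Nat.sum_antidiagonal_eq_sum_range_succ_mk,
        sum_range_succ, sum_range_one]
      simp only [Nat.sub_zero, Nat.sub_self]
      rw [h1, ih]
      have e0 : (lf h 0).coeff 0 = h 0 0 := by simp [lf]
      have e1 : (lf h 0).coeff 1 = h 0 1 := by simp [lf, Polynomial.coeff_C]
      rw [e0, e1]
      rcases Nat.eq_zero_or_pos n with rfl | hn
      · simp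
      · have : h 0 0 ^ n = h 0 0 ^ (n - 1) * h 0 0 := by
          rw [← pow_succ, Nat.sub_add_cancel hn]
        simp only [Nat.add_sub_cancel]
        rw [this]
        push_cast
        ring
  simp only [sp, of_apply]
  rw [div_self (sb_ne k), one_mul, rp, hk, pow_one, Polynomial.coeff_mul,
    Finset.Nat.sum_antidiagonal_eq_sum_range_succ_mk, sum_range_succ, sum_range_one]
  simp only [Nat.sub_zero, Nat.sub_self]
  rw [h1, h2]
  have e0 : (lf h 1).coeff 0 = h 1 0 := by simp [lf]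
  have e1 : (lf h 1).coeff 1 = h 1 1 := by simp [lf, Polynomial.coeff_C]
  rw [e0, e1, Nat.sub_sub]

/-! ## Gaussian bounds -/

lemma pow_le_exp {a b : ℝ} (ha : 0 ≤ a) (hab : a ^ 2 + b ^ 2 = 1) (m : ℕ) :
    a ^ m ≤ Real.exp (-(m * b ^ 2 / 2)) := by
  have h1 : a ^ 2 ≤ Real.exp (-b ^ 2) := by
    have := Real.add_one_le_exp (-b ^ 2)
    linarith
  have h2 : a ≤ Real.exp (-b ^ 2 / 2) := by
    have h3 : a ^ 2 ≤ Real.exp (-b ^ 2 / 2) ^ 2 := by
      rw [← Real.exp_nat_mul]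
      convert h1 using 2
      push_cast
      ring
    exact (sq_le_sq₀ ha (Real.exp_pos _).le).1 h3
  calc a ^ m ≤ Real.exp (-b ^ 2 / 2) ^ m := pow_le_pow_left₀ ha h2 m
    _ = Real.exp (-(m * b ^ 2 / 2)) := by
        rw [← Real.exp_nat_mul]
        congr 1
        ring

/-- with a loss of at most two powers -/
lemma pow_le_exp' {a b : ℝ} (ha : 0 ≤ a) (hab : a ^ 2 + b ^ 2 = 1) {Q m : ℕ} (hm : Q ≤ m + 2) :
    a ^ m ≤ 3 * Real.exp (-(Q * b ^ 2 / 2)) := by
  have hb : b ^ 2 ≤ 1 := by nlinarith [sq_nonneg a]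
  have hm' : (Q : ℝ) ≤ m + 2 := by exact_mod_cast hm
  calc a ^ m ≤ Real.exp (-(m * b ^ 2 / 2)) := pow_le_exp ha hab m
    _ ≤ Real.exp (1 + -(Q * b ^ 2 / 2)) := by
        apply Real.exp_le_exp.2
        nlinarith [sq_nonneg b]
    _ = Real.exp 1 * Real.exp (-(Q * b ^ 2 / 2)) := Real.exp_add _ _
    _ ≤ 3 * Real.exp (-(Q * b ^ 2 / 2)) := by
        gcongr
        exact Real.exp_one_lt_d9.le.trans (by norm_num)

lemma one_add_le_exp4 (y : ℝ) : 1 + y ≤ 4 * Real.exp (y / 4) := by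
  have := Real.add_one_le_exp (y / 4)
  linarith

/-- `k, l ≤ 1`: Gaussian bound for the matrix elements -/
theorem norm_sp_le {Q : ℕ} (hQ : 1 ≤ Q) {h : Matrix (Fin 2) (Fin 2) ℂ} (hh : hᴴ * h = 1)
    (k l : Fin (Q + 1)) (hk : (k : ℕ) ≤ 1) (hl : (l : ℕ) ≤ 1) :
    ‖sp Q h k l‖ ≤ 12 * Real.exp (-(Q * ‖h 1 0‖ ^ 2 / 4)) := by
  set a := ‖h 0 0‖ with ha
  set b := ‖h 1 0‖ with hb
  have hab : a ^ 2 + b ^ 2 = 1 := ent_col0 hh
  have ha0 : 0 ≤ a := norm_nonneg _
  have hb0 : 0 ≤ b := norm_nonneg _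
  have h01 : ‖h 0 1‖ = b := ent_10 hh
  have h11 : ‖h 1 1‖ = a := ent_11 hh
  have ha1 : a ≤ 1 := by nlinarith
  set y : ℝ := Q * b ^ 2 with hy
  have hy0 : 0 ≤ y := by positivity
  have hE : Real.exp (-(y / 2)) = Real.exp (-(y / 4)) * Real.exp (-(y / 4)) := by
    rw [← Real.exp_add]; congr 1; ring
  have hE1 : (1 + y) * Real.exp (-(y / 4)) ≤ 4 := by
    calc (1 + y) * Real.exp (-(y / 4)) ≤ 4 * Real.exp (y / 4) * Real.exp (-(y / 4)) :=
          mul_le_mul_of_nonneg_right (one_add_le_exp4 y) (Real.exp_pos _).le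
      _ = 4 := by rw [mul_assoc, ← Real.exp_add]; simp
  -- it suffices to bound by `3 (1+y) exp(-y/2)`
  suffices hs : ‖sp Q h k l‖ ≤ 3 * (1 + y) * Real.exp (-(y / 2)) by
    refine hs.trans ?_
    rw [hE]
    have := mul_le_mul_of_nonneg_right hE1 (Real.exp_pos (-(y / 4))).le
    nlinarith
  have hmain : ∀ m : ℕ, Q ≤ m + 2 → a ^ m ≤ 3 * Real.exp (-(y / 2)) :=
    fun m hm => pow_le_exp' ha0 hab hm
  have hsb1 : sb Q 1 = Real.sqrt Q := by simp [sb]
  have hsq : Real.sqrt Q * b ≤ 1 + y := by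
    have h1 : (Real.sqrt Q * b) ^ 2 = y := by
      rw [mul_pow, Real.sq_sqrt (Nat.cast_nonneg _)]
    nlinarith [sq_nonneg (Real.sqrt Q * b - 1), mul_nonneg (Real.sqrt_nonneg (Q : ℝ)) hb0]
  rcases Nat.le_one_iff_eq_zero_or_eq_one.1 hk with hk0 | hk1
  · have ek : k = 0 := Fin.ext hk0
    rw [ek, sp_zero_j, norm_mul, norm_mul, norm_pow, norm_pow, h01, norm_sb, ← ha]
    rcases Nat.le_one_iff_eq_zero_or_eq_one.1 hl with hl0 | hl1
    · rw [hl0, sb_zero, Nat.sub_zero, pow_zero, mul_one, one_mul]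
      have := hmain Q (by omega)
      nlinarith [mul_nonneg hy0 (Real.exp_pos (-(y / 2))).le]
    · rw [hl1, hsb1, pow_one]
      have := hmain (Q - 1) (by omega)
      calc Real.sqrt Q * (a ^ (Q - 1) * b) = (Real.sqrt Q * b) * a ^ (Q - 1) := by ring
        _ ≤ (1 + y) * (3 * Real.exp (-(y / 2))) :=
            mul_le_mul hsq this (pow_nonneg ha0 _) (by positivity)
        _ = _ := by ring
  · rcases Nat.le_one_iff_eq_zero_or_eq_one.1 hl with hl0 | hl1
    · have el : l = 0 := Fin.ext hl0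
      rw [el, sp_j_zero, norm_mul, norm_mul, norm_pow, norm_pow, norm_sb, ← ha, ← hb, hk1,
        hsb1, pow_one]
      have := hmain (Q - 1) (by omega)
      calc Real.sqrt Q * (a ^ (Q - 1) * b) = (Real.sqrt Q * b) * a ^ (Q - 1) := by ring
        _ ≤ (1 + y) * (3 * Real.exp (-(y / 2))) :=
            mul_le_mul hsq this (pow_nonneg ha0 _) (by positivity)
        _ = _ := by ring
    · rw [sp_one_one h k l hk1 hl1]
      have h1 := hmain (Q - 2) (by omega)
      have h2 : a ^ (Q - 1) * a ≤ a ^ (Q - 2) := by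
        rcases Nat.lt_or_ge Q 2 with hQ2 | hQ2
        · have : Q = 1 := by omega
          rw [this]
          simpa using ha1
        · have e : Q - 1 = (Q - 2) + 1 := by omega
          rw [e, pow_succ, mul_assoc]
          exact mul_le_of_le_one_right (pow_nonneg ha0 _) (by nlinarith)
      calc ‖h 0 0 ^ (Q - 1) * h 1 1 + ((Q - 1 : ℕ) : ℂ) * h 0 0 ^ (Q - 2) * h 0 1 * h 1 0‖
          ≤ ‖h 0 0 ^ (Q - 1) * h 1 1‖ + ‖((Q - 1 : ℕ) : ℂ) * h 0 0 ^ (Q - 2) * h 0 1 * h 1 0‖ :=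
            norm_add_le _ _
        _ = a ^ (Q - 1) * a + ((Q - 1 : ℕ) : ℝ) * a ^ (Q - 2) * b * b := by
            rw [norm_mul, norm_mul, norm_mul, norm_mul, norm_pow, norm_pow, h01, h11,
              Complex.norm_natCast]
        _ ≤ a ^ (Q - 2) + (Q : ℝ) * a ^ (Q - 2) * b * b := by
            have hq : ((Q - 1 : ℕ) : ℝ) ≤ Q := by exact_mod_cast Nat.sub_le Q 1
            gcongr
        _ = (1 + y) * a ^ (Q - 2) := by rw [hy]; ring
        _ ≤ (1 + y) * (3 * Real.exp (-(y / 2))) := by gcongr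
        _ = _ := by ring

/-- (K1) overlaps of the orbitals `0, 1` with different centres -/
theorem K1 {Q : ℕ} (hQ : 1 ≤ Q) (g h : U2) (k l : Fin (Q + 1)) (hk : (k : ℕ) ≤ 1)
    (hl : (l : ℕ) ≤ 1) :
    ‖sp Q ((g : Matrix (Fin 2) (Fin 2) ℂ)ᴴ * h) k l‖ ≤ 12 * Real.exp (-(dQ Q g h ^ 2 / 16)) := by
  refine (norm_sp_le hQ (rel_unit g h) k l hk hl).trans (le_of_eq ?_)
  have h1 := ent_col0 (rel_unit g h)
  have h2 : ‖((g : Matrix (Fin 2) (Fin 2) ℂ)ᴴ * (h : Matrix (Fin 2) (Fin 2) ℂ)) 1 0‖ ^ 2 =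
      1 - ov g h := by rw [ov]; linarith
  rw [h2, dQ_sq]
  congr 2
  ring

end Crest.Agent.R340.CS809
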