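import Crest.Agent.R340.DC0_867

/-!
Quasi-local calculus, part 4 (helper331): the profile class `PC m C X x` and its closure
properties, on an abstract frame `u : Fin 2 → S → V` over a measure space `S` with a distance `d`.
Main results: `PC_O` (quadratic map, same exponent) and `PC_W` (commutators with integrals of
families).
-/

set_option autoImplicit false
set_option linter.unusedSectionVars false

open scoped ENNReal NNReal
open MeasureTheory

namespace Crest.Agent.R340.QL331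

open Crest.Agent.R340.LR667 Crest.Agent.R340.DC867

variable {A V : Type*} [CStarAlgebra A] [NormedAddCommGroup V] [InnerProductSpace ℂ V]
  (R : Car A V) {S : Type*} (u : Fin 2 → S → V) (d : S → S → ℝ)

/-- The profile class: `‖X‖ ≤ C` and all commutators with generators decay like `(1+d)^{-m}`. -/
def PC (m : ℕ) (C : ℝ) (X : A) (x : S) : Prop :=
  ‖X‖ ≤ C ∧ ∀ k w, ‖⁅X, gen R u k w⁆‖ ≤ C / (1 + d w x) ^ m

variable {R u d}

theorem norm_star_lie (X Y : A) : ‖⁅star X, star Y⁆‖ = ‖⁅X, Y⁆‖ := by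
  have e : ⁅star X, star Y⁆ = -star ⁅X, Y⁆ := by
    simp only [Ring.lie_def, star_sub, star_mul]
    abel
  rw [e, norm_neg, norm_star]



theorem norm_star_lie_gen (X : A) (k : Fin 2 × Bool) (w : S) :
    ‖⁅star X, gen R u k w⁆‖ = ‖⁅X, gen R u (k.1, !k.2) w⁆‖ := by
  obtain ⟨k, b⟩ := k
  have h := norm_star_lie X (gen R u (k, !b) w)
  rw [star_gen, Bool.not_not] at h
  exact h

section basic

variable {m : ℕ} {C C' : ℝ} {X Y : A} {x : S}

theorem PC.nonneg (h : PC R u d m C X x) : 0 ≤ C := (norm_nonneg _).trans h.1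

theorem PC.mono (hd : ∀ w, 0 ≤ d w x) (h : PC R u d m C X x) (hC : C ≤ C') :
    PC R u d m C' X x := by
  refine ⟨h.1.trans hC, fun k w => (h.2 k w).trans ?_⟩
  have : 0 < 1 + d w x := by linarith [hd w]
  gcongr

theorem PC.mono_exp {m' : ℕ} (hd : ∀ w, 0 ≤ d w x) (h : PC R u d m C X x) (hm : m' ≤ m) :
    PC R u d m' C X x := by
  refine ⟨h.1, fun k w => (h.2 k w).trans ?_⟩
  have h1 : 1 ≤ 1 + d w x := by linarith [hd w]
  have h2 : (1 + d w x) ^ m' ≤ (1 + d w x) ^ m := pow_le_pow_right₀ h1 hm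
  have h3 := h.nonneg
  gcongr

theorem PC.star (h : PC R u d m C X x) : PC R u d m C (star X) x := by
  refine ⟨by rw [norm_star]; exact h.1, fun k w => ?_⟩
  rw [norm_star_lie_gen]; exact h.2 _ _

theorem PC.add (h : PC R u d m C X x) (h' : PC R u d m C' Y x) :
    PC R u d m (C + C') (X + Y) x := by
  refine ⟨(norm_add_le _ _).trans (add_le_add h.1 h'.1), fun k w => ?_⟩
  rw [add_lie', add_div]
  exact (norm_add_le _ _).trans (add_le_add (h.2 k w) (h'.2 k w))

theorem PC.neg (h : PC R u d m C X x) : PC R u d m C (-X) x := by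
  refine ⟨by rw [norm_neg]; exact h.1, fun k w => ?_⟩
  rw [neg_lie', norm_neg]; exact h.2 k w

theorem PC.sub (h : PC R u d m C X x) (h' : PC R u d m C' Y x) :
    PC R u d m (C + C') (X - Y) x := by
  rw [sub_eq_add_neg]; exact h.add h'.neg

theorem PC.smul (h : PC R u d m C X x) (z : ℂ) : PC R u d m (‖z‖ * C) (z • X) x := by
  refine ⟨by rw [norm_smul]; exact mul_le_mul_of_nonneg_left h.1 (norm_nonneg _), fun k w => ?_⟩
  rw [smul_lie', norm_smul, mul_div_assoc]
  exact mul_le_mul_of_nonneg_left (h.2 k w) (norm_nonneg _)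

theorem PC.one (hd : ∀ w, 0 ≤ d w x) (m : ℕ) : PC R u d m 1 (1 : A) x := by
  refine ⟨?_, fun k w => ?_⟩
  · rcases subsingleton_or_nontrivial A with hA | hA
    · rw [Subsingleton.elim (1 : A) 0, norm_zero]; exact zero_le_one
    · rw [CStarRing.norm_one]
  · have : ⁅(1 : A), gen R u k w⁆ = 0 := by rw [Ring.lie_def]; simp
    rw [this, norm_zero]
    have : 0 < 1 + d w x := by linarith [hd w]
    positivity

theorem lie_mul_left (X Y Z : A) : ⁅X * Y, Z⁆ = X * ⁅Y, Z⁆ + ⁅X, Z⁆ * Y := by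
  simp only [Ring.lie_def, mul_sub, sub_mul, mul_assoc]; abel


theorem norm_lie_mul_left (X Y Z : A) : ‖⁅X * Y, Z⁆‖ ≤ ‖X‖ * ‖⁅Y, Z⁆‖ + ‖⁅X, Z⁆‖ * ‖Y‖ := by
  rw [lie_mul_left]
  exact (norm_add_le _ _).trans (add_le_add (norm_mul_le _ _) (norm_mul_le _ _))


theorem PC.mul (hd : ∀ w, 0 ≤ d w x) (h : PC R u d m C X x) (h' : PC R u d m C' Y x) :
    PC R u d m (2 * (C * C')) (X * Y) x := by
  have hC := h.nonneg
  have hC' := h'.nonneg
  refine ⟨?_, fun k w => ?_⟩
  · calc ‖X * Y‖ ≤ ‖X‖ * ‖Y‖ := norm_mul_le _ _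
      _ ≤ C * C' := mul_le_mul h.1 h'.1 (norm_nonneg _) hC
      _ ≤ 2 * (C * C') := by nlinarith [mul_nonneg hC hC']
  · have hp : 0 < (1 + d w x) ^ m := by have := hd w; positivity
    calc ‖⁅X * Y, gen R u k w⁆‖ ≤ ‖X‖ * ‖⁅Y, gen R u k w⁆‖ + ‖⁅X, gen R u k w⁆‖ * ‖Y‖ :=
          norm_lie_mul_left _ _ _
      _ ≤ C * (C' / (1 + d w x) ^ m) + C / (1 + d w x) ^ m * C' := by
          gcongr
          · exact h.1
          · exact h'.2 k w
          · exact h.2 k w
          · exact h'.1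
      _ = 2 * (C * C') / (1 + d w x) ^ m := by ring


end basic

/-! ### Commutators with the pair annihilators -/

section pair

variable {m : ℕ} {C C' : ℝ} {X Y : A} {x : S}




/-- the overlap kernel -/
noncomputable def kp (u : Fin 2 → S → V) (y w : S) : ℝ :=
  ∑ k : Fin 2, (‖(inner ℂ (u k w) (u 0 y) : ℂ)‖ + ‖(inner ℂ (u k w) (u 1 y) : ℂ)‖)


theorem le_kp (k : Fin 2) (y w : S) :
    ‖(inner ℂ (u k w) (u 0 y) : ℂ)‖ + ‖(inner ℂ (u k w) (u 1 y) : ℂ)‖ ≤ kp u y w := by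
  unfold kp
  exact Finset.single_le_sum (f := fun k : Fin 2 =>
    ‖(inner ℂ (u k w) (u 0 y) : ℂ)‖ + ‖(inner ℂ (u k w) (u 1 y) : ℂ)‖)
    (fun _ _ => by positivity) (Finset.mem_univ k)







end pair

/-! ### The quadratic map -/

section quadratic

variable [MeasurableSpace S] {ν : Measure S}

/-- Schur hypotheses for the frame -/
structure Schur (ν : Measure S) (u : Fin 2 → S → V) (d : S → S → ℝ) (Cs : ℝ) (K : ℕ → ℝ) :
    Prop where
  u_le : ∀ k z, ‖u k z‖ ≤ 1
  d_nonneg : ∀ x y, 0 ≤ d x y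
  d_symm : ∀ x y, d x y = d y x
  d_tri : ∀ x y z, d x z ≤ d x y + d y z
  Cs_nonneg : 0 ≤ Cs
  K_nonneg : ∀ a, 0 ≤ K a
  int3 : ∀ x, Integrable (fun y => 1 / (1 + d x y) ^ 3) ν ∧ ∫ y, 1 / (1 + d x y) ^ 3 ∂ν ≤ Cs
  kp_le : ∀ (a : ℕ) y w, kp u y w ≤ K a / (1 + d y w) ^ a

variable {Cs : ℝ} {K : ℕ → ℝ}

theorem Schur.one_le (hS : Schur ν u d Cs K) (x y : S) : 1 ≤ 1 + d x y := by
  linarith [hS.d_nonneg x y]

theorem Schur.pos (hS : Schur ν u d Cs K) (x y : S) : 0 < 1 + d x y := by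
  linarith [hS.d_nonneg x y]

theorem Schur.mul_tri (hS : Schur ν u d Cs K) (x y z : S) :
    1 + d x z ≤ (1 + d x y) * (1 + d y z) := by
  nlinarith [hS.d_tri x y z, hS.d_nonneg x y, hS.d_nonneg y z,
    mul_nonneg (hS.d_nonneg x y) (hS.d_nonneg y z)]









/-- integrals over a label at a fixed centre -/
theorem PC_integral {T' : Type*} [MeasurableSpace T'] {μ : Measure T'} {m : ℕ} {x : S}
    {Y : T' → A} {c : T' → ℝ} (hd : ∀ w, 0 ≤ d w x) (hc : Integrable c μ)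
    (h : ∀ t, PC R u d m (c t) (Y t) x) : PC R u d m (∫ t, c t ∂μ) (∫ t, Y t ∂μ) x := by
  have hc0 : ∀ t, 0 ≤ c t := fun t => (h t).nonneg
  refine ⟨norm_integral_le_of_norm_le hc (Filter.Eventually.of_forall fun t => (h t).1),
    fun k w => ?_⟩
  have pw : 0 < 1 + d w x := by linarith [hd w]
  by_cases hi : Integrable Y μ
  · rw [integral_lie μ hi]
    calc ‖∫ t, ⁅Y t, gen R u k w⁆ ∂μ‖ ≤ ∫ t, c t / (1 + d w x) ^ m ∂μ :=
          norm_integral_le_of_norm_le (hc.div_const _)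
            (Filter.Eventually.of_forall fun t => (h t).2 k w)
      _ = _ := integral_div _ _
  · rw [integral_undef hi]
    have : ⁅(0 : A), gen R u k w⁆ = 0 := by rw [Ring.lie_def]; simp
    rw [this, norm_zero]
    have : 0 ≤ ∫ t, c t ∂μ := integral_nonneg hc0
    positivity




end quadratic

end Crest.Agent.R340.QL331
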