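import Crest.Agent.R340.QL3_331
import Crest.Agent.R340.QL4_331
import Crest.Agent.R340.CS3_809
import Crest.Agent.R340.Rot3_303

/-!
Frame instance (helper331), part 1: the orthonormal frames `fb Q g` on the one-particle space,
the localised vectors `uf Q k g`, overlaps, continuity, kernel bounds.
-/

set_option autoImplicit false
set_option linter.unusedSectionVars false

namespace Crest.Agent.R340.FI331

open Matrix Crest.Agent.R340.CS809 Crest.Agent.R340.Fock649 Crest.Agent.R340.Gam303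
  Crest.Agent.R340.Rot303 Crest.Agent.R340.QL331

/-- rotated orbital `j` -/
noncomputable def vec (Q : ℕ) (g : Matrix (Fin 2) (Fin 2) ℂ) (j : Fin (Q + 1)) : L (Fin (Q + 1)) :=
  mv (sp Q g) (e j)

theorem vec_apply (Q : ℕ) (g : Matrix (Fin 2) (Fin 2) ℂ) (i j : Fin (Q + 1)) :
    vec Q g j i = sp Q g i j := mv_e _ _ _

theorem inner_vec (Q : ℕ) (g h : Matrix (Fin 2) (Fin 2) ℂ) (j k : Fin (Q + 1)) :
    (inner ℂ (vec Q g j) (vec Q h k) : ℂ) = sp Q (gᴴ * h) j k := by
  rw [inner_eq_sum, sp_mul, Matrix.mul_apply]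
  refine Finset.sum_congr rfl fun i _ => ?_
  rw [vec_apply, vec_apply, ← sp_conjTranspose, Matrix.conjTranspose_apply]
  rfl

theorem vec_orthonormal (Q : ℕ) (g : U2) :
    Orthonormal ℂ fun j => vec Q (g : Matrix (Fin 2) (Fin 2) ℂ) j := by
  rw [orthonormal_iff_ite]
  intro i j
  rw [inner_vec, U2_ct_mul, sp_one, Matrix.one_apply]

/-- the frame of orbitals about `g` -/
noncomputable def fb (Q : ℕ) (g : U2) : OrthonormalBasis (Fin (Q + 1)) ℂ (L (Fin (Q + 1))) :=
  OrthonormalBasis.mk (vec_orthonormal Q g) (by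
    have hli := (vec_orthonormal Q g).linearIndependent
    have hc : Fintype.card (Fin (Q + 1)) = Module.finrank ℂ (L (Fin (Q + 1))) := by
      rw [finrank_euclideanSpace]
    have := (basisOfLinearIndependentOfCardEqFinrank hli hc).span_eq
    rw [coe_basisOfLinearIndependentOfCardEqFinrank] at this
    rw [this])

theorem fb_apply (Q : ℕ) (g : U2) (j : Fin (Q + 1)) : fb Q g j = vec Q g j := by
  unfold fb; rw [OrthonormalBasis.coe_mk]

/-- index `k ∈ {0,1}` as an orbital -/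
def idx (Q : ℕ) (k : Fin 2) : Fin (Q + 1) := ⟨min k Q, by omega⟩

theorem idx_le (Q : ℕ) (k : Fin 2) : ((idx Q k : Fin (Q + 1)) : ℕ) ≤ 1 := by
  have := k.2
  simp only [idx]; omega

theorem idx_val {Q : ℕ} (hQ : 1 ≤ Q) (k : Fin 2) : ((idx Q k : Fin (Q + 1)) : ℕ) = k := by
  have := k.2
  simp only [idx]; omega

/-- localised one-particle vectors -/
noncomputable def uf (Q : ℕ) (k : Fin 2) (g : U2) : L (Fin (Q + 1)) := vec Q g (idx Q k)

theorem uf_eq (Q : ℕ) (k : Fin 2) (g : U2) : uf Q k g = fb Q g (idx Q k) := (fb_apply _ _ _).symm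

theorem norm_uf (Q : ℕ) (k : Fin 2) (g : U2) : ‖uf Q k g‖ = 1 := (vec_orthonormal Q g).1 _


theorem continuous_vec (Q : ℕ) (j : Fin (Q + 1)) :
    Continuous fun g : Matrix (Fin 2) (Fin 2) ℂ => vec Q g j :=
  (continuous_mv_left (e j)).comp (continuous_sp Q)

theorem continuous_uf (Q : ℕ) (k : Fin 2) : Continuous (uf Q k) :=
  (continuous_vec Q _).comp continuous_subtype_val

theorem norm_inner_uf_le {Q : ℕ} (hQ : 1 ≤ Q) (k l : Fin 2) (g h : U2) :
    ‖(inner ℂ (uf Q k g) (uf Q l h) : ℂ)‖ ≤ 12 * Real.exp (-(dQ Q g h ^ 2 / 16)) := by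
  unfold uf
  rw [inner_vec]
  exact K1 hQ g h _ _ (idx_le Q k) (idx_le Q l)

theorem kp_uf_le {Q : ℕ} (hQ : 1 ≤ Q) (g h : U2) :
    QL331.kp (uf Q) g h ≤ 48 * Real.exp (-(dQ Q g h ^ 2 / 16)) := by
  unfold QL331.kp
  have h1 : ∀ k l : Fin 2, ‖(inner ℂ (uf Q k h) (uf Q l g) : ℂ)‖ ≤
      12 * Real.exp (-(dQ Q g h ^ 2 / 16)) := by
    intro k l
    rw [dQ_comm Q g h]
    exact norm_inner_uf_le hQ k l h g
  rw [Fin.sum_univ_two]
  have a1 := h1 0 0
  have a2 := h1 0 1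
  have a3 := h1 1 0
  have a4 := h1 1 1
  linarith

/-- Gaussians beat polynomials -/
theorem gauss_poly (a : ℕ) : ∃ K : ℝ, 0 ≤ K ∧ ∀ t : ℝ, 0 ≤ t →
    48 * Real.exp (-(t ^ 2 / 16)) ≤ K / (1 + t) ^ a := by
  refine ⟨48 * Real.exp 5 * (a.factorial : ℝ), by positivity, fun t ht => ?_⟩
  rw [le_div_iff₀ (by positivity)]
  have h1 : (1 + t) ^ a / (a.factorial : ℝ) ≤ Real.exp (1 + t) :=
    Real.pow_div_factorial_le_exp (1 + t) (by positivity) a
  have h2 : (1 + t) ^ a ≤ Real.exp (1 + t) * (a.factorial : ℝ) := by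
    rwa [div_le_iff₀ (by positivity)] at h1
  calc 48 * Real.exp (-(t ^ 2 / 16)) * (1 + t) ^ a
      ≤ 48 * Real.exp (-(t ^ 2 / 16)) * (Real.exp (1 + t) * (a.factorial : ℝ)) := by gcongr
    _ = 48 * (Real.exp (-(t ^ 2 / 16)) * Real.exp (1 + t)) * (a.factorial : ℝ) := by ring
    _ = 48 * Real.exp (-(t ^ 2 / 16) + (1 + t)) * (a.factorial : ℝ) := by rw [← Real.exp_add]
    _ ≤ 48 * Real.exp 5 * (a.factorial : ℝ) := by
        gcongr
        nlinarith [sq_nonneg (t / 4 - 2)]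


theorem continuous_ov : Continuous fun p : U2 × U2 => ov p.1 p.2 := by
  unfold ov
  have h1 : Continuous fun p : U2 × U2 =>
      ((p.1 : Matrix (Fin 2) (Fin 2) ℂ)ᴴ * (p.2 : Matrix (Fin 2) (Fin 2) ℂ)) := by
    exact (Continuous.matrix_conjTranspose (continuous_subtype_val.comp continuous_fst)).matrix_mul
      (continuous_subtype_val.comp continuous_snd)
  exact ((h1.matrix_elem 0 0).norm).pow 2

theorem dQ_eq (Q : ℕ) (g h : U2) : dQ Q g h = Real.sqrt (4 * (Q * (1 - ov g h))) := by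
  rw [← dQ_sq, Real.sqrt_sq (dQ_nonneg Q g h)]

theorem continuous_dQ (Q : ℕ) : Continuous fun p : U2 × U2 => dQ Q p.1 p.2 := by
  simp only [dQ_eq]
  exact (continuous_const.mul (continuous_const.mul (continuous_const.sub continuous_ov))).sqrt

end Crest.Agent.R340.FI331
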