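import Crest.Agent.R340.LocT4_163
import Crest.Agent.R340.FI1_331
import Crest.Agent.R340.QL4_331

/-!
# R340 (helper120): BBP, commutators of an operator with a decaying profile with the pair
annihilators `bT t Q z` of geometry `t`, uniformly in `Q`, `t`.
-/

set_option autoImplicit false

open MeasureTheory
open scoped ENNReal Matrix

namespace Crest.Agent.R340.BBP120

open Crest.Agent.R340.Fock649 Crest.Agent.R340.LR667 Crest.Agent.R340.CS809
open Crest.Agent.R340.Avg814 Crest.Agent.R340.Rot303 Crest.Agent.R340.LocT163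
open Crest.Agent.R340.QL331 (fcar fcar_an fcar_cr PC)
open Crest.Agent.R340.PV341 (Adm)

theorem uf_eq_uF {Q : ℕ} (hQ : 1 ≤ Q) (k : Fin 2) (g : U2) : FI331.uf Q k g = uF Q k g := by
  ext j
  rw [uF_apply hQ, FI331.uf, FI331.vec_apply]
  congr 1
  apply Fin.ext
  rw [FI331.idx_val hQ]
  rfl

theorem uf_eq_uF' {Q : ℕ} (hQ : 1 ≤ Q) : FI331.uf Q = uF Q := by
  funext k g; exact uf_eq_uF hQ k g

theorem one_add_pow_le (n : ℕ) {x : ℝ} (hx : 0 ≤ x) :
    (1 + x) ^ n ≤ (n.factorial : ℝ) * Real.exp 1 * Real.exp x := by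
  have h := Real.pow_div_factorial_le_exp (1 + x) (by linarith) n
  rw [div_le_iff₀ (by positivity), Real.exp_add] at h
  linarith

/-- constant of `bbp` -/
noncomputable def KB (n : ℕ) : ℝ := (n.factorial : ℝ) * Real.exp 1 * vB 1

theorem KB_nonneg (n : ℕ) : 0 ≤ KB n := by
  have := vB_nonneg 1
  have := (Real.exp_pos 1).le
  unfold KB
  positivity

theorem inv_pow_le (n Q : ℕ) (g z y : U2) : ((1 + dQ Q g y) ^ n)⁻¹ ≤
    (n.factorial : ℝ) * Real.exp 1 * Real.exp (1 * dQ Q z y) * ((1 + dQ Q g z) ^ n)⁻¹ := by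
  have a := dQ_nonneg Q g y
  have b := dQ_nonneg Q g z
  have c := dQ_nonneg Q z y
  have h1 : (1 + dQ Q g z) ^ n ≤ (1 + dQ Q g y) ^ n * (1 + dQ Q z y) ^ n := by
    rw [← mul_pow]
    refine pow_le_pow_left₀ (by linarith) ?_ n
    have h2 := dQ_triangle Q g y z
    rw [dQ_comm Q y z] at h2
    nlinarith [mul_nonneg a c]
  have h2 := one_add_pow_le n c
  rw [one_mul]
  have p1 : 0 < (1 + dQ Q g y) ^ n := by positivity
  have p2 : 0 < (1 + dQ Q g z) ^ n := by positivity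
  rw [← div_eq_mul_inv, le_div_iff₀ p2, inv_mul_le_iff₀ p1]
  calc (1 + dQ Q g z) ^ n ≤ (1 + dQ Q g y) ^ n * (1 + dQ Q z y) ^ n := h1
    _ ≤ (1 + dQ Q g y) ^ n * ((n.factorial : ℝ) * Real.exp 1 * Real.exp (dQ Q z y)) := by gcongr

theorem prof_le {n Q : ℕ} {g : U2} {X : Op (Fin (Q + 1))} {C : ℝ}
    (hX : ∀ k w, ‖⁅X, DC867.gen fcar (uF Q) k w⁆‖ ≤ C / (1 + dQ Q g w) ^ n) (y : U2) :
    prof (DC867.gen fcar (uF Q)) X y ≤ ENNReal.ofReal (C / (1 + dQ Q g y) ^ n) := by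
  refine iSup_le fun k => ?_
  rw [← ofReal_norm]
  exact ENNReal.ofReal_le_ofReal (hX k y)

theorem lintegral_le {n Q : ℕ} (hQ : 1 ≤ Q) {t : Fin 3 → ℝ} (ht : Adm t) {g : U2}
    {X : Op (Fin (Q + 1))} {C : ℝ}
    (hX : ∀ k w, ‖⁅X, DC867.gen fcar (uF Q) k w⁆‖ ≤ C / (1 + dQ Q g w) ^ n) (z : U2) :
    ∫⁻ y, kB t Q z y * prof (DC867.gen fcar (uF Q)) X y ∂(muQ Q) ≤
      ENNReal.ofReal (KB n * C / (1 + dQ Q g z) ^ n) := by
  have hC : 0 ≤ C := by
    have h := (norm_nonneg _).trans (hX (0, false) g)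
    have hp : 0 < (1 + dQ Q g g) ^ n := by have := dQ_nonneg Q g g; positivity
    have := mul_nonneg h hp.le
    rwa [div_mul_cancel₀ _ hp.ne'] at this
  set A : ℝ := C * ((n.factorial : ℝ) * Real.exp 1) * ((1 + dQ Q g z) ^ n)⁻¹ with hA
  have hA0 : 0 ≤ A := by
    have := dQ_nonneg Q g z
    have := (Real.exp_pos 1).le
    rw [hA]; positivity
  have h1 : ∀ y, kB t Q z y * prof (DC867.gen fcar (uF Q)) X y ≤
      ENNReal.ofReal A * (kB t Q z y * ENNReal.ofReal (Real.exp (1 * dQ Q z y))) := by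
    intro y
    have h2 : prof (DC867.gen fcar (uF Q)) X y ≤
        ENNReal.ofReal A * ENNReal.ofReal (Real.exp (1 * dQ Q z y)) := by
      refine (prof_le hX y).trans ?_
      rw [← ENNReal.ofReal_mul hA0]
      apply ENNReal.ofReal_le_ofReal
      have h3 := mul_le_mul_of_nonneg_left (inv_pow_le n Q g z y) hC
      rw [div_eq_mul_inv, hA]
      refine h3.trans (le_of_eq ?_)
      ring
    calc kB t Q z y * prof (DC867.gen fcar (uF Q)) X y
        ≤ kB t Q z y * (ENNReal.ofReal A * ENNReal.ofReal (Real.exp (1 * dQ Q z y))) := by gcongr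
      _ = _ := by ring
  refine (lintegral_mono h1).trans ?_
  rw [lintegral_const_mul' _ _ ENNReal.ofReal_ne_top]
  calc ENNReal.ofReal A * ∫⁻ y, kB t Q z y * ENNReal.ofReal (Real.exp (1 * dQ Q z y)) ∂(muQ Q)
      ≤ ENNReal.ofReal A * ENNReal.ofReal (vB 1) := by
        gcongr
        exact schur_kB zero_le_one hQ ht z
    _ = ENNReal.ofReal (KB n * C / (1 + dQ Q g z) ^ n) := by
        rw [← ENNReal.ofReal_mul hA0]
        congr 1
        rw [hA, KB, div_eq_mul_inv]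
        ring

theorem norm_le_of_enorm {Q : ℕ} {Y : Op (Fin (Q + 1))} {r : ℝ} (hr : 0 ≤ r)
    (h : ‖Y‖ₑ ≤ ENNReal.ofReal r) : ‖Y‖ ≤ r := by
  rw [← ofReal_norm] at h
  exact (ENNReal.ofReal_le_ofReal_iff hr).1 h

/-- **BBP**: an operator with profile of order `n` about `g` has commutators of the same order with
the pair annihilators of geometry `t` and their adjoints; the constant depends on `n` only. -/
theorem bbp (n : ℕ) {Q : ℕ} (hQ : 1 ≤ Q) {t : Fin 3 → ℝ} (ht : Adm t) {g : U2}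
    {X : Op (Fin (Q + 1))} {C : ℝ}
    (hX : ∀ k w, ‖⁅X, DC867.gen fcar (uF Q) k w⁆‖ ≤ C / (1 + dQ Q g w) ^ n) (z : U2) :
    ‖⁅X, bT t Q z⁆‖ ≤ KB n * C / (1 + dQ Q g z) ^ n ∧
      ‖⁅X, star (bT t Q z)⁆‖ ≤ KB n * C / (1 + dQ Q g z) ^ n := by
  have hC : 0 ≤ C := by
    have h := (norm_nonneg _).trans (hX (0, false) g)
    have hp : 0 < (1 + dQ Q g g) ^ n := by have := dQ_nonneg Q g g; positivity
    have := mul_nonneg h hp.le
    rwa [div_mul_cancel₀ _ hp.ne'] at this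
  have hr : 0 ≤ KB n * C / (1 + dQ Q g z) ^ n := by
    have := dQ_nonneg Q g z
    have := KB_nonneg n
    positivity
  obtain ⟨h1, h2⟩ := lie_bT_le hQ ht X z
  have h3 := lintegral_le hQ ht hX z
  exact ⟨norm_le_of_enorm hr (h1.trans h3), norm_le_of_enorm hr (h2.trans h3)⟩

/-- **BBP** for the class `PC` of `QL4_331` (frame `FI331.uf`) -/
theorem bbp_PC (n : ℕ) {Q : ℕ} (hQ : 1 ≤ Q) {t : Fin 3 → ℝ} (ht : Adm t) {g : U2}
    {X : Op (Fin (Q + 1))} {C : ℝ} (hX : PC fcar (FI331.uf Q) (dQ Q) n C X g) (z : U2) :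
    ‖⁅X, bT t Q z⁆‖ ≤ KB n * C / (1 + dQ Q g z) ^ n ∧
      ‖⁅X, star (bT t Q z)⁆‖ ≤ KB n * C / (1 + dQ Q g z) ^ n := by
  refine bbp n hQ ht (fun k w => ?_) z
  have h := hX.2 k w
  rw [uf_eq_uF' hQ, dQ_comm] at h
  exact h


end Crest.Agent.R340.BBP120
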