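import Crest.Agent.R340.GapLaughlin
import Crest.Agent.R340.Bridge_649

/-!
# Antisymmetric functions versus Fock space (helper649, R340), part 2: the Laughlin Hamiltonian
-/

set_option autoImplicit false
set_option linter.unusedSectionVars false

namespace Crest.Agent.R340.Bridge649

open Finset Crest.Agent.R340.Fock649 Crest.MathPhysics.Laughlin

/-- pair matrix of `pairVec` -/
noncomputable def wM (Q : ℕ) (p : Fin (2 * Q - 1)) : Matrix (Fin (Q + 1)) (Fin (Q + 1)) ℂ :=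
  Matrix.of fun i j => (pairVec Q p i j : ℂ)

theorem wM_apply (Q : ℕ) (p : Fin (2 * Q - 1)) (i j : Fin (Q + 1)) :
    wM Q p i j = (pairVec Q p i j : ℂ) := rfl

/-- the pair annihilators -/
noncomputable def Bp (Q : ℕ) (p : Fin (2 * Q - 1)) : Op (Fin (Q + 1)) := pa (wM Q p)

/-- the Hamiltonian on Fock space -/
noncomputable def HH (Q : ℕ) : Op (Fin (Q + 1)) := ∑ p, star (Bp Q p) * Bp Q p



theorem HH_ap (Q : ℕ) (v : Fk (Fin (Q + 1))) : HH Q v = ∑ p, star (Bp Q p) (Bp Q p v) := by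
  unfold HH
  rw [sum_ap]
  rfl

theorem inner_HH (Q : ℕ) (v w : Fk (Fin (Q + 1))) :
    inner ℂ v (HH Q w) = ∑ p, inner ℂ (Bp Q p v) (Bp Q p w) := by
  rw [HH_ap, inner_sum]
  refine Finset.sum_congr rfl fun p _ => ?_
  rw [inner_star_right]



theorem Nh_comm_pa {ι : Type*} [LinearOrder ι] [Fintype ι] (w : Matrix ι ι ℂ) :
    Nh * pa w - pa w * Nh = - ((2 : ℂ) • pa w) := by
  unfold Nh
  rw [dG_comm_pa]
  congr 1
  have h1 : (1 : Matrix ι ι ℂ).map (starRingEnd ℂ) = 1 := by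
    ext i j
    by_cases h : i = j <;> simp [Matrix.one_apply, h]
  rw [Matrix.conjTranspose_one, one_mul, h1, mul_one, ← two_smul ℂ w, pa_smul, map_ofNat]

theorem Nh_selfAdjoint {ι : Type*} [LinearOrder ι] [Fintype ι] : star (Nh : Op ι) = Nh := by
  unfold Nh
  rw [star_dG, Matrix.conjTranspose_one]

theorem Nh_comm_HH (Q : ℕ) : Nh * HH Q = HH Q * Nh := by
  unfold HH
  rw [Finset.mul_sum, Finset.sum_mul]
  refine Finset.sum_congr rfl fun p _ => ?_
  have h1 : Nh * Bp Q p = Bp Q p * Nh - (2 : ℂ) • Bp Q p := by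
    have := Nh_comm_pa (wM Q p)
    unfold Bp
    rw [sub_eq_iff_eq_add] at this
    rw [this]; abel
  have h2 : Nh * star (Bp Q p) = star (Bp Q p) * Nh + (2 : ℂ) • star (Bp Q p) := by
    have h3 := congrArg star h1
    rw [star_mul, star_sub, star_mul, star_smul, Nh_selfAdjoint] at h3
    rw [h3]
    simp
  rw [← mul_assoc, h2, add_mul, mul_assoc, h1, mul_sub, smul_mul_assoc, mul_smul_comm]
  simp only [mul_assoc]
  abel

theorem HH_mem_sector {Q N : ℕ} {v : Fk (Fin (Q + 1))} (hv : v ∈ sector (Fin (Q + 1)) N) :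
    HH Q v ∈ sector (Fin (Q + 1)) N := by
  rw [mem_sector] at *
  rw [← mul_ap, Nh_comm_HH, mul_ap, hv, map_smul]


/-! ### interaction -/

theorem AS_iff {q N : ℕ} {ψ : (Fin N → Fin (q + 1)) → ℂ} : AS ψ ↔ IsAntisymmetric ψ := Iff.rfl

theorem amp_zero_one {q N : ℕ} (p : Fin (2 * q - 1)) (ψ : (Fin (N + 2) → Fin (q + 1)) → ℂ)
    (m : Fin (N + 2) → Fin (q + 1)) :
    amp 0 1 p ψ m = ctr (wM q p) ψ (Fin.tail (Fin.tail m)) := by
  unfold amp ctr
  refine Finset.sum_congr rfl fun i _ => Finset.sum_congr rfl fun j _ => ?_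
  have h1 : upd2 m 0 1 i j =
      (Fin.cons i (Fin.cons j (Fin.tail (Fin.tail m)) : Fin (N + 1) → Fin (q + 1)) :
        Fin (N + 2) → Fin (q + 1)) := by
    funext k
    refine Fin.cases ?_ (fun k => ?_) k
    · rw [upd2_left (by simp)]; simp
    · refine Fin.cases ?_ (fun k => ?_) k
      · have : (Fin.succ (0 : Fin (N + 1))) = 1 := rfl
        rw [this, upd2_right]; rfl
      · rw [upd2_of_ne]
        · rfl
        · simp [Fin.ext_iff]
        · simp [Fin.ext_iff]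
  rw [h1, wM_apply, Complex.conj_ofReal]

theorem exists_perm {N : ℕ} {a b : Fin (N + 2)} (h : a ≠ b) :
    ∃ π : Equiv.Perm (Fin (N + 2)), π 0 = a ∧ π 1 = b := by
  set σ1 : Equiv.Perm (Fin (N + 2)) := Equiv.swap 0 a with hσ1
  have h1 : σ1 0 = a := Equiv.swap_apply_left _ _
  have h2 : σ1 1 ≠ a := by
    intro h3
    have h4 : σ1 1 = σ1 0 := by rw [h3, h1]
    have h5 : (1 : Fin (N + 2)) = 0 := σ1.injective h4
    simp at h5
  refine ⟨Equiv.swap (σ1 1) b * σ1, ?_, ?_⟩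
  · rw [Equiv.Perm.mul_apply, h1, Equiv.swap_apply_of_ne_of_ne (Ne.symm h2) h]
  · rw [Equiv.Perm.mul_apply, Equiv.swap_apply_left]

theorem sum_amp_zero_one {q N : ℕ} (p : Fin (2 * q - 1))
    (χ ψ : (Fin (N + 2) → Fin (q + 1)) → ℂ) :
    ∑ m, star (amp 0 1 p χ m) * amp 0 1 p ψ m =
      ((q : ℂ) + 1) ^ 2 * (star (ctr (wM q p) χ) ⬝ᵥ ctr (wM q p) ψ) := by
  simp only [amp_zero_one]
  rw [sum_cons]
  simp only [Fin.tail_cons]
  rw [Finset.sum_const, Finset.card_univ, Fintype.card_fin, sum_cons]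
  simp only [Fin.tail_cons]
  rw [Finset.sum_const, Finset.card_univ, Fintype.card_fin]
  unfold dotProduct
  simp only [nsmul_eq_mul, Pi.star_apply]
  push_cast
  ring

theorem sum_amp {q N : ℕ} (p : Fin (2 * q - 1))
    {χ ψ : (Fin (N + 2) → Fin (q + 1)) → ℂ} (hχ : AS χ) (hψ : AS ψ) {a b : Fin (N + 2)}
    (hab : a ≠ b) :
    ∑ m, star (amp a b p χ m) * amp a b p ψ m =
      ((q : ℂ) + 1) ^ 2 * (star (ctr (wM q p) χ) ⬝ᵥ ctr (wM q p) ψ) := by
  obtain ⟨π, h0, h1⟩ := exists_perm hab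
  rw [← sum_amp_zero_one]
  rw [← (Equiv.arrowCongr π.symm (Equiv.refl (Fin (q + 1)))).sum_comp
    (fun m => star (amp 0 1 p χ m) * amp 0 1 p ψ m)]
  refine Finset.sum_congr rfl fun m _ => ?_
  have e : (Equiv.arrowCongr π.symm (Equiv.refl (Fin (q + 1)))) m = m ∘ π := by
    funext k
    simp [Equiv.arrowCongr]
  rw [e, amp_comp π (AS_iff.1 hχ), amp_comp π (AS_iff.1 hψ), h0, h1, star_mul']
  have h2 : star (((Equiv.Perm.sign π : ℤ) : ℂ)) * ((Equiv.Perm.sign π : ℤ) : ℂ) = 1 := by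
    rcases Int.units_eq_one_or (Equiv.Perm.sign π) with h | h <;> simp [h]
  calc star (amp a b p χ m) * amp a b p ψ m
      = (star (((Equiv.Perm.sign π : ℤ) : ℂ)) * ((Equiv.Perm.sign π : ℤ) : ℂ)) *
        (star (amp a b p χ m) * amp a b p ψ m) := by rw [h2, one_mul]
    _ = _ := by ring

theorem sum_pairs {N : ℕ} (t : ℂ) :
    (∑ a : Fin N, ∑ b : Fin N, if a < b then t else 0) = ((N : ℂ) * ((N : ℂ) - 1) / 2) * t := by
  have h1 := two_mul_sum_lt (N := N) (fun _ _ => t) (fun _ _ _ => rfl)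
  have h2 : (∑ a : Fin N, ∑ b : Fin N, if a ≠ b then t else 0) = (N : ℂ) * ((N : ℂ) - 1) * t := by
    have h3 : ∀ a : Fin N, (∑ b : Fin N, if a ≠ b then t else 0) = ((N : ℂ) - 1) * t := by
      intro a
      have h4 : (∑ b : Fin N, if a ≠ b then t else 0) = (∑ b : Fin N, t) -
          ∑ b : Fin N, if a = b then t else 0 := by
        rw [← Finset.sum_sub_distrib]
        refine Finset.sum_congr rfl fun b _ => ?_
        by_cases h : a = b <;> simp [h]
      rw [h4]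
      simp
      ring
    rw [Finset.sum_congr rfl fun a _ => h3 a]
    simp
    ring
  rw [h2] at h1
  have h5 : (∑ a : Fin N, ∑ b : Fin N, if a < b then t else 0) =
      (2 * ∑ a : Fin N, ∑ b : Fin N, if a < b then t else 0) / 2 := by ring
  rw [h5, h1]; ring

/-- matrix elements of the interaction between antisymmetric functions -/
theorem inner_toFk_HH {Q N : ℕ} {χ ψ : (Fin N → Fin (Q + 1)) → ℂ} (hχ : AS χ) (hψ : AS ψ) :
    inner ℂ (toFk χ) (HH Q (toFk ψ)) = star χ ⬝ᵥ (interaction Q N).mulVec ψ := by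
  rw [inner_HH]
  match N, χ, ψ, hχ, hψ with
  | 0, χ, ψ, hχ, hψ =>
    have h1 : interaction Q 0 = 0 := by
      unfold interaction; simp
    rw [h1, Matrix.zero_mulVec, dotProduct_zero]
    refine Finset.sum_eq_zero fun p _ => ?_
    unfold Bp
    rw [pa_sector_zero (toFk_mem_sector ψ), inner_zero_right]
  | 1, χ, ψ, hχ, hψ =>
    have h1 : interaction Q 1 = 0 := by
      unfold interaction; simp
    rw [h1, Matrix.zero_mulVec, dotProduct_zero]
    refine Finset.sum_eq_zero fun p _ => ?_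
    unfold Bp
    rw [pa_sector_one (toFk_mem_sector ψ), inner_zero_right]
  | (N + 2), χ, ψ, hχ, hψ =>
    rw [dot_interaction]
    have h1 : ∀ a b : Fin (N + 2), (if a < b then (((Q : ℂ) + 1) ^ 2)⁻¹ *
        ∑ p : Fin (2 * Q - 1), ∑ m, star (amp a b p χ m) * amp a b p ψ m else 0) =
        if a < b then ∑ p : Fin (2 * Q - 1), (star (ctr (wM Q p) χ) ⬝ᵥ ctr (wM Q p) ψ) else 0 := by
      intro a b
      split_ifs with hab
      · rw [Finset.sum_congr rfl fun p _ => sum_amp p hχ hψ hab.ne, ← Finset.mul_sum, ← mul_assoc,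
          inv_mul_cancel₀, one_mul]
        have : ((Q : ℂ) + 1) ≠ 0 := by exact_mod_cast Nat.succ_ne_zero Q
        exact pow_ne_zero _ this
      · rfl
    rw [Finset.sum_congr rfl fun a _ => Finset.sum_congr rfl fun b _ => h1 a b, sum_pairs,
      Finset.mul_sum]
    refine Finset.sum_congr rfl fun p _ => ?_
    unfold Bp
    rw [pa_toFk _ hχ, pa_toFk _ hψ, inner_smul_left, inner_smul_right,
      inner_toFk (hχ.ctr _) (hψ.ctr _), ← mul_assoc]
    congr 1
    have h2 : (0 : ℝ) ≤ (N : ℝ) + 2 := by positivity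
    have h3 : (0 : ℝ) ≤ (N : ℝ) + 1 := by positivity
    have h4 : (Real.sqrt ((N : ℝ) + 2) : ℂ) * (Real.sqrt ((N : ℝ) + 2) : ℂ) = (N : ℂ) + 2 := by
      rw [← Complex.ofReal_mul, Real.mul_self_sqrt h2]; push_cast; ring
    have h5 : (Real.sqrt ((N : ℝ) + 1) : ℂ) * (Real.sqrt ((N : ℝ) + 1) : ℂ) = (N : ℂ) + 1 := by
      rw [← Complex.ofReal_mul, Real.mul_self_sqrt h3]; push_cast; ring
    have h6 : (Real.sqrt 2 : ℂ)⁻¹ * (Real.sqrt 2 : ℂ)⁻¹ = 1 / 2 := by
      rw [← mul_inv, ← Complex.ofReal_mul, Real.mul_self_sqrt (by norm_num)]; simp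
    simp only [map_mul, map_inv₀, Complex.conj_ofReal]
    calc (Real.sqrt 2 : ℂ)⁻¹ * Real.sqrt ((N : ℝ) + 2) * Real.sqrt ((N : ℝ) + 1) *
          ((Real.sqrt 2 : ℂ)⁻¹ * Real.sqrt ((N : ℝ) + 2) * Real.sqrt ((N : ℝ) + 1))
        = ((Real.sqrt 2 : ℂ)⁻¹ * (Real.sqrt 2 : ℂ)⁻¹) *
          ((Real.sqrt ((N : ℝ) + 2) : ℂ) * (Real.sqrt ((N : ℝ) + 2) : ℂ)) *
          ((Real.sqrt ((N : ℝ) + 1) : ℂ) * (Real.sqrt ((N : ℝ) + 1) : ℂ)) := by ring
      _ = _ := by
        rw [h4, h5, h6]; push_cast; ring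

/-- the Fock image of the interaction -/
theorem toFk_interaction {Q N : ℕ} {ψ : (Fin N → Fin (Q + 1)) → ℂ} (hψ : AS ψ) :
    toFk ((interaction Q N).mulVec ψ) = HH Q (toFk ψ) := by
  set D := toFk ((interaction Q N).mulVec ψ) - HH Q (toFk ψ) with hD
  have h1 : D ∈ sector (Fin (Q + 1)) N :=
    Submodule.sub_mem _ (toFk_mem_sector _) (HH_mem_sector (toFk_mem_sector _))
  have h2 : ∀ χ : (Fin N → Fin (Q + 1)) → ℂ, AS χ → inner ℂ (toFk χ) D = 0 := by
    intro χ hχ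
    rw [hD, inner_sub_right, inner_toFk hχ (AS_iff.2 (interaction_antisymm (AS_iff.1 hψ))),
      inner_toFk_HH hχ hψ, sub_self]
  have h3 : inner ℂ D D = (0 : ℂ) := by
    have h4 := h2 (ofFk N D) (ofFk_AS N D)
    rwa [toFk_ofFk h1] at h4
  exact sub_eq_zero.1 (inner_self_eq_zero.1 h3)

/-! ### one-body operators -/





/-! ### final reductions -/





end Crest.Agent.R340.Bridge649
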