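import Mathlib
import Crest.Agent.R340.Fock_649

-- ▼ part R340/GapTr_986
section

/-!
R340, block L2 (helper986), part 1: abstract min-max gap transfer in finite dimension.

`GapK D γ` : the linear map `D : E → F` satisfies `γ ‖ψ‖ ≤ ‖D ψ‖` for every `ψ` orthogonal to `ker D`.
-/

set_option autoImplicit false
open scoped InnerProductSpace

namespace Crest.Agent.R340.Geo986

variable {E F : Type*} [NormedAddCommGroup E] [InnerProductSpace ℂ E]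
  [NormedAddCommGroup F] [InnerProductSpace ℂ F]

/-- `γ ‖ψ‖ ≤ ‖D ψ‖` on the orthogonal complement of the kernel. -/
def GapK (D : E →ₗ[ℂ] F) (γ : ℝ) : Prop :=
  ∀ ψ : E, (∀ z : E, D z = 0 → ⟪z, ψ⟫_ℂ = 0) → γ * ‖ψ‖ ≤ ‖D ψ‖

theorem GapK.mono {D : E →ₗ[ℂ] F} {γ γ' : ℝ} (h : GapK D γ) (hle : γ' ≤ γ) : GapK D γ' :=
  fun ψ hψ => (mul_le_mul_of_nonneg_right hle (norm_nonneg ψ)).trans (h ψ hψ)

/-- A subspace of dimension larger than `finrank (ker D)` contains a nonzero vector orthogonal to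
`ker D`. -/
theorem exists_orth [FiniteDimensional ℂ E] (K W : Submodule ℂ E)
    (h : Module.finrank ℂ K < Module.finrank ℂ W) :
    ∃ w ∈ W, w ≠ 0 ∧ ∀ z ∈ K, ⟪z, w⟫_ℂ = 0 := by
  classical
  -- the orthogonal projection restricted to `W` has nontrivial kernel
  let P : W →ₗ[ℂ] K := (K.orthogonalProjectionOnto.toLinearMap).comp W.subtype
  have hker : LinearMap.ker P ≠ ⊥ := by
    intro hbot
    have hinj : Function.Injective P := LinearMap.ker_eq_bot.mp hbot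
    have := LinearMap.finrank_le_finrank_of_injective hinj
    omega
  obtain ⟨w, hw, hw0⟩ := Submodule.exists_mem_ne_zero_of_ne_bot hker
  refine ⟨w, w.2, fun h0 => hw0 (Subtype.ext h0), fun z hz => ?_⟩
  have hP : K.orthogonalProjectionOnto (w : E) = 0 := by
    simpa [P, LinearMap.mem_ker] using hw
  have hmem : (w : E) ∈ Kᗮ := Submodule.orthogonalProjectionOnto_eq_zero_iff.mp hP
  exact (Submodule.mem_orthogonal K (w : E)).mp hmem z hz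

/-- MIN-MAX GAP TRANSFER: if `D'` is `ε`-close to `D`, has kernel of at least the same dimension
(in applications: equal), then the gap of `D'` is at least the gap of `D` minus `ε`. -/
theorem GapK.transfer [FiniteDimensional ℂ E] {D D' : E →ₗ[ℂ] F} {γ ε : ℝ} (h : GapK D γ)
    (hε : ε < γ) (hclose : ∀ ψ, ‖D' ψ - D ψ‖ ≤ ε * ‖ψ‖)
    (hdim : Module.finrank ℂ (LinearMap.ker D) ≤ Module.finrank ℂ (LinearMap.ker D')) :
    GapK D' (γ - ε) := by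
  classical
  intro ψ hψ
  by_cases hψ0 : ψ = 0
  · subst hψ0; simp
  -- the subspace spanned by `ker D'` and `ψ`
  set W : Submodule ℂ E := LinearMap.ker D' ⊔ ℂ ∙ ψ with hW
  have hdisj : Disjoint (LinearMap.ker D') (ℂ ∙ ψ) := by
    rw [Submodule.disjoint_def]
    intro x hx hx'
    obtain ⟨a, rfl⟩ := Submodule.mem_span_singleton.mp hx'
    have h1 := hψ _ (LinearMap.mem_ker.mp hx)
    rw [inner_smul_left] at h1
    rcases mul_eq_zero.mp h1 with h2 | h2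
    · have : a = 0 := by simpa using h2
      simp [this]
    · exact absurd (inner_self_eq_zero.mp h2) hψ0
  have hfr : Module.finrank ℂ W = Module.finrank ℂ (LinearMap.ker D') + 1 := by
    have h1 := Submodule.finrank_sup_add_finrank_inf_eq (LinearMap.ker D') (ℂ ∙ ψ)
    rw [hdisj.eq_bot, finrank_bot, add_zero, finrank_span_singleton hψ0] at h1
    exact h1
  obtain ⟨w, hwW, hw0, hwK⟩ := exists_orth (LinearMap.ker D) W (by omega)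
  obtain ⟨k, hk, y, hy, rfl⟩ := Submodule.mem_sup.mp hwW
  obtain ⟨a, rfl⟩ := Submodule.mem_span_singleton.mp hy
  have hDk : D' k = 0 := LinearMap.mem_ker.mp hk
  have hD'w : D' (k + a • ψ) = a • D' ψ := by rw [map_add, hDk, zero_add, map_smul]
  have hgap : γ * ‖k + a • ψ‖ ≤ ‖D (k + a • ψ)‖ :=
    h _ fun z hz => hwK z (LinearMap.mem_ker.mpr hz)
  have hcl := hclose (k + a • ψ)
  have htri : ‖D (k + a • ψ)‖ ≤ ‖D' (k + a • ψ)‖ + ε * ‖k + a • ψ‖ := by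
    have : D (k + a • ψ) = D' (k + a • ψ) - (D' (k + a • ψ) - D (k + a • ψ)) := by abel
    calc ‖D (k + a • ψ)‖ = ‖D' (k + a • ψ) - (D' (k + a • ψ) - D (k + a • ψ))‖ := by rw [← this]
      _ ≤ ‖D' (k + a • ψ)‖ + ‖D' (k + a • ψ) - D (k + a • ψ)‖ := norm_sub_le _ _
      _ ≤ _ := by gcongr
  have hmain : (γ - ε) * ‖k + a • ψ‖ ≤ ‖a‖ * ‖D' ψ‖ := by
    have : ‖D' (k + a • ψ)‖ = ‖a‖ * ‖D' ψ‖ := by rw [hD'w, norm_smul]
    rw [this] at htri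
    linarith
  have hort : ⟪k, a • ψ⟫_ℂ = 0 := by
    rw [inner_smul_right, hψ k hDk, mul_zero]
  have hpyth : ‖a‖ * ‖ψ‖ ≤ ‖k + a • ψ‖ := by
    have h2 : ‖k + a • ψ‖ * ‖k + a • ψ‖ = ‖k‖ * ‖k‖ + ‖a • ψ‖ * ‖a • ψ‖ :=
      norm_add_sq_eq_norm_sq_add_norm_sq_of_inner_eq_zero k (a • ψ) (by exact_mod_cast hort)
    rw [← norm_smul]
    nlinarith [norm_nonneg k, norm_nonneg (a • ψ), norm_nonneg (k + a • ψ),
      abs_le_of_sq_le_sq' (by nlinarith [norm_nonneg k] :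
        ‖a • ψ‖ ^ 2 ≤ ‖k + a • ψ‖ ^ 2) (norm_nonneg _)]
  have ha : a ≠ 0 := by
    rintro rfl
    simp only [zero_smul, add_zero, norm_zero, zero_mul] at hmain
    have hk0 : k ≠ 0 := by simpa using hw0
    have : 0 < (γ - ε) * ‖k‖ := mul_pos (by linarith) (norm_pos_iff.mpr hk0)
    linarith
  have hapos : 0 < ‖a‖ := norm_pos_iff.mpr ha
  have : (γ - ε) * (‖a‖ * ‖ψ‖) ≤ ‖a‖ * ‖D' ψ‖ :=
    (mul_le_mul_of_nonneg_left hpyth (by linarith)).trans hmain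
  have : ‖a‖ * ((γ - ε) * ‖ψ‖) ≤ ‖a‖ * ‖D' ψ‖ := by linarith
  exact le_of_mul_le_mul_left this hapos

/-- Conjugation step: `D2 ψ` dominates `κ ‖D1 (Γ⁻¹ ψ)‖`, `ker D2 = Γ (ker D1)`. -/
theorem GapK.conj [FiniteDimensional ℂ E] {D1 : E →ₗ[ℂ] F} {F' : Type*} [NormedAddCommGroup F']
    [InnerProductSpace ℂ F'] {D2 : E →ₗ[ℂ] F'} {γ κ M M' : ℝ} (h : GapK D1 γ) (hγ : 0 ≤ γ)
    (hκ : 0 ≤ κ) (hM : 0 < M) (G : E ≃ₗ[ℂ] E) (hG : ∀ ψ, ‖G ψ‖ ≤ M * ‖ψ‖)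
    (hM' : 0 < M')
    (hdom : ∀ ψ, κ * ‖D1 (G.symm ψ)‖ ≤ M' * ‖D2 ψ‖)
    (hker : ∀ ψ, D1 ψ = 0 → D2 (G ψ) = 0) :
    GapK D2 (κ * γ / (M * M')) := by
  classical
  intro ψ hψ
  -- decompose `G⁻¹ ψ = z + φ` with `z ∈ ker D1`, `φ ⊥ ker D1`
  set χ := G.symm ψ with hχ
  set K := LinearMap.ker D1
  set z : E := (K.orthogonalProjectionOnto χ : E) with hz
  set φ : E := χ - z with hφ
  have hzK : D1 z = 0 := LinearMap.mem_ker.mp (K.orthogonalProjectionOnto χ).2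
  have hφK : ∀ y, D1 y = 0 → ⟪y, φ⟫_ℂ = 0 := by
    intro y hy
    have : φ ∈ Kᗮ := by
      rw [hφ, hz]
      exact Submodule.sub_starProjection_mem_orthogonal χ
    exact (Submodule.mem_orthogonal K φ).mp this y (LinearMap.mem_ker.mpr hy)
  have hψeq : ψ = G z + G φ := by
    rw [← map_add, hφ, add_sub_cancel, hχ, LinearEquiv.apply_symm_apply]
  have hD1χ : D1 χ = D1 φ := by
    rw [hφ, map_sub, hzK, sub_zero]
  -- `‖ψ‖ ≤ ‖G φ‖` since `ψ ⊥ G z`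
  have hψle : ‖ψ‖ ≤ ‖G φ‖ := by
    by_cases hψ0 : ψ = 0
    · rw [hψ0, norm_zero]; exact norm_nonneg _
    have h1 : ⟪G z, ψ⟫_ℂ = 0 := hψ (G z) (hker z hzK)
    have h2 : ⟪ψ, G z⟫_ℂ = 0 := inner_eq_zero_symm.mp h1
    have h3 : ⟪ψ, ψ⟫_ℂ = ⟪ψ, G φ⟫_ℂ := by
      conv_lhs => rw [show (⟪ψ, ψ⟫_ℂ) = ⟪ψ, G z + G φ⟫_ℂ by rw [← hψeq]]
      rw [inner_add_right, h2, zero_add]
    have h4 : ‖ψ‖ ^ 2 ≤ ‖ψ‖ * ‖G φ‖ := by
      have h5 : ‖⟪ψ, ψ⟫_ℂ‖ ≤ ‖ψ‖ * ‖G φ‖ := by rw [h3]; exact norm_inner_le_norm _ _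
      rwa [inner_self_eq_norm_sq_to_K, norm_pow, RCLike.norm_ofReal, abs_of_nonneg (norm_nonneg ψ)] at h5
    have hpos : 0 < ‖ψ‖ := norm_pos_iff.mpr hψ0
    nlinarith
  have h5 : γ * ‖φ‖ ≤ ‖D1 φ‖ := h φ hφK
  have h6 : ‖ψ‖ ≤ M * ‖φ‖ := hψle.trans (hG φ)
  have h7 : κ * ‖D1 φ‖ ≤ M' * ‖D2 ψ‖ := by rw [← hD1χ]; exact hdom ψ
  have h8 : κ * γ * ‖ψ‖ ≤ M * (κ * (γ * ‖φ‖)) := by
    have : κ * γ * ‖ψ‖ ≤ κ * γ * (M * ‖φ‖) := by gcongr
    linarith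
  have h9 : κ * γ * ‖ψ‖ ≤ M * (M' * ‖D2 ψ‖) := by
    refine h8.trans (mul_le_mul_of_nonneg_left ?_ hM.le)
    exact (mul_le_mul_of_nonneg_left h5 hκ).trans h7
  rw [div_mul_eq_mul_div, div_le_iff₀ (by positivity)]
  linarith

end Crest.Agent.R340.Geo986
end

-- ▼ part R340/GeoA_986

/-!
R340, block L2 = GEOMETRY (helper986), part 3: radial geometries on the Fock model of helper649.

`bz ν Q p` : unnormalised pair annihilator `∑_{i<j, i+j=p} (j-i)/(ν_i ν_j) c_j c_i`,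
`nz ν Q p` : sum of the squares of its coefficients, `Bg ν Q p = bz / √nz`,
`Zs ν Q` : common kernel (all sectors), `GapG ν Q γ` : `γ ‖ψ‖² ≤ ∑_p ‖Bg ν Q p ψ‖²` on `Zs^⊥`.
-/

set_option autoImplicit false
open scoped InnerProductSpace ComplexConjugate

namespace Crest.Agent.R340.Geo986

open Fock649 Finset

/-- coefficient `(j - i) / (ν_i ν_j)` -/
noncomputable def bcoef (ν : ℕ → ℝ) (i j : ℕ) : ℝ := ((j : ℝ) - i) / (ν i * ν j)

/-- pairs of orbitals `i < j` with `i + j = p` -/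
def pairs (Q p : ℕ) : Finset (Fin (Q + 1) × Fin (Q + 1)) :=
  univ.filter fun x => x.1 < x.2 ∧ (x.1 : ℕ) + (x.2 : ℕ) = p

theorem mem_pairs {Q p : ℕ} {x : Fin (Q + 1) × Fin (Q + 1)} :
    x ∈ pairs Q p ↔ x.1 < x.2 ∧ (x.1 : ℕ) + (x.2 : ℕ) = p := by
  simp [pairs]

/-- unnormalised pair annihilator of the metric `ν`, total exponent `p` -/
noncomputable def bz (ν : ℕ → ℝ) (Q p : ℕ) : Op (Fin (Q + 1)) :=
  ∑ x ∈ pairs Q p, ((bcoef ν x.1 x.2 : ℝ) : ℂ) • (c x.2 * c x.1)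

/-- sum of squares of the coefficients of `bz` -/
noncomputable def nz (ν : ℕ → ℝ) (Q p : ℕ) : ℝ := ∑ x ∈ pairs Q p, bcoef ν x.1 x.2 ^ 2

/-- normalised pair annihilator of the metric `ν` -/
noncomputable def Bg (ν : ℕ → ℝ) (Q p : ℕ) : Op (Fin (Q + 1)) :=
  (((√(nz ν Q p))⁻¹ : ℝ) : ℂ) • bz ν Q p


/-- zero modes of the metric `ν` (all particle numbers) -/
def Zs (ν : ℕ → ℝ) (Q : ℕ) : Submodule ℂ (Fk (Fin (Q + 1))) where
  carrier := {ψ | ∀ p, bz ν Q p ψ = 0}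
  add_mem' := fun {a b} ha hb p => by
    have := (bz ν Q p).ap.map_add a b
    rw [this, ha p, hb p, add_zero]
  zero_mem' := fun p => (bz ν Q p).ap.map_zero
  smul_mem' := fun a ψ h p => by
    have := (bz ν Q p).ap.map_smul a ψ
    rw [this, h p, smul_zero]

theorem mem_Zs {ν : ℕ → ℝ} {Q : ℕ} {ψ : Fk (Fin (Q + 1))} :
    ψ ∈ Zs ν Q ↔ ∀ p, bz ν Q p ψ = 0 := Iff.rfl

/-- the gap inequality of the metric `ν` -/
def GapG (ν : ℕ → ℝ) (Q : ℕ) (γ : ℝ) : Prop :=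
  ∀ ψ : Fk (Fin (Q + 1)), (∀ z ∈ Zs ν Q, ⟪z, ψ⟫_ℂ = 0) →
    γ * ‖ψ‖ ^ 2 ≤ ∑ p ∈ range (2 * Q), ‖Bg ν Q p ψ‖ ^ 2

theorem GapG.mono {ν : ℕ → ℝ} {Q : ℕ} {γ γ' : ℝ} (h : GapG ν Q γ) (hle : γ' ≤ γ) :
    GapG ν Q γ' := fun ψ hψ =>
  (mul_le_mul_of_nonneg_right hle (by positivity)).trans (h ψ hψ)

/-- the metric is positive on the orbitals -/
def PosM (ν : ℕ → ℝ) (Q : ℕ) : Prop := ∀ j, j ≤ Q → 0 < ν j

theorem bcoef_pos {ν : ℕ → ℝ} {Q : ℕ} (hν : PosM ν Q) {x : Fin (Q + 1) × Fin (Q + 1)}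
    {p : ℕ} (hx : x ∈ pairs Q p) : 0 < bcoef ν x.1 x.2 := by
  have h1 := (mem_pairs.mp hx).1
  have h2 : ((x.1 : ℕ) : ℝ) < ((x.2 : ℕ) : ℝ) := by exact_mod_cast h1
  unfold bcoef
  refine div_pos (by linarith) (mul_pos (hν _ (by omega)) (hν _ (by omega)))

theorem nz_nonneg (ν : ℕ → ℝ) (Q p : ℕ) : 0 ≤ nz ν Q p :=
  sum_nonneg fun _ _ => sq_nonneg _

theorem nz_pos {ν : ℕ → ℝ} {Q p : ℕ} (hν : PosM ν Q) (h : (pairs Q p).Nonempty) :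
    0 < nz ν Q p :=
  sum_pos (fun _ hx => pow_pos (bcoef_pos hν hx) 2) h

theorem bz_eq_zero_of_empty {ν : ℕ → ℝ} {Q p : ℕ} (h : pairs Q p = ∅) : bz ν Q p = 0 := by
  unfold bz; rw [h, sum_empty]

theorem pairs_eq_empty_of_ge {Q p : ℕ} (h : 2 * Q ≤ p) : pairs Q p = ∅ := by
  refine eq_empty_of_forall_notMem fun x hx => ?_
  obtain ⟨h1, h2⟩ := mem_pairs.mp hx
  have := x.2.isLt
  have h3 : (x.1 : ℕ) < x.2 := h1
  omega

theorem Bg_apply (ν : ℕ → ℝ) (Q p : ℕ) (ψ : Fk (Fin (Q + 1))) :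
    Bg ν Q p ψ = (((√(nz ν Q p))⁻¹ : ℝ) : ℂ) • bz ν Q p ψ := rfl

theorem bz_eq_smul_Bg {ν : ℕ → ℝ} {Q : ℕ} (hν : PosM ν Q) (p : ℕ) :
    bz ν Q p = ((√(nz ν Q p) : ℝ) : ℂ) • Bg ν Q p := by
  rcases (pairs Q p).eq_empty_or_nonempty with h | h
  · rw [Bg, bz_eq_zero_of_empty h, smul_zero, smul_zero]
  · have : √(nz ν Q p) ≠ 0 := (Real.sqrt_pos.mpr (nz_pos hν h)).ne'
    rw [Bg, smul_smul, ← Complex.ofReal_mul, mul_inv_cancel₀ this, Complex.ofReal_one, one_smul]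

theorem mem_Zs_iff {ν : ℕ → ℝ} {Q : ℕ} (hν : PosM ν Q) {ψ : Fk (Fin (Q + 1))} :
    ψ ∈ Zs ν Q ↔ ∀ p ∈ range (2 * Q), Bg ν Q p ψ = 0 := by
  constructor
  · intro h p _
    rw [Bg_apply, h p, smul_zero]
  · intro h p
    rcases lt_or_ge p (2 * Q) with hp | hp
    · rw [bz_eq_smul_Bg hν p]
      show ((√(nz ν Q p) : ℝ) : ℂ) • Bg ν Q p ψ = 0
      rw [h p (mem_range.mpr hp), smul_zero]
    · rw [bz_eq_zero_of_empty (pairs_eq_empty_of_ge hp)]; rfl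

/-! ### the map `D ψ = (B_p ψ)_p` -/

/-- family of operators indexed by `p < 2Q`, as a map into an `ℓ²` sum -/
noncomputable def fam {Q : ℕ} (B : ℕ → Op (Fin (Q + 1))) :
    Fk (Fin (Q + 1)) →ₗ[ℂ] PiLp 2 (fun _ : Fin (2 * Q) => Fk (Fin (Q + 1))) where
  toFun ψ := WithLp.toLp 2 (fun p => B p ψ)
  map_add' a b := by
    ext p : 1
    exact (B p).ap.map_add a b
  map_smul' a b := by
    ext p : 1
    exact (B p).ap.map_smul a b

theorem fam_apply {Q : ℕ} (B : ℕ → Op (Fin (Q + 1))) (ψ : Fk (Fin (Q + 1))) (p : Fin (2 * Q)) :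
    fam B ψ p = B p ψ := rfl

theorem norm_fam_sq {Q : ℕ} (B : ℕ → Op (Fin (Q + 1))) (ψ : Fk (Fin (Q + 1))) :
    ‖fam B ψ‖ ^ 2 = ∑ p ∈ range (2 * Q), ‖B p ψ‖ ^ 2 := by
  rw [PiLp.norm_sq_eq_of_L2, ← Fin.sum_univ_eq_sum_range (fun p => ‖B p ψ‖ ^ 2)]
  rfl

theorem fam_eq_zero_iff {Q : ℕ} (B : ℕ → Op (Fin (Q + 1))) (ψ : Fk (Fin (Q + 1))) :
    fam B ψ = 0 ↔ ∀ p ∈ range (2 * Q), B p ψ = 0 := by
  constructor
  · intro h p hp
    have := congrArg (fun v => v ⟨p, mem_range.mp hp⟩) h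
    simpa [fam_apply] using this
  · intro h
    ext p : 1
    exact h p (mem_range.mpr p.2)

theorem ker_fam {ν : ℕ → ℝ} {Q : ℕ} (hν : PosM ν Q) :
    LinearMap.ker (fam (Bg ν Q)) = Zs ν Q := by
  ext ψ
  rw [LinearMap.mem_ker, fam_eq_zero_iff, mem_Zs_iff hν]

theorem gapK_of_gapG {ν : ℕ → ℝ} {Q : ℕ} (hν : PosM ν Q) {γ : ℝ} (h : GapG ν Q γ) :
    GapK (fam (Bg ν Q)) (√γ) := by
  intro ψ hψ
  have h1 : ∀ z ∈ Zs ν Q, ⟪z, ψ⟫_ℂ = 0 := fun z hz =>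
    hψ z (by rw [← ker_fam hν] at hz; exact LinearMap.mem_ker.mp hz)
  have h2 := h ψ h1
  rw [← norm_fam_sq] at h2
  rcases le_or_gt γ 0 with hγ | hγ
  · rw [Real.sqrt_eq_zero_of_nonpos hγ, zero_mul]; exact norm_nonneg _
  · have : (√γ * ‖ψ‖) ^ 2 ≤ ‖fam (Bg ν Q) ψ‖ ^ 2 := by
      rw [mul_pow, Real.sq_sqrt hγ.le]; exact h2
    exact le_of_sq_le_sq this (norm_nonneg _)

theorem gapG_of_gapK {ν : ℕ → ℝ} {Q : ℕ} (hν : PosM ν Q) {g : ℝ} (hg : 0 ≤ g)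
    (h : GapK (fam (Bg ν Q)) g) : GapG ν Q (g ^ 2) := by
  intro ψ hψ
  have h1 : g * ‖ψ‖ ≤ ‖fam (Bg ν Q) ψ‖ := h ψ fun z hz =>
    hψ z (by rw [← ker_fam hν]; exact LinearMap.mem_ker.mpr hz)
  rw [← norm_fam_sq, ← mul_pow]
  exact pow_le_pow_left₀ (by positivity) h1 2

/-! ### diagonal second quantisation and change of metric -/

theorem c_mul_c_mul_Gd {ι : Type*} [Fintype ι] [LinearOrder ι] (u : ι → ℂ) (i j : ι) :
    c j * c i * Gd u = (u i * u j) • (Gd u * (c j * c i)) := by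
  rw [mul_assoc, c_mul_Gd, mul_smul_comm, ← mul_assoc, c_mul_Gd, smul_mul_assoc, smul_smul,
    mul_assoc]

/-- the restriction of a real function on `ℕ` to the orbitals, with complex values -/
noncomputable def res (Q : ℕ) (r : ℕ → ℝ) : Fin (Q + 1) → ℂ := fun j => ((r j : ℝ) : ℂ)

/-- CHANGE OF METRIC: `bz (ν·r) ∘ Gd r = Gd r ∘ bz ν`. -/
theorem bz_mul_Gd {ν r : ℕ → ℝ} {Q : ℕ} (hr : PosM r Q) (p : ℕ) :
    bz (ν * r) Q p * Gd (res Q r) = Gd (res Q r) * bz ν Q p := by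
  unfold bz
  rw [sum_mul, mul_sum]
  refine sum_congr rfl fun x hx => ?_
  rw [smul_mul_assoc, c_mul_c_mul_Gd, mul_smul_comm, smul_smul]
  congr 1
  have h1 : r x.1 ≠ 0 := (hr _ (by omega)).ne'
  have h2 : r x.2 ≠ 0 := (hr _ (by omega)).ne'
  simp only [res, ← Complex.ofReal_mul]
  congr 1
  simp only [bcoef, Pi.mul_apply]
  rcases eq_or_ne (ν x.1) 0 with h3 | h3
  · simp [h3]
  rcases eq_or_ne (ν x.2) 0 with h4 | h4
  · simp [h4]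
  field_simp

theorem Gd_mem_Zs {ν r : ℕ → ℝ} {Q : ℕ} (hr : PosM r Q) {ψ : Fk (Fin (Q + 1))}
    (h : ψ ∈ Zs ν Q) : Gd (res Q r) ψ ∈ Zs (ν * r) Q := by
  intro p
  have := congrArg (fun A : Op (Fin (Q + 1)) => A ψ) (bz_mul_Gd (ν := ν) hr p)
  simp only [mul_ap] at this
  rw [this, h p]
  exact (Gd (res Q r)).ap.map_zero

/-- `Gd r` as a linear equivalence -/
noncomputable def GdE (Q : ℕ) (r : ℕ → ℝ) (hr : PosM r Q) :
    Fk (Fin (Q + 1)) ≃ₗ[ℂ] Fk (Fin (Q + 1)) :=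
  LinearEquiv.ofLinearMap (Gd (res Q r)).ap.toLinearMap (Gd (res Q r⁻¹)).ap.toLinearMap
    (by
      have : Gd (res Q r) * Gd (res Q r⁻¹) = 1 := by
        rw [← Gd_mul, ← Gd_one]
        congr 1
        funext j
        have := (hr j (by omega)).ne'
        simp [res, this]
      ext1 ψ
      exact congrArg (fun A : Op (Fin (Q + 1)) => A ψ) this)
    (by
      have : Gd (res Q r⁻¹) * Gd (res Q r) = 1 := by
        rw [← Gd_mul, ← Gd_one]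
        congr 1
        funext j
        have := (hr j (by omega)).ne'
        simp [res, this]
      ext1 ψ
      exact congrArg (fun A : Op (Fin (Q + 1)) => A ψ) this)

theorem GdE_apply (Q : ℕ) (r : ℕ → ℝ) (hr : PosM r Q) (ψ : Fk (Fin (Q + 1))) :
    GdE Q r hr ψ = Gd (res Q r) ψ := rfl

theorem GdE_symm_apply (Q : ℕ) (r : ℕ → ℝ) (hr : PosM r Q) (ψ : Fk (Fin (Q + 1))) :
    (GdE Q r hr).symm ψ = Gd (res Q r⁻¹) ψ := rfl

theorem PosM.inv {r : ℕ → ℝ} {Q : ℕ} (hr : PosM r Q) : PosM r⁻¹ Q := fun j hj => by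
  simpa using hr j hj

theorem PosM.mul {r r' : ℕ → ℝ} {Q : ℕ} (hr : PosM r Q) (hr' : PosM r' Q) : PosM (r * r') Q :=
  fun j hj => mul_pos (hr j hj) (hr' j hj)

theorem Zs_congr {ν ν' : ℕ → ℝ} {Q : ℕ} (h : ∀ j ≤ Q, ν j = ν' j) : Zs ν Q = Zs ν' Q := by
  have : ∀ p, bz ν Q p = bz ν' Q p := fun p => by
    unfold bz
    refine sum_congr rfl fun x _ => ?_
    simp only [bcoef]
    rw [h x.1 (by omega), h x.2 (by omega)]
  ext ψ
  simp only [mem_Zs, this]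

theorem map_Zs {ν r : ℕ → ℝ} {Q : ℕ} (hr : PosM r Q) :
    (Zs ν Q).map (GdE Q r hr).toLinearMap = Zs (ν * r) Q := by
  apply le_antisymm
  · rintro _ ⟨ψ, hψ, rfl⟩
    exact Gd_mem_Zs hr hψ
  · intro ψ hψ
    refine ⟨(GdE Q r hr).symm ψ, ?_, LinearEquiv.apply_symm_apply _ _⟩
    have h := Gd_mem_Zs hr.inv hψ
    rw [GdE_symm_apply]
    have e : Zs (ν * r * r⁻¹) Q = Zs ν Q := Zs_congr fun j hj => by
      have := (hr j hj).ne'
      simp [this]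
    rw [e] at h
    exact h

/-- the number of zero modes does not depend on the metric -/
theorem finrank_Zs {ν r : ℕ → ℝ} {Q : ℕ} (hr : PosM r Q) :
    Module.finrank ℂ (Zs (ν * r) Q) = Module.finrank ℂ (Zs ν Q) := by
  rw [← map_Zs hr]
  exact LinearEquiv.finrank_map_eq (GdE Q r hr) (Zs ν Q)

end Crest.Agent.R340.Geo986
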