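import Mathlib

-- ▼ part R340/U1_856
section

/-!
R340, block L8 (helper856): abstract descending lemma (DL) and the induction over sectors.

`V` finite-dimensional Hilbert space (Fock space), `Sec N` the particle sectors, `H ≥ 0`,
`P` the projection on the zero modes, `W` the perturbation, `(G, ν)` a measure space with the jump
operators `B g`, `ΦH g`, `ΦW g` the images of `H`, `W` under the loss channel about `g`.
-/

set_option autoImplicit false

namespace Crest.Agent.R340.U856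

open MeasureTheory
open scoped InnerProductSpace ComplexConjugate

variable {V : Type*} [NormedAddCommGroup V] [InnerProductSpace ℂ V]

/-- quadratic form `Re ⟨ψ, A ψ⟩` -/
noncomputable def qf (A : V →L[ℂ] V) (ψ : V) : ℝ := (⟪ψ, A ψ⟫_ℂ).re

theorem qf_add (A B : V →L[ℂ] V) (ψ : V) : qf (A + B) ψ = qf A ψ + qf B ψ := by
  simp [qf]

theorem qf_sub (A B : V →L[ℂ] V) (ψ : V) : qf (A - B) ψ = qf A ψ - qf B ψ := by
  simp [qf]

theorem qf_zero (A : V →L[ℂ] V) : qf A 0 = 0 := by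
  simp [qf]


section CS

variable {G : Type*} [MeasurableSpace G] {ν : Measure G}

omit [InnerProductSpace ℂ V] in
/-- Cauchy-Schwarz for integrals of products of norms -/
theorem integral_norm_mul_norm_le {u v : G → V}
    (hu : MemLp u 2 ν) (hv : MemLp v 2 ν) :
    ∫ g, ‖u g‖ * ‖v g‖ ∂ν ≤ Real.sqrt (∫ g, ‖u g‖ ^ 2 ∂ν) * Real.sqrt (∫ g, ‖v g‖ ^ 2 ∂ν) := by
  have h := integral_mul_le_Lp_mul_Lq_of_nonneg (μ := ν) (p := 2) (q := 2)
    (f := fun g => ‖u g‖) (g := fun g => ‖v g‖) ⟨by norm_num, by norm_num, by norm_num⟩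
    (Filter.Eventually.of_forall fun g => norm_nonneg _)
    (Filter.Eventually.of_forall fun g => norm_nonneg _)
    (by simpa using hu.norm) (by simpa using hv.norm)
  have e : ∀ f : G → V, (∫ g, ‖f g‖ ^ (2 : ℝ) ∂ν) ^ (1 / (2 : ℝ)) =
      Real.sqrt (∫ g, ‖f g‖ ^ 2 ∂ν) := by
    intro f
    rw [← Real.sqrt_eq_rpow]
    congr 1
    refine integral_congr_ae (Filter.Eventually.of_forall fun g => ?_)
    norm_cast
  simpa only [e] using h

end CS

section DL

variable {G : Type*} [MeasurableSpace G] {ν : Measure G}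
variable {Sec : ℕ → Submodule ℂ V} {H W : V →L[ℂ] V} {B : G → (V →L[ℂ] V)}
  {ΦH ΦW : G → (V →L[ℂ] V)}

/-- **Descending lemma (DL)**, abstract form. `h = ⟨ψ, H ψ⟩`. -/
theorem dl {c N₀ m₁ γ₂ δ δ' E : ℝ} {N : ℕ} {ψ : V}
    (hδ' : 0 ≤ δ')
    (hH : ∀ φ χ : V, ∫ g, ⟪B g φ, B g χ⟫_ℂ ∂ν = ⟪φ, H χ⟫_ℂ)
    (hB2 : ∀ φ, MemLp (fun g => B g φ) 2 ν)
    (hcom2 : ∀ φ, MemLp (fun g => (B g * W - W * B g) φ) 2 ν)
    (hΦH : Integrable (fun g => qf (ΦH g) (B g ψ)) ν)
    (hΦW : Integrable (fun g => qf (ΦW g) (B g ψ)) ν)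
    (hWi : Integrable (fun g => qf W (B g ψ)) ν)
    (J1 : ∫ g, qf (ΦH g) (B g ψ) ∂ν ≤ ‖H ψ‖ ^ 2 - γ₂ * qf H ψ)
    (J2 : ∀ g, - (c * (N₀ - N + 2 + m₁)) * ‖B g ψ‖ ^ 2 ≤ qf (ΦH g + ΦW g) (B g ψ))
    (J3 : ∀ g φ, |qf (W - ΦW g) φ| ≤ δ * ‖φ‖ ^ 2)
    (J4 : ∫ g, ‖(B g * W - W * B g) ψ‖ ^ 2 ∂ν ≤ δ' ^ 2 * qf H ψ)
    (hE : (H + W) ψ = (E : ℂ) • ψ) (hHs : ∀ φ χ : V, ⟪H φ, χ⟫_ℂ = ⟪φ, H χ⟫_ℂ) :
    - (c * (N₀ - N + 2 + m₁)) * qf H ψ ≤ (E - γ₂ + δ + δ') * qf H ψ := by
  -- `h = ∫ ‖B g ψ‖²`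
  have hint : Integrable (fun g => ‖B g ψ‖ ^ 2) ν := by
    simpa using (hB2 ψ).integrable_norm_pow (by norm_num)
  have hh : ∫ g, ‖B g ψ‖ ^ 2 ∂ν = qf H ψ := by
    have h1 := hH ψ ψ
    have h2 : ∫ g, ⟪B g ψ, B g ψ⟫_ℂ ∂ν = ((∫ g, ‖B g ψ‖ ^ 2 ∂ν : ℝ) : ℂ) := by
      rw [← integral_complex_ofReal]
      refine integral_congr_ae (Filter.Eventually.of_forall fun g => ?_)
      simp only
      rw [inner_self_eq_norm_sq_to_K]
      norm_cast
    unfold qf
    rw [← h1, h2, Complex.ofReal_re]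
  have hh0 : 0 ≤ qf H ψ := by
    rw [← hh]; positivity
  -- lower bound
  have hlow : - (c * (N₀ - N + 2 + m₁)) * qf H ψ ≤
      ∫ g, (qf (ΦH g) (B g ψ) + qf (ΦW g) (B g ψ)) ∂ν := by
    rw [← hh, ← integral_const_mul]
    refine integral_mono (hint.const_mul _) (hΦH.add hΦW) fun g => ?_
    have := J2 g
    rw [qf_add] at this
    exact this
  rw [integral_add hΦH hΦW] at hlow
  -- W-part
  have hW1 : ∫ g, qf (ΦW g) (B g ψ) ∂ν ≤ ∫ g, qf W (B g ψ) ∂ν + δ * qf H ψ := by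
    rw [← hh, ← integral_const_mul, ← integral_add hWi (hint.const_mul _)]
    refine integral_mono hΦW (hWi.add (hint.const_mul _)) fun g => ?_
    have := (abs_le.mp (J3 g (B g ψ))).1
    rw [qf_sub] at this
    have h2 := (abs_le.mp (J3 g (B g ψ))).1
    rw [qf_sub] at h2
    linarith
  -- commutator
  have hWψ : W ψ = (E : ℂ) • ψ - H ψ := by
    rw [← hE]; simp
  have hi1 : Integrable (fun g => ⟪B g ψ, B g (W ψ)⟫_ℂ) ν := by
    refine Integrable.mono' (g := fun g => ‖B g ψ‖ * ‖B g (W ψ)‖)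
      ((hB2 ψ).norm.integrable_mul (hB2 (W ψ)).norm) ?_ ?_
    · exact (hB2 ψ).aestronglyMeasurable.inner (hB2 (W ψ)).aestronglyMeasurable
    · exact Filter.Eventually.of_forall fun g => norm_inner_le_norm _ _
  have hi2 : Integrable (fun g => ⟪B g ψ, (B g * W - W * B g) ψ⟫_ℂ) ν := by
    refine Integrable.mono' (g := fun g => ‖B g ψ‖ * ‖(B g * W - W * B g) ψ‖)
      ((hB2 ψ).norm.integrable_mul (hcom2 ψ).norm) ?_ ?_
    · exact (hB2 ψ).aestronglyMeasurable.inner (hcom2 ψ).aestronglyMeasurable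
    · exact Filter.Eventually.of_forall fun g => norm_inner_le_norm _ _
  have hW2 : ∫ g, qf W (B g ψ) ∂ν ≤ (⟪H ψ, W ψ⟫_ℂ).re + δ' * qf H ψ := by
    have e1 : ∀ g, qf W (B g ψ) = (⟪B g ψ, B g (W ψ)⟫_ℂ).re
        - (⟪B g ψ, (B g * W - W * B g) ψ⟫_ℂ).re := by
      intro g
      simp [qf]
    have e2 : ∫ g, qf W (B g ψ) ∂ν = (⟪ψ, H (W ψ)⟫_ℂ).re
        - ∫ g, (⟪B g ψ, (B g * W - W * B g) ψ⟫_ℂ).re ∂ν := by
      simp only [e1]
      have h3 := integral_sub hi1.re hi2.re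
      simp only [RCLike.re_to_complex] at h3
      rw [h3]
      congr 1
      rw [← hH ψ (W ψ)]
      exact integral_re hi1
    have e3 : - ∫ g, (⟪B g ψ, (B g * W - W * B g) ψ⟫_ℂ).re ∂ν ≤ δ' * qf H ψ := by
      have h1 : - ∫ g, (⟪B g ψ, (B g * W - W * B g) ψ⟫_ℂ).re ∂ν ≤
          ∫ g, ‖B g ψ‖ * ‖(B g * W - W * B g) ψ‖ ∂ν := by
        rw [← integral_neg]
        refine integral_mono hi2.re.neg
          ((hB2 ψ).norm.integrable_mul (hcom2 ψ).norm) fun g => ?_
        have := abs_le.mp ((Complex.abs_re_le_norm _).trans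
          (norm_inner_le_norm (𝕜 := ℂ) (B g ψ) ((B g * W - W * B g) ψ)))
        linarith [this.1]
      have h2 := integral_norm_mul_norm_le (hB2 ψ) (hcom2 ψ)
      have h3 : Real.sqrt (∫ g, ‖B g ψ‖ ^ 2 ∂ν) *
          Real.sqrt (∫ g, ‖(B g * W - W * B g) ψ‖ ^ 2 ∂ν) ≤
          Real.sqrt (qf H ψ) * (δ' * Real.sqrt (qf H ψ)) := by
        rw [hh]
        refine mul_le_mul_of_nonneg_left ?_ (Real.sqrt_nonneg _)
        calc Real.sqrt (∫ g, ‖(B g * W - W * B g) ψ‖ ^ 2 ∂ν)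
            ≤ Real.sqrt (δ' ^ 2 * qf H ψ) := Real.sqrt_le_sqrt J4
          _ = δ' * Real.sqrt (qf H ψ) := by
            rw [Real.sqrt_mul (sq_nonneg _), Real.sqrt_sq hδ']
      have h4 : Real.sqrt (qf H ψ) * (δ' * Real.sqrt (qf H ψ)) = δ' * qf H ψ := by
        rw [mul_left_comm, Real.mul_self_sqrt hh0]
      linarith
    rw [e2, hHs]
    linarith
  -- conclusion
  have hfin : ‖H ψ‖ ^ 2 + (⟪H ψ, W ψ⟫_ℂ).re = E * qf H ψ := by
    have h1 : ‖H ψ‖ ^ 2 = (⟪H ψ, H ψ⟫_ℂ).re := by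
      rw [inner_self_eq_norm_sq_to_K]
      norm_cast
    rw [h1, ← Complex.add_re, ← inner_add_right]
    have h2 : H ψ + W ψ = (E : ℂ) • ψ := by rw [← hE]; simp
    rw [h2, inner_smul_right, Complex.re_ofReal_mul, hHs]
    rfl
  linarith

end DL

section IND

variable [FiniteDimensional ℂ V]

/-- minimal eigenvector of a symmetric operator on an invariant subspace -/
theorem exists_min_eigenvector (E : Submodule ℂ V) (A : V →L[ℂ] V)
    (hA : ∀ φ χ : V, ⟪A φ, χ⟫_ℂ = ⟪φ, A χ⟫_ℂ) (hE : ∀ φ ∈ E, A φ ∈ E)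
    (hne : ∃ φ ∈ E, φ ≠ 0) :
    ∃ ψ ∈ E, ψ ≠ 0 ∧ ∃ l : ℝ, A ψ = (l : ℂ) • ψ ∧ ∀ φ ∈ E, l * ‖φ‖ ^ 2 ≤ qf A φ := by
  classical
  let T : E →ₗ[ℂ] E := (A : V →ₗ[ℂ] V).restrict hE
  have hT : T.IsSymmetric := by
    intro x y
    exact hA x y
  obtain ⟨φ₀, hφ₀, hφ₀ne⟩ := hne
  have : Nontrivial E := ⟨⟨⟨φ₀, hφ₀⟩, 0, fun h => hφ₀ne (by simpa using congrArg Subtype.val h)⟩⟩
  have hev := hT.hasEigenvalue_iInf_of_finiteDimensional
  set l : ℝ := ⨅ x : { x : E // x ≠ 0 }, RCLike.re ⟪T x, x⟫_ℂ / ‖(x : E)‖ ^ 2 with hl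
  obtain ⟨x, hx⟩ := hev.exists_hasEigenvector
  refine ⟨x, x.2, fun h => hx.2 (Subtype.ext h), l, ?_, ?_⟩
  · have := hx.apply_eq_smul
    exact congrArg Subtype.val this
  · intro φ hφ
    by_cases h0 : φ = 0
    · simp [h0, qf_zero]
    have hbdd : BddBelow (Set.range fun x : { x : E // x ≠ 0 } =>
        RCLike.re ⟪T x, x⟫_ℂ / ‖(x : E)‖ ^ 2) := by
      refine ⟨-‖A‖, ?_⟩
      rintro _ ⟨y, rfl⟩
      have hy : 0 < ‖(y : E)‖ := norm_pos_iff.mpr y.2
      have h1 : |RCLike.re ⟪T y, y⟫_ℂ| ≤ ‖A‖ * ‖(y : E)‖ ^ 2 := by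
        refine (RCLike.abs_re_le_norm _).trans ?_
        refine (norm_inner_le_norm (𝕜 := ℂ) _ _).trans ?_
        have h2 : ‖T y‖ ≤ ‖A‖ * ‖(y : E)‖ := A.le_opNorm (y : V)
        nlinarith [norm_nonneg (y : E)]
      simp only
      rw [le_div_iff₀ (by positivity)]
      linarith [(abs_le.mp h1).1]
    have h1 : l ≤ RCLike.re ⟪T ⟨φ, hφ⟩, (⟨φ, hφ⟩ : E)⟫_ℂ / ‖(⟨φ, hφ⟩ : E)‖ ^ 2 :=
      ciInf_le hbdd ⟨⟨φ, hφ⟩, fun h => h0 (by simpa using congrArg Subtype.val h)⟩
    have hpos : 0 < ‖φ‖ := norm_pos_iff.mpr h0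
    rw [le_div_iff₀ (by simpa using pow_pos hpos 2)] at h1
    have h2 : (RCLike.re ⟪T ⟨φ, hφ⟩, (⟨φ, hφ⟩ : E)⟫_ℂ : ℝ) = qf A φ := by
      unfold qf
      rw [← hA]
      rfl
    rw [h2] at h1
    simpa using h1

/-- **Induction over sectors.** `c = 3 C_F1 ε`, `γ₃ = γ₂ - δ - δ'`. -/
theorem sector_ind {Sec : ℕ → Submodule ℂ V} {H W P : V →L[ℂ] V} {c m₁ γ₀ γ₃ κ : ℝ} {N₀ : ℕ}
    (hH : ∀ φ χ : V, ⟪H φ, χ⟫_ℂ = ⟪φ, H χ⟫_ℂ)
    (hW : ∀ φ χ : V, ⟪W φ, χ⟫_ℂ = ⟪φ, W χ⟫_ℂ)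
    (hP : ∀ φ χ : V, ⟪P φ, χ⟫_ℂ = ⟪φ, P χ⟫_ℂ)
    (hPP : ∀ φ, P (P φ) = P φ) (hHP : ∀ φ, H (P φ) = 0) (hWP : ∀ φ, W (P φ) = P (W φ))
    (hHs : ∀ N, ∀ φ ∈ Sec N, H φ ∈ Sec N) (hWs : ∀ N, ∀ φ ∈ Sec N, W φ ∈ Sec N)
    (hPs : ∀ N, ∀ φ ∈ Sec N, P φ ∈ Sec N)
    (hgap : ∀ φ, P φ = 0 → γ₀ * ‖φ‖ ^ 2 ≤ qf H φ) (hγ₀ : 0 < γ₀)
    (F1 : ∀ N ≤ N₀, ∀ φ ∈ Sec N, P φ = φ → - (c * ((N₀ : ℝ) - N)) * ‖φ‖ ^ 2 ≤ qf W φ)
    (DL : ∀ N ≤ N₀, (∀ N' < N, ∀ φ ∈ Sec N', - (c * ((N₀ : ℝ) - N')) * ‖φ‖ ^ 2 ≤ qf (H + W) φ) →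
      ∀ ψ ∈ Sec N, ∀ E : ℝ, (H + W) ψ = (E : ℂ) • ψ →
        - (c * ((N₀ : ℝ) - N + 2 + m₁)) * qf H ψ ≤ (E - γ₃) * qf H ψ)
    (hc : 0 ≤ c) (hκ : 0 ≤ κ) (hc2 : c * (2 + m₁) + κ ≤ γ₃) :
    (∀ N ≤ N₀, ∀ φ ∈ Sec N, - (c * ((N₀ : ℝ) - N)) * ‖φ‖ ^ 2 ≤ qf (H + W) φ) ∧
      (∀ N ≤ N₀, ∀ φ ∈ Sec N, P φ = 0 →
        (κ - c * ((N₀ : ℝ) - N)) * ‖φ‖ ^ 2 ≤ qf (H + W) φ) := by
  classical
  have hPH : ∀ φ, P (H φ) = 0 := by
    intro φ
    have : ⟪P (H φ), P (H φ)⟫_ℂ = 0 := by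
      rw [hP, hPP, hH, hHP, inner_zero_right]
    exact inner_self_eq_zero.mp this
  -- step on the orthogonal complement
  have key : ∀ N ≤ N₀,
      (∀ N' < N, ∀ φ ∈ Sec N', - (c * ((N₀ : ℝ) - N')) * ‖φ‖ ^ 2 ≤ qf (H + W) φ) →
      ∀ φ ∈ Sec N, P φ = 0 → (κ - c * ((N₀ : ℝ) - N)) * ‖φ‖ ^ 2 ≤ qf (H + W) φ := by
    intro N hN ih φ hφ hPφ
    by_cases hne : ∃ χ ∈ Sec N ⊓ LinearMap.ker (P : V →ₗ[ℂ] V), χ ≠ 0
    · obtain ⟨ψ, hψ, hψ0, l, hl, hmin⟩ := exists_min_eigenvector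
        (Sec N ⊓ LinearMap.ker (P : V →ₗ[ℂ] V)) (H + W)
        (fun a b => by simp [hH, hW])
        (fun a ha => by
          obtain ⟨h1, h2⟩ := Submodule.mem_inf.mp ha
          have h2' : P a = 0 := h2
          refine Submodule.mem_inf.mpr ⟨?_, ?_⟩
          · exact (Sec N).add_mem (hHs N a h1) (hWs N a h1)
          · change P ((H + W) a) = 0
            simp [hPH, ← hWP, h2'])
        hne
      obtain ⟨h1, h2⟩ := Submodule.mem_inf.mp hψ
      have h2' : P ψ = 0 := h2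
      have hpos : 0 < qf H ψ := by
        have := hgap ψ h2'
        have : 0 < γ₀ * ‖ψ‖ ^ 2 := by
          have := norm_pos_iff.mpr hψ0
          positivity
        linarith
      have hd := DL N hN ih ψ h1 l hl
      have hd' : - (c * ((N₀ : ℝ) - N + 2 + m₁)) ≤ l - γ₃ := le_of_mul_le_mul_right hd hpos
      have hl2 : κ - c * ((N₀ : ℝ) - N) ≤ l := by nlinarith
      have := hmin φ (Submodule.mem_inf.mpr ⟨hφ, hPφ⟩)
      have h3 : 0 ≤ ‖φ‖ ^ 2 := by positivity
      nlinarith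
    · push Not at hne
      have : φ = 0 := hne φ (Submodule.mem_inf.mpr ⟨hφ, hPφ⟩)
      simp [this, qf_zero]
  have main : ∀ N, N ≤ N₀ → ∀ φ ∈ Sec N, - (c * ((N₀ : ℝ) - N)) * ‖φ‖ ^ 2 ≤ qf (H + W) φ := by
    intro N
    induction N using Nat.strong_induction_on with
    | _ N ih =>
      intro hN φ hφ
      have ih' : ∀ N' < N, ∀ χ ∈ Sec N', - (c * ((N₀ : ℝ) - N')) * ‖χ‖ ^ 2 ≤ qf (H + W) χ :=
        fun N' hN' χ hχ => ih N' hN' (hN'.le.trans hN) χ hχ
      -- decomposition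
      set u := P φ with hu
      set v := φ - P φ with hv
      have hus : u ∈ Sec N := hPs N φ hφ
      have hvs : v ∈ Sec N := (Sec N).sub_mem hφ hus
      have hPu : P u = u := hPP φ
      have hPv : P v = 0 := by simp [hv, hPP]
      have horth : ∀ a b : V, P a = a → P b = 0 → ⟪a, b⟫_ℂ = 0 := by
        intro a b ha hb
        rw [← ha, hP, hb, inner_zero_right]
      have hdec : φ = u + v := by simp [hu, hv]
      have hnorm : ‖φ‖ ^ 2 = ‖u‖ ^ 2 + ‖v‖ ^ 2 := by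
        rw [hdec, pow_two, pow_two, pow_two]
        exact norm_add_sq_eq_norm_sq_add_norm_sq_of_inner_eq_zero u v (horth u v hPu hPv)
      have hAu : P ((H + W) u) = (H + W) u := by
        have e1 : H u = 0 := by rw [← hPu]; exact hHP _
        simp only [add_apply, e1, zero_add]
        rw [← hWP, hPu]
      have hAv : P ((H + W) v) = 0 := by
        simp [hPH, ← hWP, hPv]
      have hq : qf (H + W) φ = qf (H + W) u + qf (H + W) v := by
        unfold qf
        rw [hdec, map_add, inner_add_left, inner_add_right, inner_add_right,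
          horth u _ hPu hAv]
        have : ⟪v, (H + W) u⟫_ℂ = 0 := by
          rw [← inner_conj_symm, horth _ _ hAu hPv, map_zero]
        rw [this]
        simp [inner_add_right]
        try ring
      have h1 : - (c * ((N₀ : ℝ) - N)) * ‖u‖ ^ 2 ≤ qf (H + W) u := by
        have e1 : H u = 0 := by rw [← hPu]; exact hHP _
        have e2 : qf (H + W) u = qf W u := by simp [qf, e1]
        rw [e2]
        exact F1 N hN u hus hPu
      have h2 := key N hN ih' v hvs hPv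
      have h3 : 0 ≤ ‖v‖ ^ 2 := by positivity
      rw [hq, hnorm]
      nlinarith
  exact ⟨main, fun N hN φ hφ hPφ =>
    key N hN (fun N' hN' χ hχ => main N' (hN'.le.trans hN) χ hχ) φ hφ hPφ⟩

end IND

end Crest.Agent.R340.U856
end

-- ▼ part R340/U2_856
section

/-!
R340, block (U) (helper856), part 1: commutator estimate, the quadratic map `S ↦ O`, stability of the
profile class under `S ↦ O`.

`𝒜` a C*-algebra of operators (`Op ι` in the application), `π` its action on the Hilbert space `V`.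
-/

set_option autoImplicit false
set_option linter.unusedSectionVars false

namespace Crest.Agent.R340.U856

open MeasureTheory
open scoped InnerProductSpace ComplexConjugate

section Comm

variable {V : Type*} [NormedAddCommGroup V] [InnerProductSpace ℂ V]
variable {G : Type*} [MeasurableSpace G] {ν : Measure G}

/-- `|⟨φ, i[H,S] φ⟩| ≤ 2 ⟨φ,Hφ⟩^{1/2} (∫ ‖[B_g,S] φ‖²)^{1/2}` for `H = ∫ B_g^* B_g`. -/
theorem abs_qf_comm_le {H S : V →L[ℂ] V} {B : G → (V →L[ℂ] V)}
    (hH : ∀ φ χ : V, ∫ g, ⟪B g φ, B g χ⟫_ℂ ∂ν = ⟪φ, H χ⟫_ℂ)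
    (hHs : ∀ φ χ : V, ⟪H φ, χ⟫_ℂ = ⟪φ, H χ⟫_ℂ)
    (hS : ∀ φ χ : V, ⟪S φ, χ⟫_ℂ = ⟪φ, S χ⟫_ℂ)
    (hB2 : ∀ φ, MemLp (fun g => B g φ) 2 ν) (φ : V) :
    |(⟪φ, (Complex.I • (H * S - S * H)) φ⟫_ℂ).re| ≤
      2 * (Real.sqrt (qf H φ) * Real.sqrt (∫ g, ‖(B g * S - S * B g) φ‖ ^ 2 ∂ν)) := by
  have hint : ∀ χ η : V, Integrable (fun g => ⟪B g χ, B g η⟫_ℂ) ν := by
    intro χ η
    refine Integrable.mono' (g := fun g => ‖B g χ‖ * ‖B g η‖)
      ((hB2 χ).norm.integrable_mul (hB2 η).norm) ?_ ?_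
    · exact (hB2 χ).aestronglyMeasurable.inner (hB2 η).aestronglyMeasurable
    · exact Filter.Eventually.of_forall fun g => norm_inner_le_norm _ _
  have hh : ∫ g, ‖B g φ‖ ^ 2 ∂ν = qf H φ := by
    have h1 := hH φ φ
    have h2 : ∫ g, ⟪B g φ, B g φ⟫_ℂ ∂ν = ((∫ g, ‖B g φ‖ ^ 2 ∂ν : ℝ) : ℂ) := by
      rw [← integral_complex_ofReal]
      refine integral_congr_ae (Filter.Eventually.of_forall fun g => ?_)
      simp only
      rw [inner_self_eq_norm_sq_to_K]
      norm_cast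
    unfold qf
    rw [← h1, h2, Complex.ofReal_re]
  have hcom2 : MemLp (fun g => (B g * S - S * B g) φ) 2 ν := by
    have h1 : MemLp (fun g => B g (S φ)) 2 ν := hB2 (S φ)
    have h2 : MemLp (fun g => S (B g φ)) 2 ν := S.comp_memLp' (hB2 φ)
    exact h1.sub h2
  -- the exact formula
  have e1 : (⟪φ, (Complex.I • (H * S - S * H)) φ⟫_ℂ).re =
      - 2 * (⟪φ, H (S φ)⟫_ℂ).im := by
    have h1 : ⟪φ, (Complex.I • (H * S - S * H)) φ⟫_ℂ =
        Complex.I * (⟪φ, H (S φ)⟫_ℂ - conj ⟪φ, H (S φ)⟫_ℂ) := by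
      have h2 : ⟪φ, S (H φ)⟫_ℂ = conj ⟪φ, H (S φ)⟫_ℂ := by
        rw [← hS, ← hHs, inner_conj_symm]
      have h3 : (Complex.I • (H * S - S * H)) φ = Complex.I • (H (S φ) - S (H φ)) := rfl
      rw [h3, inner_smul_right, inner_sub_right, h2]
    rw [h1]
    generalize ⟪φ, H (S φ)⟫_ℂ = z
    simp [Complex.mul_re]
    ring
  have e2 : (⟪φ, H (S φ)⟫_ℂ).im = ∫ g, (⟪B g φ, (B g * S - S * B g) φ⟫_ℂ).im ∂ν := by
    rw [← hH φ (S φ)]
    have h1 : (∫ g, ⟪B g φ, B g (S φ)⟫_ℂ ∂ν).im = ∫ g, (⟪B g φ, B g (S φ)⟫_ℂ).im ∂ν :=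
      (integral_im (hint φ (S φ))).symm
    rw [h1]
    refine integral_congr_ae (Filter.Eventually.of_forall fun g => ?_)
    have h2 : (⟪B g φ, S (B g φ)⟫_ℂ).im = 0 := by
      have h3 : conj ⟪B g φ, S (B g φ)⟫_ℂ = ⟪B g φ, S (B g φ)⟫_ℂ := by
        rw [inner_conj_symm, hS]
      exact Complex.conj_eq_iff_im.mp h3
    have h4 : (B g * S - S * B g) φ = B g (S φ) - S (B g φ) := rfl
    simp only
    rw [h4, inner_sub_right, Complex.sub_im, h2, sub_zero]
  have e3 : |∫ g, (⟪B g φ, (B g * S - S * B g) φ⟫_ℂ).im ∂ν| ≤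
      ∫ g, ‖B g φ‖ * ‖(B g * S - S * B g) φ‖ ∂ν := by
    rw [← Real.norm_eq_abs]
    refine (norm_integral_le_integral_norm _).trans ?_
    refine integral_mono_of_nonneg (Filter.Eventually.of_forall fun g => norm_nonneg _)
      ((hB2 φ).norm.integrable_mul hcom2.norm)
      (Filter.Eventually.of_forall fun g => ?_)
    exact (Complex.abs_im_le_norm _).trans (norm_inner_le_norm _ _)
  have e4 := integral_norm_mul_norm_le (hB2 φ) hcom2
  rw [hh] at e4
  rw [e1, e2, abs_mul, abs_neg, abs_two]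
  exact mul_le_mul_of_nonneg_left (e3.trans e4) (by norm_num)

end Comm

section Cont

variable {G : Type*} [TopologicalSpace G] [CompactSpace G] [SecondCountableTopology G]
  [MeasurableSpace G] [BorelSpace G] {ν : Measure G} [IsFiniteMeasure ν]
variable {E : Type*} [NormedAddCommGroup E]

theorem cint {f : G → E} (hf : Continuous f) : Integrable f ν :=
  hf.integrable_of_hasCompactSupport (HasCompactSupport.of_compactSpace f)

theorem cmem {f : G → E} (hf : Continuous f) : MemLp f 2 ν := by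
  obtain ⟨M, hM⟩ := isCompact_univ.exists_bound_of_continuousOn hf.continuousOn
  exact MemLp.of_bound hf.aestronglyMeasurable M
    (Filter.Eventually.of_forall fun g => hM g (Set.mem_univ g))

end Cont

section Quad

variable {𝒜 : Type*} [CStarAlgebra 𝒜]
variable {V : Type*} [NormedAddCommGroup V] [InnerProductSpace ℂ V]

variable (𝒜 V) in
/-- an operator algebra acting on `V` -/
structure Rep where
  π : 𝒜 →L[ℂ] (V →L[ℂ] V)
  map_mul : ∀ A B, π (A * B) = π A * π B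
  star_inner : ∀ (A : 𝒜) (v w : V), ⟪π (star A) v, w⟫_ℂ = ⟪v, π A w⟫_ℂ
  norm_le : ∀ A, ‖π A‖ ≤ ‖A‖

variable (R : Rep 𝒜 V)

theorem Rep.sa {A : 𝒜} (hA : IsSelfAdjoint A) (v w : V) : ⟪R.π A v, w⟫_ℂ = ⟪v, R.π A w⟫_ℂ := by
  have := R.star_inner A v w
  rwa [hA.star_eq] at this

/-- the real-linear functional `A ↦ Re ⟨φ, A φ⟩` -/
noncomputable def Rep.q (φ : V) : 𝒜 →L[ℝ] ℝ :=
  Complex.reCLM.comp (((innerSL ℂ φ).comp ((ContinuousLinearMap.apply ℂ V φ).comp R.π)).restrictScalars ℝ)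

theorem Rep.q_apply (φ : V) (A : 𝒜) : R.q φ A = qf (R.π A) φ := rfl

/-- evaluation `A ↦ A φ` -/
noncomputable def Rep.ev (φ : V) : 𝒜 →L[ℂ] V := (ContinuousLinearMap.apply ℂ V φ).comp R.π

theorem Rep.ev_apply (φ : V) (A : 𝒜) : R.ev φ A = R.π A φ := rfl

theorem Rep.q_star_mul (φ : V) (A : 𝒜) : R.q φ (star A * A) = ‖R.π A φ‖ ^ 2 := by
  rw [Rep.q_apply, qf, R.map_mul]
  have h : ⟪φ, (R.π (star A) * R.π A) φ⟫_ℂ = ⟪R.π A φ, R.π A φ⟫_ℂ := by
    have h1 := R.star_inner (star A) φ (R.π A φ)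
    rw [star_star] at h1
    exact h1.symm
  rw [h, inner_self_eq_norm_sq_to_K]
  norm_cast

variable {G : Type*}

/-- commutator `[B_g, S_x]` -/
def TT (B S : G → 𝒜) (g x : G) : 𝒜 := B g * S x - S x * B g

/-- weight `(1+d)^3` -/
noncomputable def wt (d : G → G → ℝ) (x g : G) : ℝ := (1 + d x g) ^ 3

variable [TopologicalSpace G] [CompactSpace G] [SecondCountableTopology G]
  [MeasurableSpace G] [BorelSpace G] (ν : Measure G) [IsFiniteMeasure ν]

/-- `O_x = ∫ (1+d(x,g))^3 [B_g,S_x]^* [B_g,S_x] dν(g)` -/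
noncomputable def OO (B S : G → 𝒜) (d : G → G → ℝ) (x : G) : 𝒜 :=
  ∫ g, ((wt d x g : ℝ) : ℂ) • (star (TT B S g x) * TT B S g x) ∂ν

variable {ν}

theorem continuous_TT {B S : G → 𝒜} (hB : Continuous B) (hS : Continuous S) :
    Continuous (fun p : G × G => TT B S p.2 p.1) := by
  unfold TT
  fun_prop

theorem continuous_wt {d : G → G → ℝ} (hd : Continuous (fun p : G × G => d p.1 p.2)) :
    Continuous (fun p : G × G => wt d p.1 p.2) := by
  unfold wt
  fun_prop

theorem continuous_OO_aux {B S : G → 𝒜} {d : G → G → ℝ} (hB : Continuous B) (hS : Continuous S)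
    (hd : Continuous (fun p : G × G => d p.1 p.2)) :
    Continuous (fun p : G × G =>
      ((wt d p.1 p.2 : ℝ) : ℂ) • (star (TT B S p.2 p.1) * TT B S p.2 p.1)) := by
  have h1 := continuous_TT hB hS
  have h2 := continuous_wt hd
  exact (Complex.continuous_ofReal.comp h2).smul (h1.star.mul h1)

theorem continuous_OO [T2Space G] {B S : G → 𝒜} {d : G → G → ℝ} (hB : Continuous B)
    (hS : Continuous S) (hd : Continuous (fun p : G × G => d p.1 p.2)) :
    Continuous (OO ν B S d) := by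
  have h := continuous_parametric_integral_of_continuous (μ := ν)
    (f := fun x g => ((wt d x g : ℝ) : ℂ) • (star (TT B S g x) * TT B S g x))
    (continuous_OO_aux hB hS hd) isCompact_univ
  simp only [Measure.restrict_univ] at h
  exact h

/-- the square-root bootstrap inequality, quadratic part -/
theorem quad_le {B S : G → 𝒜} {d : G → G → ℝ} {s : G → ℝ} {Ck : ℝ}
    (hB : Continuous B) (hS : Continuous S) (hd : Continuous (fun p : G × G => d p.1 p.2))
    (hd0 : ∀ x g, 0 ≤ d x g) (hs : Measurable s) (hs1 : ∀ x, |s x| ≤ 1)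
    (hCk : ∀ g, ∫ x, (wt d x g)⁻¹ ∂ν ≤ Ck) [T2Space G] [CompleteSpace V] (φ : V) :
    ∫ g, ‖(R.π (B g) * R.π (∫ x, (s x : ℂ) • S x ∂ν) -
        R.π (∫ x, (s x : ℂ) • S x ∂ν) * R.π (B g)) φ‖ ^ 2 ∂ν ≤
      Ck * R.q φ (∫ x, OO ν B S d x ∂ν) := by
  have hwpos : ∀ x g, 0 < wt d x g := fun x g => by
    have := hd0 x g
    unfold wt; positivity
  have hsS : Integrable (fun x => (s x : ℂ) • S x) ν := by
    refine Integrable.mono' (g := fun x => ‖S x‖) (cint hS.norm) ?_ ?_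
    · exact (Complex.measurable_ofReal.comp hs).aestronglyMeasurable.smul hS.aestronglyMeasurable
    · refine Filter.Eventually.of_forall fun x => ?_
      rw [norm_smul, Complex.norm_real, Real.norm_eq_abs]
      exact mul_le_of_le_one_left (norm_nonneg _) (hs1 x)
  -- commutator of the integral
  have hcom : ∀ g, (R.π (B g) * R.π (∫ x, (s x : ℂ) • S x ∂ν) -
        R.π (∫ x, (s x : ℂ) • S x ∂ν) * R.π (B g)) φ =
      ∫ x, (s x : ℂ) • R.π (TT B S g x) φ ∂ν := by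
    intro g
    have h1 : B g * (∫ x, (s x : ℂ) • S x ∂ν) - (∫ x, (s x : ℂ) • S x ∂ν) * B g =
        ∫ x, (s x : ℂ) • TT B S g x ∂ν := by
      have e1 : B g * (∫ x, (s x : ℂ) • S x ∂ν) = ∫ x, B g * ((s x : ℂ) • S x) ∂ν :=
        ((ContinuousLinearMap.mul ℂ 𝒜 (B g)).integral_comp_comm hsS).symm
      have e2 : (∫ x, (s x : ℂ) • S x ∂ν) * B g = ∫ x, ((s x : ℂ) • S x) * B g ∂ν :=
        (((ContinuousLinearMap.mul ℂ 𝒜).flip (B g)).integral_comp_comm hsS).symm
      rw [e1, e2, ← integral_sub]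
      · refine integral_congr_ae (Filter.Eventually.of_forall fun x => ?_)
        simp only [TT]
        rw [mul_smul_comm, smul_mul_assoc, ← smul_sub]
      · exact (ContinuousLinearMap.mul ℂ 𝒜 (B g)).integrable_comp hsS
      · exact ((ContinuousLinearMap.mul ℂ 𝒜).flip (B g)).integrable_comp hsS
    have h2 : (R.π (B g) * R.π (∫ x, (s x : ℂ) • S x ∂ν) -
        R.π (∫ x, (s x : ℂ) • S x ∂ν) * R.π (B g)) =
        R.π (B g * (∫ x, (s x : ℂ) • S x ∂ν) - (∫ x, (s x : ℂ) • S x ∂ν) * B g) := by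
      rw [map_sub, R.map_mul, R.map_mul]
    have hsT : Integrable (fun x => (s x : ℂ) • TT B S g x) ν := by
      have hT : Continuous (fun x => TT B S g x) := by unfold TT; fun_prop
      refine Integrable.mono' (g := fun x => ‖TT B S g x‖) (cint hT.norm) ?_ ?_
      · exact (Complex.measurable_ofReal.comp hs).aestronglyMeasurable.smul
          hT.aestronglyMeasurable
      · refine Filter.Eventually.of_forall fun x => ?_
        rw [norm_smul, Complex.norm_real, Real.norm_eq_abs]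
        exact mul_le_of_le_one_left (norm_nonneg _) (hs1 x)
    rw [h2, h1, ← Rep.ev_apply, ← (R.ev φ).integral_comp_comm hsT]
    refine integral_congr_ae (Filter.Eventually.of_forall fun x => ?_)
    simp only [map_smul, Rep.ev_apply]
  -- joint continuity
  have hTc : Continuous (fun p : G × G => R.π (TT B S p.2 p.1) φ) := by
    have := continuous_TT hB hS
    exact (R.ev φ).continuous.comp this
  have hw : Continuous (fun p : G × G => wt d p.1 p.2) := continuous_wt hd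
  -- Cauchy-Schwarz for fixed g
  have hg : ∀ g, ‖(R.π (B g) * R.π (∫ x, (s x : ℂ) • S x ∂ν) -
        R.π (∫ x, (s x : ℂ) • S x ∂ν) * R.π (B g)) φ‖ ^ 2 ≤
      Ck * ∫ x, wt d x g * ‖R.π (TT B S g x) φ‖ ^ 2 ∂ν := by
    intro g
    rw [hcom g]
    have hTg : Continuous (fun x => R.π (TT B S g x) φ) :=
      hTc.comp (by fun_prop : Continuous fun x => ((x, g) : G × G))
    have hwg : Continuous (fun x => wt d x g) :=
      hw.comp (by fun_prop : Continuous fun x => ((x, g) : G × G))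
    have h1 : ‖∫ x, (s x : ℂ) • R.π (TT B S g x) φ ∂ν‖ ≤ ∫ x, ‖R.π (TT B S g x) φ‖ ∂ν := by
      refine (norm_integral_le_integral_norm _).trans ?_
      refine integral_mono_of_nonneg (Filter.Eventually.of_forall fun g => norm_nonneg _)
        (cint hTg.norm) (Filter.Eventually.of_forall fun x => ?_)
      simp only
      rw [norm_smul, Complex.norm_real, Real.norm_eq_abs]
      exact mul_le_of_le_one_left (norm_nonneg _) (hs1 x)
    have hu : Continuous (fun x => Real.sqrt ((wt d x g)⁻¹)) :=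
      Real.continuous_sqrt.comp (hwg.inv₀ fun x => (hwpos x g).ne')
    have hv : Continuous (fun x => Real.sqrt (wt d x g) * ‖R.π (TT B S g x) φ‖) :=
      (Real.continuous_sqrt.comp hwg).mul hTg.norm
    have h2 := integral_norm_mul_norm_le (V := ℝ) (ν := ν) (cmem hu) (cmem hv)
    have e1 : ∀ x, ‖Real.sqrt ((wt d x g)⁻¹)‖ * ‖Real.sqrt (wt d x g) * ‖R.π (TT B S g x) φ‖‖ =
        ‖R.π (TT B S g x) φ‖ := by
      intro x
      have h0 := hwpos x g
      rw [norm_mul, norm_norm, Real.norm_of_nonneg (Real.sqrt_nonneg _),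
        Real.norm_of_nonneg (Real.sqrt_nonneg _), ← mul_assoc, ← Real.sqrt_mul (by positivity),
        inv_mul_cancel₀ h0.ne', Real.sqrt_one, one_mul]
    have e2 : ∀ x, ‖Real.sqrt ((wt d x g)⁻¹)‖ ^ 2 = (wt d x g)⁻¹ := by
      intro x
      have h0 := hwpos x g
      rw [Real.norm_of_nonneg (Real.sqrt_nonneg _), Real.sq_sqrt (by positivity)]
    have e3 : ∀ x, ‖Real.sqrt (wt d x g) * ‖R.π (TT B S g x) φ‖‖ ^ 2 =
        wt d x g * ‖R.π (TT B S g x) φ‖ ^ 2 := by
      intro x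
      have h0 := hwpos x g
      rw [norm_mul, norm_norm, Real.norm_of_nonneg (Real.sqrt_nonneg _), mul_pow,
        Real.sq_sqrt h0.le]
    simp only [e1, e2, e3] at h2
    have h3 : 0 ≤ ∫ x, wt d x g * ‖R.π (TT B S g x) φ‖ ^ 2 ∂ν :=
      integral_nonneg fun x => mul_nonneg (hwpos x g).le (by positivity)
    have h4 : 0 ≤ ∫ x, (wt d x g)⁻¹ ∂ν :=
      integral_nonneg fun x => inv_nonneg.mpr (hwpos x g).le
    calc ‖∫ x, (s x : ℂ) • R.π (TT B S g x) φ ∂ν‖ ^ 2
        ≤ (∫ x, ‖R.π (TT B S g x) φ‖ ∂ν) ^ 2 := by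
          exact pow_le_pow_left₀ (norm_nonneg _) h1 2
      _ ≤ (Real.sqrt (∫ x, (wt d x g)⁻¹ ∂ν) *
            Real.sqrt (∫ x, wt d x g * ‖R.π (TT B S g x) φ‖ ^ 2 ∂ν)) ^ 2 := by
          exact pow_le_pow_left₀ (integral_nonneg fun x => norm_nonneg _) h2 2
      _ = (∫ x, (wt d x g)⁻¹ ∂ν) * ∫ x, wt d x g * ‖R.π (TT B S g x) φ‖ ^ 2 ∂ν := by
          rw [mul_pow, Real.sq_sqrt h4, Real.sq_sqrt h3]
      _ ≤ Ck * ∫ x, wt d x g * ‖R.π (TT B S g x) φ‖ ^ 2 ∂ν :=
          mul_le_mul_of_nonneg_right (hCk g) h3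
  -- Fubini
  have hF : Continuous (fun p : G × G => wt d p.1 p.2 * ‖R.π (TT B S p.2 p.1) φ‖ ^ 2) :=
    hw.mul (hTc.norm.pow 2)
  have hF' : Continuous (fun p : G × G => wt d p.2 p.1 * ‖R.π (TT B S p.1 p.2) φ‖ ^ 2) :=
    hF.comp continuous_swap
  have hswap : ∫ g, ∫ x, wt d x g * ‖R.π (TT B S g x) φ‖ ^ 2 ∂ν ∂ν =
      ∫ x, ∫ g, wt d x g * ‖R.π (TT B S g x) φ‖ ^ 2 ∂ν ∂ν :=
    integral_integral_swap (f := fun g x => wt d x g * ‖R.π (TT B S g x) φ‖ ^ 2)
      (cint hF')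
  have hOq : ∀ x, ∫ g, wt d x g * ‖R.π (TT B S g x) φ‖ ^ 2 ∂ν = R.q φ (OO ν B S d x) := by
    intro x
    have hc : Continuous (fun g => ((wt d x g : ℝ) : ℂ) • (star (TT B S g x) * TT B S g x)) :=
      (continuous_OO_aux hB hS hd).comp (by fun_prop : Continuous fun g => ((x, g) : G × G))
    rw [OO, ← (R.q φ).integral_comp_comm (cint hc)]
    refine integral_congr_ae (Filter.Eventually.of_forall fun g => ?_)
    simp only
    have h1 : (((wt d x g : ℝ) : ℂ) • (star (TT B S g x) * TT B S g x)) =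
        (wt d x g) • (star (TT B S g x) * TT B S g x) := (Complex.coe_smul _ _)
    rw [h1, map_smul, R.q_star_mul, smul_eq_mul]
  calc ∫ g, ‖(R.π (B g) * R.π (∫ x, (s x : ℂ) • S x ∂ν) -
        R.π (∫ x, (s x : ℂ) • S x ∂ν) * R.π (B g)) φ‖ ^ 2 ∂ν
      ≤ ∫ g, Ck * ∫ x, wt d x g * ‖R.π (TT B S g x) φ‖ ^ 2 ∂ν ∂ν := by
        refine integral_mono_of_nonneg (Filter.Eventually.of_forall fun g => by positivity) ?_
          (Filter.Eventually.of_forall hg)
        exact ((cint (ν := ν.prod ν) hF').integral_prod_left).const_mul _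
    _ = Ck * ∫ x, ∫ g, wt d x g * ‖R.π (TT B S g x) φ‖ ^ 2 ∂ν ∂ν := by
        rw [integral_const_mul, hswap]
    _ = Ck * R.q φ (∫ x, OO ν B S d x ∂ν) := by
        simp only [hOq]
        rw [(R.q φ).integral_comp_comm (cint (continuous_OO hB hS hd))]

end Quad

end Crest.Agent.R340.U856
end

-- ▼ part R340/U3_856

/-!
R340, block (U) (helper856), part 2: the profile class `Fam`, its stability under
`S ↦ O = ∫ (1+d)^3 [B_g,S]^* [B_g,S]`, and the theorem (U): square-root bootstrap.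
-/

set_option autoImplicit false
set_option linter.unusedSectionVars false

namespace Crest.Agent.R340.U856

open MeasureTheory
open scoped InnerProductSpace ComplexConjugate

variable {𝒜 : Type*} [CStarAlgebra 𝒜]
variable {G : Type*} [TopologicalSpace G]

/-- the profile class of families `x ↦ X x` localised at `x` -/
structure Fam (a : Fin 2 → G → 𝒜) (d : G → G → ℝ) (Nh : 𝒜) (m : ℕ) (C : ℝ) (X : G → 𝒜) :
    Prop where
  cont : Continuous X
  sa : ∀ x, IsSelfAdjoint (X x)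
  num : ∀ x, Nh * X x = X x * Nh
  norm_le : ∀ x, ‖X x‖ ≤ C
  com : ∀ x k w, ‖X x * a k w - a k w * X x‖ ≤ C / (1 + d x w) ^ m

variable {a : Fin 2 → G → 𝒜} {d : G → G → ℝ} {Nh : 𝒜} {m : ℕ}

theorem Fam.com_star {C : ℝ} {X : G → 𝒜} (h : Fam a d Nh m C X) (x : G) (k : Fin 2) (w : G) :
    ‖X x * star (a k w) - star (a k w) * X x‖ ≤ C / (1 + d x w) ^ m := by
  have h1 : X x * star (a k w) - star (a k w) * X x = - star (X x * a k w - a k w * X x) := by
    rw [star_sub, star_mul, star_mul, (h.sa x).star_eq]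
    abel
  rw [h1, norm_neg, norm_star]
  exact h.com x k w

theorem Fam.smul {C r : ℝ} {X : G → 𝒜} (h : Fam a d Nh m C X) (hr : 0 ≤ r) :
    Fam a d Nh m (r * C) (fun x => (r : ℂ) • X x) := by
  have hn : ‖(r : ℂ)‖ = r := by rw [Complex.norm_real, Real.norm_of_nonneg hr]
  refine ⟨?_, ?_, ?_, ?_, ?_⟩
  · exact h.cont.const_smul _
  · intro x
    have : star ((r : ℂ) • X x) = (r : ℂ) • X x := by
      rw [star_smul, (h.sa x).star_eq]
      simp
    exact this
  · intro x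
    rw [mul_smul_comm, smul_mul_assoc, h.num x]
  · intro x
    rw [norm_smul, hn]
    exact mul_le_mul_of_nonneg_left (h.norm_le x) hr
  · intro x k w
    rw [smul_mul_assoc, mul_smul_comm, ← smul_sub, norm_smul, hn, mul_div_assoc]
    exact mul_le_mul_of_nonneg_left (h.com x k w) hr

theorem Fam.mono {C C' : ℝ} {X : G → 𝒜} (h : Fam a d Nh m C X) (hC : C ≤ C')
    (hd0 : ∀ x g, 0 ≤ d x g) : Fam a d Nh m C' X := by
  refine ⟨h.cont, h.sa, h.num, fun x => (h.norm_le x).trans hC, fun x k w => ?_⟩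
  have : 0 < (1 + d x w) ^ m := by
    have := hd0 x w
    positivity
  exact (h.com x k w).trans (div_le_div_of_nonneg_right hC this.le)

section Stab

variable [CompactSpace G] [SecondCountableTopology G] [T2Space G]
  [MeasurableSpace G] [BorelSpace G] {ν : Measure G} [IsFiniteMeasure ν]

/-- the frame data: localised annihilators `a k g`, `k = 0,1`, with kernel bound `kap` -/
structure Frame (ν : Measure G) (a : Fin 2 → G → 𝒜) (d : G → G → ℝ) (kap : G → G → ℝ) (Nh : 𝒜)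
    (m : ℕ) (S₁ S₂ Ck : ℝ) : Prop where
  acont : ∀ k, Continuous (a k)
  norm_a : ∀ k g, ‖a k g‖ ≤ 1
  anti : ∀ k l g w, a k g * a l w = - (a l w * a k g)
  car : ∀ k l g w, ∃ z : ℂ, ‖z‖ ≤ kap g w ∧
    a k g * star (a l w) + star (a l w) * a k g = z • (1 : 𝒜)
  num : ∀ k g, Nh * a k g = a k g * Nh - a k g
  Nh_sa : IsSelfAdjoint Nh
  d_cont : Continuous (fun p : G × G => d p.1 p.2)
  d_nonneg : ∀ x g, 0 ≤ d x g
  kap_cont : Continuous (fun p : G × G => kap p.1 p.2)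
  schur1 : ∀ x, ∫ g, (1 + d x g) ^ 3 / (1 + d x g) ^ m ∂ν ≤ S₁
  schur2 : ∀ x w, ∫ g, kap g w * (1 + d x g) ^ 3 / (1 + d x g) ^ (2 * m) ∂ν ≤
    S₂ / (1 + d x w) ^ m
  schur3 : ∀ g, ∫ x, ((1 + d x g) ^ 3)⁻¹ ∂ν ≤ Ck

variable {kap : G → G → ℝ} {S₁ S₂ Ck : ℝ}

/-- the pair annihilator `B_g = a_1(g) a_0(g)` -/
def pB (a : Fin 2 → G → 𝒜) (g : G) : 𝒜 := a 1 g * a 0 g

theorem Frame.pB_cont (F : Frame ν a d kap Nh m S₁ S₂ Ck) : Continuous (pB a) :=
  (F.acont 1).mul (F.acont 0)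

theorem Frame.norm_pB (F : Frame ν a d kap Nh m S₁ S₂ Ck) (g : G) : ‖pB a g‖ ≤ 1 := by
  refine (norm_mul_le _ _).trans ?_
  have h1 := F.norm_a 1 g
  have h0 := F.norm_a 0 g
  nlinarith [norm_nonneg (a 1 g), norm_nonneg (a 0 g)]

theorem Frame.kap_nonneg (F : Frame ν a d kap Nh m S₁ S₂ Ck) (g w : G) : 0 ≤ kap g w := by
  obtain ⟨z, hz, -⟩ := F.car 0 0 g w
  exact (norm_nonneg z).trans hz

/-- `‖[B_g, S_x]‖ ≤ 2C/(1+d)^m` -/
theorem Frame.norm_TT (F : Frame ν a d kap Nh m S₁ S₂ Ck) {C : ℝ} {S : G → 𝒜}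
    (hS : Fam a d Nh m C S) (g x : G) : ‖TT (pB a) S g x‖ ≤ 2 * (C / (1 + d x g) ^ m) := by
  have h : TT (pB a) S g x = - (a 1 g * (S x * a 0 g - a 0 g * S x)) -
      (S x * a 1 g - a 1 g * S x) * a 0 g := by
    unfold TT pB
    noncomm_ring
  rw [h]
  have h1 := hS.com x 0 g
  have h2 := hS.com x 1 g
  have e1 : ‖a 1 g * (S x * a 0 g - a 0 g * S x)‖ ≤ C / (1 + d x g) ^ m := by
    refine (norm_mul_le _ _).trans ?_
    calc ‖a 1 g‖ * ‖S x * a 0 g - a 0 g * S x‖ ≤ 1 * ‖S x * a 0 g - a 0 g * S x‖ :=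
          mul_le_mul_of_nonneg_right (F.norm_a 1 g) (norm_nonneg _)
      _ ≤ _ := by rw [one_mul]; exact h1
  have e2 : ‖(S x * a 1 g - a 1 g * S x) * a 0 g‖ ≤ C / (1 + d x g) ^ m := by
    refine (norm_mul_le _ _).trans ?_
    calc ‖S x * a 1 g - a 1 g * S x‖ * ‖a 0 g‖ ≤ ‖S x * a 1 g - a 1 g * S x‖ * 1 :=
          mul_le_mul_of_nonneg_left (F.norm_a 0 g) (norm_nonneg _)
      _ ≤ _ := by rw [mul_one]; exact h2
  calc _ ≤ ‖a 1 g * (S x * a 0 g - a 0 g * S x)‖ + ‖(S x * a 1 g - a 1 g * S x) * a 0 g‖ := by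
        refine (norm_sub_le _ _).trans ?_
        rw [norm_neg]
    _ ≤ _ := by linarith

/-- commutator with `a_k(w)` -/
theorem Frame.norm_TT_com (F : Frame ν a d kap Nh m S₁ S₂ Ck) {C : ℝ} {S : G → 𝒜}
    (hS : Fam a d Nh m C S) (g x w : G) (k : Fin 2) :
    ‖TT (pB a) S g x * a k w - a k w * TT (pB a) S g x‖ ≤ 2 * (C / (1 + d x w) ^ m) := by
  have hB : pB a g * a k w = a k w * pB a g := by
    unfold pB
    rw [mul_assoc, F.anti 0 k g w, mul_neg, ← mul_assoc, F.anti 1 k g w]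
    noncomm_ring
  have h : TT (pB a) S g x * a k w - a k w * TT (pB a) S g x =
      pB a g * (S x * a k w - a k w * S x) - (S x * a k w - a k w * S x) * pB a g := by
    have e : TT (pB a) S g x * a k w - a k w * TT (pB a) S g x -
        (pB a g * (S x * a k w - a k w * S x) - (S x * a k w - a k w * S x) * pB a g) =
        (pB a g * a k w - a k w * pB a g) * S x - S x * (pB a g * a k w - a k w * pB a g) := by
      unfold TT
      noncomm_ring
    rw [hB, sub_self, zero_mul, mul_zero, sub_zero] at e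
    exact sub_eq_zero.mp e
  rw [h]
  have h1 := hS.com x k w
  have hb := F.norm_pB g
  refine (norm_sub_le _ _).trans ?_
  have e1 : ‖pB a g * (S x * a k w - a k w * S x)‖ ≤ C / (1 + d x w) ^ m := by
    refine (norm_mul_le _ _).trans ?_
    calc ‖pB a g‖ * ‖S x * a k w - a k w * S x‖ ≤ 1 * ‖S x * a k w - a k w * S x‖ :=
          mul_le_mul_of_nonneg_right hb (norm_nonneg _)
      _ ≤ _ := by rw [one_mul]; exact h1
  have e2 : ‖(S x * a k w - a k w * S x) * pB a g‖ ≤ C / (1 + d x w) ^ m := by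
    refine (norm_mul_le _ _).trans ?_
    calc ‖S x * a k w - a k w * S x‖ * ‖pB a g‖ ≤ ‖S x * a k w - a k w * S x‖ * 1 :=
          mul_le_mul_of_nonneg_left hb (norm_nonneg _)
      _ ≤ _ := by rw [mul_one]; exact h1
  linarith

/-- commutator with `a_k(w)^*` -/
theorem Frame.norm_TT_com_star (F : Frame ν a d kap Nh m S₁ S₂ Ck) {C : ℝ} {S : G → 𝒜}
    (hS : Fam a d Nh m C S) (g x w : G) (k : Fin 2) :
    ‖TT (pB a) S g x * star (a k w) - star (a k w) * TT (pB a) S g x‖ ≤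
      2 * (C / (1 + d x w) ^ m) + 2 * (kap g w * (C / (1 + d x g) ^ m)) := by
  obtain ⟨z0, hz0, h0⟩ := F.car 0 k g w
  obtain ⟨z1, hz1, h1⟩ := F.car 1 k g w
  have hB : pB a g * star (a k w) - star (a k w) * pB a g = z0 • a 1 g - z1 • a 0 g := by
    have e0 : a 0 g * star (a k w) = z0 • (1 : 𝒜) - star (a k w) * a 0 g := by
      rw [← h0]; abel
    have e1 : a 1 g * star (a k w) = z1 • (1 : 𝒜) - star (a k w) * a 1 g := by
      rw [← h1]; abel
    unfold pB
    rw [mul_assoc, e0, mul_sub, mul_smul_comm, mul_one, ← mul_assoc, e1, sub_mul,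
      smul_mul_assoc, one_mul]
    noncomm_ring
  have h : TT (pB a) S g x * star (a k w) - star (a k w) * TT (pB a) S g x =
      (pB a g * (S x * star (a k w) - star (a k w) * S x) -
        (S x * star (a k w) - star (a k w) * S x) * pB a g) -
      (z0 • (S x * a 1 g - a 1 g * S x) - z1 • (S x * a 0 g - a 0 g * S x)) := by
    have e : TT (pB a) S g x * star (a k w) - star (a k w) * TT (pB a) S g x =
        (pB a g * (S x * star (a k w) - star (a k w) * S x) -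
          (S x * star (a k w) - star (a k w) * S x) * pB a g) -
        (S x * (pB a g * star (a k w) - star (a k w) * pB a g) -
          (pB a g * star (a k w) - star (a k w) * pB a g) * S x) := by
      unfold TT
      noncomm_ring
    rw [e, hB]
    congr 1
    simp only [mul_sub, sub_mul, mul_smul_comm, smul_mul_assoc, smul_sub]
    abel
  rw [h]
  have hc := hS.com_star x k w
  have hb := F.norm_pB g
  have e1 : ‖pB a g * (S x * star (a k w) - star (a k w) * S x)‖ ≤ C / (1 + d x w) ^ m := by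
    refine (norm_mul_le _ _).trans ?_
    calc ‖pB a g‖ * ‖S x * star (a k w) - star (a k w) * S x‖
        ≤ 1 * ‖S x * star (a k w) - star (a k w) * S x‖ :=
          mul_le_mul_of_nonneg_right hb (norm_nonneg _)
      _ ≤ _ := by rw [one_mul]; exact hc
  have e2 : ‖(S x * star (a k w) - star (a k w) * S x) * pB a g‖ ≤ C / (1 + d x w) ^ m := by
    refine (norm_mul_le _ _).trans ?_
    calc ‖S x * star (a k w) - star (a k w) * S x‖ * ‖pB a g‖
        ≤ ‖S x * star (a k w) - star (a k w) * S x‖ * 1 :=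
          mul_le_mul_of_nonneg_left hb (norm_nonneg _)
      _ ≤ _ := by rw [mul_one]; exact hc
  have e3 : ‖z0 • (S x * a 1 g - a 1 g * S x)‖ ≤ kap g w * (C / (1 + d x g) ^ m) := by
    rw [norm_smul]
    exact mul_le_mul hz0 (hS.com x 1 g) (norm_nonneg _) ((norm_nonneg _).trans hz0)
  have e4 : ‖z1 • (S x * a 0 g - a 0 g * S x)‖ ≤ kap g w * (C / (1 + d x g) ^ m) := by
    rw [norm_smul]
    exact mul_le_mul hz1 (hS.com x 0 g) (norm_nonneg _) ((norm_nonneg _).trans hz1)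
  calc _ ≤ (‖pB a g * (S x * star (a k w) - star (a k w) * S x)‖ +
        ‖(S x * star (a k w) - star (a k w) * S x) * pB a g‖) +
        (‖z0 • (S x * a 1 g - a 1 g * S x)‖ + ‖z1 • (S x * a 0 g - a 0 g * S x)‖) := by
        refine (norm_sub_le _ _).trans ?_
        gcongr <;> exact norm_sub_le _ _
    _ ≤ _ := by linarith

/-- commutator of `T^*T` -/
theorem Frame.norm_TsT_com (F : Frame ν a d kap Nh m S₁ S₂ Ck) {C : ℝ} {S : G → 𝒜}
    (hC : 0 ≤ C) (hS : Fam a d Nh m C S) (g x w : G) (k : Fin 2) :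
    ‖(star (TT (pB a) S g x) * TT (pB a) S g x) * a k w -
        a k w * (star (TT (pB a) S g x) * TT (pB a) S g x)‖ ≤
      8 * C ^ 2 * (((1 + d x g) ^ m)⁻¹ * ((1 + d x w) ^ m)⁻¹) +
        4 * C ^ 2 * (kap g w * ((1 + d x g) ^ (2 * m))⁻¹) := by
  set T := TT (pB a) S g x with hT
  have h1 := F.norm_TT hS g x
  have h2 := F.norm_TT_com hS g x w k
  have h3 := F.norm_TT_com_star hS g x w k
  rw [← hT] at h1 h2 h3
  have hd1 : 0 < (1 + d x g) ^ m := by have := F.d_nonneg x g; positivity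
  have hd2 : 0 < (1 + d x w) ^ m := by have := F.d_nonneg x w; positivity
  have hk := F.kap_nonneg g w
  have e : (star T * T) * a k w - a k w * (star T * T) =
      star T * (T * a k w - a k w * T) + (star T * a k w - a k w * star T) * T := by
    noncomm_ring
  have e5 : star T * a k w - a k w * star T = - star (T * star (a k w) - star (a k w) * T) := by
    rw [star_sub, star_mul, star_mul, star_star]
    abel
  rw [e]
  have n1 : ‖star T * (T * a k w - a k w * T)‖ ≤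
      (2 * (C / (1 + d x g) ^ m)) * (2 * (C / (1 + d x w) ^ m)) := by
    refine (norm_mul_le _ _).trans ?_
    rw [norm_star]
    exact mul_le_mul h1 h2 (norm_nonneg _) (by positivity)
  have n2 : ‖(star T * a k w - a k w * star T) * T‖ ≤
      (2 * (C / (1 + d x w) ^ m) + 2 * (kap g w * (C / (1 + d x g) ^ m))) *
        (2 * (C / (1 + d x g) ^ m)) := by
    refine (norm_mul_le _ _).trans ?_
    rw [e5, norm_neg, norm_star]
    exact mul_le_mul h3 h1 (norm_nonneg _) (by positivity)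
  refine (norm_add_le _ _).trans ((add_le_add n1 n2).trans (le_of_eq ?_))
  have e6 : (1 + d x g) ^ (2 * m) = (1 + d x g) ^ m * (1 + d x g) ^ m := by
    rw [two_mul, pow_add]
  rw [e6]
  field_simp
  ring

/-- **Stability of the class**: `O ∈ Fam (8 C² (S₁ + S₂))`. -/
theorem Frame.fam_OO (F : Frame ν a d kap Nh m S₁ S₂ Ck) {C : ℝ} {S : G → 𝒜}
    (hC : 0 ≤ C) (hS : Fam a d Nh m C S) :
    Fam a d Nh m (8 * C ^ 2 * (S₁ + S₂)) (OO ν (pB a) S d) := by
  have hpos : ∀ x g, 0 < 1 + d x g := fun x g => by have := F.d_nonneg x g; linarith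
  have hcT : ∀ x, Continuous (fun g => TT (pB a) S g x) := fun x =>
    (continuous_TT F.pB_cont hS.cont).comp (by fun_prop : Continuous fun g => ((x, g) : G × G))
  have hcd : ∀ x, Continuous (fun g => d x g) := fun x =>
    F.d_cont.comp (by fun_prop : Continuous fun g => ((x, g) : G × G))
  have hck : ∀ w, Continuous (fun g => kap g w) := fun w =>
    F.kap_cont.comp (by fun_prop : Continuous fun g => ((g, w) : G × G))
  have hcO : ∀ x, Continuous (fun g => ((wt d x g : ℝ) : ℂ) •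
      (star (TT (pB a) S g x) * TT (pB a) S g x)) := fun x =>
    (continuous_OO_aux F.pB_cont hS.cont F.d_cont).comp
      (by fun_prop : Continuous fun g => ((x, g) : G × G))
  have hwn : ∀ x g, ‖((wt d x g : ℝ) : ℂ)‖ = (1 + d x g) ^ 3 := fun x g => by
    have := hpos x g
    rw [Complex.norm_real, Real.norm_of_nonneg (by unfold wt; positivity)]
    rfl
  have hS₁ : ∀ x, 0 ≤ ∫ g, (1 + d x g) ^ 3 / (1 + d x g) ^ m ∂ν := fun x =>
    integral_nonneg fun g => by have := hpos x g; positivity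
  have hS₂ : ∀ x w, 0 ≤ ∫ g, kap g w * (1 + d x g) ^ 3 / (1 + d x g) ^ (2 * m) ∂ν := fun x w =>
    integral_nonneg fun g => by
      have := hpos x g
      have := F.kap_nonneg g w
      positivity
  refine ⟨continuous_OO F.pB_cont hS.cont F.d_cont, ?_, ?_, ?_, ?_⟩
  · -- self-adjoint
    intro x
    have h1 : star (OO ν (pB a) S d x) = OO ν (pB a) S d x := by
      unfold OO
      have h2 := (((starL' ℝ : 𝒜 ≃L[ℝ] 𝒜) : 𝒜 →L[ℝ] 𝒜).integral_comp_comm
        (cint (ν := ν) (hcO x)))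
      have h3 : ∀ g, ((starL' ℝ : 𝒜 ≃L[ℝ] 𝒜) : 𝒜 →L[ℝ] 𝒜)
          (((wt d x g : ℝ) : ℂ) • (star (TT (pB a) S g x) * TT (pB a) S g x)) =
          ((wt d x g : ℝ) : ℂ) • (star (TT (pB a) S g x) * TT (pB a) S g x) := by
        intro g
        have h4 : ((starL' ℝ : 𝒜 ≃L[ℝ] 𝒜) : 𝒜 →L[ℝ] 𝒜)
          (((wt d x g : ℝ) : ℂ) • (star (TT (pB a) S g x) * TT (pB a) S g x)) =
          star (((wt d x g : ℝ) : ℂ) • (star (TT (pB a) S g x) * TT (pB a) S g x)) := rfl
        rw [h4, star_smul, star_mul, star_star]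
        simp
      simp only [h3] at h2
      exact h2.symm
    exact h1
  · intro x
    have hN : ∀ g, Nh * pB a g = pB a g * Nh - (2 : ℂ) • pB a g := by
      intro g
      unfold pB
      rw [← mul_assoc, F.num 1 g, sub_mul, mul_assoc, F.num 0 g, mul_sub, two_smul]
      noncomm_ring
    have hT : ∀ g, Nh * TT (pB a) S g x = TT (pB a) S g x * Nh - (2 : ℂ) • TT (pB a) S g x := by
      intro g
      unfold TT
      rw [mul_sub, ← mul_assoc, hN g, ← mul_assoc, hS.num x, mul_assoc (S x), hN g, sub_mul,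
        mul_assoc, hS.num x, smul_mul_assoc, mul_sub, mul_smul_comm, smul_sub]
      noncomm_ring
    have hT' : ∀ g, Nh * star (TT (pB a) S g x) =
        star (TT (pB a) S g x) * Nh + (2 : ℂ) • star (TT (pB a) S g x) := by
      intro g
      have h1 := congrArg star (hT g)
      rw [star_mul, star_sub, star_mul, star_smul, F.Nh_sa.star_eq] at h1
      rw [h1]
      simp
    have hTT : ∀ g, Nh * (star (TT (pB a) S g x) * TT (pB a) S g x) =
        (star (TT (pB a) S g x) * TT (pB a) S g x) * Nh := by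
      intro g
      rw [← mul_assoc, hT' g, add_mul, mul_assoc, hT g, mul_sub, mul_smul_comm, smul_mul_assoc,
        ← mul_assoc, sub_add_cancel]
    unfold OO
    have e1 := ((ContinuousLinearMap.mul ℂ 𝒜 Nh).integral_comp_comm (cint (ν := ν) (hcO x)))
    have e2 := (((ContinuousLinearMap.mul ℂ 𝒜).flip Nh).integral_comp_comm
      (cint (ν := ν) (hcO x)))
    simp only [ContinuousLinearMap.mul_apply', ContinuousLinearMap.flip_apply] at e1 e2
    rw [← e1, ← e2]
    refine integral_congr_ae (Filter.Eventually.of_forall fun g => ?_)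
    simp only
    rw [mul_smul_comm, smul_mul_assoc, hTT g]
  · intro x
    unfold OO
    refine (norm_integral_le_integral_norm _).trans ?_
    have h1 : ∀ g, ‖((wt d x g : ℝ) : ℂ) • (star (TT (pB a) S g x) * TT (pB a) S g x)‖ ≤
        4 * C ^ 2 * ((1 + d x g) ^ 3 / (1 + d x g) ^ m) := by
      intro g
      rw [norm_smul, hwn]
      have hT := F.norm_TT hS g x
      have hp := hpos x g
      have h2 : ‖star (TT (pB a) S g x) * TT (pB a) S g x‖ ≤
          (2 * (C / (1 + d x g) ^ m)) * (2 * (C / (1 + d x g) ^ m)) := by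
        refine (norm_mul_le _ _).trans ?_
        rw [norm_star]
        exact mul_le_mul hT hT (norm_nonneg _) (by positivity)
      have h3 : 1 ≤ (1 + d x g) ^ m := one_le_pow₀ (by have := F.d_nonneg x g; linarith)
      calc (1 + d x g) ^ 3 * ‖star (TT (pB a) S g x) * TT (pB a) S g x‖
          ≤ (1 + d x g) ^ 3 * ((2 * (C / (1 + d x g) ^ m)) * (2 * (C / (1 + d x g) ^ m))) :=
            mul_le_mul_of_nonneg_left h2 (by positivity)
        _ = 4 * C ^ 2 * ((1 + d x g) ^ 3 / (1 + d x g) ^ m) * (1 / (1 + d x g) ^ m) := by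
            field_simp
            ring
        _ ≤ 4 * C ^ 2 * ((1 + d x g) ^ 3 / (1 + d x g) ^ m) * 1 := by
            refine mul_le_mul_of_nonneg_left ?_ (by positivity)
            rw [div_le_one (by positivity)]
            exact h3
        _ = _ := by ring
    have h2 : ∫ g, ‖((wt d x g : ℝ) : ℂ) • (star (TT (pB a) S g x) * TT (pB a) S g x)‖ ∂ν ≤
        4 * C ^ 2 * S₁ := by
      refine (integral_mono_of_nonneg (Filter.Eventually.of_forall fun g => norm_nonneg _) ?_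
        (Filter.Eventually.of_forall h1)).trans ?_
      · refine cint ?_
        refine continuous_const.mul (Continuous.div ?_ ?_ ?_)
        · exact (continuous_const.add (hcd x)).pow 3
        · exact (continuous_const.add (hcd x)).pow m
        · intro g
          have := hpos x g
          positivity
      · rw [integral_const_mul]
        exact mul_le_mul_of_nonneg_left (F.schur1 x) (by positivity)
    have h3 : 0 ≤ S₁ := (hS₁ x).trans (F.schur1 x)
    have h4 : 0 ≤ S₂ := by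
      have h5 := (hS₂ x x).trans (F.schur2 x x)
      have h6 : 0 < (1 + d x x) ^ m := by have := hpos x x; positivity
      by_contra hneg
      push Not at hneg
      exact absurd h5 (not_le.mpr (div_neg_of_neg_of_pos hneg h6))
    nlinarith [sq_nonneg C, mul_nonneg (sq_nonneg C) h3, mul_nonneg (sq_nonneg C) h4]
  · intro x k w
    have hp2 := hpos x w
    unfold OO
    have e1 := ((ContinuousLinearMap.mul ℂ 𝒜 (a k w)).integral_comp_comm
      (cint (ν := ν) (hcO x)))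
    have e2 := (((ContinuousLinearMap.mul ℂ 𝒜).flip (a k w)).integral_comp_comm
      (cint (ν := ν) (hcO x)))
    have i1 := (ContinuousLinearMap.mul ℂ 𝒜 (a k w)).integrable_comp (cint (ν := ν) (hcO x))
    have i2 := ((ContinuousLinearMap.mul ℂ 𝒜).flip (a k w)).integrable_comp
      (cint (ν := ν) (hcO x))
    simp only [ContinuousLinearMap.mul_apply', ContinuousLinearMap.flip_apply] at e1 e2 i1 i2
    rw [← e1, ← e2, ← integral_sub i2 i1]
    refine (norm_integral_le_integral_norm _).trans ?_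
    have h1 : ∀ g, ‖((wt d x g : ℝ) : ℂ) • (star (TT (pB a) S g x) * TT (pB a) S g x) * a k w -
        a k w * ((wt d x g : ℝ) : ℂ) • (star (TT (pB a) S g x) * TT (pB a) S g x)‖ ≤
        8 * C ^ 2 * ((1 + d x w) ^ m)⁻¹ * ((1 + d x g) ^ 3 / (1 + d x g) ^ m) +
          4 * C ^ 2 * (kap g w * (1 + d x g) ^ 3 / (1 + d x g) ^ (2 * m)) := by
      intro g
      have hp := hpos x g
      rw [smul_mul_assoc, mul_smul_comm, ← smul_sub, norm_smul, hwn]
      refine (mul_le_mul_of_nonneg_left (F.norm_TsT_com hC hS g x w k)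
        (by positivity)).trans (le_of_eq ?_)
      field_simp
    have c1 : Continuous fun g => (1 + d x g) ^ 3 / (1 + d x g) ^ m := by
      refine Continuous.div ?_ ?_ ?_
      · exact (continuous_const.add (hcd x)).pow 3
      · exact (continuous_const.add (hcd x)).pow m
      · intro g
        have := hpos x g
        positivity
    have c2 : Continuous fun g => kap g w * (1 + d x g) ^ 3 / (1 + d x g) ^ (2 * m) := by
      refine Continuous.div ?_ ?_ ?_
      · exact (hck w).mul ((continuous_const.add (hcd x)).pow 3)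
      · exact (continuous_const.add (hcd x)).pow (2 * m)
      · intro g
        have := hpos x g
        positivity
    have h2 : ∫ g, ‖((wt d x g : ℝ) : ℂ) • (star (TT (pB a) S g x) * TT (pB a) S g x) * a k w -
        a k w * ((wt d x g : ℝ) : ℂ) • (star (TT (pB a) S g x) * TT (pB a) S g x)‖ ∂ν ≤
        8 * C ^ 2 * ((1 + d x w) ^ m)⁻¹ * S₁ + 4 * C ^ 2 * (S₂ / (1 + d x w) ^ m) := by
      refine (integral_mono_of_nonneg (Filter.Eventually.of_forall fun g => norm_nonneg _) ?_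
        (Filter.Eventually.of_forall h1)).trans ?_
      · exact cint ((continuous_const.mul c1).add (continuous_const.mul c2))
      · have i3 : Integrable (fun g => 8 * C ^ 2 * ((1 + d x w) ^ m)⁻¹ *
            ((1 + d x g) ^ 3 / (1 + d x g) ^ m)) ν := cint (continuous_const.mul c1)
        have i4 : Integrable (fun g => 4 * C ^ 2 *
            (kap g w * (1 + d x g) ^ 3 / (1 + d x g) ^ (2 * m))) ν :=
          cint (continuous_const.mul c2)
        rw [integral_add i3 i4, integral_const_mul, integral_const_mul]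
        exact add_le_add (mul_le_mul_of_nonneg_left (F.schur1 x) (by positivity))
          (mul_le_mul_of_nonneg_left (F.schur2 x w) (by positivity))
    have h6 : 0 < (1 + d x w) ^ m := by positivity
    have h4 : 0 ≤ S₂ := by
      have h5 := (hS₂ x w).trans (F.schur2 x w)
      by_contra hneg
      push Not at hneg
      exact absurd h5 (not_le.mpr (div_neg_of_neg_of_pos hneg h6))
    refine h2.trans ?_
    rw [le_div_iff₀ h6]
    have h7 : (8 * C ^ 2 * ((1 + d x w) ^ m)⁻¹ * S₁ + 4 * C ^ 2 * (S₂ / (1 + d x w) ^ m)) *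
        (1 + d x w) ^ m = 8 * C ^ 2 * S₁ + 4 * C ^ 2 * S₂ := by
      field_simp
    rw [h7]
    nlinarith [mul_nonneg (sq_nonneg C) h4]

section Main

variable {V : Type*} [NormedAddCommGroup V] [InnerProductSpace ℂ V] [CompleteSpace V]

theorem integrable_smul_fam {C : ℝ} {X : G → 𝒜} (hX : Fam a d Nh m C X) {s : G → ℝ}
    (hs : Measurable s) (hs1 : ∀ x, |s x| ≤ 1) :
    Integrable (fun x => (s x : ℂ) • X x) ν := by
  refine Integrable.mono' (g := fun x => ‖X x‖) (cint hX.cont.norm) ?_ ?_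
  · exact (Complex.measurable_ofReal.comp hs).aestronglyMeasurable.smul
      hX.cont.aestronglyMeasurable
  · refine Filter.Eventually.of_forall fun x => ?_
    rw [norm_smul, Complex.norm_real, Real.norm_eq_abs]
    exact mul_le_of_le_one_left (norm_nonneg _) (hs1 x)

theorem sa_integral_fam {C : ℝ} {X : G → 𝒜} (hX : Fam a d Nh m C X) {s : G → ℝ}
    (hs : Measurable s) (hs1 : ∀ x, |s x| ≤ 1) :
    IsSelfAdjoint (∫ x, (s x : ℂ) • X x ∂ν) := by
  have h2 := (((starL' ℝ : 𝒜 ≃L[ℝ] 𝒜) : 𝒜 →L[ℝ] 𝒜).integral_comp_comm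
    (integrable_smul_fam (ν := ν) hX hs hs1))
  have h3 : ∀ x, ((starL' ℝ : 𝒜 ≃L[ℝ] 𝒜) : 𝒜 →L[ℝ] 𝒜) ((s x : ℂ) • X x) =
      (s x : ℂ) • X x := by
    intro x
    have h4 : ((starL' ℝ : 𝒜 ≃L[ℝ] 𝒜) : 𝒜 →L[ℝ] 𝒜) ((s x : ℂ) • X x) =
      star ((s x : ℂ) • X x) := rfl
    rw [h4, star_smul, (hX.sa x).star_eq]
    simp
  simp only [h3] at h2
  exact h2.symm

/-- **Theorem (U)**: from filtered families to all families, by the square-root bootstrap. -/
theorem U_main (R : Rep 𝒜 V) (F : Frame ν a d kap Nh m S₁ S₂ Ck) {H : 𝒜} {Ψ : V}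
    {Sec : Set V} {Good : (G → 𝒜) → Prop} {Cw Cf K₀ : ℝ}
    (hCw : 0 < Cw) (hCf : 0 ≤ Cf) (hK₀ : 0 ≤ K₀) (hHsa : IsSelfAdjoint H)
    (hH : ∀ φ χ : V, ∫ g, ⟪R.π (pB a g) φ, R.π (pB a g) χ⟫_ℂ ∂ν = ⟪φ, R.π H χ⟫_ℂ)
    (hB0 : ∀ g, R.π (pB a g) Ψ = 0)
    (apriori : ∀ Y : 𝒜, IsSelfAdjoint Y → R.π Y Ψ = 0 → ∀ φ ∈ Sec,
      |R.q φ Y| ≤ K₀ * ‖Y‖ * R.q φ H)
    (filt : ∀ X, Fam a d Nh m 1 X → (∀ x, R.π (X x) Ψ = 0) →
      ∃ Xt S, Fam a d Nh m Cw Xt ∧ Fam a d Nh m Cw S ∧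
        (∀ x, X x - Xt x = Complex.I • (H * S x - S x * H)) ∧
        (∀ x, R.π (Xt x) Ψ = 0) ∧ (∀ x, R.π (S x) Ψ = 0) ∧ Good Xt)
    (good_smul : ∀ X (r : ℝ), Good X → Good (fun x => (r : ℂ) • X x))
    (Uf : ∀ X, Fam a d Nh m 1 X → (∀ x, R.π (X x) Ψ = 0) → Good X →
      ∀ s : G → ℝ, Measurable s → (∀ x, |s x| ≤ 1) → ∀ φ ∈ Sec,
        |R.q φ (∫ x, (s x : ℂ) • X x ∂ν)| ≤ Cf * R.q φ H) :
    ∀ X, Fam a d Nh m 1 X → (∀ x, R.π (X x) Ψ = 0) →
      ∀ s : G → ℝ, Measurable s → (∀ x, |s x| ≤ 1) → ∀ φ ∈ Sec,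
        |R.q φ (∫ x, (s x : ℂ) • X x ∂ν)| ≤
          (2 * (Cf * Cw) + 4 * (Ck * (8 * Cw ^ 2 * (S₁ + S₂)))) * R.q φ H := by
  classical
  set CO : ℝ := 8 * Cw ^ 2 * (S₁ + S₂) with hCO
  set T : ℝ := 2 * (Cf * Cw) + 4 * (Ck * CO) with hT
  have hpos : ∀ x g, 0 < 1 + d x g := fun x g => by have := F.d_nonneg x g; linarith
  -- positivity of `q φ H`
  have hHq : ∀ φ : V, 0 ≤ R.q φ H := by
    intro φ
    have h1 := hH φ φ
    have h2 : ∫ g, ⟪R.π (pB a g) φ, R.π (pB a g) φ⟫_ℂ ∂ν =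
        ((∫ g, ‖R.π (pB a g) φ‖ ^ 2 ∂ν : ℝ) : ℂ) := by
      rw [← integral_complex_ofReal]
      refine integral_congr_ae (Filter.Eventually.of_forall fun g => ?_)
      simp only
      rw [inner_self_eq_norm_sq_to_K]
      norm_cast
    rw [Rep.q_apply, qf, ← h1, h2, Complex.ofReal_re]
    positivity
  by_cases hne : Nonempty G
  swap
  · intro X hX hX0 s hs hs1 φ hφ
    have : IsEmpty G := not_nonempty_iff.mp hne
    have h0 : ∫ x, (s x : ℂ) • X x ∂ν = 0 := by
      rw [Measure.eq_zero_of_isEmpty ν, integral_zero_measure]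
    have hf := Uf (fun _ => 0)
    rw [h0, map_zero, abs_zero]
    have hSS : 0 ≤ T * R.q φ H := by
      -- `q φ H = 0` when `G` is empty
      have h1 := hH φ φ
      rw [Measure.eq_zero_of_isEmpty ν, integral_zero_measure] at h1
      rw [Rep.q_apply, qf, ← h1]
      simp
    exact hSS
  obtain ⟨x₀⟩ := hne
  have hS₁ : 0 ≤ S₁ := (integral_nonneg (μ := ν) (f := fun g => (1 + d x₀ g) ^ 3 / (1 + d x₀ g) ^ m)
    fun g => by have := hpos x₀ g; positivity).trans (F.schur1 x₀)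
  have hS₂ : 0 ≤ S₂ := by
    have h5 : 0 ≤ S₂ / (1 + d x₀ x₀) ^ m :=
      (integral_nonneg (μ := ν)
        (f := fun g => kap g x₀ * (1 + d x₀ g) ^ 3 / (1 + d x₀ g) ^ (2 * m)) fun g => by
        have := hpos x₀ g
        have := F.kap_nonneg g x₀
        positivity).trans (F.schur2 x₀ x₀)
    have h6 : 0 < (1 + d x₀ x₀) ^ m := by have := hpos x₀ x₀; positivity
    by_contra hneg
    push Not at hneg
    exact absurd h5 (not_le.mpr (div_neg_of_neg_of_pos hneg h6))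
  have hCk : 0 ≤ Ck := (integral_nonneg (μ := ν) (f := fun x => ((1 + d x x₀) ^ 3)⁻¹)
    fun x => by have := hpos x x₀; positivity).trans (F.schur3 x₀)
  have hCO0 : 0 ≤ CO := by positivity
  have hT0 : 0 ≤ T := by positivity
  -- the statement with constant `t`
  let Bd : ℝ → Prop := fun t => ∀ X, Fam a d Nh m 1 X → (∀ x, R.π (X x) Ψ = 0) →
      ∀ s : G → ℝ, Measurable s → (∀ x, |s x| ≤ 1) → ∀ φ ∈ Sec,
        |R.q φ (∫ x, (s x : ℂ) • X x ∂ν)| ≤ t * R.q φ H
  -- scaling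
  have scale : ∀ t C, 0 < C → Bd t → ∀ X, Fam a d Nh m C X → (∀ x, R.π (X x) Ψ = 0) →
      ∀ s : G → ℝ, Measurable s → (∀ x, |s x| ≤ 1) → ∀ φ ∈ Sec,
        |R.q φ (∫ x, (s x : ℂ) • X x ∂ν)| ≤ C * t * R.q φ H := by
    intro t C hC hB X hX hX0 s hs hs1 φ hφ
    have h1 := hX.smul (r := C⁻¹) (by positivity)
    rw [inv_mul_cancel₀ hC.ne'] at h1
    have h2 := hB _ h1 (fun x => by simp [hX0 x]) s hs hs1 φ hφ
    have h3 : ∫ x, (s x : ℂ) • (((C⁻¹ : ℝ) : ℂ) • X x) ∂ν =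
        (C⁻¹ : ℝ) • ∫ x, (s x : ℂ) • X x ∂ν := by
      rw [← integral_smul]
      refine integral_congr_ae (Filter.Eventually.of_forall fun x => ?_)
      simp only
      rw [smul_comm, Complex.coe_smul]
    rw [h3, map_smul, smul_eq_mul, abs_mul, abs_of_pos (by positivity : 0 < C⁻¹)] at h2
    rw [inv_mul_le_iff₀ hC] at h2
    linarith
  -- a priori bound
  have start : Bd (T + K₀ * ν.real Set.univ) := by
    intro X hX hX0 s hs hs1 φ hφ
    have h1 : ‖∫ x, (s x : ℂ) • X x ∂ν‖ ≤ ν.real Set.univ := by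
      have := norm_integral_le_of_norm_le_const (μ := ν) (C := 1)
        (f := fun x => (s x : ℂ) • X x) (Filter.Eventually.of_forall fun x => by
          rw [norm_smul, Complex.norm_real, Real.norm_eq_abs]
          exact mul_le_one₀ (hs1 x) (norm_nonneg _) (hX.norm_le x))
      simpa using this
    have h0 : R.π (∫ x, (s x : ℂ) • X x ∂ν) Ψ = 0 := by
      rw [← Rep.ev_apply, ← (R.ev Ψ).integral_comp_comm (integrable_smul_fam hX hs hs1)]
      simp [Rep.ev_apply, hX0]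
    have h2 := apriori _ (sa_integral_fam hX hs hs1) h0 φ hφ
    have h3 := hHq φ
    calc |R.q φ (∫ x, (s x : ℂ) • X x ∂ν)| ≤ K₀ * ‖∫ x, (s x : ℂ) • X x ∂ν‖ * R.q φ H := h2
      _ ≤ K₀ * ν.real Set.univ * R.q φ H := by gcongr
      _ ≤ _ := by nlinarith
  -- bootstrap step
  have step : ∀ t, 0 ≤ t → Bd t → Bd (Cf * Cw + 2 * (Ck * CO) + t / 2) := by
    intro t ht hB X hX hX0 s hs hs1 φ hφ
    obtain ⟨Xt, S, hXt, hS, hXS, hXt0, hS0, hgood⟩ := filt X hX hX0
    -- filtered part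
    have e1 : |R.q φ (∫ x, (s x : ℂ) • Xt x ∂ν)| ≤ Cw * Cf * R.q φ H := by
      have h1 := hXt.smul (r := Cw⁻¹) (by positivity)
      rw [inv_mul_cancel₀ hCw.ne'] at h1
      have h2 := Uf _ h1 (fun x => by simp [hXt0 x]) (good_smul _ _ hgood) s hs hs1 φ hφ
      have h3 : ∫ x, (s x : ℂ) • (((Cw⁻¹ : ℝ) : ℂ) • Xt x) ∂ν =
          (Cw⁻¹ : ℝ) • ∫ x, (s x : ℂ) • Xt x ∂ν := by
        rw [← integral_smul]
        refine integral_congr_ae (Filter.Eventually.of_forall fun x => ?_)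
        simp only
        rw [smul_comm, Complex.coe_smul]
      rw [h3, map_smul, smul_eq_mul, abs_mul, abs_of_pos (by positivity : 0 < Cw⁻¹)] at h2
      rw [inv_mul_le_iff₀ hCw] at h2
      linarith
    -- commutator part
    set St : 𝒜 := ∫ x, (s x : ℂ) • S x ∂ν with hSt
    have hStsa : IsSelfAdjoint St := sa_integral_fam hS hs hs1
    have iS := integrable_smul_fam (ν := ν) hS hs hs1
    have iX := integrable_smul_fam (ν := ν) hX hs hs1
    have iXt := integrable_smul_fam (ν := ν) hXt hs hs1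
    have e2 : ∫ x, (s x : ℂ) • X x ∂ν = ∫ x, (s x : ℂ) • Xt x ∂ν +
        Complex.I • (H * St - St * H) := by
      have h1 : Complex.I • (H * St - St * H) =
          ∫ x, Complex.I • (H * ((s x : ℂ) • S x) - ((s x : ℂ) • S x) * H) ∂ν := by
        have a1 := ((ContinuousLinearMap.mul ℂ 𝒜 H).integral_comp_comm iS)
        have a2 := (((ContinuousLinearMap.mul ℂ 𝒜).flip H).integral_comp_comm iS)
        have j1 := (ContinuousLinearMap.mul ℂ 𝒜 H).integrable_comp iS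
        have j2 := ((ContinuousLinearMap.mul ℂ 𝒜).flip H).integrable_comp iS
        simp only [ContinuousLinearMap.mul_apply', ContinuousLinearMap.flip_apply] at a1 a2 j1 j2
        rw [integral_smul, integral_sub j1 j2, a1, a2]
      rw [h1]
      have j3 : Integrable
          (fun x => Complex.I • (H * ((s x : ℂ) • S x) - ((s x : ℂ) • S x) * H)) ν := by
        have j1 := (ContinuousLinearMap.mul ℂ 𝒜 H).integrable_comp iS
        have j2 := ((ContinuousLinearMap.mul ℂ 𝒜).flip H).integrable_comp iS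
        simp only [ContinuousLinearMap.mul_apply', ContinuousLinearMap.flip_apply] at j1 j2
        exact (j1.sub j2).smul Complex.I
      rw [← integral_add iXt j3]
      refine integral_congr_ae (Filter.Eventually.of_forall fun x => ?_)
      simp only
      have h2 : X x = Xt x + Complex.I • (H * S x - S x * H) := by
        rw [← hXS x]; abel
      rw [h2, smul_add, mul_smul_comm, smul_mul_assoc, ← smul_sub, smul_comm Complex.I]
    have hBc : Continuous (fun g => R.π (pB a g)) := R.π.continuous.comp F.pB_cont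
    have hB2 : ∀ χ : V, MemLp (fun g => R.π (pB a g) χ) 2 ν := fun χ =>
      cmem ((R.ev χ).continuous.comp F.pB_cont)
    have e3 := abs_qf_comm_le (ν := ν) (H := R.π H) (S := R.π St)
      (B := fun g => R.π (pB a g)) hH (fun φ χ => R.sa hHsa φ χ) (fun φ χ => R.sa hStsa φ χ)
      hB2 φ
    have e4 : (⟪φ, (Complex.I • (R.π H * R.π St - R.π St * R.π H)) φ⟫_ℂ).re =
        R.q φ (Complex.I • (H * St - St * H)) := by
      rw [Rep.q_apply, qf, map_smul, map_sub, R.map_mul, R.map_mul]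
    rw [e4] at e3
    have hCk' : ∀ g, ∫ x, (wt d x g)⁻¹ ∂ν ≤ Ck := F.schur3
    have e5 := quad_le (ν := ν) R F.pB_cont hS.cont F.d_cont F.d_nonneg hs hs1 hCk' φ
    -- `O`
    have hO := F.fam_OO (C := Cw) hCw.le hS
    have hO0 : ∀ x, R.π (OO ν (pB a) S d x) Ψ = 0 := by
      intro x
      have hcO : Continuous (fun g => ((wt d x g : ℝ) : ℂ) •
          (star (TT (pB a) S g x) * TT (pB a) S g x)) :=
        (continuous_OO_aux F.pB_cont hS.cont F.d_cont).comp
          (by fun_prop : Continuous fun g => ((x, g) : G × G))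
      unfold OO
      rw [← Rep.ev_apply, ← (R.ev Ψ).integral_comp_comm (cint hcO)]
      have h1 : ∀ g, R.ev Ψ (((wt d x g : ℝ) : ℂ) •
          (star (TT (pB a) S g x) * TT (pB a) S g x)) = 0 := by
        intro g
        rw [map_smul, Rep.ev_apply, R.map_mul]
        have h2 : R.π (TT (pB a) S g x) Ψ = 0 := by
          unfold TT
          rw [map_sub, R.map_mul, R.map_mul]
          change R.π (pB a g) (R.π (S x) Ψ) - R.π (S x) (R.π (pB a g) Ψ) = 0
          rw [hS0 x, hB0 g, map_zero, map_zero, sub_zero]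
        change _ • (R.π (star (TT (pB a) S g x)) (R.π (TT (pB a) S g x) Ψ)) = 0
        rw [h2, map_zero, smul_zero]
      simp only [h1, integral_zero]
    have hOb : |R.q φ (∫ x, OO ν (pB a) S d x ∂ν)| ≤ CO * t * R.q φ H := by
      rcases hCO0.eq_or_lt with h0 | h0
      · -- `CO = 0`: the family vanishes
        have h1 : ∀ x, OO ν (pB a) S d x = 0 := by
          intro x
          have := hO.norm_le x
          rw [← hCO, ← h0] at this
          exact norm_le_zero_iff.mp this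
        simp [h1, ← h0]
      · have h1 := scale t CO h0 hB _ hO hO0 (fun _ => 1) measurable_const (by simp) φ hφ
        simpa using h1
    have hq := hHq φ
    have e6 : ∫ g, ‖(R.π (pB a g) * R.π St - R.π St * R.π (pB a g)) φ‖ ^ 2 ∂ν ≤
        (Ck * CO * t) * R.q φ H := by
      refine e5.trans ?_
      have := (abs_le.mp hOb).2
      calc Ck * R.q φ (∫ x, OO ν (pB a) S d x ∂ν) ≤ Ck * (CO * t * R.q φ H) :=
            mul_le_mul_of_nonneg_left this hCk
        _ = _ := by ring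
    have e7 : |R.q φ (Complex.I • (H * St - St * H))| ≤
        (2 * (Ck * CO) + t / 2) * R.q φ H := by
      refine e3.trans ?_
      have h1 : qf (R.π H) φ = R.q φ H := rfl
      rw [h1]
      have h2 : Real.sqrt (∫ g, ‖(R.π (pB a g) * R.π St - R.π St * R.π (pB a g)) φ‖ ^ 2 ∂ν) ≤
          Real.sqrt (Ck * CO * t) * Real.sqrt (R.q φ H) := by
        rw [← Real.sqrt_mul (by positivity)]
        exact Real.sqrt_le_sqrt e6
      have h3 : Real.sqrt (R.q φ H) * Real.sqrt (R.q φ H) = R.q φ H := Real.mul_self_sqrt hq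
      have h4 : 2 * Real.sqrt (Ck * CO * t) ≤ 2 * (Ck * CO) + t / 2 := by
        have h5 : Real.sqrt (Ck * CO * t) ≤ Ck * CO + t / 4 := by
          rw [Real.sqrt_le_left (by positivity)]
          nlinarith [sq_nonneg (Ck * CO - t / 4)]
        linarith
      have hs1 := Real.sqrt_nonneg (R.q φ H)
      calc 2 * (Real.sqrt (R.q φ H) *
            Real.sqrt (∫ g, ‖(R.π (pB a g) * R.π St - R.π St * R.π (pB a g)) φ‖ ^ 2 ∂ν))
          ≤ 2 * (Real.sqrt (R.q φ H) * (Real.sqrt (Ck * CO * t) * Real.sqrt (R.q φ H))) := by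
            gcongr
        _ = (2 * Real.sqrt (Ck * CO * t)) * (Real.sqrt (R.q φ H) * Real.sqrt (R.q φ H)) := by
            ring
        _ ≤ (2 * (Ck * CO) + t / 2) * R.q φ H := by
            rw [h3]
            exact mul_le_mul_of_nonneg_right h4 hq
    rw [e2, map_add]
    refine (abs_add_le _ _).trans ?_
    have := add_le_add e1 e7
    linarith
  -- iteration
  have iter : ∀ n : ℕ, Bd (T + K₀ * ν.real Set.univ / 2 ^ n) := by
    intro n
    induction n with
    | zero => simpa using start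
    | succ n ih =>
      have h1 := step _ (by positivity) ih
      have h2 : Cf * Cw + 2 * (Ck * CO) + (T + K₀ * ν.real Set.univ / 2 ^ n) / 2 =
          T + K₀ * ν.real Set.univ / 2 ^ (n + 1) := by
        rw [hT, pow_succ]
        field_simp
        ring
      rwa [h2] at h1
  intro X hX hX0 s hs hs1 φ hφ
  have hlim : Filter.Tendsto (fun n : ℕ => (T + K₀ * ν.real Set.univ / 2 ^ n) * R.q φ H)
      Filter.atTop (nhds ((T + 0) * R.q φ H)) := by
    refine Filter.Tendsto.mul_const _ (tendsto_const_nhds.add ?_)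
    have h1 : Filter.Tendsto (fun n : ℕ => K₀ * ν.real Set.univ * (1 / 2 : ℝ) ^ n)
        Filter.atTop (nhds (K₀ * ν.real Set.univ * 0)) :=
      (tendsto_pow_atTop_nhds_zero_of_lt_one (by norm_num) (by norm_num)).const_mul _
    rw [mul_zero] at h1
    refine h1.congr fun n => ?_
    rw [one_div, inv_pow, div_eq_mul_inv]
  rw [add_zero] at hlim
  exact ge_of_tendsto' hlim fun n => iter n X hX hX0 s hs hs1 φ hφ

end Main

end Stab

end Crest.Agent.R340.U856
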