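import Crest.Agent.R340.Fock_649
import Crest.Agent.R340.Loss_674
import Crest.Agent.R340.ProfF_482
import Crest.Agent.R340.Prof2_385
import Crest.Agent.R340.Bridge_320
import Crest.Agent.R340.U3_856
import Crest.Agent.R340.Rot3_303
import Crest.Agent.R340.CS3_809
import Crest.Agent.R124.Haar
import Crest.Agent.R340.GG_467
import Crest.Agent.R340.U4_856
import Crest.Agent.R340.Avg_814
import Crest.Agent.R340.FI1_331

-- ▼ part R340/JumpH_674
section

/-!
H-part of the jump inequality (J1) and the sector descent (J2) of docs 1205 on the Fock model.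
-/

set_option autoImplicit false
set_option linter.unusedSectionVars false

namespace Crest.Agent.R340.JumpH674

open Crest.Agent.R340.Fock649 Crest.Agent.R340.Loss674
open scoped InnerProductSpace

variable {ι : Type*} [Fintype ι] [LinearOrder ι]

/-- rotated modes -/
noncomputable def rc (U : Op ι) (j : ι) : Op ι := U * c j * star U

theorem star_rc (U : Op ι) (j : ι) : star (rc U j) = U * d j * star U := by
  rw [rc, star_mul, star_mul, star_star, star_c, mul_assoc]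

theorem car_rc {U : Op ι} (hU : star U * U = 1) (hU' : U * star U = 1) : CAR (rc U) where
  anti i j := by
    have h := c_c i j
    calc rc U i * rc U j + rc U j * rc U i
        = U * c i * (star U * U) * c j * star U + U * c j * (star U * U) * c i * star U := by
          simp only [rc]; noncomm_ring
      _ = U * (c i * c j + c j * c i) * star U := by rw [hU]; noncomm_ring
      _ = 0 := by rw [h]; simp
  car i j := by
    have h := c_d i j
    calc rc U i * star (rc U j) + star (rc U j) * rc U i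
        = U * c i * (star U * U) * d j * star U + U * d j * (star U * U) * c i * star U := by
          rw [star_rc]; simp only [rc]; noncomm_ring
      _ = U * (c i * d j + d j * c i) * star U := by rw [hU]; noncomm_ring
      _ = _ := by
        rw [h]
        split_ifs
        · rw [mul_one, hU']
        · simp

/-- the `n`-particle sector -/
noncomputable def secN (n : ℕ) : Submodule ℂ (Fk ι) where
  carrier := {v | (Nh : Op ι) v = (n : ℂ) • v}
  add_mem' := by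
    intro a b ha hb
    simp only [Set.mem_ofPred_eq] at ha hb ⊢
    rw [map_add, ha, hb, smul_add]
  zero_mem' := by simp
  smul_mem' := by
    intro r a ha
    simp only [Set.mem_ofPred_eq] at ha ⊢
    rw [map_smul, ha, smul_comm]

theorem mem_secN {n : ℕ} {v : Fk ι} : v ∈ secN n ↔ (Nh : Op ι) v = (n : ℂ) • v := Iff.rfl

theorem Nh_c (j : ι) : (Nh : Op ι) * c j = c j * Nh - c j := by
  have h := Nh_comm_an (e j : L ι)
  rw [an_e] at h
  rw [eq_sub_iff_add_eq]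
  rw [sub_eq_iff_eq_add] at h
  rw [h]; abel

theorem lowers_rc {U : Op ι} (hN : U * Nh = Nh * U) :
    Lowers (fun j => (rc U j).ap) (secN (ι := ι)) := by
  have hN' : star U * Nh = Nh * star U := by
    have h := congrArg star hN
    have hs : star (Nh : Op ι) = Nh := by
      rw [Nh_eq, star_diag]; congr 1; funext S; simp
    rw [star_mul, star_mul, hs] at h
    exact h.symm
  have hc : ∀ j, (Nh : Op ι) * rc U j = rc U j * Nh - rc U j := by
    intro j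
    calc (Nh : Op ι) * rc U j = (Nh * U) * c j * star U := by simp only [rc]; noncomm_ring
      _ = U * (Nh * c j) * star U := by rw [← hN]; noncomm_ring
      _ = U * c j * (Nh * star U) - U * c j * star U := by rw [Nh_c]; noncomm_ring
      _ = _ := by rw [← hN']; simp only [rc]; noncomm_ring
  have hd : ∀ j, (Nh : Op ι) * star (rc U j) = star (rc U j) * Nh + star (rc U j) := by
    intro j
    have h := congrArg star (hc j)
    have hs : star (Nh : Op ι) = Nh := by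
      rw [Nh_eq, star_diag]; congr 1; funext S; simp
    rw [star_mul, star_sub, star_mul, hs] at h
    rw [h]; abel
  have e1 : ∀ j (n : ℕ) (ψ : Fk ι), ψ ∈ secN n → (Nh : Op ι) (rc U j ψ) = ((n : ℂ) - 1) • (rc U j ψ) := by
    intro j n ψ hψ
    rw [mem_secN] at hψ
    rw [← mul_ap, hc, sub_ap, mul_ap, hψ, map_smul, sub_smul, one_smul]
  refine ⟨?_, ?_, ?_⟩
  · intro j ψ hψ
    have h := e1 j 0 ψ hψ
    -- `Nh` is positive
    have hpos : 0 ≤ (⟪rc U j ψ, (Nh : Op ι) (rc U j ψ)⟫_ℂ).re := by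
      have : ∀ v : Fk ι, 0 ≤ (⟪v, (Nh : Op ι) v⟫_ℂ).re := by
        intro v
        rw [Nh_eq, EuclideanSpace.inner_eq_star_dotProduct]
        unfold dotProduct
        rw [Complex.re_sum]
        refine Finset.sum_nonneg fun T _ => ?_
        rw [diag_apply]
        simp only [Pi.star_apply, RCLike.star_def]
        have : ((T.card : ℂ) * v.ofLp T * (starRingEnd ℂ) (v.ofLp T)).re
            = T.card * Complex.normSq (v.ofLp T) := by
          rw [mul_assoc, Complex.mul_conj]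
          rw [← Complex.ofReal_natCast, ← Complex.ofReal_mul, Complex.ofReal_re]
        rw [this]
        exact mul_nonneg (Nat.cast_nonneg _) (Complex.normSq_nonneg _)
      exact this _
    rw [h, inner_smul_right] at hpos
    rw [inner_self_eq_norm_sq_to_K] at hpos
    have h2 : ((((0:ℕ) : ℂ) - 1) * ((‖rc U j ψ‖ : ℂ)) ^ 2).re = - ‖rc U j ψ‖ ^ 2 := by
      have : ((((0:ℕ) : ℂ) - 1) * ((‖rc U j ψ‖ : ℂ)) ^ 2) = ((- ‖rc U j ψ‖ ^ 2 : ℝ) : ℂ) := by
        push_cast; ring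
      rw [this, Complex.ofReal_re]
    have h3 : 0 ≤ - ‖rc U j ψ‖ ^ 2 := by rw [← h2]; exact hpos
    have h4 : ‖rc U j ψ‖ = 0 := by
      have := sq_nonneg ‖rc U j ψ‖
      have h5 : ‖rc U j ψ‖ ^ 2 = 0 := by linarith
      exact pow_eq_zero_iff (two_ne_zero) |>.mp h5
    exact norm_eq_zero.mp h4
  · intro j n ψ hψ
    have h := e1 j (n + 1) ψ hψ
    rw [mem_secN]
    change (Nh : Op ι) (rc U j ψ) = (n : ℂ) • (rc U j ψ)
    rw [h]; push_cast; rw [add_sub_cancel_right]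
  · intro j n ψ hψ
    have h := e1 j n ψ hψ
    rw [mem_secN]
    change (Nh : Op ι) (star (rc U j) (rc U j ψ)) = (n : ℂ) • (star (rc U j) (rc U j ψ))
    rw [← mul_ap, hd, add_ap, mul_ap, h, map_smul, sub_smul, one_smul, sub_add_cancel]

/-- the loss channel with rotated modes -/
noncomputable def Phi (U : Op ι) (s : ι → ℝ) (A : Op ι) : Op ι := Ph (rc U) s Finset.univ A

theorem foldr_ap (f : ι → Op ι → Op ι) (g : ι → (Fk ι →L[ℂ] Fk ι) → (Fk ι →L[ℂ] Fk ι))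
    (h : ∀ j X, (f j X).ap = g j X.ap) (l : List ι) (X : Op ι) :
    (l.foldr f X).ap = l.foldr g X.ap := by
  induction l with
  | nil => rfl
  | cons a l ih => rw [List.foldr_cons, List.foldr_cons, h, ih]

theorem Ph_ap (cc : ι → Op ι) (s : ι → ℝ) (T : Finset ι) (A : Op ι) :
    (Ph cc s T A).ap = Ph (fun j => (cc j).ap) s T A.ap := by
  unfold Ph
  exact foldr_ap (fun j Y => ph cc j (s j) Y) (fun j Y => ph (fun j => (cc j).ap) j (s j) Y)
    (fun j X => rfl) _ A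

theorem car_ap {cc : ι → Op ι} (h : CAR cc) : CAR (fun j => (cc j).ap) where
  anti i j := h.anti i j
  car i j := by
    have := congrArg Op.ap (h.car i j)
    refine this.trans ?_
    split_ifs <;> rfl

/-- (J2) descent through the loss channel -/
theorem J2 {U : Op ι} (hU : star U * U = 1) (hU' : U * star U = 1) (hN : U * Nh = Nh * U)
    {s : ι → ℝ} (hs : ∀ j, s j ^ 2 ≤ 1) {a b K : ℝ} (ha : 0 ≤ a) {A : Op ι} {M : ℕ}
    (hA : ∀ n ≤ M, ∀ φ ∈ secN (ι := ι) n, (- a * (K - n) - b) * ‖φ‖ ^ 2 ≤ (⟪φ, A φ⟫_ℂ).re)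
    {n : ℕ} (hn : n ≤ M) {φ : Fk ι} (hφ : φ ∈ secN (ι := ι) n) :
    (- a * (K + ∑ j, (1 - s j ^ 2) - n) - b) * ‖φ‖ ^ 2 ≤ (⟪φ, Phi U s A φ⟫_ℂ).re := by
  have h := LB_Ph_sum (car_ap (car_rc hU hU')) (lowers_rc hN) (T := Finset.univ)
    (fun j _ => hs j) (M := M) (a := a) (b := b) (K := K) ha (X := A.ap) hA
  have := h n hn φ hφ
  rw [← Ph_ap] at this
  exact this

/-! ### basic facts about `Phi` in Fock notation -/

theorem Phi_add {U : Op ι} (hU : star U * U = 1) (hU' : U * star U = 1) (s : ι → ℝ) (A B : Op ι) :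
    Phi U s (A + B) = Phi U s A + Phi U s B := Ph_add (car_rc hU hU') s _ A B

theorem Phi_smul {U : Op ι} (hU : star U * U = 1) (hU' : U * star U = 1) (s : ι → ℝ) (a : ℂ)
    (A : Op ι) : Phi U s (a • A) = a • Phi U s A := Ph_smul (car_rc hU hU') s _ a A




/-- closeness in terms of commutators with the rotated modes -/
theorem norm_sub_Phi {U : Op ι} (hU : star U * U = 1) (hU' : U * star U = 1) {s : ι → ℝ}
    (h0 : ∀ j, 0 ≤ s j) (h1 : ∀ j, s j ≤ 1) (A : Op ι) :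
    ‖A - Phi U s A‖ ≤ ∑ j, (1 - s j) * (3 * ‖star (rc U j) * A - A * star (rc U j)‖
      + ‖rc U j * A - A * rc U j‖) := by
  have h := norm_sub_Ph (car_ap (car_rc hU hU')) (T := Finset.univ) (fun j _ => h0 j)
    (fun j _ => h1 j) A.ap
  rw [← Ph_ap] at h
  exact h


/-! ### covariance and pair annihilators -/

theorem rc_one (j : ι) : rc (1 : Op ι) j = c j := by
  rw [rc, star_one, one_mul, mul_one]

theorem car_c : CAR (c : ι → Op ι) where
  anti i j := c_c i j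
  car i j := by rw [star_c]; exact c_d i j

theorem ph_conj {U : Op ι} (hU : star U * U = 1) (hU' : U * star U = 1) (j : ι) (s : ℝ)
    (X : Op ι) : ph (rc U) j s (U * X * star U) = U * ph c j s X * star U := by
  have hk : k0 (rc U) j s = U * k0 c j s * star U := by
    have : star (rc U j) * rc U j = U * (star (c j) * c j) * star U := by
      calc star (rc U j) * rc U j = U * d j * (star U * U) * c j * star U := by
            rw [star_rc]; simp only [rc]; noncomm_ring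
        _ = _ := by rw [hU, star_c]; noncomm_ring
    rw [k0, k0, this, mul_sub, sub_mul, mul_one, hU', mul_smul_comm, smul_mul_assoc]
  have h1 : k0 (rc U) j s * (U * X * star U) * k0 (rc U) j s
      = U * (k0 c j s * X * k0 c j s) * star U := by
    rw [hk]
    calc U * k0 c j s * star U * (U * X * star U) * (U * k0 c j s * star U)
        = U * k0 c j s * (star U * U) * X * (star U * U) * k0 c j s * star U := by noncomm_ring
      _ = _ := by rw [hU]; noncomm_ring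
  have h2 : star (rc U j) * (U * X * star U) * rc U j
      = U * (star (c j) * X * c j) * star U := by
    calc star (rc U j) * (U * X * star U) * rc U j
        = U * d j * (star U * U) * X * (star U * U) * c j * star U := by
          rw [star_rc]; simp only [rc]; noncomm_ring
      _ = _ := by rw [hU, star_c]; noncomm_ring
  rw [ph, h1, h2, ph, mul_add, add_mul, mul_smul_comm, smul_mul_assoc]

/-- covariance of the channel -/
theorem Phi_conj {U : Op ι} (hU : star U * U = 1) (hU' : U * star U = 1) (s : ι → ℝ)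
    (X : Op ι) : Phi U s (U * X * star U) = U * Phi 1 s X * star U := by
  have key : ∀ T : Finset ι, Ph (rc U) s T (U * X * star U) = U * Ph c s T X * star U := by
    intro T
    induction T using Finset.induction_on with
    | empty => simp [Ph_empty]
    | insert j T hj ih =>
      rw [Ph_insert (car_rc hU hU') s hj, Ph_insert car_c s hj, ih, ph_conj hU hU']
  have h1 : (rc (1 : Op ι)) = c := funext rc_one
  rw [Phi, key, Phi, h1]

theorem Phi_one_eq (s : ι → ℝ) (X : Op ι) : Phi 1 s X = Ph c s Finset.univ X := by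
  have h1 : (rc (1 : Op ι)) = c := funext rc_one
  rw [Phi, h1]





/-- (J1) near form + profile estimate ⇒ H-part of the jump inequality.
`J = ∑ B_q^* H B_q`; all integrals over an arbitrary measure space. -/
theorem J1 {G : Type*} [MeasurableSpace G] (ν : MeasureTheory.Measure G)
    (B Φ h : G → Op ι) (H J : Op ι) {γ η : ℝ}
    (hprof : ∀ g v, (⟪v, Φ g v⟫_ℂ).re ≤ (⟪v, H v⟫_ℂ).re - (⟪v, h g v⟫_ℂ).re + η * ‖v‖ ^ 2)
    (ψ : Fk ι)
    (i0 : MeasureTheory.Integrable (fun g => (⟪B g ψ, Φ g (B g ψ)⟫_ℂ).re) ν)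
    (i1 : MeasureTheory.Integrable (fun g => ‖B g ψ‖ ^ 2) ν)
    (i2 : MeasureTheory.Integrable (fun g => (⟪B g ψ, H (B g ψ)⟫_ℂ).re) ν)
    (i3 : MeasureTheory.Integrable (fun g => (⟪B g ψ, h g (B g ψ)⟫_ℂ).re) ν)
    (rot1 : ∫ g, ‖B g ψ‖ ^ 2 ∂ν = (⟪ψ, H ψ⟫_ℂ).re)
    (rot2 : ∫ g, (⟪B g ψ, H (B g ψ)⟫_ℂ).re ∂ν = (⟪ψ, J ψ⟫_ℂ).re)
    (near : γ * (⟪ψ, H ψ⟫_ℂ).re ≤ ‖H ψ‖ ^ 2 - (⟪ψ, J ψ⟫_ℂ).re
      + ∫ g, (⟪B g ψ, h g (B g ψ)⟫_ℂ).re ∂ν) :
    ∫ g, (⟪B g ψ, Φ g (B g ψ)⟫_ℂ).re ∂ν ≤ ‖H ψ‖ ^ 2 - (γ - η) * (⟪ψ, H ψ⟫_ℂ).re := by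
  have h1 : ∫ g, (⟪B g ψ, Φ g (B g ψ)⟫_ℂ).re ∂ν
      ≤ ∫ g, ((⟪B g ψ, H (B g ψ)⟫_ℂ).re - (⟪B g ψ, h g (B g ψ)⟫_ℂ).re + η * ‖B g ψ‖ ^ 2) ∂ν :=
    MeasureTheory.integral_mono i0 ((i2.sub i3).add (i1.const_mul η)) (fun g => hprof g _)
  have h2 : ∫ g, ((⟪B g ψ, H (B g ψ)⟫_ℂ).re - (⟪B g ψ, h g (B g ψ)⟫_ℂ).re + η * ‖B g ψ‖ ^ 2) ∂ν
      = (⟪ψ, J ψ⟫_ℂ).re - (∫ g, (⟪B g ψ, h g (B g ψ)⟫_ℂ).re ∂ν) + η * (⟪ψ, H ψ⟫_ℂ).re := by
    have i23 : MeasureTheory.Integrable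
        (fun g => (⟪B g ψ, H (B g ψ)⟫_ℂ).re - (⟪B g ψ, h g (B g ψ)⟫_ℂ).re) ν := i2.sub i3
    rw [MeasureTheory.integral_add i23 (i1.const_mul η),
      MeasureTheory.integral_sub i2 i3, MeasureTheory.integral_const_mul, rot1, rot2]
  rw [h2] at h1
  linarith

end Crest.Agent.R340.JumpH674
end

-- ▼ part R340/Prof_482
section

/-!
PROF (docs 1205), final form: `Φ_g(H) ≤ H - ∑_{p<pw} B_p(g)^* B_p(g) + η`, uniformly in `Q`,
for 674's channel `Phi U s` with 385's profile `sP P1`.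
-/

set_option autoImplicit false
set_option linter.unusedSectionVars false

namespace Crest.Agent.R340.Prof482

open Finset Crest.Agent.R340.Fock649 Crest.Agent.R340.Br320 Crest.Agent.R340.JumpH674
open Crest.MathPhysics.Laughlin
open Crest.Agent.R340.Prof385 (sP prof_l1 sP_nonneg sP_le_one sP_mul_eq_zero sg_nonneg sg_lt_one)
open scoped InnerProductSpace

/-- near part `∑_{p<pw} B_p^* B_p` -/
noncomputable def hn (Q pw : ℕ) : Op (Fin (Q + 1)) :=
  ∑ p ∈ univ.filter (fun p : Fin (2 * Q - 1) => (p : ℕ) < pw), star (Bp Q p) * Bp Q p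

/-- near part about `U`: `∑_{p<pw} B_p(U)^* B_p(U)`, `B_p(U) = U B_p U^*` -/
noncomputable def hnU (Q pw : ℕ) (U : Op (Fin (Q + 1))) : Op (Fin (Q + 1)) :=
  ∑ p ∈ univ.filter (fun p : Fin (2 * Q - 1) => (p : ℕ) < pw), star (U * Bp Q p * star U) * (U * Bp Q p * star U)

theorem hnU_eq {Q pw : ℕ} {U : Op (Fin (Q + 1))} (hU : star U * U = 1) :
    hnU Q pw U = U * hn Q pw * star U := by
  unfold hnU hn
  rw [Finset.mul_sum, Finset.sum_mul]
  refine Finset.sum_congr rfl fun p _ => ?_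
  calc star (U * Bp Q p * star U) * (U * Bp Q p * star U)
      = U * star (Bp Q p) * (star U * U) * Bp Q p * star U := by
        rw [star_mul, star_mul, star_star]; noncomm_ring
    _ = _ := by rw [hU]; noncomm_ring


/-- `Phi 1 s (HH Q) = ∑ Bt_p^* Bt_p`. -/
theorem Phi_HH (Q : ℕ) (s : Fin (Q + 1) → ℝ) :
    Phi 1 s (HH Q) = ∑ p, star (pa (sw s (wM Q p))) * pa (sw s (wM Q p)) := by
  rw [Phi_one_eq]
  exact Ph_sum_pa s (wM Q)

/-- PROF at the pole. -/
theorem prof_pole {η : ℝ} (hη : 0 < η) (pw : ℕ) : ∃ P0 : ℕ, pw ≤ 2 * P0 + 1 ∧ ∀ P1 : ℕ, P0 ≤ P1 →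
    ∀ Q : ℕ, 1 ≤ Q →
      Phi 1 (fun j : Fin (Q + 1) => sP P1 j) (HH Q) ≤
        HH Q - hn Q pw + (η : ℂ) • (1 : Op (Fin (Q + 1))) := by
  obtain ⟨C, hC, hl⟩ := prof_l1
  obtain ⟨P0, hP0⟩ := exists_nat_ge (max ((C / (2 * η)) ^ 2) (pw : ℝ))
  have hP0a : (C / (2 * η)) ^ 2 ≤ P0 := (le_max_left _ _).trans hP0
  have hP0b : pw ≤ P0 := by exact_mod_cast (le_max_right _ _).trans hP0
  refine ⟨P0, by omega, fun P1 hP1 Q hQ => ?_⟩
  have hP1' : (P0 : ℝ) ≤ P1 := by exact_mod_cast hP1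
  have hs : C / (2 * η) ≤ Real.sqrt ((P1 : ℝ) + 1) := by
    apply Real.le_sqrt_of_sq_le
    linarith
  have hspos : 0 < Real.sqrt ((P1 : ℝ) + 1) := Real.sqrt_pos.mpr (by positivity)
  have hb : C / Real.sqrt ((P1 : ℝ) + 1) ≤ 2 * η := by
    rw [div_le_iff₀ hspos]
    rw [div_le_iff₀ (by positivity)] at hs
    linarith
  have key := sum_pairs_op (fun j : Fin (Q + 1) => sP P1 j) (wM Q)
    (fun p => Prof385.sg P1 p) (fun p => sg_nonneg P1 p) (fun p => sg_lt_one P1 p)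
    (fun p => pw ≤ (p : ℕ)) (fun p hp i j => ?_) (η := η) ?_
  · rw [Phi_HH]
    have e : HH Q - hn Q pw = ∑ p ∈ univ.filter (fun p : Fin (2 * Q - 1) => pw ≤ (p : ℕ)), star (pa (wM Q p)) * pa (wM Q p) := by
      have h1 : HH Q = hn Q pw +
          ∑ p ∈ univ.filter (fun p : Fin (2 * Q - 1) => pw ≤ (p : ℕ)), star (pa (wM Q p)) * pa (wM Q p) := by
        unfold HH hn
        rw [← Finset.sum_filter_add_sum_filter_not univ (fun p : Fin (2 * Q - 1) => (p : ℕ) < pw)]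
        simp only [not_lt]
        rfl
      rw [h1]; abel
    rw [e]
    exact key
  · rw [wM_apply]
    by_cases hij : (i : ℕ) + j = p + 1
    · have : sP P1 (i : ℕ) * sP P1 (j : ℕ) = 0 := sP_mul_eq_zero (by omega)
      show ((sP P1 (i : ℕ) * sP P1 (j : ℕ) : ℝ) : ℂ) * _ = 0
      rw [this]; simp
    · have : pairVec Q p i j = 0 := by unfold pairVec; rw [if_neg hij]
      rw [this]; simp
  · refine le_trans (le_of_eq ?_) ((hl P1 Q hQ).trans hb)
    refine Finset.sum_congr rfl fun p _ => ?_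
    congr 2
    refine Finset.sum_congr rfl fun i _ => Finset.sum_congr rfl fun j _ => ?_
    rw [wM_apply, Complex.norm_real, Real.norm_eq_abs]


theorem conj_le {ι : Type*} [Fintype ι] [LinearOrder ι] {A B : Op ι} (h : A ≤ B) (U : Op ι) :
    U * A * star U ≤ U * B * star U := star_right_conjugate_le_conjugate h U

/-- **PROF**: Loewner form, about any unitary that commutes with `H`. -/
theorem prof {η : ℝ} (hη : 0 < η) (pw : ℕ) : ∃ P0 : ℕ, pw ≤ 2 * P0 + 1 ∧ ∀ P1 : ℕ, P0 ≤ P1 →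
    ∀ Q : ℕ, 1 ≤ Q → ∀ U : Op (Fin (Q + 1)), star U * U = 1 → U * star U = 1 →
      U * HH Q * star U = HH Q →
      Phi U (fun j : Fin (Q + 1) => sP P1 j) (HH Q) ≤
        HH Q - hnU Q pw U + (η : ℂ) • (1 : Op (Fin (Q + 1))) := by
  obtain ⟨P0, h0, h⟩ := prof_pole hη pw
  refine ⟨P0, h0, fun P1 hP1 Q hQ U hU hU' hH => ?_⟩
  have h1 := conj_le (h P1 hP1 Q hQ) U
  have e1 : U * Phi 1 (fun j : Fin (Q + 1) => sP P1 j) (HH Q) * star U =
      Phi U (fun j : Fin (Q + 1) => sP P1 j) (HH Q) := by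
    rw [← Phi_conj hU hU', hH]
  have e2 : U * (HH Q - hn Q pw + (η : ℂ) • (1 : Op (Fin (Q + 1)))) * star U =
      HH Q - hnU Q pw U + (η : ℂ) • (1 : Op (Fin (Q + 1))) := by
    rw [mul_add, mul_sub, add_mul, sub_mul, hH, hnU_eq hU, mul_smul_comm, mul_one,
      smul_mul_assoc, hU']
  rw [e1, e2] at h1
  exact h1

/-- **PROF**: form version, exactly the hypothesis `hprof` of `JumpH674.J1`. -/
theorem prof_form {η : ℝ} (hη : 0 < η) (pw : ℕ) :
    ∃ P0 : ℕ, pw ≤ 2 * P0 + 1 ∧ ∀ P1 : ℕ, P0 ≤ P1 →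
    ∀ Q : ℕ, 1 ≤ Q → ∀ U : Op (Fin (Q + 1)), star U * U = 1 → U * star U = 1 →
      U * HH Q * star U = HH Q → ∀ v : Fk (Fin (Q + 1)),
      (⟪v, Phi U (fun j : Fin (Q + 1) => sP P1 j) (HH Q) v⟫_ℂ).re ≤
        (⟪v, HH Q v⟫_ℂ).re - (⟪v, hnU Q pw U v⟫_ℂ).re + η * ‖v‖ ^ 2 := by
  obtain ⟨P0, h0, h⟩ := prof hη pw
  refine ⟨P0, h0, fun P1 hP1 Q hQ U hU hU' hH v => ?_⟩
  have h1 := h P1 hP1 Q hQ U hU hU' hH
  have h2 := (Op.nonneg_iff _).mp (sub_nonneg.mpr h1)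
  have h3 := h2.2 v
  rw [sub_ap, add_ap, sub_ap, inner_sub_right, inner_add_right, inner_sub_right, Complex.sub_re,
    Complex.add_re, Complex.sub_re, re_inner_smul_one] at h3
  linarith

end Crest.Agent.R340.Prof482
end

-- ▼ part R340/DLi_482
section

/-!
Concrete instance of 856's abstract descending lemma on Fock space over `Fin (Q+1)` with the group
`U2 = unitaryGroup (Fin 2) ℂ`, measure `(2Q-1) Haar`, jumps `B_g = Rg B_0 Rg^*` and 674's loss
channel `Phi (Rg Q g) (sP P1)`.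
-/

set_option autoImplicit false
set_option linter.unusedSectionVars false

namespace Crest.Agent.R340.DLi482

open MeasureTheory Finset
open Crest.Agent.R340.Fock649 Crest.Agent.R340.Br320 Crest.Agent.R340.JumpH674
open Crest.Agent.R340.Rot303 (Rg Rg_mul star_Rg Rg_mul_star star_Rg_mul continuous_Rg cj Bg cj_HH
  continuous_Bg)
open Crest.Agent.R340.U856 (Rep cint cmem dl sector_ind)
open Crest.Agent.R340.Prof482 (hnU hnU_eq hn prof_form)
open Crest.Agent.R340.Prof385 (sP sP_nonneg sP_le_one)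
open Crest.Agent.R340.CS809 (U2 U2_ct_mul U2_mul_ct)
open scoped InnerProductSpace Matrix

instance instSCU2 : SecondCountableTopology U2 := Crest.Agent.R124.Haar.secondCountable

/-- `(2Q-1)` times Haar probability. -/
noncomputable def nuQ (Q : ℕ) : Measure U2 :=
  ENNReal.ofReal (2 * (Q : ℝ) - 1) • Crest.Agent.R124.Haar.haar (Fin 2)

instance instFinNuQ (Q : ℕ) : IsFiniteMeasure (nuQ Q) := by
  unfold nuQ
  exact Measure.smul_finite _ ENNReal.ofReal_ne_top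

section RepInst
variable {ι : Type*} [Fintype ι]

/-- `Op ι` acting on `Fk ι`. -/
noncomputable def opRep : Rep (Op ι) (Fk ι) where
  π := LinearMap.mkContinuous
    { toFun := Op.ap, map_add' := fun _ _ => rfl, map_smul' := fun _ _ => rfl } 1
    (fun A => by rw [one_mul]; exact le_of_eq rfl)
  map_mul _ _ := rfl
  star_inner A v w := inner_star_left A v w
  norm_le _ := le_of_eq rfl

theorem opRep_apply (A : Op ι) (v : Fk ι) : (opRep (ι := ι)).π A v = A v := rfl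

/-- matrix coefficient functional -/
noncomputable def mc (φ χ : Fk ι) : Op ι →L[ℂ] ℂ :=
  (innerSL ℂ φ).comp ((ContinuousLinearMap.apply ℂ (Fk ι) χ).comp (opRep (ι := ι)).π)

theorem mc_apply (φ χ : Fk ι) (A : Op ι) : mc φ χ A = ⟪φ, A χ⟫_ℂ := rfl

theorem continuous_ap {G : Type*} [TopologicalSpace G] {A : G → Op ι} (hA : Continuous A)
    {v : G → Fk ι} (hv : Continuous v) : Continuous fun g => A g (v g) := by
  have : Continuous fun g => (opRep (ι := ι)).π (A g) (v g) :=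
    ((opRep (ι := ι)).π.continuous.comp hA).clm_apply hv
  exact this

end RepInst

/-- `J(A) = ∑ B_p^* A B_p`. -/
noncomputable def JJ (Q : ℕ) (A : Op (Fin (Q + 1))) : Op (Fin (Q + 1)) :=
  ∑ p, star (Bp Q p) * A * Bp Q p

/-- the jump `B_g` -/
noncomputable def B0 (Q : ℕ) (hQ : 1 ≤ Q) (g : U2) : Op (Fin (Q + 1)) := Bg Q g ⟨0, by omega⟩

theorem continuous_B0 (Q : ℕ) (hQ : 1 ≤ Q) : Continuous (B0 Q hQ) :=
  (continuous_Bg _).comp continuous_subtype_val

theorem continuous_RgU (Q : ℕ) : Continuous fun g : U2 => Rg Q (g : Matrix (Fin 2) (Fin 2) ℂ) :=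
  continuous_Rg.comp continuous_subtype_val

theorem RgU_mul_star (Q : ℕ) (g : U2) : Rg Q g * star (Rg Q g) = 1 := Rg_mul_star (U2_mul_ct g)
theorem star_RgU_mul (Q : ℕ) (g : U2) : star (Rg Q g) * Rg Q g = 1 := star_Rg_mul (U2_mul_ct g)

/-- rotation identity (303/814) -/
def ROT (Q : ℕ) (hQ : 1 ≤ Q) : Prop :=
  ∀ X : Op (Fin (Q + 1)), ∫ g, star (B0 Q hQ g) * X * B0 Q hQ g ∂(nuQ Q) = JJ Q X

/-- the NEAR form (120/249/515) at flux `Q` -/
def NEAR (Q : ℕ) (hQ : 1 ≤ Q) (pw : ℕ) (γ : ℝ) : Prop :=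
  ∀ ψ : Fk (Fin (Q + 1)), γ * (⟪ψ, HH Q ψ⟫_ℂ).re ≤ ‖HH Q ψ‖ ^ 2 - (⟪ψ, JJ Q (HH Q) ψ⟫_ℂ).re
      + ∫ g, (⟪B0 Q hQ g ψ, hnU Q pw (Rg Q g) (B0 Q hQ g ψ)⟫_ℂ).re ∂(nuQ Q)

theorem JJ_one (Q : ℕ) : JJ Q 1 = HH Q := by
  unfold JJ HH
  exact Finset.sum_congr rfl fun p _ => by rw [mul_one]

theorem rot_inner {Q : ℕ} {hQ : 1 ≤ Q} (hr : ROT Q hQ) (X : Op (Fin (Q + 1)))
    (φ χ : Fk (Fin (Q + 1))) :
    ∫ g, ⟪B0 Q hQ g φ, X (B0 Q hQ g χ)⟫_ℂ ∂(nuQ Q) = ⟪φ, JJ Q X χ⟫_ℂ := by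
  have hc : Continuous fun g : U2 => star (B0 Q hQ g) * X * B0 Q hQ g :=
    ((continuous_B0 Q hQ).star.mul continuous_const).mul (continuous_B0 Q hQ)
  have h := (mc φ χ).integral_comp_comm (cint (ν := nuQ Q) hc)
  rw [hr X, mc_apply] at h
  rw [← h]
  refine integral_congr_ae (Filter.Eventually.of_forall fun g => ?_)
  change ⟪B0 Q hQ g φ, X (B0 Q hQ g χ)⟫_ℂ = ⟪φ, (star (B0 Q hQ g) * X * B0 Q hQ g) χ⟫_ℂ
  rw [mul_ap, mul_ap, inner_star_right]

theorem rot_one {Q : ℕ} {hQ : 1 ≤ Q} (hr : ROT Q hQ) (φ χ : Fk (Fin (Q + 1))) :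
    ∫ g, ⟪B0 Q hQ g φ, B0 Q hQ g χ⟫_ℂ ∂(nuQ Q) = ⟪φ, HH Q χ⟫_ℂ := by
  have h := rot_inner hr 1 φ χ
  rw [JJ_one] at h
  simpa only [one_ap] using h

/-! ### continuity of the channel in `g` -/

theorem Phi_eq_conj {ι : Type*} [Fintype ι] [LinearOrder ι] {U : Op ι} (hU : star U * U = 1)
    (hU' : U * star U = 1) (s : ι → ℝ) (A : Op ι) :
    Phi U s A = U * Phi 1 s (star U * A * U) * star U := by
  rw [← Phi_conj hU hU']
  congr 1
  calc A = (U * star U) * A * (U * star U) := by rw [hU']; simp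
    _ = _ := by noncomm_ring

/-- `Phi 1 s` as a continuous linear map -/
noncomputable def Phi1L {ι : Type*} [Fintype ι] [LinearOrder ι] (s : ι → ℝ) : Op ι →L[ℂ] Op ι :=
  LinearMap.toContinuousLinearMap
    { toFun := Phi 1 s
      map_add' := fun A B => Phi_add (by simp) (by simp) s A B
      map_smul' := fun a A => Phi_smul (by simp) (by simp) s a A }

theorem Phi1L_apply {ι : Type*} [Fintype ι] [LinearOrder ι] (s : ι → ℝ) (A : Op ι) :
    Phi1L s A = Phi 1 s A := rfl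

theorem continuous_PhiG {Q : ℕ} (s : Fin (Q + 1) → ℝ) (A : Op (Fin (Q + 1))) :
    Continuous fun g : U2 => Phi (Rg Q g) s A := by
  have h : (fun g : U2 => Phi (Rg Q g) s A) = fun g : U2 =>
      Rg Q g * Phi1L s (star (Rg Q (g : Matrix (Fin 2) (Fin 2) ℂ)) * A * Rg Q g) *
        star (Rg Q (g : Matrix (Fin 2) (Fin 2) ℂ)) := by
    funext g
    rw [Phi1L_apply, ← Phi_eq_conj (star_RgU_mul Q g) (RgU_mul_star Q g)]
  rw [h]
  have hc := continuous_RgU Q
  exact (hc.mul ((Phi1L s).continuous.comp ((hc.star.mul continuous_const).mul hc))).mul hc.star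

theorem continuous_hnU {Q pw : ℕ} : Continuous fun g : U2 => hnU Q pw (Rg Q g) := by
  have hc := continuous_RgU Q
  have h : ∀ p, Continuous fun g : U2 => Rg Q g * Bp Q p * star (Rg Q (g : Matrix (Fin 2) (Fin 2) ℂ)) :=
    fun p => (hc.mul continuous_const).mul hc.star
  unfold hnU
  exact continuous_finsetSum _ fun p _ => (h p).star.mul (h p)

theorem continuous_qf {Q : ℕ} (hQ : 1 ≤ Q) {A : U2 → Op (Fin (Q + 1))} (hA : Continuous A)
    (ψ : Fk (Fin (Q + 1))) : Continuous fun g => (⟪B0 Q hQ g ψ, A g (B0 Q hQ g ψ)⟫_ℂ).re := by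
  have h1 : Continuous fun g => B0 Q hQ g ψ := continuous_ap (continuous_B0 Q hQ) continuous_const
  exact Complex.continuous_re.comp (h1.inner (continuous_ap hA h1))

theorem HH_conj (Q : ℕ) (g : U2) : Rg Q g * HH Q * star (Rg Q (g : Matrix (Fin 2) (Fin 2) ℂ)) = HH Q :=
  cj_HH (U2_mul_ct g)

/-- **(J1)** on Fock space. -/
theorem J1c {Q : ℕ} {hQ : 1 ≤ Q} (hr : ROT Q hQ) {pw P1 : ℕ} {γ η : ℝ} (hn : NEAR Q hQ pw γ)
    (hp : ∀ U : Op (Fin (Q + 1)), star U * U = 1 → U * star U = 1 →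
      U * HH Q * star U = HH Q → ∀ v : Fk (Fin (Q + 1)),
      (⟪v, Phi U (fun j : Fin (Q + 1) => sP P1 j) (HH Q) v⟫_ℂ).re ≤
        (⟪v, HH Q v⟫_ℂ).re - (⟪v, hnU Q pw U v⟫_ℂ).re + η * ‖v‖ ^ 2)
    (ψ : Fk (Fin (Q + 1))) :
    ∫ g, (⟪B0 Q hQ g ψ, Phi (Rg Q g) (fun j : Fin (Q + 1) => sP P1 j) (HH Q)
      (B0 Q hQ g ψ)⟫_ℂ).re ∂(nuQ Q) ≤ ‖HH Q ψ‖ ^ 2 - (γ - η) * (⟪ψ, HH Q ψ⟫_ℂ).re := by
  have h1 : Continuous fun g => B0 Q hQ g ψ := continuous_ap (continuous_B0 Q hQ) continuous_const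
  refine J1 (nuQ Q) (B0 Q hQ) (fun g => Phi (Rg Q g) (fun j : Fin (Q + 1) => sP P1 j) (HH Q))
    (fun g => hnU Q pw (Rg Q g)) (HH Q) (JJ Q (HH Q))
    (fun g v => hp (Rg Q g) (star_RgU_mul Q g) (RgU_mul_star Q g) (HH_conj Q g) v) ψ
    (cint (continuous_qf hQ (continuous_PhiG _ _) ψ)) (cint (h1.norm.pow 2))
    (cint (continuous_qf hQ continuous_const ψ)) (cint (continuous_qf hQ continuous_hnU ψ)) ?_ ?_ (hn ψ)
  · have h2 := rot_one hr ψ ψ
    have h3 : ∫ g, ⟪B0 Q hQ g ψ, B0 Q hQ g ψ⟫_ℂ ∂(nuQ Q) =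
        ((∫ g, ‖B0 Q hQ g ψ‖ ^ 2 ∂(nuQ Q) : ℝ) : ℂ) := by
      rw [← integral_complex_ofReal]
      refine integral_congr_ae (Filter.Eventually.of_forall fun g => ?_)
      simp only
      rw [inner_self_eq_norm_sq_to_K]
      norm_cast
    rw [← h2, h3, Complex.ofReal_re]
  · have h2 := rot_inner hr (HH Q) ψ ψ
    rw [← h2]
    have h4 : Continuous fun g => ⟪B0 Q hQ g ψ, HH Q (B0 Q hQ g ψ)⟫_ℂ :=
      h1.inner (continuous_ap continuous_const h1)
    have h5 := integral_re (cint (ν := nuQ Q) h4)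
    simpa using h5

/-! ### sectors -/

theorem sector_eq_secN {Q : ℕ} (N : ℕ) (v : Fk (Fin (Q + 1))) :
    v ∈ sector (Fin (Q + 1)) N ↔ v ∈ secN (ι := Fin (Q + 1)) N := by
  rw [mem_sector_iff_Nh, mem_secN]

theorem Nh_Rg (Q : ℕ) (g : U2) : Rg Q g * Nh = Nh * Rg Q g := Gam303.Gam_mul_Nh _

theorem B0_mem {Q : ℕ} (hQ : 1 ≤ Q) {N : ℕ} {v : Fk (Fin (Q + 1))}
    (hv : v ∈ sector (Fin (Q + 1)) (N + 2)) (g : U2) :
    B0 Q hQ g v ∈ sector (Fin (Q + 1)) N := by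
  have hs : Nh * star (Rg Q (g : Matrix (Fin 2) (Fin 2) ℂ)) = star (Rg Q (g : Matrix (Fin 2) (Fin 2) ℂ)) * Nh := by
    rw [star_Rg]
    exact (Gam303.Gam_mul_Nh _).symm
  have hm : ∀ {M : ℕ} {A : Op (Fin (Q + 1))} (_ : Nh * A = A * Nh) {w : Fk (Fin (Q + 1))}
      (_ : w ∈ sector (Fin (Q + 1)) M), A w ∈ sector (Fin (Q + 1)) M := by
    intro M A hA w hw
    rw [mem_sector_iff_Nh] at hw ⊢
    rw [← mul_ap, hA, mul_ap, hw, map_smul]
  have h1 := hm hs hv
  have h2 : Bp Q ⟨0, by omega⟩ (star (Rg Q (g : Matrix (Fin 2) (Fin 2) ℂ)) v) ∈ sector (Fin (Q + 1)) N :=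
    pa_mem_sector h1 _
  have h3 := hm (Nh_Rg Q g).symm h2
  exact h3

theorem B0_zero_of_lt {Q : ℕ} (hQ : 1 ≤ Q) {N : ℕ} (hN : N < 2) {v : Fk (Fin (Q + 1))}
    (hv : v ∈ sector (Fin (Q + 1)) N) (g : U2) : B0 Q hQ g v = 0 := by
  have hs : Nh * star (Rg Q (g : Matrix (Fin 2) (Fin 2) ℂ)) = star (Rg Q (g : Matrix (Fin 2) (Fin 2) ℂ)) * Nh := by
    rw [star_Rg]
    exact (Gam303.Gam_mul_Nh _).symm
  have h1 : star (Rg Q (g : Matrix (Fin 2) (Fin 2) ℂ)) v ∈ sector (Fin (Q + 1)) N := by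
    rw [mem_sector_iff_Nh] at hv ⊢
    rw [← mul_ap, hs, mul_ap, hv, map_smul]
  have h2 : Bp Q ⟨0, by omega⟩ (star (Rg Q (g : Matrix (Fin 2) (Fin 2) ℂ)) v) = 0 := by
    interval_cases N
    · exact pa_sector_zero h1 _
    · exact pa_sector_one h1 _
  change (Rg Q g * Bp Q ⟨0, by omega⟩ * star (Rg Q (g : Matrix (Fin 2) (Fin 2) ℂ))) v = 0
  rw [mul_ap, mul_ap, h2, map_zero]

/-- number of modes lost on average: `m₁ = ∑ (1 - s_j²) ≤ 4 (P1+1)` -/
noncomputable def mLoss (Q P1 : ℕ) : ℝ := ∑ j : Fin (Q + 1), (1 - sP P1 j ^ 2)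


theorem mLoss_le (Q P1 : ℕ) : mLoss Q P1 ≤ 4 * ((P1 : ℝ) + 1) := by
  have h := Prof385.sum_one_sub_sP_sq_le P1 (Q + 1)
  unfold mLoss
  rw [Fin.sum_univ_eq_sum_range (fun j => 1 - sP P1 j ^ 2) (Q + 1)]
  exact h


end Crest.Agent.R340.DLi482
end

-- ▼ part R340/DLk_482

/-!
ROT identity and the instance of 856's structure `Jump` on Fock space: group `U2`, measure
`(2Q-1) Haar`, fields `a k g = an (uf Q k g)` (331), sectors of 320, channel of 674, profile of 385.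
-/

set_option autoImplicit false
set_option linter.unusedSectionVars false

namespace Crest.Agent.R340.DLi482

open MeasureTheory Finset
open Crest.Agent.R340.Fock649 Crest.Agent.R340.Br320 Crest.Agent.R340.JumpH674
open Crest.Agent.R340.Rot303 (Rg Bg Bg_eq star_Bg_eq Bg_zero det_mul_star)
open Crest.Agent.R340.Rot303 (D2 continuous_D2)
open Crest.Agent.R340.U856 (Rep cint cmem Jump pB)
open Crest.Agent.R340.Prof482 (hnU prof_form)
open Crest.Agent.R340.Prof385 (sP sP_nonneg sP_le_one)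
open Crest.Agent.R340.CS809 (U2 U2_ct_mul U2_mul_ct sp)
open scoped InnerProductSpace Matrix

/-! ### the rotation identity -/

theorem expand_B {Q : ℕ} (p : Fin (2 * Q - 1)) (X : Op (Fin (Q + 1)))
    {g : Matrix (Fin 2) (Fin 2) ℂ} (hg : g * gᴴ = 1) :
    star (Bg Q g p) * X * Bg Q g p =
      ∑ q, ∑ r, (D2 Q g q p * star (D2 Q g r p)) • (star (Bp Q q) * X * Bp Q r) := by
  rw [star_Bg_eq hg, Bg_eq hg, smul_mul_assoc, smul_mul_assoc, mul_smul_comm, smul_smul,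
    det_mul_star hg, one_smul, Finset.sum_mul, Finset.sum_mul]
  refine Finset.sum_congr rfl fun q _ => ?_
  rw [Finset.mul_sum]
  refine Finset.sum_congr rfl fun r _ => ?_
  rw [smul_mul_assoc, smul_mul_assoc, mul_smul_comm, smul_smul]

/-- **(ROT)** -/
theorem rot {Q : ℕ} (hQ : 1 ≤ Q) : ROT Q hQ := by
  intro X
  have hpos : (0 : ℝ) < 2 * (Q : ℝ) - 1 := by
    have : (1 : ℝ) ≤ Q := by exact_mod_cast hQ
    linarith
  have e1 : ∀ g : U2, star (B0 Q hQ g) * X * B0 Q hQ g =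
      ∑ q, ∑ r, (D2 Q (g : Matrix (Fin 2) (Fin 2) ℂ) q ⟨0, by omega⟩ *
        star (D2 Q (g : Matrix (Fin 2) (Fin 2) ℂ) r ⟨0, by omega⟩)) •
          (star (Bp Q q) * X * Bp Q r) := fun g => expand_B _ X (U2_mul_ct g)
  have hc : ∀ q r, Continuous fun g : U2 =>
      (D2 Q (g : Matrix (Fin 2) (Fin 2) ℂ) q ⟨0, by omega⟩ *
        star (D2 Q (g : Matrix (Fin 2) (Fin 2) ℂ) r ⟨0, by omega⟩)) := by
    intro q r
    have h1 : Continuous fun g : U2 => D2 Q (g : Matrix (Fin 2) (Fin 2) ℂ) :=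
      (continuous_D2 Q).comp continuous_subtype_val
    have h2 : ∀ i j, Continuous fun g : U2 => D2 Q (g : Matrix (Fin 2) (Fin 2) ℂ) i j :=
      fun i j => (continuous_apply j).comp ((continuous_apply i).comp h1)
    exact (h2 _ _).mul (h2 _ _).star
  have hi : ∀ q r, Integrable (fun g : U2 =>
      (D2 Q (g : Matrix (Fin 2) (Fin 2) ℂ) q ⟨0, by omega⟩ *
        star (D2 Q (g : Matrix (Fin 2) (Fin 2) ℂ) r ⟨0, by omega⟩)) •
          (star (Bp Q q) * X * Bp Q r)) (Crest.Agent.R124.Haar.haar (Fin 2)) := fun q r =>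
    cint ((hc q r).smul continuous_const)
  unfold nuQ
  rw [integral_smul_measure, ENNReal.toReal_ofReal hpos.le]
  simp only [e1]
  rw [integral_finsetSum _ (fun q _ => integrable_finsetSum _ fun r _ => hi q r)]
  have e2 : ∀ q, ∫ g : U2, ∑ r, (D2 Q (g : Matrix (Fin 2) (Fin 2) ℂ) q ⟨0, by omega⟩ *
        star (D2 Q (g : Matrix (Fin 2) (Fin 2) ℂ) r ⟨0, by omega⟩)) •
          (star (Bp Q q) * X * Bp Q r) ∂(Crest.Agent.R124.Haar.haar (Fin 2)) =
      (2 * (Q : ℂ) - 1)⁻¹ • (star (Bp Q q) * X * Bp Q q) := by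
    intro q
    rw [integral_finsetSum _ (fun r _ => hi q r)]
    rw [Finset.sum_eq_single q]
    · rw [integral_smul_const]
      congr 1
      have := Crest.Agent.R340.Avg814.schur_D2 Q q ⟨0, by omega⟩ q ⟨0, by omega⟩
      rw [if_pos ⟨rfl, rfl⟩] at this
      exact this
    · intro r _ hr
      rw [integral_smul_const]
      have := Crest.Agent.R340.Avg814.schur_D2 Q q ⟨0, by omega⟩ r ⟨0, by omega⟩
      rw [if_neg (fun h => hr h.1.symm)] at this
      have h0 : ∫ g : U2, (D2 Q (g : Matrix (Fin 2) (Fin 2) ℂ) q ⟨0, by omega⟩ *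
        star (D2 Q (g : Matrix (Fin 2) (Fin 2) ℂ) r ⟨0, by omega⟩))
          ∂(Crest.Agent.R124.Haar.haar (Fin 2)) = 0 := this
      rw [h0, zero_smul]
    · intro h
      exact absurd (Finset.mem_univ q) h
  rw [Finset.sum_congr rfl fun q _ => e2 q, ← Finset.smul_sum]
  have e3 : (2 * (Q : ℝ) - 1) • ((2 * (Q : ℂ) - 1)⁻¹ • ∑ q, star (Bp Q q) * X * Bp Q q) =
      ∑ q, star (Bp Q q) * X * Bp Q q := by
    rw [← Complex.coe_smul, smul_smul]
    have : ((2 * (Q : ℝ) - 1 : ℝ) : ℂ) * (2 * (Q : ℂ) - 1)⁻¹ = 1 := by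
      push_cast
      apply mul_inv_cancel₀
      have h : ((2 * (Q : ℝ) - 1 : ℝ) : ℂ) ≠ 0 := by exact_mod_cast hpos.ne'
      push_cast at h
      exact h
    rw [this, one_smul]
  exact e3

/-! ### the instance of `Jump` -/

/-- the local fields `a_k(g)`, `k = 0, 1` -/
noncomputable def aG (Q : ℕ) (k : Fin 2) (g : U2) : Op (Fin (Q + 1)) := an (FI331.uf Q k g)

theorem pB_aG {Q : ℕ} (hQ : 1 ≤ Q) (g : U2) : pB (aG Q) g = B0 Q hQ g := by
  unfold pB aG B0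
  rw [Bg_zero hQ (U2_mul_ct g)]
  have h1 : FI331.idx Q 1 = ⟨1, by omega⟩ := Fin.ext (FI331.idx_val hQ 1)
  have h0 : FI331.idx Q 0 = 0 := Fin.ext (FI331.idx_val hQ 0)
  unfold FI331.uf FI331.vec
  rw [h1, h0]

/-- quadratic form `Re ⟨φ, A φ⟩` of an operator on Fock space -/
noncomputable def qq {ι : Type*} [Fintype ι] (A : Op ι) (φ : Fk ι) : ℝ := (⟪φ, A φ⟫_ℂ).re

/-- PROF hypothesis at flux `Q` (from `Prof482.prof_form`). -/
def PROF (Q pw P1 : ℕ) (η : ℝ) : Prop :=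
  ∀ U : Op (Fin (Q + 1)), star U * U = 1 → U * star U = 1 →
      U * HH Q * star U = HH Q → ∀ v : Fk (Fin (Q + 1)),
      (⟪v, Phi U (fun j : Fin (Q + 1) => sP P1 j) (HH Q) v⟫_ℂ).re ≤
        (⟪v, HH Q v⟫_ℂ).re - (⟪v, hnU Q pw U v⟫_ℂ).re + η * ‖v‖ ^ 2

/-- the loss channel about `g` with profile `sP P1` -/
noncomputable def Phg (Q P1 : ℕ) (g : U2) (A : Op (Fin (Q + 1))) : Op (Fin (Q + 1)) :=
  Phi (Rg Q g) (fun j : Fin (Q + 1) => sP P1 j) A

/-- `P` = projection on the zero modes. -/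
noncomputable abbrev PZ (Q : ℕ) : Op (Fin (Q + 1)) := Crest.Agent.R340.GG467.PK (HH Q)

theorem num_sector {Q : ℕ} {A : Op (Fin (Q + 1))} (hA : Nh * A = A * Nh) (M : ℕ)
    (w : Fk (Fin (Q + 1))) (hw : w ∈ sector (Fin (Q + 1)) M) : A w ∈ sector (Fin (Q + 1)) M := by
  rw [mem_sector_iff_Nh] at hw ⊢
  rw [← mul_ap, hA, mul_ap, hw, map_smul]

theorem Nh_comm_HH (Q : ℕ) : Nh * HH Q = HH Q * Nh := by
  refine op_ext fun S => ?_
  have h2 : HH Q (ket S) ∈ sector (Fin (Q + 1)) S.card := HH_mem_sector (ket_mem_sector S)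
  rw [mem_sector_iff_Nh] at h2
  rw [mul_ap, mul_ap, h2, Nh_ket, map_smul]

theorem star_Nh (Q : ℕ) : star (Nh : Op (Fin (Q + 1))) = Nh := by
  rw [Nh_eq, star_diag]; congr 1; funext S; simp

theorem Nh_comm_PZ (Q : ℕ) : Nh * PZ Q = PZ Q * Nh :=
  Crest.Agent.R340.GG467.commute_PK (Nh_comm_HH Q) (by rw [star_Nh]; exact Nh_comm_HH Q)

/-- **Instance of 856's structure `Jump`.** -/
theorem jump {Q : ℕ} (hQ : 1 ≤ Q) {pw P1 : ℕ} {γ η γ₀ : ℝ} (hn : NEAR Q hQ pw γ)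
    (hp : PROF Q pw P1 η) (hγ₀ : 0 < γ₀)
    (hgap : ∀ φ : Fk (Fin (Q + 1)), PZ Q φ = 0 → γ₀ * ‖φ‖ ^ 2 ≤ qq (HH Q) φ) :
    Jump (opRep (ι := Fin (Q + 1))) (nuQ Q) (aG Q) (Nh : Op (Fin (Q + 1))) (HH Q)
      (fun N => sector (Fin (Q + 1)) N) (PZ Q).ap (Phg Q P1) γ₀ (γ - η) (4 * ((P1 : ℝ) + 1)) where
  H_sa := star_HH Q
  H_num := Nh_comm_HH Q
  hH φ χ := by
    have h := rot_one (rot hQ) φ χ
    rw [opRep_apply, ← h]
    refine integral_congr_ae (Filter.Eventually.of_forall fun g => ?_)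
    simp only [pB_aG hQ, opRep_apply]
  P_symm φ χ := by
    have := inner_star_left (PZ Q) φ χ
    rw [Crest.Agent.R340.GG467.star_PK] at this
    exact this
  P_idem φ := congrArg (fun A : Op (Fin (Q + 1)) => A φ)
    (Crest.Agent.R340.GG467.PK_mul_self (HH Q))
  HP φ := congrArg (fun A : Op (Fin (Q + 1)) => A φ) (Crest.Agent.R340.GG467.mul_PK (HH Q))
  P_sec := num_sector (Nh_comm_PZ Q)
  sec_num A hA := num_sector hA
  B_sec g N φ hφ := by
    rw [pB_aG hQ, opRep_apply]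
    exact B0_mem hQ hφ g
  B_zero g N hN φ hφ := by
    rw [pB_aG hQ, opRep_apply]
    exact B0_zero_of_lt hQ hN hφ g
  gap_pos := hγ₀
  gap := hgap
  Φ_add g A B := Phi_add (star_RgU_mul Q g) (RgU_mul_star Q g) _ A B
  Φ_smul g r A := by
    have h := Phi_smul (star_RgU_mul Q g) (RgU_mul_star Q g)
      (fun j : Fin (Q + 1) => sP P1 j) (r : ℂ) A
    rw [Complex.coe_smul, Complex.coe_smul] at h
    exact h
  Φ_cont A := continuous_PhiG _ A
  m₁_nonneg := by positivity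
  J1 ψ := by
    have h := J1c (rot hQ) hn hp ψ
    refine le_trans (le_of_eq ?_) h
    refine integral_congr_ae (Filter.Eventually.of_forall fun g => ?_)
    simp only [pB_aG hQ]
    rfl
  J2 A c K M hc hA g n hn φ hφ := by
    have hs : ∀ j : Fin (Q + 1), (fun j : Fin (Q + 1) => sP P1 j) j ^ 2 ≤ 1 := by
      intro j
      have h0 := sP_nonneg P1 (j : ℕ)
      have h1 := sP_le_one P1 (j : ℕ)
      show sP P1 j ^ 2 ≤ 1
      nlinarith
    have h := J2 (star_RgU_mul Q g) (RgU_mul_star Q g) (Nh_Rg Q g) hs (a := c) (b := 0) (K := K)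
      hc (A := A) (M := M)
      (fun n hn φ hφ => by
        have := hA n hn φ ((sector_eq_secN n φ).mpr hφ)
        have e : - c * (K - n) - 0 = - (c * (K - n)) := by ring
        rw [e]; exact this) hn ((sector_eq_secN n φ).mp hφ)
    have hm := mLoss_le Q P1
    have h2 : - (c * (K + 4 * ((P1 : ℝ) + 1) - n)) * ‖φ‖ ^ 2 ≤
        (- c * (K + ∑ j : Fin (Q + 1), (1 - sP P1 j ^ 2) - n) - 0) * ‖φ‖ ^ 2 := by
      apply mul_le_mul_of_nonneg_right _ (sq_nonneg _)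
      have : c * mLoss Q P1 ≤ c * (4 * ((P1 : ℝ) + 1)) := mul_le_mul_of_nonneg_left hm hc
      unfold mLoss at this
      nlinarith
    exact h2.trans h

/-- **The jump data exist uniformly in `Q`**, from NEAR and the gap. -/
theorem exists_jump {γ γ₀ : ℝ} (hγ : 0 < γ) (hγ₀ : 0 < γ₀) (pw Q₀ : ℕ)
    (hn : ∀ Q, Q₀ ≤ Q → ∀ hQ : 1 ≤ Q, NEAR Q hQ pw γ)
    (hgap : ∀ Q, Q₀ ≤ Q → ∀ φ : Fk (Fin (Q + 1)), PZ Q φ = 0 → γ₀ * ‖φ‖ ^ 2 ≤ qq (HH Q) φ) :
    ∃ P1 : ℕ, ∀ Q, Q₀ ≤ Q → 1 ≤ Q →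
      Jump (opRep (ι := Fin (Q + 1))) (nuQ Q) (aG Q) (Nh : Op (Fin (Q + 1))) (HH Q)
        (fun N => sector (Fin (Q + 1)) N) (PZ Q).ap (Phg Q P1) γ₀ (γ / 2)
        (4 * ((P1 : ℝ) + 1)) := by
  obtain ⟨P1, _, h⟩ := prof_form (half_pos hγ) pw
  refine ⟨P1, fun Q hQ0 hQ => ?_⟩
  have hj := jump hQ (P1 := P1) (η := γ / 2) (hn Q hQ0 hQ) (fun U hU hU' hH v => h P1 le_rfl Q hQ U hU hU' hH v)
    hγ₀ (hgap Q hQ0)
  have e : γ - γ / 2 = γ / 2 := by ring
  rw [e] at hj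
  exact hj

end Crest.Agent.R340.DLi482
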