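import Crest.Agent.R340.FX1_963
import Crest.Agent.R340.PD4_757

/-!
R340 (helper963), FX part 2: the flux-independent class `DY` and the profile class `PC` (331).

* `DY.pc`      : `DY Q n C X → PC fcar (uf Q) (dQ Q) n (KX n * C) X 1`;
* `DY.of_pc`   : `Commute X Nh → PC .. (k+5) C X 1 → DY Q (k+1) (KB k * C) X`;
* `pc_cj`      : `PC .. m C X x → PC .. m C (cj h X) (h * x)`;
* `DY.of_pc_rot` : `PC .. (k+5) C X g → DY Q (k+1) (KB k * C) (cj gᴴ X)`;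
* `DY.pc_rot`  : `DY Q n C (cj gᴴ X) → PC .. n (KX n * C) X g`.

All constants are independent of `Q`.
-/

set_option autoImplicit false
set_option linter.unusedSectionVars false

namespace Crest.Agent.R340.FX963

open Matrix Crest.Agent.R340.Fock649 Crest.Agent.R340.Emb596 Crest.Agent.R340.Peel596
  Crest.Agent.R340.QL331 Crest.Agent.R340.FI331 Crest.Agent.R340.CS809 Crest.Agent.R340.PD757
  Crest.Agent.R340.Rot303 Crest.Agent.R340.DC867 Crest.Agent.R340.Gam303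

noncomputable section

variable {Q n : ℕ} {C : ℝ}

/-- the standard representation -/
abbrev Rq (Q : ℕ) : Car (Op (Fin (Q + 1))) (Fock649.L (Fin (Q + 1))) := fcar

theorem uk_eq_vec (Q : ℕ) (g : Matrix (Fin 2) (Fin 2) ℂ) (k : Fin (Q + 1)) :
    uk Q g k = FI331.vec Q g k := by
  ext i; rw [uk_apply, vec_apply]

theorem ub_eq_fb (Q : ℕ) (g : U2) : ub Q g = fb Q g := by
  apply DFunLike.ext
  intro k
  rw [ub_apply, fb_apply, uk_eq_vec]

/-- 757's frame, in 331's names -/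
theorem frf (Q : ℕ) : Frm Crest.Agent.R340.Avg814.hm Q (fb Q) tq (dQ Q) := by
  have h := frm Q
  have e : ub Q = fb Q := funext (ub_eq_fb Q)
  rwa [e] at h

/-! ### from the dyadic class to profiles -/

theorem DY.sub_E_le {X : Op (Fin (Q + 1))} (h : DY Q n C X) (l : ℕ) :
    ‖X - (Rq Q).E (fb Q 1) (4 ^ l) X‖ ≤ 2 * C * (((2:ℝ) ^ l)⁻¹) ^ n := by
  obtain ⟨Y, hY, hXY⟩ := h.app l
  have h1 := (Rq Q).norm_sub_E_le_of_loc (b := fb Q 1) (a := X) (locN_iff.1 hY)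
  calc _ ≤ 2 * ‖X - Y‖ := h1
    _ ≤ 2 * (C * (((2:ℝ) ^ l)⁻¹) ^ n) := by gcongr
    _ = _ := by ring


theorem DY.cs_le_all {X : Op (Fin (Q + 1))} (h : DY Q n C X) (w : U2) (j : Fin (Q + 1)) :
    (Rq Q).cs X (fb Q w j) ≤ Ks n * Kc n * (2 * C) * sj j ^ (n + 2) * ((1 + dQ Q w 1)⁻¹) ^ n := by
  have h0 := h.nonneg
  exact (frf Q).cs_of_E_all (Rq Q) n h.ev (by linarith [h.norm_le]) (fun l => h.sub_E_le l) w j

/-- constant of `DY.pc` -/
def KX (n : ℕ) : ℝ := 2 ^ (n + 3) * (Ks n * Kc n)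

theorem one_le_Ks (n : ℕ) : 1 ≤ Ks n := by
  unfold Ks
  have : (0:ℝ) ≤ 5 ^ (n + 2) * 2 ^ ((n + 2) * (n + 3)) := by positivity
  linarith [show (1:ℝ) ≤ 2 ^ 11 by norm_num]

theorem one_le_Kc (n : ℕ) : 1 ≤ Kc n := by
  unfold Kc
  have h1 : (0:ℝ) ≤ 8 * n.factorial * 24 ^ n := by positivity
  have h2 : (1:ℝ) ≤ 16 ^ n := one_le_pow₀ (by norm_num)
  linarith

theorem one_le_Kn (n : ℕ) : 1 ≤ Kn n := by
  unfold Kn
  have : (0:ℝ) ≤ 2 ^ (n * (n + 3)) := by positivity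
  linarith [show (1:ℝ) ≤ 2 ^ 11 by norm_num]

theorem one_le_KX (n : ℕ) : 1 ≤ KX n := by
  unfold KX
  have h1 := one_le_Ks n
  have h2 := one_le_Kc n
  have h3 : (1:ℝ) ≤ 2 ^ (n + 3) := one_le_pow₀ (by norm_num)
  have h4 : 1 ≤ Ks n * Kc n := one_le_mul_of_one_le_of_one_le h1 h2
  exact one_le_mul_of_one_le_of_one_le h3 h4

theorem KX_pos (n : ℕ) : 0 < KX n := by linarith [one_le_KX n]

theorem br_eq_lie {A : Type*} [NormedRing A] [StarRing A] [CStarRing A] [NormedAlgebra ℂ A]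
    [StarModule ℂ A] (X Y : A) : br X Y = ⁅X, Y⁆ := rfl

theorem one_add_dQ_pos (Q : ℕ) (w x : U2) : 0 < 1 + dQ Q w x := by
  have := dQ_nonneg Q w x; linarith

/-- **dyadic class ⇒ profile about the north pole**, same exponent -/
theorem DY.pc {X : Op (Fin (Q + 1))} (h : DY Q n C X) :
    PC (Rq Q) (uf Q) (dQ Q) n (KX n * C) X 1 := by
  have h0 := h.nonneg
  refine ⟨h.norm_le.trans (le_mul_of_one_le_left h0 (one_le_KX n)), fun k w => ?_⟩
  have h1 := h.cs_le_all w (idx Q k.1)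
  rw [← uf_eq] at h1
  have hd := one_add_dQ_pos Q w 1
  have h2 : ‖⁅X, gen (Rq Q) (uf Q) k w⁆‖ ≤ (Rq Q).cs X (uf Q k.1 w) := by
    obtain ⟨k, b⟩ := k
    unfold Car.cs
    cases b
    · rw [gen_false, ← br_eq_lie]; exact le_add_of_nonneg_right (norm_nonneg _)
    · rw [gen_true, ← br_eq_lie]; exact le_add_of_nonneg_left (norm_nonneg _)
  refine h2.trans (h1.trans ?_)
  have h3 : sj ((idx Q k.1 : Fin (Q + 1)) : ℕ) ≤ 2 := by
    have h4 := sj_le_two_pow (l := 1) (j := ((idx Q k.1 : Fin (Q + 1)) : ℕ))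
      (by have := idx_le Q k.1; omega)
    simpa using h4
  have h5 := (sj_pos ((idx Q k.1 : Fin (Q + 1)) : ℕ)).le
  have h6 := one_le_Ks n
  have h7 := one_le_Kc n
  calc Ks n * Kc n * (2 * C) * sj ((idx Q k.1 : Fin (Q + 1)) : ℕ) ^ (n + 2) *
        ((1 + dQ Q w 1)⁻¹) ^ n
      ≤ Ks n * Kc n * (2 * C) * 2 ^ (n + 2) * ((1 + dQ Q w 1)⁻¹) ^ n := by gcongr
    _ = KX n * C / (1 + dQ Q w 1) ^ n := by
      unfold KX
      rw [inv_pow]
      field_simp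
      ring

/-! ### from profiles to the dyadic class -/

/-- constant of `DY.of_pc` -/
def KB (k : ℕ) : ℝ := 4 * Kn (k + 3)

theorem one_le_KB (k : ℕ) : 1 ≤ KB k := by unfold KB; linarith [one_le_Kn (k + 3)]
theorem KB_pos (k : ℕ) : 0 < KB k := by linarith [one_le_KB k]

theorem cs_of_pc {m : ℕ} {X : Op (Fin (Q + 1))} {x : U2}
    (h : PC (Rq Q) (uf Q) (dQ Q) m C X x) (z : U2) :
    (Rq Q).cs X (fb Q z 0) ≤ 2 * C * ((1 + dQ Q z x)⁻¹) ^ m := by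
  have h1 := h.2 (0, false) z
  have h2 := h.2 (0, true) z
  rw [gen_false, uf_eq] at h1
  rw [gen_true, uf_eq] at h2
  have e0 : (idx Q 0 : Fin (Q + 1)) = 0 := by
    ext; simp [idx]
  rw [e0] at h1 h2
  have hd := one_add_dQ_pos Q z x
  unfold Car.cs
  rw [br_eq_lie, br_eq_lie]
  calc _ ≤ C / (1 + dQ Q z x) ^ m + C / (1 + dQ Q z x) ^ m := add_le_add h1 h2
    _ = _ := by rw [inv_pow]; field_simp; ring

/-- profile with exponent `k+5` about `g` ⇒ truncations about `g` -/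
theorem sub_E_le_of_pc {k : ℕ} {X : Op (Fin (Q + 1))} {g : U2}
    (h : PC (Rq Q) (uf Q) (dQ Q) (k + 5) C X g) (l : ℕ) :
    ‖X - (Rq Q).E (fb Q g) (4 ^ l) X‖ ≤ KB k * C * (((2:ℝ) ^ l)⁻¹) ^ (k + 1) := by
  have h0 := h.nonneg
  have h1 := (frf Q).sub_E_le (Rq Q) (y := X) (w := g) (c := 2 * C) (by positivity) k
    (fun z => cs_of_pc h z) l
  refine h1.trans (le_of_eq ?_)
  unfold KB; ring

/-- **profile ⇒ dyadic class**, north pole -/
theorem DY.of_pc {k : ℕ} {X : Op (Fin (Q + 1))} (hN : Commute X (Nh : Op (Fin (Q + 1))))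
    (h : PC (Rq Q) (uf Q) (dQ Q) (k + 5) C X 1) : DY Q (k + 1) (KB k * C) X := by
  have h0 := h.nonneg
  refine ⟨hN, h.1.trans (le_mul_of_one_le_left h0 (one_le_KB k)), fun l => ?_⟩
  exact ⟨(Rq Q).E (fb Q 1) (4 ^ l) X, locN_iff.2 ((Rq Q).E_loc (fb Q 1) (4 ^ l) (ev_of_comm_Nh hN)),
    sub_E_le_of_pc h l⟩

/-! ### rotation covariance -/

theorem U2_mct (g : U2) : (g : Matrix (Fin 2) (Fin 2) ℂ) * (g : Matrix (Fin 2) (Fin 2) ℂ)ᴴ = 1 :=
  U2_mul_ct g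

theorem ctc (g : U2) : (g : Matrix (Fin 2) (Fin 2) ℂ)ᴴ *
    ((g : Matrix (Fin 2) (Fin 2) ℂ)ᴴ)ᴴ = 1 := by
  rw [conjTranspose_conjTranspose]; exact U2_ct_mul g

theorem commute_cj {g : Matrix (Fin 2) (Fin 2) ℂ} (hg : g * gᴴ = 1) {X Y : Op (Fin (Q + 1))}
    (h : Commute X Y) : Commute (cj g X) (cj g Y) := by
  have h1 : cj g X * cj g Y = cj g Y * cj g X := by rw [← cj_mul hg, ← cj_mul hg, h.eq]
  exact h1

theorem cj_commute_Nh {g : Matrix (Fin 2) (Fin 2) ℂ} (hg : g * gᴴ = 1) {X : Op (Fin (Q + 1))}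
    (h : Commute X (Nh : Op (Fin (Q + 1)))) : Commute (cj g X) (Nh : Op (Fin (Q + 1))) := by
  have := commute_cj hg h
  rwa [cj_Nh hg] at this

theorem Rg_commute_Nh {g : Matrix (Fin 2) (Fin 2) ℂ} (hg : g * gᴴ = 1) :
    Commute (Rg Q g) (Nh : Op (Fin (Q + 1))) := by
  have h := cj_Nh (Q := Q) hg
  unfold cj at h
  show Rg Q g * Nh = Nh * Rg Q g
  calc Rg Q g * Nh = Rg Q g * Nh * (star (Rg Q g) * Rg Q g) := by rw [star_Rg_mul hg, mul_one]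
    _ = Nh * Rg Q g := by rw [← mul_assoc, h]

theorem Rg_commute_thF {g : Matrix (Fin 2) (Fin 2) ℂ} (hg : g * gᴴ = 1) :
    Commute (Rg Q g) (thF : Op (Fin (Q + 1))) := (ev_iff _).1 (ev_of_comm_Nh (Rg_commute_Nh hg))

theorem cj_thF {g : Matrix (Fin 2) (Fin 2) ℂ} (hg : g * gᴴ = 1) :
    cj g (thF : Op (Fin (Q + 1))) = thF := by
  unfold cj
  rw [(Rg_commute_thF hg).eq, mul_assoc, Rg_mul_star hg, mul_one]

theorem cj_ev {g : Matrix (Fin 2) (Fin 2) ℂ} (hg : g * gᴴ = 1) {X : Op (Fin (Q + 1))}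
    (h : (Rq Q).Ev X) : (Rq Q).Ev (cj g X) := by
  rw [ev_iff] at h ⊢
  have := commute_cj hg h
  rwa [cj_thF hg] at this

theorem vec_mul (Q : ℕ) (h g : Matrix (Fin 2) (Fin 2) ℂ) (j : Fin (Q + 1)) :
    mv (sp Q h) (FI331.vec Q g j) = FI331.vec Q (h * g) j := by
  unfold FI331.vec
  rw [sp_mul, mv_mul]

theorem cj_ct_an_fb (g : U2) (j : Fin (Q + 1)) :
    cj (g : Matrix (Fin 2) (Fin 2) ℂ)ᴴ (an (fb Q g j)) = c j := by
  rw [cj_an (ctc g), fb_apply, vec_mul, U2_ct_mul, vec_one, an_e]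

theorem cj_ct_cr_fb (g : U2) (j : Fin (Q + 1)) :
    cj (g : Matrix (Fin 2) (Fin 2) ℂ)ᴴ (cr (fb Q g j)) = d j := by
  rw [cj_cr (ctc g), fb_apply, vec_mul, U2_ct_mul, vec_one, cr_e]

/-- local about `g` ⇒ the rotated operator is local about the north pole -/
theorem locN_cj {L : ℕ} {g : U2} {Y : Op (Fin (Q + 1))} (h : (Rq Q).Loc (fb Q g) L Y) :
    LocN Q L (cj (g : Matrix (Fin 2) (Fin 2) ℂ)ᴴ Y) := by
  refine ⟨cj_ev (ctc g) h.1, fun j hj => ?_⟩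
  obtain ⟨h1, h2⟩ := h.2 j hj
  rw [fcar_an] at h1
  rw [fcar_cr] at h2
  have h1' := commute_cj (ctc g) h1
  have h2' := commute_cj (ctc g) h2
  rw [cj_ct_an_fb] at h1'
  rw [cj_ct_cr_fb] at h2'
  exact ⟨h1', h2'⟩

theorem cj_cj_ct (g : U2) (X : Op (Fin (Q + 1))) :
    cj (g : Matrix (Fin 2) (Fin 2) ℂ) (cj (g : Matrix (Fin 2) (Fin 2) ℂ)ᴴ X) = X := by
  rw [cj_cj, U2_mul_ct, cj_id]


theorem commute_cj_Nh_iff (g : U2) {X : Op (Fin (Q + 1))} :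
    Commute (cj (g : Matrix (Fin 2) (Fin 2) ℂ)ᴴ X) (Nh : Op (Fin (Q + 1))) ↔
      Commute X (Nh : Op (Fin (Q + 1))) := by
  constructor
  · intro h
    have := cj_commute_Nh (U2_mct g) h
    rwa [cj_cj_ct] at this
  · exact cj_commute_Nh (ctc g)

theorem isSelfAdjoint_cj {g : Matrix (Fin 2) (Fin 2) ℂ} {X : Op (Fin (Q + 1))}
    (h : IsSelfAdjoint X) : IsSelfAdjoint (cj g X) := by
  have : star (cj g X) = cj g X := by rw [cj_star, h.star_eq]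
  exact this

/-- **profile about `g` ⇒ the rotated operator is in the class** -/
theorem DY.of_pc_rot {k : ℕ} {X : Op (Fin (Q + 1))} {g : U2}
    (hN : Commute X (Nh : Op (Fin (Q + 1))))
    (h : PC (Rq Q) (uf Q) (dQ Q) (k + 5) C X g) :
    DY Q (k + 1) (KB k * C) (cj (g : Matrix (Fin 2) (Fin 2) ℂ)ᴴ X) := by
  have h0 := h.nonneg
  refine ⟨cj_commute_Nh (ctc g) hN, ?_, fun l => ?_⟩
  · rw [norm_cj (ctc g)]
    exact h.1.trans (le_mul_of_one_le_left h0 (one_le_KB k))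
  · refine ⟨cj (g : Matrix (Fin 2) (Fin 2) ℂ)ᴴ ((Rq Q).E (fb Q g) (4 ^ l) X),
      locN_cj ((Rq Q).E_loc (fb Q g) (4 ^ l) (ev_of_comm_Nh hN)), ?_⟩
    rw [← cj_sub, norm_cj (ctc g)]
    exact sub_E_le_of_pc h l

/-- covariance of commutators with the generators -/
theorem norm_lie_gen_cj (h : U2) (X : Op (Fin (Q + 1))) (k : Fin 2 × Bool) (w : U2) :
    ‖⁅cj (h : Matrix (Fin 2) (Fin 2) ℂ) X, gen (Rq Q) (uf Q) k (h * w)⁆‖ =
      ‖⁅X, gen (Rq Q) (uf Q) k w⁆‖ := by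
  have hh := U2_mct h
  have hv : ∀ k : Fin 2, uf Q k (h * w) = mv (sp Q (h : Matrix (Fin 2) (Fin 2) ℂ)) (uf Q k w) := by
    intro k
    unfold uf
    rw [vec_mul]; rfl
  have hg : gen (Rq Q) (uf Q) k (h * w) = cj (h : Matrix (Fin 2) (Fin 2) ℂ)
      (gen (Rq Q) (uf Q) k w) := by
    obtain ⟨k, b⟩ := k
    cases b
    · rw [gen_false, gen_false, fcar_an, fcar_an, cj_an hh, hv]
    · rw [gen_true, gen_true, fcar_cr, fcar_cr, cj_cr hh, hv]
  rw [hg, Ring.lie_def, ← cj_mul hh, ← cj_mul hh, ← cj_sub, norm_cj hh, Ring.lie_def]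

/-- **covariance of the profile class** -/
theorem pc_cj {m : ℕ} {X : Op (Fin (Q + 1))} {x : U2} (h : U2)
    (hX : PC (Rq Q) (uf Q) (dQ Q) m C X x) :
    PC (Rq Q) (uf Q) (dQ Q) m C (cj (h : Matrix (Fin 2) (Fin 2) ℂ) X) (h * x) := by
  refine ⟨by rw [norm_cj (U2_mct h)]; exact hX.1, fun k w => ?_⟩
  have hw : w = h * (star h * w) := by
    rw [← mul_assoc]
    have : h * star h = 1 := Unitary.mul_star_self h
    rw [this, one_mul]
  rw [hw, norm_lie_gen_cj, dQ_mul]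
  exact hX.2 k _


/-- **class ⇒ profile about `g`**, same exponent -/
theorem DY.pc_rot {X : Op (Fin (Q + 1))} {g : U2}
    (h : DY Q n C (cj (g : Matrix (Fin 2) (Fin 2) ℂ)ᴴ X)) :
    PC (Rq Q) (uf Q) (dQ Q) n (KX n * C) X g := by
  have h1 := pc_cj g h.pc
  rwa [cj_cj_ct, mul_one] at h1


end

end Crest.Agent.R340.FX963
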