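import Mathlib

-- ▼ part R340/Thin1_565
section

/-!
# R340 (helper565), thinning 1: the single mode loss maps of a CAR family

`c : ι → 𝒜` satisfies the CAR in a unital C*-algebra.  For real `t`,
`phi i t A = K A K + (1 - t²) c* A c` with `K = 1 - (1 - t) c* c` (`= t ^ n`).
-/

set_option autoImplicit false
set_option linter.unusedSectionVars false

open scoped ComplexOrder

namespace Crest.Agent.R340.Thin565

/-- canonical anticommutation relations -/
structure CARel {𝒜 : Type*} [Ring 𝒜] [StarRing 𝒜] {ι : Type*} [DecidableEq ι]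
    (c : ι → 𝒜) : Prop where
  anti : ∀ i j, c i * c j + c j * c i = 0
  canti : ∀ i j, c i * star (c j) + star (c j) * c i = if i = j then 1 else 0

section alg

variable {𝒜 : Type*} [Ring 𝒜] [StarRing 𝒜] [Algebra ℂ 𝒜] [StarModule ℂ 𝒜]
variable {ι : Type*} [DecidableEq ι] {c : ι → 𝒜}

/-- the number operator of one mode -/
def nn (c : ι → 𝒜) (i : ι) : 𝒜 := star (c i) * c i

/-- `t ^ n` -/
noncomputable def KK (c : ι → 𝒜) (i : ι) (t : ℝ) : 𝒜 := 1 - ((1 - t : ℝ) : ℂ) • nn c i

lemma CARel.swap (hc : CARel c) (i j : ι) : c i * c j = -(c j * c i) :=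
  eq_neg_of_add_eq_zero_left (hc.anti i j)

lemma CARel.sq (hc : CARel c) (i : ι) : c i * c i = 0 := by
  have h := hc.anti i i
  have h2 : (2 : ℂ) • (c i * c i) = 0 := by rw [two_smul]; exact h
  have h3 := congrArg (fun x => (2 : ℂ)⁻¹ • x) h2
  simpa [smul_smul] using h3

lemma CARel.star_swap (hc : CARel c) (i j : ι) :
    star (c i) * star (c j) = -(star (c j) * star (c i)) := by
  rw [← star_mul, ← star_mul, hc.swap j i, star_neg]


lemma CARel.self (hc : CARel c) (i : ι) : c i * star (c i) = 1 - star (c i) * c i := by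
  have h := hc.canti i i
  rw [if_pos rfl] at h
  exact eq_sub_of_add_eq h

lemma CARel.ne (hc : CARel c) {i j : ι} (h : i ≠ j) :
    c i * star (c j) = -(star (c j) * c i) := by
  have h1 := hc.canti i j
  rw [if_neg h] at h1
  exact eq_neg_of_add_eq_zero_left h1

lemma CARel.ne' (hc : CARel c) {i j : ι} (h : i ≠ j) :
    star (c j) * c i = -(c i * star (c j)) := by
  rw [hc.ne h, neg_neg]

lemma CARel.nn_mul (hc : CARel c) (i : ι) : nn c i * c i = 0 := by
  unfold nn; rw [mul_assoc, hc.sq, mul_zero]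

lemma CARel.mul_nn (hc : CARel c) (i : ι) : c i * nn c i = c i := by
  unfold nn
  rw [← mul_assoc, hc.self, sub_mul, one_mul, mul_assoc, hc.sq, mul_zero, sub_zero]

lemma star_nn (c : ι → 𝒜) (i : ι) : star (nn c i) = nn c i := by
  unfold nn; rw [star_mul, star_star]



lemma CARel.nn_sq (hc : CARel c) (i : ι) : nn c i * nn c i = nn c i := by
  conv_lhs => rw [show nn c i = star (c i) * c i from rfl, mul_assoc, ← nn, hc.mul_nn]
  rfl

lemma CARel.nn_comm (hc : CARel c) {i j : ι} (h : i ≠ j) : nn c i * c j = c j * nn c i := by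
  unfold nn
  rw [mul_assoc, hc.swap i j, mul_neg, ← mul_assoc, ← neg_mul, ← hc.ne h.symm, mul_assoc]

lemma CARel.nn_comm_star (hc : CARel c) {i j : ι} (h : i ≠ j) :
    nn c i * star (c j) = star (c j) * nn c i := by
  have := congrArg star (hc.nn_comm h)
  rw [star_mul, star_mul, star_nn] at this
  exact this.symm

lemma CARel.nn_comm_nn (hc : CARel c) (i j : ι) : nn c i * nn c j = nn c j * nn c i := by
  by_cases h : i = j
  · rw [h]
  · rw [show nn c j = star (c j) * c j from rfl, ← mul_assoc, hc.nn_comm_star h, mul_assoc,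
      hc.nn_comm h, mul_assoc]

lemma star_KK (c : ι → 𝒜) (i : ι) (t : ℝ) : star (KK c i t) = KK c i t := by
  unfold KK
  rw [star_sub, star_one, star_smul, star_nn]
  simp

lemma CARel.KK_mul (hc : CARel c) (i : ι) (s t : ℝ) :
    KK c i s * KK c i t = KK c i (s * t) := by
  unfold KK
  rw [sub_mul, one_mul, smul_mul_assoc, mul_sub, mul_one, mul_smul_comm, hc.nn_sq, smul_sub,
    smul_smul]
  have : ((1 - s * t : ℝ) : ℂ) = ((1 - t : ℝ) : ℂ) + (((1 - s : ℝ) : ℂ)
      - ((1 - s : ℝ) : ℂ) * ((1 - t : ℝ) : ℂ)) := by push_cast; ring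
  rw [this, add_smul, sub_smul]
  abel

lemma CARel.KK_mul_c (hc : CARel c) (i : ι) (t : ℝ) : KK c i t * c i = c i := by
  unfold KK
  rw [sub_mul, one_mul, smul_mul_assoc, hc.nn_mul, smul_zero, sub_zero]

lemma CARel.c_mul_KK (hc : CARel c) (i : ι) (t : ℝ) : c i * KK c i t = (t : ℂ) • c i := by
  unfold KK
  rw [mul_sub, mul_one, mul_smul_comm, hc.mul_nn]
  nth_rewrite 1 [← one_smul ℂ (c i)]
  rw [← sub_smul]
  congr 1
  push_cast; ring

lemma CARel.star_mul_KK (hc : CARel c) (i : ι) (t : ℝ) : star (c i) * KK c i t = star (c i) := by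
  rw [← star_KK, ← star_mul, hc.KK_mul_c]

lemma CARel.KK_mul_star (hc : CARel c) (i : ι) (t : ℝ) :
    KK c i t * star (c i) = (t : ℂ) • star (c i) := by
  rw [← star_KK, ← star_mul, hc.c_mul_KK, star_smul]
  simp

lemma CARel.KK_comm (hc : CARel c) {i j : ι} (h : i ≠ j) (t : ℝ) :
    KK c i t * c j = c j * KK c i t := by
  unfold KK
  rw [sub_mul, mul_sub, one_mul, mul_one, smul_mul_assoc, mul_smul_comm, hc.nn_comm h]

lemma CARel.KK_comm_star (hc : CARel c) {i j : ι} (h : i ≠ j) (t : ℝ) :
    KK c i t * star (c j) = star (c j) * KK c i t := by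
  unfold KK
  rw [sub_mul, mul_sub, one_mul, mul_one, smul_mul_assoc, mul_smul_comm, hc.nn_comm_star h]

lemma CARel.KK_comm_KK (hc : CARel c) (i j : ι) (s t : ℝ) :
    KK c i s * KK c j t = KK c j t * KK c i s := by
  unfold KK
  simp only [sub_mul, mul_sub, one_mul, mul_one, smul_mul_assoc, mul_smul_comm,
    hc.nn_comm_nn i j, smul_sub]
  rw [smul_comm]
  abel

lemma CARel.KK_sq (hc : CARel c) (i : ι) (t : ℝ) :
    KK c i t * KK c i t = 1 - ((1 - t ^ 2 : ℝ) : ℂ) • nn c i := by
  rw [hc.KK_mul]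
  unfold KK
  rw [pow_two]

/-- `A ↦ c* A c` -/
def TT (c : ι → 𝒜) (i : ι) : Module.End ℂ 𝒜 where
  toFun A := star (c i) * A * c i
  map_add' A B := by rw [mul_add, add_mul]
  map_smul' r A := by simp

/-- `A ↦ G A G` -/
def Ad (G : 𝒜) : Module.End ℂ 𝒜 where
  toFun A := G * A * G
  map_add' A B := by rw [mul_add, add_mul]
  map_smul' r A := by simp

@[simp] lemma TT_apply (c : ι → 𝒜) (i : ι) (A : 𝒜) : TT c i A = star (c i) * A * c i := rfl

@[simp] lemma Ad_apply (G A : 𝒜) : Ad G A = G * A * G := rfl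

/-- the second factor of the single mode loss map -/
noncomputable def th (c : ι → 𝒜) (i : ι) (t : ℝ) : Module.End ℂ 𝒜 :=
  1 + ((1 - t ^ 2 : ℝ) : ℂ) • TT c i

/-- the single mode loss map -/
noncomputable def phi (c : ι → 𝒜) (i : ι) (t : ℝ) : Module.End ℂ 𝒜 :=
  th c i t * Ad (KK c i t)


lemma CARel.phi_apply (hc : CARel c) (i : ι) (t : ℝ) (A : 𝒜) :
    phi c i t A = KK c i t * A * KK c i t + ((1 - t ^ 2 : ℝ) : ℂ) • (star (c i) * A * c i) := by
  show KK c i t * A * KK c i t + ((1 - t ^ 2 : ℝ) : ℂ) •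
    (star (c i) * (KK c i t * A * KK c i t) * c i) = _
  congr 2
  rw [← mul_assoc, ← mul_assoc, hc.star_mul_KK, mul_assoc, hc.KK_mul_c]

/-! ### commutation of different modes -/

lemma CARel.TT_comm_TT (hc : CARel c) {i j : ι} (_h : i ≠ j) : Commute (TT c i) (TT c j) := by
  apply LinearMap.ext
  intro A
  show star (c i) * (star (c j) * A * c j) * c i = star (c j) * (star (c i) * A * c i) * c j
  have h1 : star (c i) * (star (c j) * A * c j) * c i
      = (star (c i) * star (c j)) * A * (c j * c i) := by noncomm_ring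
  have h2 : star (c j) * (star (c i) * A * c i) * c j
      = (star (c j) * star (c i)) * A * (c i * c j) := by noncomm_ring
  rw [h1, h2, hc.star_swap i j, hc.swap j i]
  noncomm_ring

lemma CARel.Ad_comm_TT (hc : CARel c) {i j : ι} (h : i ≠ j) (t : ℝ) :
    Commute (Ad (KK c i t)) (TT c j) := by
  apply LinearMap.ext
  intro A
  show KK c i t * (star (c j) * A * c j) * KK c i t = star (c j) * (KK c i t * A * KK c i t) * c j
  have h1 : KK c i t * (star (c j) * A * c j) * KK c i t
      = (KK c i t * star (c j)) * A * (c j * KK c i t) := by noncomm_ring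
  rw [h1, hc.KK_comm_star h, ← hc.KK_comm h]
  noncomm_ring

lemma CARel.Ad_comm_Ad (hc : CARel c) (i j : ι) (s t : ℝ) :
    Commute (Ad (KK c i s)) (Ad (KK c j t)) := by
  apply LinearMap.ext
  intro A
  show KK c i s * (KK c j t * A * KK c j t) * KK c i s
    = KK c j t * (KK c i s * A * KK c i s) * KK c j t
  have h1 : KK c i s * (KK c j t * A * KK c j t) * KK c i s
      = (KK c i s * KK c j t) * A * (KK c j t * KK c i s) := by noncomm_ring
  rw [h1, hc.KK_comm_KK i j]
  have h2 : KK c j t * (KK c i s * A * KK c i s) * KK c j t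
      = (KK c j t * KK c i s) * A * (KK c i s * KK c j t) := by noncomm_ring
  rw [h2, hc.KK_comm_KK i j]

lemma CARel.th_comm_th (hc : CARel c) {i j : ι} (h : i ≠ j) (s t : ℝ) :
    Commute (th c i s) (th c j t) := by
  unfold th
  exact (((Commute.one_left _).add_left
    ((Commute.one_right _).add_right ((hc.TT_comm_TT h).smul_left _ |>.smul_right _))))

lemma CARel.Ad_comm_th (hc : CARel c) {i j : ι} (h : i ≠ j) (s t : ℝ) :
    Commute (Ad (KK c i s)) (th c j t) := by
  unfold th
  exact (Commute.one_right _).add_right ((hc.Ad_comm_TT h s).smul_right _)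

lemma CARel.phi_comm_phi (hc : CARel c) {i j : ι} (h : i ≠ j) (s t : ℝ) :
    Commute (phi c i s) (phi c j t) := by
  unfold phi
  exact ((hc.th_comm_th h s t).mul_right (hc.Ad_comm_th h.symm t s).symm).mul_left
    ((hc.Ad_comm_th h s t).mul_right (hc.Ad_comm_Ad i j s t))

/-- semigroup law of one mode -/
lemma CARel.phi_mul (hc : CARel c) (i : ι) (s t : ℝ) :
    phi c i s * phi c i t = phi c i (s * t) := by
  apply LinearMap.ext
  intro A
  show phi c i s (phi c i t A) = _
  rw [hc.phi_apply i s, hc.phi_apply i t, hc.phi_apply i (s * t)]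
  have h1 : KK c i s * (KK c i t * A * KK c i t + ((1 - t ^ 2 : ℝ) : ℂ) •
      (star (c i) * A * c i)) * KK c i s
      = (KK c i s * KK c i t) * A * (KK c i t * KK c i s)
        + ((1 - t ^ 2 : ℝ) : ℂ) • ((KK c i s * star (c i)) * A * (c i * KK c i s)) := by
    rw [mul_add, add_mul, mul_smul_comm, smul_mul_assoc]
    noncomm_ring
  have h2 : star (c i) * (KK c i t * A * KK c i t + ((1 - t ^ 2 : ℝ) : ℂ) •
      (star (c i) * A * c i)) * c i
      = (star (c i) * KK c i t) * A * (KK c i t * c i)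
        + ((1 - t ^ 2 : ℝ) : ℂ) • ((star (c i) * star (c i)) * A * (c i * c i)) := by
    rw [mul_add, add_mul, mul_smul_comm, smul_mul_assoc]
    noncomm_ring
  rw [h1, h2, hc.KK_mul, hc.KK_mul, mul_comm t s, hc.KK_mul_star, hc.c_mul_KK, hc.star_mul_KK,
    hc.KK_mul_c, hc.sq, mul_zero, smul_zero, add_zero, smul_mul_assoc, smul_mul_assoc,
    mul_smul_comm, smul_smul, smul_smul, add_assoc, ← add_smul]
  congr 2
  push_cast; ring

lemma CARel.phi_one_right (hc : CARel c) (i : ι) : phi c i 1 = 1 := by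
  apply LinearMap.ext
  intro A
  rw [hc.phi_apply]
  simp [KK]

/-- unital -/
lemma CARel.phi_unit (hc : CARel c) (i : ι) (t : ℝ) : phi c i t 1 = 1 := by
  rw [hc.phi_apply, mul_one, mul_one, hc.KK_sq]
  simp [nn]

lemma CARel.phi_star (hc : CARel c) (i : ι) (t : ℝ) (A : 𝒜) :
    phi c i t (star A) = star (phi c i t A) := by
  rw [hc.phi_apply, hc.phi_apply, star_add, star_mul, star_mul, star_KK, star_smul, star_mul,
    star_mul, star_star, mul_assoc, mul_assoc (star (c i))]
  simp

/-- the mode does not see operators commuting with it -/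
lemma CARel.phi_eq_self (hc : CARel c) {i : ι} (t : ℝ) {A : 𝒜} (h1 : Commute A (c i))
    (h2 : Commute A (star (c i))) : phi c i t A = A := by
  have hn : Commute A (nn c i) := h2.mul_right h1
  have hK : Commute A (KK c i t) := (Commute.one_right _).sub_right (hn.smul_right _)
  rw [hc.phi_apply, ← hK.eq, mul_assoc, hc.KK_sq, ← h2.eq, mul_assoc]
  show A * (1 - _ • nn c i) + _ • (A * nn c i) = A
  rw [mul_sub, mul_one, mul_smul_comm, sub_add_cancel]

/-- the loss map of one mode preserves commutation with the other modes -/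
lemma CARel.phi_commute (hc : CARel c) {i j : ι} (h : i ≠ j) (t : ℝ) {A : 𝒜}
    (h1 : Commute A (c j)) : Commute (phi c i t A) (c j) := by
  rw [hc.phi_apply]
  have hK : Commute (KK c i t) (c j) := hc.KK_comm h t
  refine ((hK.mul_left h1).mul_left hK).add_left (Commute.smul_left ?_ _)
  show star (c i) * A * c i * c j = c j * (star (c i) * A * c i)
  have e1 : star (c i) * A * c i * c j = star (c i) * A * (c i * c j) := by noncomm_ring
  have e2 : star (c i) * A * -(c j * c i) = -(star (c i) * (A * c j) * c i) := by noncomm_ring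
  have e3 : -(star (c i) * (c j * A) * c i) = -(star (c i) * c j) * A * c i := by noncomm_ring
  rw [e1, hc.swap i j, e2, h1.eq, e3, ← hc.ne h.symm]
  noncomm_ring

lemma CARel.phi_commute_star (hc : CARel c) {i j : ι} (h : i ≠ j) (t : ℝ) {A : 𝒜}
    (h1 : Commute A (star (c j))) : Commute (phi c i t A) (star (c j)) := by
  have h2 : Commute (star A) (c j) := by
    have := h1.star_star
    rwa [star_star] at this
  have h3 := hc.phi_commute h t h2
  rw [hc.phi_star] at h3
  have := h3.star_star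
  rwa [star_star] at this

end alg

end Crest.Agent.R340.Thin565
end

-- ▼ part R340/Thin2_565

/-!
# R340 (helper565), thinning 2: the loss channel of a finite set of modes

`Phi hc S t = ∏_{m ∈ S} phi c m (t m)`: semigroup, unital, star, locality, invariance of the
left annihilator of the zero mode projection, action on quartic monomials.
-/

set_option autoImplicit false
set_option linter.unusedSectionVars false

open scoped ComplexOrder

namespace Crest.Agent.R340.Thin565

section alg

variable {𝒜 : Type*} [Ring 𝒜] [StarRing 𝒜] [Algebra ℂ 𝒜] [StarModule ℂ 𝒜]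
variable {ι : Type*} [DecidableEq ι] {c : ι → 𝒜}

lemma CARel.pairwise (hc : CARel c) (S : Set ι) (t : ι → ℝ) :
    S.Pairwise (Function.onFun Commute fun m => phi c m (t m)) :=
  fun _ _ _ _ h => hc.phi_comm_phi h _ _

/-- the loss channel of the modes in `S` with amplitudes `t` -/
noncomputable def Phi (hc : CARel c) (S : Finset ι) (t : ι → ℝ) : Module.End ℂ 𝒜 :=
  S.noncommProd (fun m => phi c m (t m)) (hc.pairwise _ t)

/-- operators which do not see the modes outside `S` -/
def Loc (c : ι → 𝒜) (S : Set ι) (A : 𝒜) : Prop :=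
  ∀ m, m ∉ S → Commute A (c m) ∧ Commute A (star (c m))

lemma Loc.mono {S T : Set ι} (h : S ⊆ T) {A : 𝒜} (hA : Loc c S A) : Loc c T A :=
  fun m hm => hA m (fun h' => hm (h h'))

lemma Loc.one (S : Set ι) : Loc c S (1 : 𝒜) :=
  fun _ _ => ⟨Commute.one_left _, Commute.one_left _⟩

lemma Loc.zero (S : Set ι) : Loc c S (0 : 𝒜) :=
  fun _ _ => ⟨Commute.zero_left _, Commute.zero_left _⟩

lemma Loc.add {S : Set ι} {A B : 𝒜} (hA : Loc c S A) (hB : Loc c S B) : Loc c S (A + B) :=
  fun m hm => ⟨(hA m hm).1.add_left (hB m hm).1, (hA m hm).2.add_left (hB m hm).2⟩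

lemma Loc.sub {S : Set ι} {A B : 𝒜} (hA : Loc c S A) (hB : Loc c S B) : Loc c S (A - B) :=
  fun m hm => ⟨(hA m hm).1.sub_left (hB m hm).1, (hA m hm).2.sub_left (hB m hm).2⟩

lemma Loc.mul {S : Set ι} {A B : 𝒜} (hA : Loc c S A) (hB : Loc c S B) : Loc c S (A * B) :=
  fun m hm => ⟨(hA m hm).1.mul_left (hB m hm).1, (hA m hm).2.mul_left (hB m hm).2⟩

lemma Loc.smul {S : Set ι} {A : 𝒜} (hA : Loc c S A) (r : ℂ) : Loc c S (r • A) :=
  fun m hm => ⟨(hA m hm).1.smul_left r, (hA m hm).2.smul_left r⟩

lemma Loc.star {S : Set ι} {A : 𝒜} (hA : Loc c S A) : Loc c S (star A) := by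
  intro m hm
  refine ⟨?_, ?_⟩
  · have := (hA m hm).2.star_star
    rwa [star_star] at this
  · exact (hA m hm).1.star_star

lemma Loc.sum {S : Set ι} {κ : Type*} {T : Finset κ} {A : κ → 𝒜} (hA : ∀ k ∈ T, Loc c S (A k)) :
    Loc c S (∑ k ∈ T, A k) := by
  intro m hm
  exact ⟨Commute.sum_left _ _ _ (fun k hk => (hA k hk m hm).1),
    Commute.sum_left _ _ _ (fun k hk => (hA k hk m hm).2)⟩

lemma Loc.phi (hc : CARel c) {S : Set ι} {A : 𝒜} (hA : Loc c S A) {i : ι} (hi : i ∈ S) (t : ℝ) :
    Loc c S (phi c i t A) := by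
  intro m hm
  have h : i ≠ m := fun h => hm (h ▸ hi)
  exact ⟨hc.phi_commute h t (hA m hm).1, hc.phi_commute_star h t (hA m hm).2⟩

lemma Phi_empty (hc : CARel c) (t : ι → ℝ) : Phi hc ∅ t = 1 := by
  unfold Phi; simp

lemma Phi_insert (hc : CARel c) {S : Finset ι} {a : ι} (ha : a ∉ S) (t : ι → ℝ) :
    Phi hc (insert a S) t = phi c a (t a) * Phi hc S t := by
  unfold Phi
  rw [Finset.noncommProd_insert_of_notMem _ _ _ _ ha]

lemma Phi_insert_apply (hc : CARel c) {S : Finset ι} {a : ι} (ha : a ∉ S) (t : ι → ℝ) (A : 𝒜) :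
    Phi hc (insert a S) t A = phi c a (t a) (Phi hc S t A) := by
  rw [Phi_insert hc ha]; rfl

lemma phi_comm_Phi (hc : CARel c) {S : Finset ι} {a : ι} (ha : a ∉ S) (s : ℝ) (t : ι → ℝ) :
    Commute (phi c a s) (Phi hc S t) := by
  unfold Phi
  apply Finset.noncommProd_commute
  intro x hx
  exact hc.phi_comm_phi (fun h => ha (by rw [h]; exact hx)) _ _

lemma Phi_union (hc : CARel c) {S T : Finset ι} (h : Disjoint S T) (t : ι → ℝ) :
    Phi hc (S ∪ T) t = Phi hc S t * Phi hc T t := by
  unfold Phi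
  rw [Finset.noncommProd_union_of_disjoint h]

/-- semigroup law -/
lemma Phi_mul (hc : CARel c) (S : Finset ι) (s t : ι → ℝ) :
    Phi hc S s * Phi hc S t = Phi hc S (fun m => s m * t m) := by
  induction S using Finset.induction_on with
  | empty => simp [Phi_empty]
  | insert a S ha ih =>
    rw [Phi_insert hc ha, Phi_insert hc ha, Phi_insert hc ha, ← ih, ← hc.phi_mul]
    have h := phi_comm_Phi hc ha (t a) s
    calc phi c a (s a) * Phi hc S s * (phi c a (t a) * Phi hc S t)
        = phi c a (s a) * (Phi hc S s * phi c a (t a)) * Phi hc S t := by noncomm_ring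
      _ = phi c a (s a) * (phi c a (t a) * Phi hc S s) * Phi hc S t := by rw [h.eq]
      _ = _ := by noncomm_ring

lemma Phi_one (hc : CARel c) (S : Finset ι) {t : ι → ℝ} (ht : ∀ m ∈ S, t m = 1) :
    Phi hc S t = 1 := by
  induction S using Finset.induction_on with
  | empty => simp [Phi_empty]
  | insert a S ha ih =>
    rw [Phi_insert hc ha, ih (fun m hm => ht m (Finset.mem_insert_of_mem hm)),
      ht a (Finset.mem_insert_self _ _), hc.phi_one_right, mul_one]

/-- inverse -/
lemma Phi_inv_apply (hc : CARel c) (S : Finset ι) {s t : ι → ℝ} (h : ∀ m ∈ S, s m * t m = 1)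
    (A : 𝒜) : Phi hc S s (Phi hc S t A) = A := by
  have h1 := Phi_mul hc S s t
  rw [Phi_one hc S (t := fun m => s m * t m) h] at h1
  exact congrArg (fun f : Module.End ℂ 𝒜 => f A) h1

lemma Phi_unit (hc : CARel c) (S : Finset ι) (t : ι → ℝ) : Phi hc S t 1 = 1 := by
  induction S using Finset.induction_on with
  | empty => simp [Phi_empty]
  | insert a S ha ih => rw [Phi_insert_apply hc ha, ih, hc.phi_unit]

lemma Phi_star (hc : CARel c) (S : Finset ι) (t : ι → ℝ) (A : 𝒜) :
    Phi hc S t (star A) = star (Phi hc S t A) := by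
  induction S using Finset.induction_on with
  | empty => simp [Phi_empty]
  | insert a S ha ih =>
    rw [Phi_insert_apply hc ha, ih, hc.phi_star, Phi_insert_apply hc ha]

lemma Phi_Loc (hc : CARel c) {S : Finset ι} {T : Set ι} (hST : ↑S ⊆ T) (t : ι → ℝ) {A : 𝒜}
    (hA : Loc c T A) : Loc c T (Phi hc S t A) := by
  induction S using Finset.induction_on with
  | empty => simpa [Phi_empty] using hA
  | insert a S ha ih =>
    rw [Phi_insert_apply hc ha]
    refine Loc.phi hc (ih ?_) (hST (by simp)) _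
    exact (Finset.coe_subset.mpr (Finset.subset_insert a S)).trans hST

/-- locality: modes which are not seen do nothing -/
lemma Phi_eq_self (hc : CARel c) {S : Finset ι} {T : Set ι} (hST : ∀ m ∈ S, m ∉ T) (t : ι → ℝ)
    {A : 𝒜} (hA : Loc c T A) : Phi hc S t A = A := by
  induction S using Finset.induction_on with
  | empty => simp [Phi_empty]
  | insert a S ha ih =>
    rw [Phi_insert_apply hc ha, ih (fun m hm => hST m (Finset.mem_insert_of_mem hm))]
    have h := hA a (hST a (Finset.mem_insert_self _ _))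
    exact hc.phi_eq_self _ h.1 h.2

lemma Phi_univ_eq [Fintype ι] (hc : CARel c) (S : Finset ι) (t : ι → ℝ)
    {A : 𝒜} (hA : Loc c S A) : Phi hc Finset.univ t A = Phi hc S t A := by
  have h1 : (Finset.univ : Finset ι) = S ∪ Sᶜ := by simp
  rw [h1, Phi_union hc disjoint_compl_right]
  show Phi hc S t (Phi hc Sᶜ t A) = _
  rw [Phi_eq_self hc (T := (S : Set ι)) (fun m hm => by simpa using hm) t hA]

/-! ### the channel on normal ordered quartic monomials -/

/-- the weight of a pair -/
noncomputable def wt (t : ι → ℝ) (i j m : ι) : ℝ :=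
  (if m = i then t m else 1) * (if m = j then t m else 1)

lemma prod_wt [Fintype ι] (t : ι → ℝ) (i j : ι) : ∏ m, wt t i j m = t i * t j := by
  unfold wt
  rw [Finset.prod_mul_distrib]
  simp [Finset.prod_ite_eq']

/-- `V` contains the mode `m` in the form needed -/
structure Has (c : ι → 𝒜) (m : ι) (V : 𝒜) : Prop where
  right : V * c m = 0
  nr : V * nn c m = V
  nl : nn c m * V = 0

lemma Has.KK_mul {m : ι} {V : 𝒜} (h : Has c m V) (t : ℝ) : KK c m t * V = V := by
  unfold KK
  rw [sub_mul, one_mul, smul_mul_assoc, h.nl, smul_zero, sub_zero]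

lemma Has.mul_KK {m : ι} {V : 𝒜} (h : Has c m V) (t : ℝ) : V * KK c m t = (t : ℂ) • V := by
  unfold KK
  rw [mul_sub, mul_one, mul_smul_comm, h.nr]
  nth_rewrite 1 [← one_smul ℂ V]
  rw [← sub_smul]
  congr 1
  push_cast; ring

lemma CARel.has_left (hc : CARel c) {i j : ι} (h : i ≠ j) : Has c i (c i * c j) where
  right := by rw [mul_assoc, hc.swap j i, mul_neg, ← mul_assoc, hc.sq, zero_mul, neg_zero]
  nr := by rw [mul_assoc, ← hc.nn_comm h, ← mul_assoc, hc.mul_nn]
  nl := by rw [← mul_assoc, hc.nn_mul, zero_mul]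

lemma CARel.has_right (hc : CARel c) {i j : ι} (h : i ≠ j) : Has c j (c i * c j) where
  right := by rw [mul_assoc, hc.sq, mul_zero]
  nr := by rw [mul_assoc, hc.mul_nn]
  nl := by rw [← mul_assoc, hc.nn_comm h.symm, mul_assoc, hc.nn_mul, mul_zero]

lemma CARel.pair_commute (hc : CARel c) (i j m : ι) : Commute (c i * c j) (c m) := by
  show c i * c j * c m = c m * (c i * c j)
  rw [mul_assoc, hc.swap j m, mul_neg, ← mul_assoc, hc.swap i m, neg_mul, neg_neg, mul_assoc]

lemma CARel.pair_commute_star (hc : CARel c) {i j m : ι} (h1 : i ≠ m) (h2 : j ≠ m) :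
    Commute (c i * c j) (star (c m)) := by
  show c i * c j * star (c m) = star (c m) * (c i * c j)
  rw [mul_assoc, hc.ne h2, mul_neg, ← mul_assoc, hc.ne h1, neg_mul, neg_neg, mul_assoc]

/-- the four cases -/
lemma CARel.phi_has_has (hc : CARel c) {m : ι} {U V : 𝒜} (hU : Has c m U) (hV : Has c m V)
    (t : ℝ) : phi c m t (star U * V) = ((t * t : ℝ) : ℂ) • (star U * V) := by
  rw [hc.phi_apply]
  have h1 : KK c m t * star U = (t : ℂ) • star U := by
    rw [← star_KK, ← star_mul, hU.mul_KK, star_smul]; simp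
  rw [← mul_assoc, h1, mul_assoc, hV.mul_KK]
  have h2 : star (c m) * (star U * V) * c m = 0 := by
    rw [mul_assoc, mul_assoc, hV.right, mul_zero, mul_zero]
  rw [h2, smul_zero, add_zero, mul_smul_comm, smul_mul_assoc, smul_smul]
  push_cast; rfl

lemma CARel.phi_has_loc (hc : CARel c) {m : ι} {U V : 𝒜} (hU : Has c m U)
    (h1 : Commute V (c m)) (h2 : Commute V (star (c m)))
    (t : ℝ) : phi c m t (star U * V) = (t : ℂ) • (star U * V) := by
  rw [hc.phi_apply]
  have hn : Commute V (nn c m) := h2.mul_right h1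
  have hK : Commute V (KK c m t) := (Commute.one_right _).sub_right (hn.smul_right _)
  have h3 : KK c m t * star U = (t : ℂ) • star U := by
    rw [← star_KK, ← star_mul, hU.mul_KK, star_smul]; simp
  have h4 : star U * KK c m t = star U := by
    rw [← star_KK, ← star_mul, hU.KK_mul]
  rw [← mul_assoc, h3, mul_assoc, hK.eq, smul_mul_assoc, ← mul_assoc, h4]
  have h5 : star (c m) * (star U * V) * c m = 0 := by
    rw [mul_assoc, mul_assoc, h1.eq]
    rw [← mul_assoc (star U), ← mul_assoc (star (c m)), ← mul_assoc (star (c m)), ← star_mul,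
      hU.right, star_zero, zero_mul, zero_mul]
  rw [h5, smul_zero, add_zero]

lemma CARel.phi_loc_has (hc : CARel c) {m : ι} {U V : 𝒜} (h1 : Commute U (c m))
    (h2 : Commute U (star (c m))) (hV : Has c m V)
    (t : ℝ) : phi c m t (star U * V) = (t : ℂ) • (star U * V) := by
  have h := hc.phi_has_loc hV h1 h2 t
  have h3 : star U * V = star (star V * U) := by rw [star_mul, star_star]
  rw [h3, hc.phi_star, h, star_smul]
  simp

end alg

end Crest.Agent.R340.Thin565
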