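import Mathlib
import Crest.Agent.R340.Thin2_565
import Crest.Agent.R340.Bridge2_649
import Crest.Agent.R340.GG_467
import Crest.Agent.R340.Prof2_385
import Crest.Agent.R340.ProfF_482
import Crest.Agent.R340.Rot3_303
import Crest.Agent.R340.Bridge_320
import Crest.Agent.R340.GeoM_986
import Crest.Agent.R340.Peel_596

-- ▼ part R340/Thin3_565
section

/-!
# R340 (helper565), thinning 3: pair operators, zero mode projection and the loss channel
-/

set_option autoImplicit false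
set_option linter.unusedSectionVars false

open scoped ComplexOrder

namespace Crest.Agent.R340.Thin565

section alg

variable {𝒜 : Type*} [Ring 𝒜] [StarRing 𝒜] [Algebra ℂ 𝒜] [StarModule ℂ 𝒜]
variable {ι : Type*} [DecidableEq ι] {c : ι → 𝒜}

lemma CARel.phi_quartic (hc : CARel c) (t : ι → ℝ) {i j k l : ι} (hij : i ≠ j) (hkl : k ≠ l)
    (m : ι) : phi c m (t m) (star (c i * c j) * (c k * c l))
      = ((wt t i j m * wt t k l m : ℝ) : ℂ) • (star (c i * c j) * (c k * c l)) := by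
  have hU : (Has c m (c i * c j) ∧ wt t i j m = t m) ∨
      ((Commute (c i * c j) (c m) ∧ Commute (c i * c j) (star (c m))) ∧ wt t i j m = 1) := by
    by_cases h1 : m = i
    · subst h1
      exact Or.inl ⟨hc.has_left hij, by unfold wt; rw [if_pos rfl, if_neg hij, mul_one]⟩
    · by_cases h2 : m = j
      · subst h2
        exact Or.inl ⟨hc.has_right hij, by unfold wt; rw [if_neg h1, if_pos rfl, one_mul]⟩
      · exact Or.inr ⟨⟨hc.pair_commute i j m, hc.pair_commute_star (Ne.symm h1) (Ne.symm h2)⟩,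
          by unfold wt; rw [if_neg h1, if_neg h2, one_mul]⟩
  have hV : (Has c m (c k * c l) ∧ wt t k l m = t m) ∨
      ((Commute (c k * c l) (c m) ∧ Commute (c k * c l) (star (c m))) ∧ wt t k l m = 1) := by
    by_cases h1 : m = k
    · subst h1
      exact Or.inl ⟨hc.has_left hkl, by unfold wt; rw [if_pos rfl, if_neg hkl, mul_one]⟩
    · by_cases h2 : m = l
      · subst h2
        exact Or.inl ⟨hc.has_right hkl, by unfold wt; rw [if_neg h1, if_pos rfl, one_mul]⟩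
      · exact Or.inr ⟨⟨hc.pair_commute k l m, hc.pair_commute_star (Ne.symm h1) (Ne.symm h2)⟩,
          by unfold wt; rw [if_neg h1, if_neg h2, one_mul]⟩
  rcases hU with ⟨hU, eU⟩ | ⟨hU, eU⟩ <;> rcases hV with ⟨hV, eV⟩ | ⟨hV, eV⟩ <;> rw [eU, eV]
  · exact hc.phi_has_has hU hV _
  · rw [mul_one]; exact hc.phi_has_loc hU hV.1 hV.2 _
  · rw [one_mul]; exact hc.phi_loc_has hU.1 hU.2 hV _
  · rw [one_mul, Complex.ofReal_one, one_smul]
    have h : Loc c ({m}ᶜ : Set ι) (star (c i * c j) * (c k * c l)) := by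
      have h1 : Loc c ({m}ᶜ : Set ι) (c i * c j) := by
        intro m' hm'
        have : m' = m := by simpa using hm'
        rw [this]; exact hU
      have h2 : Loc c ({m}ᶜ : Set ι) (c k * c l) := by
        intro m' hm'
        have : m' = m := by simpa using hm'
        rw [this]; exact hV
      exact h1.star.mul h2
    have h' := h m (by simp)
    exact hc.phi_eq_self _ h'.1 h'.2

lemma Phi_quartic (hc : CARel c) (S : Finset ι) (t : ι → ℝ) {i j k l : ι} (hij : i ≠ j)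
    (hkl : k ≠ l) : Phi hc S t (star (c i * c j) * (c k * c l))
      = ((∏ m ∈ S, (wt t i j m * wt t k l m) : ℝ) : ℂ) • (star (c i * c j) * (c k * c l)) := by
  induction S using Finset.induction_on with
  | empty => simp [Phi_empty]
  | insert a S ha ih =>
    rw [Phi_insert_apply hc ha, ih, map_smul, hc.phi_quartic t hij hkl, smul_smul,
      Finset.prod_insert ha]
    congr 1
    push_cast; ring

lemma Phi_univ_quartic [Fintype ι] (hc : CARel c) (t : ι → ℝ) {i j k l : ι} (hij : i ≠ j)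
    (hkl : k ≠ l) : Phi hc Finset.univ t (star (c i * c j) * (c k * c l))
      = ((t i * t j * (t k * t l) : ℝ) : ℂ) • (star (c i * c j) * (c k * c l)) := by
  rw [Phi_quartic hc _ t hij hkl, Finset.prod_mul_distrib, prod_wt, prod_wt]

/-- the pair operator with coefficients `β` -/
noncomputable def pr [Fintype ι] (c : ι → 𝒜) (β : ι → ι → ℂ) : 𝒜 :=
  ∑ i, ∑ j, β i j • (c i * c j)

lemma star_pr [Fintype ι] (β : ι → ι → ℂ) :
    star (pr c β) = ∑ i, ∑ j, (starRingEnd ℂ (β i j)) • star (c i * c j) := by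
  unfold pr
  simp only [star_sum, star_smul]
  rfl

lemma star_pr_mul_pr [Fintype ι] (β β' : ι → ι → ℂ) :
    star (pr c β) * pr c β' = ∑ i, ∑ j, ∑ k, ∑ l,
      (starRingEnd ℂ (β i j) * β' k l) • (star (c i * c j) * (c k * c l)) := by
  rw [star_pr]
  unfold pr
  rw [Finset.sum_mul]
  refine Finset.sum_congr rfl fun i _ => ?_
  rw [Finset.sum_mul]
  refine Finset.sum_congr rfl fun j _ => ?_
  rw [Finset.mul_sum]
  refine Finset.sum_congr rfl fun k _ => ?_
  rw [Finset.mul_sum]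
  refine Finset.sum_congr rfl fun l _ => ?_
  rw [smul_mul_smul_comm]

/-- the channel on products of pair operators of fixed degree -/
lemma Phi_pr_pr [Fintype ι] (hc : CARel c) (t : ι → ℝ) {β β' : ι → ι → ℂ} {τ τ' : ℝ}
    (h : ∀ i j, β i j ≠ 0 → t i * t j = τ) (h' : ∀ i j, β' i j ≠ 0 → t i * t j = τ') :
    Phi hc Finset.univ t (star (pr c β) * pr c β')
      = ((τ * τ' : ℝ) : ℂ) • (star (pr c β) * pr c β') := by
  rw [star_pr_mul_pr]
  simp only [map_sum, Finset.smul_sum, map_smul]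
  refine Finset.sum_congr rfl fun i _ => Finset.sum_congr rfl fun j _ =>
    Finset.sum_congr rfl fun k _ => Finset.sum_congr rfl fun l _ => ?_
  by_cases hb : β i j = 0
  · simp [hb]
  by_cases hb' : β' k l = 0
  · simp [hb']
  by_cases hij : i = j
  · subst hij
    rw [hc.sq, star_zero, zero_mul]; simp
  by_cases hkl : k = l
  · subst hkl
    rw [hc.sq, mul_zero]; simp
  rw [Phi_univ_quartic hc t hij hkl, h i j hb, h' k l hb', smul_comm]

/-- pair operators are local -/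
lemma Loc_pr [Fintype ι] (hc : CARel c) {S : Set ι} {β : ι → ι → ℂ}
    (h : ∀ i j, β i j ≠ 0 → i ∈ S ∧ j ∈ S) : Loc c S (pr c β) := by
  unfold pr
  refine Loc.sum fun i _ => Loc.sum fun j _ => ?_
  by_cases hb : β i j = 0
  · rw [hb, zero_smul]; exact Loc.zero _
  refine Loc.smul ?_ _
  intro m hm
  obtain ⟨h1, h2⟩ := h i j hb
  exact ⟨hc.pair_commute i j m, hc.pair_commute_star (fun e => hm (e ▸ h1)) (fun e => hm (e ▸ h2))⟩

/-! ### the boost `G = ∏ t_m ^ n_m` -/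

lemma CARel.pairwise_KK (hc : CARel c) (S : Set ι) (t : ι → ℝ) :
    S.Pairwise (Function.onFun Commute fun m => KK c m (t m)) :=
  fun _ _ _ _ _ => hc.KK_comm_KK _ _ _ _

/-- the boost -/
noncomputable def GG (hc : CARel c) (S : Finset ι) (t : ι → ℝ) : 𝒜 :=
  S.noncommProd (fun m => KK c m (t m)) (hc.pairwise_KK _ t)

lemma GG_empty (hc : CARel c) (t : ι → ℝ) : GG hc ∅ t = 1 := by
  unfold GG; simp

lemma GG_insert (hc : CARel c) {S : Finset ι} {a : ι} (ha : a ∉ S) (t : ι → ℝ) :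
    GG hc (insert a S) t = KK c a (t a) * GG hc S t := by
  unfold GG
  rw [Finset.noncommProd_insert_of_notMem _ _ _ _ ha]

lemma KK_comm_GG (hc : CARel c) (S : Finset ι) (a : ι) (s : ℝ) (t : ι → ℝ) :
    Commute (KK c a s) (GG hc S t) := by
  unfold GG
  exact Finset.noncommProd_commute _ _ _ _ (fun x _ => hc.KK_comm_KK _ _ _ _)

lemma GG_comm_c (hc : CARel c) {S : Finset ι} {a : ι} (ha : a ∉ S) (t : ι → ℝ) :
    Commute (GG hc S t) (c a) := by
  unfold GG
  refine (Finset.noncommProd_commute _ _ _ _ (fun x hx => ?_)).symm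
  exact (hc.KK_comm (fun h => ha (by rw [← h]; exact hx)) _ : Commute _ _).symm

lemma star_GG (hc : CARel c) (S : Finset ι) (t : ι → ℝ) : star (GG hc S t) = GG hc S t := by
  induction S using Finset.induction_on with
  | empty => simp [GG_empty]
  | insert a S ha ih =>
    rw [GG_insert hc ha, star_mul, ih, star_KK, (KK_comm_GG hc S a _ t).eq]

lemma GG_comm_c_star (hc : CARel c) {S : Finset ι} {a : ι} (ha : a ∉ S) (t : ι → ℝ) :
    Commute (GG hc S t) (star (c a)) := by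
  have := (GG_comm_c hc ha t).star_star
  rwa [star_GG] at this

lemma c_mul_GG (hc : CARel c) {S : Finset ι} {a : ι} (ha : a ∈ S) (t : ι → ℝ) :
    c a * GG hc S t = (t a : ℂ) • (GG hc S t * c a) := by
  obtain ⟨T, hT, rfl⟩ : ∃ T, a ∉ T ∧ insert a T = S :=
    ⟨S.erase a, Finset.notMem_erase _ _, Finset.insert_erase ha⟩
  rw [GG_insert hc hT, ← mul_assoc, hc.c_mul_KK, smul_mul_assoc, ← (GG_comm_c hc hT t).eq,
    mul_assoc, (GG_comm_c hc hT t).eq, ← mul_assoc, hc.KK_mul_c]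

lemma pr_mul_GG [Fintype ι] (hc : CARel c) (t : ι → ℝ) {β : ι → ι → ℂ} {τ : ℝ}
    (h : ∀ i j, β i j ≠ 0 → t i * t j = τ) :
    pr c β * GG hc Finset.univ t = (τ : ℂ) • (GG hc Finset.univ t * pr c β) := by
  unfold pr
  rw [Finset.sum_mul, Finset.mul_sum, Finset.smul_sum]
  refine Finset.sum_congr rfl fun i _ => ?_
  rw [Finset.sum_mul, Finset.mul_sum, Finset.smul_sum]
  refine Finset.sum_congr rfl fun j _ => ?_
  by_cases hb : β i j = 0
  · simp [hb]
  have e : c i * c j * GG hc Finset.univ t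
      = ((t i * t j : ℝ) : ℂ) • (GG hc Finset.univ t * (c i * c j)) := by
    rw [mul_assoc, c_mul_GG hc (Finset.mem_univ j), mul_smul_comm, ← mul_assoc,
      c_mul_GG hc (Finset.mem_univ i), smul_mul_assoc, smul_smul, mul_assoc]
    congr 1
    push_cast; ring
  rw [smul_mul_assoc, e, h i j hb, mul_smul_comm, smul_comm]

/-! ### annihilation of the zero modes -/

lemma CARel.TT_comm_phi (hc : CARel c) {i j : ι} (h : i ≠ j) (t : ℝ) :
    Commute (TT c i) (phi c j t) := by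
  unfold phi th
  refine Commute.mul_right ?_ (hc.Ad_comm_TT h.symm t).symm
  exact (Commute.one_right _).add_right ((hc.TT_comm_TT h).smul_right _)

lemma CARel.Ad_comm_phi (hc : CARel c) {i j : ι} (h : i ≠ j) (s t : ℝ) :
    Commute (Ad (KK c i s)) (phi c j t) := by
  unfold phi
  exact (hc.Ad_comm_th h s t).mul_right (hc.Ad_comm_Ad i j s t)

lemma TT_comm_Phi (hc : CARel c) {S : Finset ι} {a : ι} (ha : a ∉ S) (t : ι → ℝ) :
    Commute (TT c a) (Phi hc S t) := by
  unfold Phi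
  apply Finset.noncommProd_commute
  intro x hx
  exact hc.TT_comm_phi (fun h => ha (by rw [h]; exact hx)) _

lemma Ad_comm_Phi (hc : CARel c) {S : Finset ι} {a : ι} (ha : a ∉ S) (s : ℝ) (t : ι → ℝ) :
    Commute (Ad (KK c a s)) (Phi hc S t) := by
  unfold Phi
  apply Finset.noncommProd_commute
  intro x hx
  exact hc.Ad_comm_phi (fun h => ha (by rw [h]; exact hx)) _ _

lemma Phi_mul_proj_aux (hc : CARel c) {P : 𝒜} (hcP : ∀ m, c m * P = P * c m * P)
    (S : Finset ι) (t : ι → ℝ) :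
    ∀ A : 𝒜, GG hc S t * A * GG hc S t * P = 0 → Phi hc S t A * P = 0 := by
  induction S using Finset.induction_on with
  | empty => intro A hA; simpa [Phi_empty, GG_empty] using hA
  | insert a S ha ih =>
    intro A hA
    rw [Phi_insert_apply hc ha, hc.phi_apply, add_mul, smul_mul_assoc]
    have e1 : KK c a (t a) * Phi hc S t A * KK c a (t a)
        = Phi hc S t (KK c a (t a) * A * KK c a (t a)) :=
      congrArg (fun f : Module.End ℂ 𝒜 => f A) (Ad_comm_Phi hc ha (t a) t).eq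
    have e2 : star (c a) * Phi hc S t A * c a = Phi hc S t (star (c a) * A * c a) :=
      congrArg (fun f : Module.End ℂ 𝒜 => f A) (TT_comm_Phi hc ha t).eq
    have hG := KK_comm_GG hc S a (t a) t
    set K := KK c a (t a) with hK
    set G := GG hc S t with hGdef
    have hA' : K * (G * A * G) * K * P = 0 := by
      rw [GG_insert hc ha, ← hK, ← hGdef] at hA
      have e : K * G * A * (K * G) * P = K * (G * A * G) * K * P := by
        calc K * G * A * (K * G) * P = K * G * A * (G * K) * P := by rw [hG.eq]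
          _ = _ := by simp only [mul_assoc]
      rw [← e]; exact hA
    rw [e1, e2, ih _ ?_, ih _ ?_, smul_zero, add_zero]
    · have h1 := GG_comm_c hc ha t
      have h2 := GG_comm_c_star hc ha t
      rw [← hGdef] at h1 h2
      calc G * (star (c a) * A * c a) * G * P
          = (G * star (c a)) * A * (c a * G) * P := by simp only [mul_assoc]
        _ = (star (c a) * G) * A * (G * c a) * P := by rw [h1.eq, h2.eq]
        _ = star (c a) * (G * A * G) * (c a * P) := by simp only [mul_assoc]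
        _ = (star (c a) * K) * (G * A * G) * ((K * c a) * P) := by
            rw [hc.star_mul_KK, hc.KK_mul_c]
        _ = star (c a) * (K * (G * A * G) * K) * (c a * P) := by simp only [mul_assoc]
        _ = star (c a) * (K * (G * A * G) * K) * (P * c a * P) := by rw [hcP a]
        _ = star (c a) * (K * (G * A * G) * K * P) * (c a * P) := by simp only [mul_assoc]
        _ = 0 := by rw [hA']; simp
    · calc G * (K * A * K) * G * P = (G * K) * A * (K * G) * P := by simp only [mul_assoc]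
        _ = (K * G) * A * (G * K) * P := by rw [hG.eq]
        _ = K * (G * A * G) * K * P := by simp only [mul_assoc]
        _ = 0 := hA'

/-- the loss channel preserves `A P = 0` -/
lemma Phi_mul_proj [Fintype ι] (hc : CARel c) {P : 𝒜} (hcP : ∀ m, c m * P = P * c m * P)
    (t : ι → ℝ) (hGP : GG hc Finset.univ t * P = P * GG hc Finset.univ t * P) {A : 𝒜}
    (hA : A * P = 0) : Phi hc Finset.univ t A * P = 0 := by
  apply Phi_mul_proj_aux hc hcP
  rw [mul_assoc, hGP, mul_assoc P, ← mul_assoc _ P, mul_assoc _ A, hA]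
  simp

/-- `P` is the projection onto the common kernel of the `B p` -/
structure IsKer {κ : Type*} (B : κ → 𝒜) (P : 𝒜) : Prop where
  sa : star P = P
  idem : P * P = P
  ann : ∀ p, B p * P = 0
  max : ∀ A : 𝒜, (∀ p, B p * A = 0) → P * A = A

lemma IsKer.c_mul [Fintype ι] (hc : CARel c) {κ : Type*} {β : κ → ι → ι → ℂ} {P : 𝒜}
    (h : IsKer (fun p => pr c (β p)) P) (m : ι) : c m * P = P * c m * P := by
  rw [mul_assoc]
  refine (h.max _ fun p => ?_).symm
  have h1 : Commute (pr c (β p)) (c m) := by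
    unfold pr
    refine Commute.sum_left _ _ _ fun i _ => Commute.sum_left _ _ _ fun j _ => ?_
    exact (hc.pair_commute i j m).smul_left _
  show pr c (β p) * (c m * P) = 0
  rw [← mul_assoc, h1.eq, mul_assoc, h.ann p, mul_zero]

lemma IsKer.GG_mul [Fintype ι] (hc : CARel c) {κ : Type*} {β : κ → ι → ι → ℂ} {P : 𝒜}
    (h : IsKer (fun p => pr c (β p)) P) (t : ι → ℝ) (τ : κ → ℝ)
    (ht : ∀ p i j, β p i j ≠ 0 → t i * t j = τ p) :
    GG hc Finset.univ t * P = P * GG hc Finset.univ t * P := by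
  rw [mul_assoc]
  refine (h.max _ fun p => ?_).symm
  show pr c (β p) * (GG hc Finset.univ t * P) = 0
  rw [← mul_assoc, pr_mul_GG hc t (ht p), smul_mul_assoc, mul_assoc, h.ann p, mul_zero, smul_zero]

lemma IsKer.Phi_mul [Fintype ι] (hc : CARel c) {κ : Type*} {β : κ → ι → ι → ℂ} {P : 𝒜}
    (h : IsKer (fun p => pr c (β p)) P) (t : ι → ℝ) (τ : κ → ℝ)
    (ht : ∀ p i j, β p i j ≠ 0 → t i * t j = τ p) {A : 𝒜} (hA : A * P = 0) :
    Phi hc Finset.univ t A * P = 0 :=
  Phi_mul_proj hc (h.c_mul hc) t (h.GG_mul hc t τ ht) hA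

end alg

end Crest.Agent.R340.Thin565
end

-- ▼ part R340/Thin4_565
section

/-!
# R340 (helper565), thinning 4: order and norm estimates for the loss channel
-/

set_option autoImplicit false
set_option linter.unusedSectionVars false

open scoped ComplexOrder

namespace Crest.Agent.R340.Thin565

section gen

variable {𝒜 : Type*} [CStarAlgebra 𝒜]

lemma norm_one_le' : ‖(1 : 𝒜)‖ ≤ 1 := by
  have h : ‖(1 : 𝒜)‖ * ‖(1 : 𝒜)‖ = ‖(1 : 𝒜)‖ := by
    rw [← CStarRing.norm_star_mul_self, star_one, mul_one]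
  nlinarith [norm_nonneg (1 : 𝒜)]

lemma coe_smul_eq (r : ℝ) (A : 𝒜) : ((r : ℝ) : ℂ) • A = r • A := Complex.coe_smul r A

variable [PartialOrder 𝒜] [StarOrderedRing 𝒜]

lemma norm_le_of_sa {A : 𝒜} (hA : IsSelfAdjoint A) {r : ℝ}
    (h1 : A ≤ algebraMap ℝ 𝒜 r) (h2 : -algebraMap ℝ 𝒜 r ≤ A) (hr : 0 ≤ r) : ‖A‖ ≤ r := by
  by_cases! nt : Nontrivial 𝒜
  · rw [le_algebraMap_iff_spectrum_le (a := A) hA] at h1
    rw [← map_neg, algebraMap_le_iff_le_spectrum (a := A) hA] at h2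
    rcases CStarAlgebra.norm_or_neg_norm_mem_spectrum hA with h | h
    · exact h1 _ h
    · have := h2 _ h; linarith
  · have : A = 0 := Subsingleton.elim _ _
    rw [this, norm_zero]; exact hr


lemma smul_le_smul' {r : ℝ} (hr : 0 ≤ r) {A B : 𝒜} (h : A ≤ B) : r • A ≤ r • B :=
  smul_le_smul_of_nonneg_left h hr

lemma conj_nonneg' {A : 𝒜} (hA : 0 ≤ A) (X : 𝒜) : 0 ≤ star X * A * X :=
  star_left_conjugate_nonneg hA X

lemma smul_le_smul_right' {r s : ℝ} (h : r ≤ s) {A : 𝒜} (hA : 0 ≤ A) : r • A ≤ s • A := by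
  have : 0 ≤ (s - r) • A := smul_nonneg (sub_nonneg.mpr h) hA
  rw [sub_smul] at this
  exact sub_nonneg.mp this

end gen

section alg

variable {𝒜 : Type*} [CStarAlgebra 𝒜] [PartialOrder 𝒜] [StarOrderedRing 𝒜]
variable {ι : Type*} [DecidableEq ι] {c : ι → 𝒜}

lemma nn_nonneg (i : ι) : 0 ≤ nn c i := star_mul_self_nonneg _

lemma CARel.nn_le_one (hc : CARel c) (i : ι) : nn c i ≤ 1 := by
  have h : 1 - nn c i = c i * star (c i) := (hc.self i).symm
  have h2 : 0 ≤ 1 - nn c i := by rw [h]; exact mul_star_self_nonneg _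
  exact sub_nonneg.mp h2

lemma CARel.norm_nn (hc : CARel c) (i : ι) : ‖nn c i‖ ≤ 1 :=
  (CStarAlgebra.norm_le_one_iff_of_nonneg _ (nn_nonneg i)).2 (hc.nn_le_one i)

lemma CARel.norm_c (hc : CARel c) (i : ι) : ‖c i‖ ≤ 1 := by
  have h : ‖c i‖ * ‖c i‖ ≤ 1 := by
    rw [← CStarRing.norm_star_mul_self]; exact hc.norm_nn i
  nlinarith [norm_nonneg (c i)]

lemma CARel.norm_one_sub_KK (hc : CARel c) (i : ι) {t : ℝ} (ht : t ≤ 1) :
    ‖1 - KK c i t‖ ≤ 1 - t := by
  unfold KK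
  rw [sub_sub_cancel, norm_smul, Complex.norm_real, Real.norm_of_nonneg (by linarith)]
  exact mul_le_of_le_one_right (by linarith) (hc.norm_nn i)

lemma CARel.norm_KK_of_one_le (hc : CARel c) (i : ι) {t : ℝ} (ht : 1 ≤ t) :
    ‖KK c i t‖ ≤ t := by
  unfold KK
  have h1 : ‖(1 : 𝒜) - ((1 - t : ℝ) : ℂ) • nn c i‖ ≤ ‖(1 : 𝒜)‖ + ‖((1 - t : ℝ) : ℂ) • nn c i‖ :=
    norm_sub_le _ _
  rw [norm_smul, Complex.norm_real, Real.norm_eq_abs, abs_of_nonpos (by linarith)] at h1
  have h2 : -(1 - t) * ‖nn c i‖ ≤ -(1 - t) :=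
    mul_le_of_le_one_right (by linarith) (hc.norm_nn i)
  have h3 := norm_one_le' (𝒜 := 𝒜)
  linarith

lemma CARel.KK_nonneg (hc : CARel c) (i : ι) {t : ℝ} (ht : 0 ≤ t) : 0 ≤ KK c i t := by
  have h : KK c i t = KK c i (Real.sqrt t) * KK c i (Real.sqrt t) := by
    rw [hc.KK_mul, Real.mul_self_sqrt ht]
  rw [h]
  nth_rewrite 1 [← star_KK]
  exact star_mul_self_nonneg _

lemma CARel.KK_le_one (_hc : CARel c) (i : ι) {t : ℝ} (ht : t ≤ 1) : KK c i t ≤ 1 := by
  unfold KK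
  rw [sub_le_self_iff, coe_smul_eq]
  exact smul_nonneg (by linarith) (nn_nonneg i)

lemma CARel.norm_KK_of_le_one (hc : CARel c) (i : ι) {t : ℝ} (ht0 : 0 ≤ t) (ht : t ≤ 1) :
    ‖KK c i t‖ ≤ 1 :=
  (CStarAlgebra.norm_le_one_iff_of_nonneg _ (hc.KK_nonneg i ht0)).2 (hc.KK_le_one i ht)

/-- positivity of the loss map -/
lemma CARel.phi_nonneg (hc : CARel c) (i : ι) {t : ℝ} (ht : t ^ 2 ≤ 1) {A : 𝒜} (hA : 0 ≤ A) :
    0 ≤ phi c i t A := by
  rw [hc.phi_apply]
  refine add_nonneg ?_ ?_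
  · have := conj_nonneg' hA (KK c i t)
    rwa [star_KK] at this
  · rw [coe_smul_eq]
    exact smul_nonneg (by linarith) (conj_nonneg' hA _)

lemma CARel.norm_phi_of_one_le (hc : CARel c) (i : ι) {t : ℝ} (ht : 1 ≤ t) (A : 𝒜) :
    ‖phi c i t A‖ ≤ (2 * t ^ 2 - 1) * ‖A‖ := by
  rw [hc.phi_apply]
  have h1 : ‖KK c i t * A * KK c i t‖ ≤ t * ‖A‖ * t := by
    refine (norm_mul_le _ _).trans ?_
    refine mul_le_mul ((norm_mul_le _ _).trans ?_) (hc.norm_KK_of_one_le i ht) (norm_nonneg _)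
      (by positivity)
    exact mul_le_mul_of_nonneg_right (hc.norm_KK_of_one_le i ht) (norm_nonneg _)
  have h2 : ‖star (c i) * A * c i‖ ≤ ‖A‖ := by
    refine (norm_mul_le _ _).trans ?_
    have : ‖star (c i) * A‖ ≤ ‖A‖ := by
      refine (norm_mul_le _ _).trans ?_
      rw [norm_star]
      exact mul_le_of_le_one_left (norm_nonneg _) (hc.norm_c i)
    calc ‖star (c i) * A‖ * ‖c i‖ ≤ ‖A‖ * 1 :=
          mul_le_mul this (hc.norm_c i) (norm_nonneg _) (norm_nonneg _)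
      _ = ‖A‖ := mul_one _
  have h3 : ‖((1 - t ^ 2 : ℝ) : ℂ) • (star (c i) * A * c i)‖ ≤ (t ^ 2 - 1) * ‖A‖ := by
    rw [norm_smul, Complex.norm_real, Real.norm_eq_abs, abs_of_nonpos (by nlinarith)]
    calc -(1 - t ^ 2) * ‖star (c i) * A * c i‖ ≤ -(1 - t ^ 2) * ‖A‖ :=
          mul_le_mul_of_nonneg_left h2 (by nlinarith)
      _ = _ := by ring
  calc _ ≤ _ := norm_add_le _ _
    _ ≤ t * ‖A‖ * t + (t ^ 2 - 1) * ‖A‖ := add_le_add h1 h3
    _ = _ := by ring

lemma CARel.norm_sub_phi (hc : CARel c) (i : ι) {t : ℝ} (ht0 : 0 ≤ t) (ht : t ≤ 1) (A : 𝒜) :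
    ‖A - phi c i t A‖ ≤ 4 * (1 - t) * ‖A‖ := by
  rw [hc.phi_apply]
  set K := KK c i t with hK
  have e : A - (K * A * K + ((1 - t ^ 2 : ℝ) : ℂ) • (star (c i) * A * c i))
      = (1 - K) * A + K * A * (1 - K) - ((1 - t ^ 2 : ℝ) : ℂ) • (star (c i) * A * c i) := by
    noncomm_ring
  have hK1 : ‖K‖ ≤ 1 := hc.norm_KK_of_le_one i ht0 ht
  have hK2 : ‖1 - K‖ ≤ 1 - t := hc.norm_one_sub_KK i ht
  have h1 : ‖(1 - K) * A‖ ≤ (1 - t) * ‖A‖ :=
    (norm_mul_le _ _).trans (mul_le_mul_of_nonneg_right hK2 (norm_nonneg _))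
  have h2 : ‖K * A * (1 - K)‖ ≤ (1 - t) * ‖A‖ := by
    calc ‖K * A * (1 - K)‖ ≤ ‖K * A‖ * ‖1 - K‖ := norm_mul_le _ _
      _ ≤ (1 * ‖A‖) * (1 - t) := by
          refine mul_le_mul ?_ hK2 (norm_nonneg _) (by positivity)
          exact (norm_mul_le _ _).trans (mul_le_mul_of_nonneg_right hK1 (norm_nonneg _))
      _ = _ := by ring
  have h3 : ‖star (c i) * A * c i‖ ≤ ‖A‖ := by
    refine (norm_mul_le _ _).trans ?_
    have : ‖star (c i) * A‖ ≤ ‖A‖ := by
      refine (norm_mul_le _ _).trans ?_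
      rw [norm_star]
      exact mul_le_of_le_one_left (norm_nonneg _) (hc.norm_c i)
    calc ‖star (c i) * A‖ * ‖c i‖ ≤ ‖A‖ * 1 :=
          mul_le_mul this (hc.norm_c i) (norm_nonneg _) (norm_nonneg _)
      _ = ‖A‖ := mul_one _
  have h4 : ‖((1 - t ^ 2 : ℝ) : ℂ) • (star (c i) * A * c i)‖ ≤ 2 * (1 - t) * ‖A‖ := by
    rw [norm_smul, Complex.norm_real, Real.norm_of_nonneg (by nlinarith)]
    exact mul_le_mul (by nlinarith) h3 (norm_nonneg _) (by linarith)
  rw [e]
  calc _ ≤ ‖(1 - K) * A + K * A * (1 - K)‖ + _ := norm_sub_le _ _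
    _ ≤ (‖(1 - K) * A‖ + ‖K * A * (1 - K)‖) + _ := by gcongr; exact norm_add_le _ _
    _ ≤ ((1 - t) * ‖A‖ + (1 - t) * ‖A‖) + 2 * (1 - t) * ‖A‖ := by gcongr
    _ = _ := by ring

/-! ### several modes -/

lemma Phi_nonneg (hc : CARel c) {S : Finset ι} {t : ι → ℝ} (ht : ∀ m ∈ S, t m ^ 2 ≤ 1) {A : 𝒜}
    (hA : 0 ≤ A) : 0 ≤ Phi hc S t A := by
  induction S using Finset.induction_on with
  | empty => simpa [Phi_empty] using hA
  | insert a S ha ih =>
    rw [Phi_insert_apply hc ha]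
    exact hc.phi_nonneg a (ht a (Finset.mem_insert_self _ _))
      (ih fun m hm => ht m (Finset.mem_insert_of_mem hm))

lemma Phi_mono (hc : CARel c) {S : Finset ι} {t : ι → ℝ} (ht : ∀ m ∈ S, t m ^ 2 ≤ 1) {A B : 𝒜}
    (h : A ≤ B) : Phi hc S t A ≤ Phi hc S t B := by
  have h1 : 0 ≤ Phi hc S t (B - A) := Phi_nonneg hc ht (sub_nonneg.mpr h)
  rw [map_sub] at h1
  exact sub_nonneg.mp h1

lemma Phi_algebraMap (hc : CARel c) (S : Finset ι) (t : ι → ℝ) (r : ℝ) :
    Phi hc S t (algebraMap ℝ 𝒜 r) = algebraMap ℝ 𝒜 r := by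
  rw [Algebra.algebraMap_eq_smul_one, ← coe_smul_eq, map_smul, Phi_unit]

lemma Phi_sa (hc : CARel c) (S : Finset ι) (t : ι → ℝ) {A : 𝒜} (hA : IsSelfAdjoint A) :
    IsSelfAdjoint (Phi hc S t A) := by
  show star (Phi hc S t A) = _
  rw [← Phi_star, hA.star_eq]

/-- the loss channel is contractive on self-adjoint operators -/
lemma norm_Phi_le (hc : CARel c) {S : Finset ι} {t : ι → ℝ} (ht : ∀ m ∈ S, t m ^ 2 ≤ 1) {A : 𝒜}
    (hA : IsSelfAdjoint A) : ‖Phi hc S t A‖ ≤ ‖A‖ := by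
  refine norm_le_of_sa (Phi_sa hc S t hA) ?_ ?_ (norm_nonneg _)
  · have := Phi_mono hc ht (IsSelfAdjoint.le_algebraMap_norm_self hA)
    rwa [Phi_algebraMap] at this
  · have := Phi_mono hc ht (IsSelfAdjoint.neg_algebraMap_norm_le_self hA)
    rwa [map_neg, Phi_algebraMap] at this

lemma norm_sub_Phi (hc : CARel c) {S : Finset ι} {t : ι → ℝ} (ht0 : ∀ m ∈ S, 0 ≤ t m)
    (ht : ∀ m ∈ S, t m ≤ 1) {A : 𝒜} (hA : IsSelfAdjoint A) :
    ‖A - Phi hc S t A‖ ≤ (∑ m ∈ S, 4 * (1 - t m)) * ‖A‖ := by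
  induction S using Finset.induction_on with
  | empty => simp [Phi_empty]
  | insert a S ha ih =>
    have h1 := ih (fun m hm => ht0 m (Finset.mem_insert_of_mem hm))
      (fun m hm => ht m (Finset.mem_insert_of_mem hm))
    have h2 := hc.norm_sub_phi a (ht0 a (Finset.mem_insert_self _ _))
      (ht a (Finset.mem_insert_self _ _)) (Phi hc S t A)
    have h3 : ‖Phi hc S t A‖ ≤ ‖A‖ := by
      refine norm_Phi_le hc (fun m hm => ?_) hA
      have a0 := ht0 m (Finset.mem_insert_of_mem hm)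
      have a1 := ht m (Finset.mem_insert_of_mem hm)
      nlinarith
    rw [Phi_insert_apply hc ha, Finset.sum_insert ha]
    have a1 := ht a (Finset.mem_insert_self _ _)
    calc ‖A - phi c a (t a) (Phi hc S t A)‖
        = ‖(A - Phi hc S t A) + (Phi hc S t A - phi c a (t a) (Phi hc S t A))‖ := by
          congr 1; abel
      _ ≤ ‖A - Phi hc S t A‖ + ‖Phi hc S t A - phi c a (t a) (Phi hc S t A)‖ := norm_add_le _ _
      _ ≤ (∑ m ∈ S, 4 * (1 - t m)) * ‖A‖ + 4 * (1 - t a) * ‖A‖ := by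
          refine add_le_add h1 (h2.trans ?_)
          exact mul_le_mul_of_nonneg_left h3 (by linarith)
      _ = _ := by ring

lemma norm_Phi_inv (hc : CARel c) {S : Finset ι} {t : ι → ℝ} (ht : ∀ m ∈ S, 1 ≤ t m) (A : 𝒜) :
    ‖Phi hc S t A‖ ≤ (∏ m ∈ S, (2 * t m ^ 2 - 1)) * ‖A‖ := by
  induction S using Finset.induction_on with
  | empty => simp [Phi_empty]
  | insert a S ha ih =>
    rw [Phi_insert_apply hc ha, Finset.prod_insert ha, mul_assoc]
    have h := ht a (Finset.mem_insert_self _ _)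
    refine (hc.norm_phi_of_one_le a h _).trans ?_
    exact mul_le_mul_of_nonneg_left (ih fun m hm => ht m (Finset.mem_insert_of_mem hm))
      (by nlinarith)

/-- the inverse of the exponential loss channel -/
lemma norm_Phi_exp (hc : CARel c) (S : Finset ι) (x : ι → ℝ) (hx : ∀ m ∈ S, 0 ≤ x m) (A : 𝒜) :
    ‖Phi hc S (fun m => Real.exp (x m)) A‖ ≤ Real.exp (4 * ∑ m ∈ S, x m) * ‖A‖ := by
  refine (norm_Phi_inv hc (fun m hm => Real.one_le_exp (hx m hm)) A).trans ?_
  refine mul_le_mul_of_nonneg_right ?_ (norm_nonneg _)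
  rw [Finset.mul_sum, Real.exp_sum]
  refine Finset.prod_le_prod (fun m hm => ?_) (fun m hm => ?_)
  · nlinarith [Real.one_le_exp (hx m hm)]
  · have h : Real.exp (4 * x m) = (Real.exp (x m) ^ 2) ^ 2 := by
      rw [← pow_mul, ← Real.exp_nat_mul]; norm_num
    rw [h]
    nlinarith [sq_nonneg (Real.exp (x m) ^ 2 - 1)]

end alg

end Crest.Agent.R340.Thin565
end

-- ▼ part R340/Thin5_565
section

/-!
# R340 (helper565), thinning 5: the exact local relative bound (R1) for strictly local operators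
-/

set_option autoImplicit false
set_option linter.unusedSectionVars false

open scoped ComplexOrder

namespace Crest.Agent.R340.Thin565

variable {𝒜 : Type*} [CStarAlgebra 𝒜] [PartialOrder 𝒜] [StarOrderedRing 𝒜]
variable {ι : Type*} [DecidableEq ι] [Fintype ι] {κ : Type*} [Fintype κ]

/-- the weighted sums of pair energies `∑ g p • B_p^* B_p` -/
noncomputable def HW (c : ι → 𝒜) (β : κ → ι → ι → ℂ) (g : κ → ℝ) : 𝒜 :=
  ∑ p, g p • (star (pr c (β p)) * pr c (β p))

/-- the data: CAR family, degrees, pair operators, zero mode projection, gap `γ` -/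
structure Geo (c : ι → 𝒜) (deg : ι → ℕ) (β : κ → ι → ι → ℂ) (dp : κ → ℕ) (P : 𝒜) (γ : ℝ) :
    Prop where
  car : CARel c
  inj : Function.Injective deg
  supp : ∀ p i j, β p i j ≠ 0 → deg i + deg j = dp p
  ker : IsKer (fun p => pr c (β p)) P
  pos : 0 < γ
  gap : γ • (1 - P) ≤ HW c β (fun _ => 1)

lemma HW_mono (c : ι → 𝒜) (β : κ → ι → ι → ℂ) {g g' : κ → ℝ} (h : ∀ p, g p ≤ g' p) :
    HW c β g ≤ HW c β g' :=
  Finset.sum_le_sum fun p _ => smul_le_smul_right' (h p) (star_mul_self_nonneg _)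

lemma HW_nonneg (c : ι → 𝒜) (β : κ → ι → ι → ℂ) {g : κ → ℝ} (h : ∀ p, 0 ≤ g p) :
    0 ≤ HW c β g :=
  Finset.sum_nonneg fun p _ => smul_nonneg (h p) (star_mul_self_nonneg _)

lemma HW_smul (c : ι → 𝒜) (β : κ → ι → ι → ℂ) (g : κ → ℝ) (r : ℝ) :
    r • HW c β g = HW c β (fun p => r * g p) := by
  unfold HW
  rw [Finset.smul_sum]
  exact Finset.sum_congr rfl fun p _ => smul_smul _ _ _


lemma HW_sum {ν : Type*} (T : Finset ν) (c : ι → 𝒜) (β : κ → ι → ι → ℂ) (g : ν → κ → ℝ) :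
    ∑ l ∈ T, HW c β (g l) = HW c β (fun p => ∑ l ∈ T, g l p) := by
  unfold HW
  rw [Finset.sum_comm]
  exact Finset.sum_congr rfl fun p _ => (Finset.sum_smul).symm


/-- action of the channel -/
lemma Phi_HW {c : ι → 𝒜} (hc : CARel c) {β : κ → ι → ι → ℂ} (t : ι → ℝ) (τ : κ → ℝ)
    (ht : ∀ p i j, β p i j ≠ 0 → t i * t j = τ p) (g : κ → ℝ) :
    Phi hc Finset.univ t (HW c β g) = HW c β (fun p => g p * τ p ^ 2) := by
  unfold HW
  rw [map_sum]
  refine Finset.sum_congr rfl fun p _ => ?_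
  rw [← coe_smul_eq, map_smul, Phi_pr_pr hc t (ht p) (ht p), smul_smul, ← coe_smul_eq]
  congr 1
  push_cast; ring


lemma sum_deg_le {deg : ι → ℕ} (hinj : Function.Injective deg) (M : ℕ) :
    ∑ m ∈ Finset.univ.filter (fun m => deg m < M), deg m ≤ ∑ j ∈ Finset.range M, j := by
  have h : ∑ m ∈ Finset.univ.filter (fun m => deg m < M), deg m
      = ∑ j ∈ (Finset.univ.filter (fun m => deg m < M)).image deg, j := by
    rw [Finset.sum_image (fun a _ b _ h => hinj h)]
  rw [h]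
  refine Finset.sum_le_sum_of_subset ?_
  intro j hj
  rw [Finset.mem_image] at hj
  obtain ⟨m, hm, rfl⟩ := hj
  rw [Finset.mem_filter] at hm
  exact Finset.mem_range.mpr hm.2

lemma sum_deg_real_le {deg : ι → ℕ} (hinj : Function.Injective deg) (M : ℕ) :
    ∑ m ∈ Finset.univ.filter (fun m => deg m < M), (deg m : ℝ) ≤ (M : ℝ) ^ 2 / 2 := by
  have h1 := sum_deg_le hinj M
  have h2 : ((∑ m ∈ Finset.univ.filter (fun m => deg m < M), deg m : ℕ) : ℝ)
      ≤ ((∑ j ∈ Finset.range M, j : ℕ) : ℝ) := by exact_mod_cast h1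
  push_cast at h2
  refine h2.trans ?_
  have h3 : ∀ n : ℕ, ∑ j ∈ Finset.range n, (j : ℝ) ≤ (n : ℝ) ^ 2 / 2 := by
    intro n
    induction n with
    | zero => simp
    | succ n ih =>
      rw [Finset.sum_range_succ]
      push_cast
      nlinarith
  exact h3 M

/-- orbitals of degree `< M` -/
def low (deg : ι → ℕ) (M : ℕ) : Set ι := {m | deg m < M}

lemma coe_filter_low (deg : ι → ℕ) (M : ℕ) :
    ((Finset.univ.filter (fun m => deg m < M) : Finset ι) : Set ι) = low deg M := by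
  ext m; simp [low]

/-- a self-adjoint operator killing the zero modes is relatively bounded -/
lemma Geo.le_of_mul_proj {c : ι → 𝒜} {deg : ι → ℕ} {β : κ → ι → ι → ℂ} {dp : κ → ℕ} {P : 𝒜}
    {γ : ℝ} (h : Geo c deg β dp P γ) {F : 𝒜} (hF : IsSelfAdjoint F) (hFP : F * P = 0) :
    F ≤ (‖F‖ / γ) • HW c β (fun _ => 1) := by
  have hPF : P * F = 0 := by
    have := congrArg star hFP
    rwa [star_mul, hF.star_eq, h.ker.sa, star_zero] at this
  have e : F = star (1 - P) * F * (1 - P) := by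
    rw [star_sub, star_one, h.ker.sa, sub_mul, one_mul, hPF, sub_zero, mul_sub, mul_one, hFP,
      sub_zero]
  have e2 : star (1 - P) * (1 - P) = 1 - P := by
    rw [star_sub, star_one, h.ker.sa, mul_sub, sub_mul, sub_mul, h.ker.idem]; simp
  calc F = star (1 - P) * F * (1 - P) := e
    _ ≤ ‖F‖ • (star (1 - P) * (1 - P)) := CStarAlgebra.star_left_conjugate_le_norm_smul hF
    _ = ‖F‖ • (1 - P) := by rw [e2]
    _ = (‖F‖ / γ) • (γ • (1 - P)) := by
        rw [smul_smul, div_mul_cancel₀ _ h.pos.ne']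
    _ ≤ _ := smul_le_smul' (div_nonneg (norm_nonneg _) h.pos.le) h.gap

/-- **(R1) for strictly local positive operators** -/
theorem Geo.R1_pos {c : ι → 𝒜} {deg : ι → ℕ} {β : κ → ι → ι → ℂ} {dp : κ → ℕ} {P : 𝒜}
    {γ : ℝ} (h : Geo c deg β dp P γ) {M : ℕ} (hM : 0 < M) {E : 𝒜} (hE : IsSelfAdjoint E)
    (hL : Loc c (low deg M) E) (hEP : E * P = 0) :
    E ≤ (Real.exp 2 * ‖E‖ / γ) • HW c β (fun p => Real.exp (-2 * dp p / M ^ 2)) := by
  have hM' : (0 : ℝ) < M := Nat.cast_pos.mpr hM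
  set S := Finset.univ.filter (fun m => deg m < M) with hS
  set s : ι → ℝ := fun m => Real.exp (deg m / M ^ 2) with hs
  set t : ι → ℝ := fun m => Real.exp (-(deg m / M ^ 2)) with ht
  set F := Phi h.car Finset.univ s E with hF
  have hFsa : IsSelfAdjoint F := Phi_sa h.car _ _ hE
  have hFS : F = Phi h.car S s E := Phi_univ_eq h.car S s (by rw [hS, coe_filter_low]; exact hL)
  have hFP : F * P = 0 := by
    refine h.ker.Phi_mul h.car s (fun p => Real.exp (dp p / M ^ 2)) ?_ hEP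
    intro p i j hb
    rw [hs, ← h.supp p i j hb]
    simp only
    rw [← Real.exp_add]
    congr 1
    push_cast; ring
  have hFn : ‖F‖ ≤ Real.exp 2 * ‖E‖ := by
    rw [hFS]
    refine (norm_Phi_exp h.car S (fun m => deg m / M ^ 2) (fun m _ => by positivity) E).trans ?_
    refine mul_le_mul_of_nonneg_right (Real.exp_le_exp.mpr ?_) (norm_nonneg _)
    rw [← Finset.sum_div]
    have := sum_deg_real_le h.inj M
    rw [mul_div_assoc', div_le_iff₀ (by positivity)]
    linarith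
  have hE' : E = Phi h.car Finset.univ t F := by
    rw [hF, Phi_inv_apply h.car]
    intro m _
    rw [ht, hs]
    simp only
    rw [← Real.exp_add, neg_add_cancel, Real.exp_zero]
  have h1 := h.le_of_mul_proj hFsa hFP
  have h2 : Phi h.car Finset.univ t F ≤ Phi h.car Finset.univ t
      ((‖F‖ / γ) • HW c β (fun _ => 1)) := by
    refine Phi_mono h.car (fun m _ => ?_) h1
    rw [ht]
    simp only
    have h0 : Real.exp (-(deg m / M ^ 2 : ℝ)) ≤ 1 := Real.exp_le_one_iff.mpr (by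
      rw [neg_nonpos]; positivity)
    nlinarith [Real.exp_pos (-(deg m / M ^ 2 : ℝ))]
  rw [← hE', ← coe_smul_eq, map_smul, coe_smul_eq,
    Phi_HW h.car t (fun p => Real.exp (-(dp p / M ^ 2)))] at h2
  · refine h2.trans ?_
    have h3 : HW c β (fun p => 1 * Real.exp (-(dp p / M ^ 2)) ^ 2)
        = HW c β (fun p => Real.exp (-2 * dp p / M ^ 2)) := by
      congr 1
      funext p
      rw [one_mul, ← Real.exp_nat_mul]
      congr 1
      push_cast; ring
    rw [h3]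
    refine smul_le_smul_right' ?_ (HW_nonneg c β fun p => (Real.exp_pos _).le)
    exact div_le_div_of_nonneg_right hFn h.pos.le
  · intro p i j hb
    rw [ht, ← h.supp p i j hb]
    simp only
    rw [← Real.exp_add]
    congr 1
    push_cast; ring


end Crest.Agent.R340.Thin565
end

-- ▼ part R340/Thin6_565
section

/-!
# R340 (helper565), thinning 6: local kernel projections and Richardson extrapolation
-/

set_option autoImplicit false
set_option linter.unusedSectionVars false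

open scoped ComplexOrder

namespace Crest.Agent.R340.Thin565

variable {𝒜 : Type*} [CStarAlgebra 𝒜] [PartialOrder 𝒜] [StarOrderedRing 𝒜]
variable {ι : Type*} [DecidableEq ι] [Fintype ι] {κ : Type*} [Fintype κ]

/-- projection onto the common kernel of the `B p`, `dp p < L` -/
def IsKerL (c : ι → 𝒜) (β : κ → ι → ι → ℂ) (dp : κ → ℕ) (L : ℕ) (P : 𝒜) : Prop :=
  IsKer (fun p : {p : κ // dp p < L} => pr c (β p.1)) P

section ker

variable {c : ι → 𝒜} {deg : ι → ℕ} {β : κ → ι → ι → ℂ} {dp : κ → ℕ} {P : 𝒜} {γ : ℝ}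

lemma IsKer.commute_of {ν : Type*} {B : ν → 𝒜} {P : 𝒜} (h : IsKer B P) {X : 𝒜}
    (h1 : ∀ p, Commute (B p) X) (h2 : ∀ p, Commute (B p) (star X)) : Commute P X := by
  have e1 : P * (X * P) = X * P := h.max _ fun p => by
    rw [← mul_assoc, (h1 p).eq, mul_assoc, h.ann p, mul_zero]
  have e2 : P * (star X * P) = star X * P := h.max _ fun p => by
    rw [← mul_assoc, (h2 p).eq, mul_assoc, h.ann p, mul_zero]
  have e3 := congrArg star e2
  simp only [star_mul, star_star, h.sa] at e3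
  show P * X = X * P
  rw [← e3, mul_assoc, e1]

/-- the local kernel projection is local -/
lemma IsKerL.loc (hc : CARel c) (hsupp : ∀ p i j, β p i j ≠ 0 → deg i + deg j = dp p)
    {L : ℕ} {P : 𝒜} (h : IsKerL c β dp L P) : Loc c (low deg L) P := by
  intro m hm
  have hm' : L ≤ deg m := by simpa [low] using hm
  have key : ∀ p : {p : κ // dp p < L}, Commute (pr c (β p.1)) (c m) ∧
      Commute (pr c (β p.1)) (star (c m)) := by
    intro p
    have hl : Loc c (low deg L) (pr c (β p.1)) := by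
      refine Loc_pr hc fun i j hb => ?_
      have := hsupp p.1 i j hb
      have h2 := p.2
      constructor
      · show deg i < L
        omega
      · show deg j < L
        omega
    exact hl m hm
  refine ⟨h.commute_of (fun p => (key p).1) (fun p => (key p).2),
    h.commute_of (fun p => (key p).2) (fun p => ?_)⟩
  rw [star_star]; exact (key p).1

lemma IsKer.norm_le {ν : Type*} {B : ν → 𝒜} {P : 𝒜} (h : IsKer B P) : ‖P‖ ≤ 1 := by
  have e : ‖P‖ * ‖P‖ = ‖P‖ := by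
    rw [← CStarRing.norm_star_mul_self, h.sa, h.idem]
  nlinarith [norm_nonneg P]


lemma IsKer.compl_idem {ν : Type*} {B : ν → 𝒜} {P : 𝒜} (h : IsKer B P) :
    (1 - P) * (1 - P) = 1 - P := by
  rw [mul_sub, sub_mul, sub_mul, h.idem]; simp

lemma IsKer.compl_sa {ν : Type*} {B : ν → 𝒜} {P : 𝒜} (h : IsKer B P) :
    star (1 - P) = 1 - P := by rw [star_sub, star_one, h.sa]

lemma IsKer.compl_nonneg {ν : Type*} {B : ν → 𝒜} {P : 𝒜} (h : IsKer B P) : 0 ≤ 1 - P := by
  have : 1 - P = star (1 - P) * (1 - P) := by rw [h.compl_sa, h.compl_idem]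
  rw [this]; exact star_mul_self_nonneg _

lemma IsKer.compl_norm {ν : Type*} {B : ν → 𝒜} {P : 𝒜} (h : IsKer B P) : ‖1 - P‖ ≤ 1 := by
  have e : ‖1 - P‖ * ‖1 - P‖ = ‖1 - P‖ := by
    rw [← CStarRing.norm_star_mul_self, h.compl_sa, h.compl_idem]
  nlinarith [norm_nonneg (1 - P)]

lemma IsKerL.mul_ker {L : ℕ} {PL : 𝒜} (hL : IsKerL c β dp L PL)
    (h : IsKer (fun p => pr c (β p)) P) : PL * P = P :=
  hL.max P fun p => h.ann p.1

lemma IsKerL.mul_of_le {L L' : ℕ} (hLL : L ≤ L') {PL PL' : 𝒜} (hL : IsKerL c β dp L PL)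
    (hL' : IsKerL c β dp L' PL') : PL * PL' = PL' :=
  hL.max PL' fun p => hL'.ann ⟨p.1, p.2.trans_le hLL⟩

lemma IsKerL.mul_of_le' {L L' : ℕ} (hLL : L ≤ L') {PL PL' : 𝒜} (hL : IsKerL c β dp L PL)
    (hL' : IsKerL c β dp L' PL') : PL' * PL = PL' := by
  have := congrArg star (hL.mul_of_le hLL hL')
  rwa [star_mul, hL.sa, hL'.sa] at this

/-- the local kernel projections at large scale are below the zero mode projection -/
lemma IsKerL.ker_mul {L : ℕ} {PL : 𝒜} (hL : IsKerL c β dp L PL)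
    (h : IsKer (fun p => pr c (β p)) P) (hbig : ∀ p, dp p < L) : P * PL = PL :=
  h.max PL fun p => hL.ann ⟨p, hbig p⟩

/-- `1 - P_(L)` is relatively bounded -/
theorem Geo.one_sub_le (h : Geo c deg β dp P γ) {L : ℕ} (hL0 : 0 < L) {PL : 𝒜}
    (hL : IsKerL c β dp L PL) :
    1 - PL ≤ (Real.exp 2 / γ) • HW c β (fun p => Real.exp (-2 * dp p / L ^ 2)) := by
  have h1 := h.R1_pos hL0 (E := 1 - PL) hL.compl_sa
    ((Loc.one _).sub (hL.loc h.car h.supp)) (by
      rw [sub_mul, one_mul, hL.mul_ker h.ker, sub_self])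
  refine h1.trans (smul_le_smul_right' ?_ (HW_nonneg c β fun p => (Real.exp_pos _).le))
  refine div_le_div_of_nonneg_right ?_ h.pos.le
  exact mul_le_of_le_one_right (Real.exp_pos _).le hL.compl_norm

end ker

section rich

variable {c : ι → 𝒜} {deg : ι → ℕ} {β : κ → ι → ι → ℂ} {dp : κ → ℕ} {P : 𝒜} {γ : ℝ}

/-- the thinning amplitudes -/
noncomputable def ex (deg : ι → ℕ) (k : ℝ) (m : ι) : ℝ := Real.exp (-(k * deg m))

lemma ex_sq_le (deg : ι → ℕ) {k : ℝ} (hk : 0 ≤ k) (m : ι) : ex deg k m ^ 2 ≤ 1 := by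
  have h0 : ex deg k m ≤ 1 := Real.exp_le_one_iff.mpr (by
    rw [neg_nonpos]; positivity)
  nlinarith [Real.exp_pos (-(k * deg m : ℝ)), (Real.exp_pos (-(k * deg m : ℝ))).le,
    (show 0 < ex deg k m from Real.exp_pos _)]

lemma one_sub_ex_le (deg : ι → ℕ) (k : ℝ) (m : ι) : 1 - ex deg k m ≤ k * deg m := by
  have := Real.add_one_le_exp (-(k * deg m : ℝ))
  unfold ex
  linarith

/-- the thinning channel -/
noncomputable def Th (hc : CARel c) (deg : ι → ℕ) (k : ℝ) : Module.End ℂ 𝒜 :=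
  Phi hc Finset.univ (ex deg k)

lemma Th_pow (hc : CARel c) (k : ℝ) (j : ℕ) :
    Th hc deg k ^ j = Th hc deg (j * k) := by
  induction j with
  | zero =>
    rw [pow_zero]
    unfold Th
    rw [Phi_one]
    intro m _
    simp [ex]
  | succ j ih =>
    rw [pow_succ, ih]
    unfold Th
    rw [Phi_mul]
    congr 1
    funext m
    unfold ex
    rw [← Real.exp_add]
    congr 1
    push_cast; ring

lemma Th_HW (hc : CARel c) (hsupp : ∀ p i j, β p i j ≠ 0 → deg i + deg j = dp p) (k : ℝ)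
    (g : κ → ℝ) :
    Th hc deg k (HW c β g) = HW c β (fun p => g p * Real.exp (-(2 * k * dp p))) := by
  unfold Th
  rw [Phi_HW hc _ (fun p => Real.exp (-(k * dp p)))]
  · congr 1
    funext p
    rw [← Real.exp_nat_mul]
    congr 2
    push_cast; ring
  · intro p i j hb
    unfold ex
    rw [← Real.exp_add, ← hsupp p i j hb]
    congr 1
    push_cast; ring

/-- one Richardson step -/
lemma norm_one_sub_Th (hc : CARel c) (hinj : Function.Injective deg) {k : ℝ} (hk : 0 ≤ k) {M : ℕ}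
    {X : 𝒜} (hX : IsSelfAdjoint X) (hL : Loc c (low deg M) X) :
    ‖(1 - Th hc deg k) X‖ ≤ (2 * k * M ^ 2) * ‖X‖ := by
  set S := Finset.univ.filter (fun m => deg m < M) with hS
  have e : (1 - Th hc deg k) X = X - Phi hc S (ex deg k) X := by
    show X - Phi hc Finset.univ (ex deg k) X = _
    rw [Phi_univ_eq hc S _ (by rw [hS, coe_filter_low]; exact hL)]
  rw [e]
  refine (norm_sub_Phi hc (fun m _ => (Real.exp_pos _).le) (fun m _ => ?_) hX).trans ?_
  · exact Real.exp_le_one_iff.mpr (by rw [neg_nonpos]; positivity)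
  refine mul_le_mul_of_nonneg_right ?_ (norm_nonneg _)
  calc ∑ m ∈ S, 4 * (1 - ex deg k m) ≤ ∑ m ∈ S, 4 * (k * deg m) :=
        Finset.sum_le_sum fun m _ => by linarith [one_sub_ex_le deg k m]
    _ = 4 * k * ∑ m ∈ S, (deg m : ℝ) := by
        rw [Finset.mul_sum]; exact Finset.sum_congr rfl fun m _ => by ring
    _ ≤ 4 * k * ((M : ℝ) ^ 2 / 2) :=
        mul_le_mul_of_nonneg_left (sum_deg_real_le hinj M) (by positivity)
    _ = _ := by ring

lemma one_sub_Th_sa (hc : CARel c) (k : ℝ) {X : 𝒜} (hX : IsSelfAdjoint X) :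
    IsSelfAdjoint ((1 - Th hc deg k) X) := by
  show IsSelfAdjoint (X - Phi hc Finset.univ (ex deg k) X)
  exact hX.sub (Phi_sa hc _ _ hX)

lemma one_sub_Th_loc (hc : CARel c) (k : ℝ) {M : ℕ} {X : 𝒜} (hL : Loc c (low deg M) X) :
    Loc c (low deg M) ((1 - Th hc deg k) X) := by
  set S := Finset.univ.filter (fun m => deg m < M) with hS
  have e : (1 - Th hc deg k) X = X - Phi hc S (ex deg k) X := by
    show X - Phi hc Finset.univ (ex deg k) X = _
    rw [Phi_univ_eq hc S _ (by rw [hS, coe_filter_low]; exact hL)]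
  rw [e]
  exact hL.sub (Phi_Loc hc (by rw [hS, coe_filter_low]) _ hL)

lemma norm_one_sub_Th_pow (hc : CARel c) (hinj : Function.Injective deg) {k : ℝ} (hk : 0 ≤ k)
    {M : ℕ} (n : ℕ) {X : 𝒜} (hX : IsSelfAdjoint X) (hL : Loc c (low deg M) X) :
    ‖((1 - Th hc deg k) ^ n) X‖ ≤ (2 * k * M ^ 2) ^ n * ‖X‖ := by
  induction n generalizing X with
  | zero => simp
  | succ n ih =>
    have e : ((1 - Th hc deg k) ^ (n + 1)) X = ((1 - Th hc deg k) ^ n) ((1 - Th hc deg k) X) := by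
      rw [pow_succ]; rfl
    rw [e]
    refine (ih (one_sub_Th_sa hc k hX) (one_sub_Th_loc hc k hL)).trans ?_
    rw [pow_succ _ n, mul_assoc ((2 * k * (M : ℝ) ^ 2) ^ n)]
    exact mul_le_mul_of_nonneg_left (norm_one_sub_Th hc hinj hk hX hL)
      (pow_nonneg (by positivity) _)

/-- the Richardson identity -/
lemma richardson_id {R : Type*} [Ring R] (x : R) (n : ℕ) :
    (1 : R) = (1 - x) ^ n - ∑ j ∈ Finset.range n, ((-1) ^ (j + 1) * (n.choose (j + 1)) : ℤ) • x ^ (j + 1)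
      := by
  have h : (1 - x) ^ n = ∑ j ∈ Finset.range (n + 1), ((-1) ^ j * (n.choose j) : ℤ) • x ^ j := by
    rw [sub_eq_neg_add, Commute.add_pow (Commute.one_right _)]
    refine Finset.sum_congr rfl fun j _ => ?_
    rw [one_pow, mul_one, neg_pow, zsmul_eq_mul]
    push_cast
    have : Commute (x ^ j) ((n.choose j : ℕ) : R) := Nat.commute_cast _ _
    rw [mul_assoc, this.eq, mul_assoc]
  rw [h, Finset.sum_range_succ']
  simp

/-- the thinned energy of a state with `P_(L) = 1` -/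
lemma norm_conj_le (hc : CARel c) (hsupp : ∀ p i j, β p i j ≠ 0 → deg i + deg j = dp p)
    {k : ℝ} {L : ℕ} {PL : 𝒜} (hL : IsKerL c β dp L PL) :
    PL * Th hc deg k (HW c β (fun _ => 1)) * PL
      ≤ algebraMap ℝ 𝒜 (∑ p ∈ Finset.univ.filter (fun p => L ≤ dp p),
          Real.exp (-(2 * k * dp p)) * ‖pr c (β p)‖ ^ 2) := by
  rw [Th_HW hc hsupp]
  unfold HW
  rw [Finset.mul_sum, Finset.sum_mul, map_sum,
    ← Finset.sum_filter_add_sum_filter_not Finset.univ (fun p => L ≤ dp p)]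
  have h0 : ∑ x ∈ Finset.univ.filter (fun p => ¬ L ≤ dp p),
      PL * (1 * Real.exp (-(2 * k * dp x))) • (star (pr c (β x)) * pr c (β x)) * PL = 0 := by
    refine Finset.sum_eq_zero fun p hp => ?_
    rw [Finset.mem_filter, not_le] at hp
    have := hL.ann ⟨p, hp.2⟩
    simp only at this
    rw [mul_smul_comm, smul_mul_assoc, mul_assoc PL, mul_assoc (star _), this]
    simp
  rw [h0, add_zero]
  refine Finset.sum_le_sum fun p _ => ?_
  show PL * (1 * Real.exp (-(2 * k * ↑(dp p)))) • (star (pr c (β p)) * pr c (β p)) * PL ≤ _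
  rw [one_mul, mul_smul_comm, smul_mul_assoc, map_mul, Algebra.algebraMap_eq_smul_one (Real.exp _),
    smul_mul_assoc, one_mul]
  refine smul_le_smul' (Real.exp_pos _).le ?_
  have e : PL * (star (pr c (β p)) * pr c (β p)) * PL
      = star (pr c (β p) * PL) * (pr c (β p) * PL) := by
    rw [star_mul, hL.sa]; noncomm_ring
  rw [e]
  refine CStarAlgebra.star_mul_le_algebraMap_norm_sq.trans ?_
  refine algebraMap_mono 𝒜 ?_
  have h1 : ‖pr c (β p) * PL‖ ≤ ‖pr c (β p)‖ :=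
    (norm_mul_le _ _).trans (mul_le_of_le_one_right (norm_nonneg _) hL.norm_le)
  exact pow_le_pow_left₀ (norm_nonneg _) h1 2

end rich

end Crest.Agent.R340.Thin565
end

-- ▼ part R340/Thin7_565
section

/-!
# R340 (helper565), thinning 7: Richardson extrapolation, strictly local and quasi-local
-/

set_option autoImplicit false
set_option linter.unusedSectionVars false

open scoped ComplexOrder

namespace Crest.Agent.R340.Thin565

variable {𝒜 : Type*} [CStarAlgebra 𝒜] [PartialOrder 𝒜] [StarOrderedRing 𝒜]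
variable {ι : Type*} [DecidableEq ι] [Fintype ι] {κ : Type*} [Fintype κ]
variable {c : ι → 𝒜} {deg : ι → ℕ} {β : κ → ι → ι → ℂ} {dp : κ → ℕ} {P : 𝒜} {γ : ℝ}

lemma star_add_mul_le (x y : 𝒜) :
    star (x + y) * (x + y) ≤ (2 : ℝ) • (star x * x) + (2 : ℝ) • (star y * y) := by
  have h : 0 ≤ star (x - y) * (x - y) := star_mul_self_nonneg _
  have e : (2 : ℝ) • (star x * x) + (2 : ℝ) • (star y * y) - star (x + y) * (x + y)
      = star (x - y) * (x - y) := by
    rw [two_smul, two_smul, star_add, star_sub]; noncomm_ring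
  rw [← e] at h
  exact sub_nonneg.mp h

lemma Geo.sq_le (h : Geo c deg β dp P γ) (A : 𝒜) :
    star A * A ≤ algebraMap ℝ 𝒜 (2 * ‖A * P‖ ^ 2)
      + (2 * ‖A‖ ^ 2 / γ) • HW c β (fun _ => 1) := by
  have e : A = A * P + A * (1 - P) := by rw [mul_sub, mul_one]; abel
  have h1 := star_add_mul_le (A * P) (A * (1 - P))
  rw [← e] at h1
  refine h1.trans (add_le_add ?_ ?_)
  · rw [map_mul, Algebra.algebraMap_eq_smul_one (2 : ℝ), smul_mul_assoc, one_mul]
    exact smul_le_smul' (by norm_num) CStarAlgebra.star_mul_le_algebraMap_norm_sq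
  · have h2 : star (A * (1 - P)) * (A * (1 - P)) ≤ ‖A‖ ^ 2 • (1 - P) := by
      have e2 : star (A * (1 - P)) * (A * (1 - P)) = star (1 - P) * (star A * A) * (1 - P) := by
        rw [star_mul]; noncomm_ring
      rw [e2]
      refine (CStarAlgebra.star_left_conjugate_le_norm_smul (IsSelfAdjoint.star_mul_self A)).trans ?_
      rw [h.ker.compl_sa, h.ker.compl_idem, CStarRing.norm_star_mul_self, ← pow_two]
    refine (smul_le_smul' (by norm_num : (0:ℝ) ≤ 2) h2).trans ?_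
    have e3 : (2 : ℝ) • ‖A‖ ^ 2 • (1 - P) = (2 * ‖A‖ ^ 2 / γ) • (γ • (1 - P)) := by
      rw [smul_smul, smul_smul, div_mul_cancel₀ _ h.pos.ne']
    rw [e3]
    exact smul_le_smul' (div_nonneg (by positivity) h.pos.le) h.gap

lemma Th_algebraMap (hc : CARel c) (k : ℝ) (r : ℝ) :
    Th hc deg k (algebraMap ℝ 𝒜 r) = algebraMap ℝ 𝒜 r := Phi_algebraMap hc _ _ r

lemma Th_mono (hc : CARel c) {k : ℝ} (hk : 0 ≤ k) {X Y : 𝒜} (h : X ≤ Y) :
    Th hc deg k X ≤ Th hc deg k Y := Phi_mono hc (fun m _ => ex_sq_le deg hk m) h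

lemma Th_nonneg (hc : CARel c) {k : ℝ} (hk : 0 ≤ k) {X : 𝒜} (h : 0 ≤ X) :
    0 ≤ Th hc deg k X := Phi_nonneg hc (fun m _ => ex_sq_le deg hk m) h

lemma Th_rsmul (hc : CARel c) (k : ℝ) (r : ℝ) (X : 𝒜) :
    Th hc deg k (r • X) = r • Th hc deg k X := by
  rw [← coe_smul_eq, map_smul, coe_smul_eq]

lemma Geo.norm_Th_conj (h : Geo c deg β dp P γ) {k : ℝ} (hk : 0 ≤ k) {L : ℕ} {PL : 𝒜}
    (hL : IsKerL c β dp L PL) (A : 𝒜) :
    ‖PL * Th h.car deg k (star A * A) * PL‖ ≤ 2 * ‖A * P‖ ^ 2 + 2 * ‖A‖ ^ 2 / γ *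
      (∑ p ∈ Finset.univ.filter (fun p => L ≤ dp p),
          Real.exp (-(2 * k * dp p)) * ‖pr c (β p)‖ ^ 2) := by
  have hγ := h.pos
  have conj : ∀ {X Y : 𝒜}, X ≤ Y → PL * X * PL ≤ PL * Y * PL := by
    intro X Y hXY
    have := star_left_conjugate_le_conjugate hXY PL
    rwa [hL.sa] at this
  have h0 : 0 ≤ PL * Th h.car deg k (star A * A) * PL := by
    have := conj (Th_nonneg (deg := deg) h.car hk (star_mul_self_nonneg A))
    simpa using this
  have hδ : 0 ≤ ∑ p ∈ Finset.univ.filter (fun p => L ≤ dp p),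
          Real.exp (-(2 * k * dp p)) * ‖pr c (β p)‖ ^ 2 :=
    Finset.sum_nonneg fun p _ => by positivity
  rw [CStarAlgebra.norm_le_iff_le_algebraMap _ (by positivity) h0]
  have h1 := conj (Th_mono (deg := deg) h.car hk (h.sq_le A))
  refine h1.trans ?_
  rw [map_add, Th_algebraMap, Th_rsmul, mul_add, add_mul, mul_smul_comm, smul_mul_assoc, map_add]
  refine add_le_add ?_ ?_
  · rw [Algebra.algebraMap_eq_smul_one, mul_smul_comm, smul_mul_assoc, mul_one, hL.idem]
    refine smul_le_smul' (by positivity) ?_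
    exact sub_nonneg.mp hL.compl_nonneg
  · have h2 := norm_conj_le h.car h.supp (k := k) hL
    refine (smul_le_smul' (div_nonneg (by positivity) hγ.le) h2).trans ?_
    rw [map_mul, Algebra.algebraMap_eq_smul_one (2 * ‖A‖ ^ 2 / γ), smul_mul_assoc, one_mul]

/-- **Richardson extrapolation** -/
theorem Geo.richardson (h : Geo c deg β dp P γ) {k : ℝ} (hk : 0 ≤ k) {L M : ℕ} (n : ℕ) {PL : 𝒜}
    (hL : IsKerL c β dp L PL) {A : 𝒜} (hA : Loc c (low deg M) A) {δ : ℝ}
    (hδ : ∑ p ∈ Finset.univ.filter (fun p => L ≤ dp p),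
          Real.exp (-(2 * k * dp p)) * ‖pr c (β p)‖ ^ 2 ≤ δ) :
    ‖A * PL‖ ^ 2 ≤ 2 ^ n * (2 * ‖A * P‖ ^ 2 + 2 * ‖A‖ ^ 2 / γ * δ)
      + (2 * k * M ^ 2) ^ n * ‖A‖ ^ 2 := by
  have hγ := h.pos
  set E := star A * A with hE
  have hEsa : IsSelfAdjoint E := IsSelfAdjoint.star_mul_self A
  have hEn : ‖E‖ = ‖A‖ ^ 2 := by rw [hE, CStarRing.norm_star_mul_self, pow_two]
  have e1 : ‖A * PL‖ ^ 2 = ‖PL * E * PL‖ := by
    rw [pow_two, ← CStarRing.norm_star_mul_self, star_mul, hL.sa, hE]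
    congr 1; noncomm_ring
  set Φ := Th h.car deg k with hΦ
  have e2 : E = ((1 - Φ) ^ n) E - ∑ j ∈ Finset.range n,
      ((-1) ^ (j + 1) * (n.choose (j + 1)) : ℤ) • (Φ ^ (j + 1)) E := by
    have := congrArg (fun f : Module.End ℂ 𝒜 => f E) (richardson_id Φ n)
    simp only [LinearMap.sub_apply, LinearMap.sum_apply] at this
    exact this
  have hδ' : ∀ j : ℕ, ∑ p ∈ Finset.univ.filter (fun p => L ≤ dp p),
          Real.exp (-(2 * ((j + 1 : ℕ) * k) * dp p)) * ‖pr c (β p)‖ ^ 2 ≤ δ := by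
    intro j
    refine le_trans (Finset.sum_le_sum fun p _ => ?_) hδ
    refine mul_le_mul_of_nonneg_right (Real.exp_le_exp.mpr ?_) (by positivity)
    have : 0 ≤ (j : ℝ) * k * dp p := by positivity
    push_cast
    nlinarith
  have h3 : ∀ j : ℕ, ‖PL * (Φ ^ (j + 1)) E * PL‖ ≤ 2 * ‖A * P‖ ^ 2 + 2 * ‖A‖ ^ 2 / γ * δ := by
    intro j
    rw [hΦ, Th_pow]
    refine (h.norm_Th_conj (by positivity) hL A).trans ?_
    gcongr
    exact hδ' j
  have hη : 0 ≤ 2 * ‖A * P‖ ^ 2 + 2 * ‖A‖ ^ 2 / γ * δ := le_trans (norm_nonneg _) (h3 0)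
  have e3 : PL * E * PL = PL * ((1 - Φ) ^ n) E * PL - ∑ j ∈ Finset.range n,
      ((-1) ^ (j + 1) * (n.choose (j + 1)) : ℤ) • (PL * (Φ ^ (j + 1)) E * PL) := by
    conv_lhs => rw [e2]
    rw [mul_sub, sub_mul, Finset.mul_sum, Finset.sum_mul]
    congr 1
    refine Finset.sum_congr rfl fun j _ => ?_
    rw [mul_smul_comm, smul_mul_assoc]
  rw [e1, e3]
  refine (norm_sub_le _ _).trans ?_
  rw [add_comm]
  refine add_le_add ?_ ?_
  · refine (norm_sum_le _ _).trans ?_
    have h4 : ∀ j ∈ Finset.range n, ‖((-1) ^ (j + 1) * (n.choose (j + 1)) : ℤ) •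
        (PL * (Φ ^ (j + 1)) E * PL)‖ ≤ (n.choose (j + 1) : ℝ) *
        (2 * ‖A * P‖ ^ 2 + 2 * ‖A‖ ^ 2 / γ * δ) := by
      intro j _
      refine (norm_zsmul_le _ _).trans ?_
      have : ‖((-1) ^ (j + 1) * (n.choose (j + 1)) : ℤ)‖ = (n.choose (j + 1) : ℝ) := by
        rw [norm_mul, norm_pow, norm_neg, norm_one, one_pow, one_mul, Int.norm_natCast]
      rw [this]
      exact mul_le_mul_of_nonneg_left (h3 j) (Nat.cast_nonneg _)
    refine (Finset.sum_le_sum h4).trans ?_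
    rw [← Finset.sum_mul]
    refine mul_le_mul_of_nonneg_right ?_ hη
    have h5 : ∑ j ∈ Finset.range n, n.choose (j + 1) ≤ 2 ^ n := by
      rw [← Nat.sum_range_choose n, Finset.sum_range_succ' _ n]
      exact Nat.le_add_right _ _
    exact_mod_cast h5
  · have h6 : ‖PL * ((1 - Φ) ^ n) E * PL‖ ≤ ‖((1 - Φ) ^ n) E‖ := by
      refine (norm_mul_le _ _).trans ?_
      calc ‖PL * ((1 - Φ) ^ n) E‖ * ‖PL‖ ≤ ‖PL * ((1 - Φ) ^ n) E‖ * 1 :=
            mul_le_mul_of_nonneg_left hL.norm_le (norm_nonneg _)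
        _ ≤ ‖PL‖ * ‖((1 - Φ) ^ n) E‖ := by rw [mul_one]; exact norm_mul_le _ _
        _ ≤ _ := mul_le_of_le_one_left (norm_nonneg _) hL.norm_le
    refine h6.trans ?_
    rw [← hEn]
    exact norm_one_sub_Th_pow h.car h.inj hk n hEsa (hA.star.mul hA)

end Crest.Agent.R340.Thin565
end

-- ▼ part R340/Thin8_565
section

/-!
# R340 (helper565), thinning 8: scalar estimates and the quasi-local Richardson bound
-/

set_option autoImplicit false
set_option linter.unusedSectionVars false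

open scoped ComplexOrder

namespace Crest.Agent.R340.Thin565

lemma sum_inv_sq_le (N : ℕ) : ∑ d ∈ Finset.range N, 1 / ((d : ℝ) + 1) ^ 2 ≤ 2 := by
  have h : ∀ N : ℕ, ∑ d ∈ Finset.range (N + 1), 1 / ((d : ℝ) + 1) ^ 2 ≤ 2 - 1 / ((N : ℝ) + 1) := by
    intro N
    induction N with
    | zero => norm_num
    | succ N ih =>
      rw [Finset.sum_range_succ]
      have h1 : (0:ℝ) < (N : ℝ) + 1 := by positivity
      have h2 : (0:ℝ) < ((N + 1 : ℕ) : ℝ) + 1 := by positivity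
      have h3 : 1 / (((N + 1 : ℕ) : ℝ) + 1) ^ 2 ≤ 1 / ((N : ℝ) + 1) - 1 / (((N + 1 : ℕ) : ℝ) + 1) := by
        rw [div_sub_div _ _ h1.ne' h2.ne', div_le_div_iff₀ (by positivity) (by positivity)]
        push_cast
        nlinarith
      linarith
  rcases N with _ | N
  · simp
  · have := h N
    have h1 : (0:ℝ) < 1 / ((N : ℝ) + 1) := by positivity
    linarith

lemma sum_inj_le {κ : Type*} [Fintype κ] {dp : κ → ℕ} (hinj : Function.Injective dp)
    (T : Finset κ) : ∑ p ∈ T, 1 / ((dp p : ℝ) + 1) ^ 2 ≤ 2 := by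
  obtain ⟨N, hN⟩ : ∃ N, ∀ p, dp p < N := by
    refine ⟨Finset.univ.sup dp + 1, fun p => Nat.lt_succ_of_le (Finset.le_sup (Finset.mem_univ p))⟩
  have h : ∑ p ∈ T, 1 / ((dp p : ℝ) + 1) ^ 2 = ∑ d ∈ T.image dp, 1 / ((d : ℝ) + 1) ^ 2 := by
    rw [Finset.sum_image (fun a _ b _ h => hinj h)]
  rw [h]
  refine le_trans (Finset.sum_le_sum_of_subset_of_nonneg (t := Finset.range N) ?_ ?_)
    (sum_inv_sq_le N)
  · intro d hd
    rw [Finset.mem_image] at hd
    obtain ⟨p, _, rfl⟩ := hd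
    exact Finset.mem_range.mpr (hN p)
  · intro d _ _
    positivity

/-- `e^{-x} (1+x)^n ≤ e n!` -/
lemma exp_neg_mul_pow_le (n : ℕ) {x : ℝ} (hx : 0 ≤ x) :
    Real.exp (-x) * (1 + x) ^ n ≤ Real.exp 1 * n.factorial := by
  have h := Real.pow_div_factorial_le_exp (1 + x) (by linarith) n
  have hn : (0:ℝ) < n.factorial := by positivity
  rw [div_le_iff₀ hn] at h
  have h2 : Real.exp (-x) * Real.exp (1 + x) = Real.exp 1 := by
    rw [← Real.exp_add]; congr 1; ring
  calc Real.exp (-x) * (1 + x) ^ n ≤ Real.exp (-x) * (Real.exp (1 + x) * n.factorial) :=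
        mul_le_mul_of_nonneg_left h (Real.exp_pos _).le
    _ = _ := by rw [← mul_assoc, h2]

lemma exp_neg_le (n : ℕ) {x : ℝ} (hx : 0 < x) :
    Real.exp (-x) ≤ n.factorial / x ^ n := by
  have h := Real.pow_div_factorial_le_exp x hx.le n
  have hn : (0:ℝ) < n.factorial := by positivity
  rw [div_le_iff₀ hn] at h
  rw [le_div_iff₀ (by positivity), Real.exp_neg]
  rw [inv_mul_le_iff₀ (Real.exp_pos _)]
  exact h

/-- `e^{-2d/X} ≤ e n! X^n / (d+1)^n` for `X ≥ 1` -/
lemma exp_weight_le (n : ℕ) {X d : ℝ} (hX : 1 ≤ X) (hd : 0 ≤ d) :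
    Real.exp (-2 * d / X) ≤ Real.exp 1 * n.factorial * X ^ n / (d + 1) ^ n := by
  have hX0 : 0 < X := by linarith
  have h1 := exp_neg_mul_pow_le n (x := d / X) (by positivity)
  have h2 : (d + 1) ^ n ≤ X ^ n * (1 + d / X) ^ n := by
    rw [← mul_pow]
    refine pow_le_pow_left₀ (by positivity) ?_ n
    have : X * (1 + d / X) = X + d := by field_simp
    linarith
  rw [le_div_iff₀ (by positivity)]
  have h3 : Real.exp (-2 * d / X) ≤ Real.exp (-(d / X)) := by
    refine Real.exp_le_exp.mpr ?_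
    have : 0 ≤ d / X := by positivity
    have e : -2 * d / X = -2 * (d / X) := by ring
    rw [e]; linarith
  calc Real.exp (-2 * d / X) * (d + 1) ^ n
      ≤ Real.exp (-(d / X)) * (X ^ n * (1 + d / X) ^ n) :=
        mul_le_mul h3 h2 (by positivity) (Real.exp_pos _).le
    _ = X ^ n * (Real.exp (-(d / X)) * (1 + d / X) ^ n) := by ring
    _ ≤ X ^ n * (Real.exp 1 * n.factorial) := mul_le_mul_of_nonneg_left h1 (by positivity)
    _ = _ := by ring

/-- the tail of the thinned energy, one term -/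
lemma tail_term_le (m : ℕ) {q : ℕ} (hq : 1 ≤ q) {d : ℕ} (hd : q ^ 4 ≤ d) :
    Real.exp (-(2 * (1 / (q : ℝ) ^ 3) * d)) * (d + 1)
      ≤ (6 * Real.exp 1 * (2 * m + 9).factorial / (q : ℝ) ^ (2 * m)) * (1 / ((d : ℝ) + 1) ^ 2) := by
  have hq' : (1 : ℝ) ≤ q := by exact_mod_cast hq
  have hq0 : (0 : ℝ) < q := by linarith
  set x : ℝ := d / (q : ℝ) ^ 3 with hx
  have hd' : (q : ℝ) ^ 4 ≤ d := by exact_mod_cast hd
  have hxq : (q : ℝ) ≤ x := by
    rw [hx, le_div_iff₀ (by positivity)]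
    have e : (q : ℝ) * (q : ℝ) ^ 3 = (q : ℝ) ^ 4 := by ring
    rw [e]; exact hd'
  have hx0 : 0 ≤ x := by linarith
  have e1 : Real.exp (-(2 * (1 / (q : ℝ) ^ 3) * d)) = Real.exp (-x) * Real.exp (-x) := by
    rw [← Real.exp_add]; congr 1; rw [hx]; ring
  have h1 : Real.exp (-x) ≤ (2 * m + 9).factorial / (q : ℝ) ^ (2 * m + 9) :=
    (Real.exp_le_exp.mpr (by linarith)).trans (exp_neg_le (2 * m + 9) hq0)
  have h2 : ((d : ℝ) + 1) ^ 3 ≤ (q : ℝ) ^ 9 * (1 + x) ^ 3 := by
    have : (q : ℝ) ^ 9 * (1 + x) ^ 3 = ((q : ℝ) ^ 3 + d) ^ 3 := by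
      have e : (q : ℝ) ^ 3 + d = q ^ 3 * (1 + x) := by rw [hx]; field_simp
      rw [e, mul_pow]; ring
    rw [this]
    refine pow_le_pow_left₀ (by positivity) ?_ 3
    have : (1 : ℝ) ≤ (q : ℝ) ^ 3 := one_le_pow₀ hq'
    linarith
  have h3 := exp_neg_mul_pow_le 3 hx0
  have h4 : Real.exp (-x) * ((d : ℝ) + 1) ^ 3 ≤ q ^ 9 * (Real.exp 1 * 6) := by
    calc Real.exp (-x) * ((d : ℝ) + 1) ^ 3 ≤ Real.exp (-x) * ((q : ℝ) ^ 9 * (1 + x) ^ 3) :=
          mul_le_mul_of_nonneg_left h2 (Real.exp_pos _).le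
      _ = q ^ 9 * (Real.exp (-x) * (1 + x) ^ 3) := by ring
      _ ≤ q ^ 9 * (Real.exp 1 * 6) := by
          refine mul_le_mul_of_nonneg_left ?_ (by positivity)
          have : ((Nat.factorial 3 : ℕ) : ℝ) = 6 := by norm_num [Nat.factorial]
          rw [this] at h3; exact h3
  have hd1 : (0:ℝ) < (d : ℝ) + 1 := by positivity
  have e2 : Real.exp (-x) * Real.exp (-x) * ((d : ℝ) + 1)
      = Real.exp (-x) * (Real.exp (-x) * ((d : ℝ) + 1) ^ 3) * (1 / ((d : ℝ) + 1) ^ 2) := by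
    field_simp
  rw [e1, e2]
  refine mul_le_mul_of_nonneg_right ?_ (by positivity)
  calc Real.exp (-x) * (Real.exp (-x) * ((d : ℝ) + 1) ^ 3)
      ≤ ((2 * m + 9).factorial / (q : ℝ) ^ (2 * m + 9)) * (q ^ 9 * (Real.exp 1 * 6)) :=
        mul_le_mul h1 h4 (by positivity) (by positivity)
    _ = _ := by rw [pow_add]; field_simp

/-- the constant of the quasi-local Richardson bound -/
noncomputable def C1 (m : ℕ) (γ CB : ℝ) : ℝ :=
  2 + 2 * 4 ^ m * (6 + 96 * Real.exp 1 * CB * (2 * m + 9).factorial / γ)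

lemma C1_nonneg (m : ℕ) {γ CB : ℝ} (hγ : 0 < γ) (hCB : 0 ≤ CB) : 0 ≤ C1 m γ CB := by
  unfold C1; positivity

section

variable {𝒜 : Type*} [CStarAlgebra 𝒜] [PartialOrder 𝒜] [StarOrderedRing 𝒜]
variable {ι : Type*} [DecidableEq ι] [Fintype ι] {κ : Type*} [Fintype κ]
variable {c : ι → 𝒜} {deg : ι → ℕ} {β : κ → ι → ι → ℂ} {dp : κ → ℕ} {P : 𝒜} {γ : ℝ}

lemma tail_sum_le (hinj : Function.Injective dp) {CB : ℝ} (hCB : 0 ≤ CB)
    (hB : ∀ p, ‖pr c (β p)‖ ^ 2 ≤ CB * (dp p + 1)) (m : ℕ) {q : ℕ} (hq : 1 ≤ q) :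
    ∑ p ∈ Finset.univ.filter (fun p => q ^ 4 ≤ dp p),
          Real.exp (-(2 * (1 / (q : ℝ) ^ 3) * dp p)) * ‖pr c (β p)‖ ^ 2
      ≤ 12 * Real.exp 1 * CB * (2 * m + 9).factorial / (q : ℝ) ^ (2 * m) := by
  have hq0 : (0 : ℝ) < q := by exact_mod_cast hq
  have h1 : ∀ p ∈ Finset.univ.filter (fun p => q ^ 4 ≤ dp p),
      Real.exp (-(2 * (1 / (q : ℝ) ^ 3) * dp p)) * ‖pr c (β p)‖ ^ 2
      ≤ CB * (6 * Real.exp 1 * (2 * m + 9).factorial / (q : ℝ) ^ (2 * m)) *
        (1 / ((dp p : ℝ) + 1) ^ 2) := by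
    intro p hp
    rw [Finset.mem_filter] at hp
    have := tail_term_le m hq hp.2
    calc Real.exp (-(2 * (1 / (q : ℝ) ^ 3) * dp p)) * ‖pr c (β p)‖ ^ 2
        ≤ Real.exp (-(2 * (1 / (q : ℝ) ^ 3) * dp p)) * (CB * (dp p + 1)) :=
          mul_le_mul_of_nonneg_left (hB p) (Real.exp_pos _).le
      _ = CB * (Real.exp (-(2 * (1 / (q : ℝ) ^ 3) * dp p)) * (dp p + 1)) := by ring
      _ ≤ CB * ((6 * Real.exp 1 * (2 * m + 9).factorial / (q : ℝ) ^ (2 * m)) *
        (1 / ((dp p : ℝ) + 1) ^ 2)) := mul_le_mul_of_nonneg_left this hCB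
      _ = _ := by ring
  refine (Finset.sum_le_sum h1).trans ?_
  rw [← Finset.mul_sum]
  have h2 := sum_inj_le hinj (Finset.univ.filter (fun p => q ^ 4 ≤ dp p))
  calc _ ≤ CB * (6 * Real.exp 1 * (2 * m + 9).factorial / (q : ℝ) ^ (2 * m)) * 2 :=
        mul_le_mul_of_nonneg_left h2 (by positivity)
    _ = _ := by ring

/-- **Richardson for quasi-local operators** -/
theorem Geo.norm_mul_PL (h : Geo c deg β dp P γ) (hinj : Function.Injective dp) {CB : ℝ}
    (hCB : 0 ≤ CB) (hB : ∀ p, ‖pr c (β p)‖ ^ 2 ≤ CB * (dp p + 1)) (m : ℕ) {q : ℕ} (hq : 1 ≤ q)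
    {PL : 𝒜} (hL : IsKerL c β dp (q ^ 4) PL) {A Aq : 𝒜} {D : ℝ} (hAP : A * P = 0)
    (hA : ‖A‖ ≤ D) (hAq : Loc c (low deg q) Aq) (hd : ‖A - Aq‖ ≤ D / (q : ℝ) ^ m) :
    ‖A * PL‖ ^ 2 ≤ C1 m γ CB * D ^ 2 / (q : ℝ) ^ (2 * m) := by
  have hγ := h.pos
  have hq' : (1 : ℝ) ≤ q := by exact_mod_cast hq
  have hq0 : (0 : ℝ) < q := by linarith
  have hD : 0 ≤ D := (norm_nonneg _).trans hA
  set u : ℝ := (q : ℝ) ^ m with hu
  have hu1 : 1 ≤ u := one_le_pow₀ hq'
  have hu0 : 0 < u := by linarith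
  have e0 : (q : ℝ) ^ (2 * m) = u ^ 2 := by rw [hu, ← pow_mul, mul_comm]
  have hDu : D / u ≤ D := div_le_self hD hu1
  have hAq2 : ‖Aq‖ ≤ 2 * D := by
    have e : Aq = A - (A - Aq) := by abel
    calc ‖Aq‖ = ‖A - (A - Aq)‖ := by rw [← e]
      _ ≤ ‖A‖ + ‖A - Aq‖ := norm_sub_le _ _
      _ ≤ D + D := add_le_add hA (hd.trans hDu)
      _ = _ := by ring
  have hAqP : ‖Aq * P‖ ≤ D / u := by
    have e : Aq * P = -((A - Aq) * P) := by rw [sub_mul, hAP]; abel
    rw [e, norm_neg]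
    refine (norm_mul_le _ _).trans ?_
    calc ‖A - Aq‖ * ‖P‖ ≤ ‖A - Aq‖ * 1 :=
          mul_le_mul_of_nonneg_left h.ker.norm_le (norm_nonneg _)
      _ ≤ D / u := by rw [mul_one]; exact hd
  have h1 := h.richardson (k := 1 / (q : ℝ) ^ 3) (by positivity) (2 * m) hL hAq
    (tail_sum_le (c := c) (β := β) hinj hCB hB m hq)
  have e1 : (2 * (1 / (q : ℝ) ^ 3) * (q : ℝ) ^ 2) ^ (2 * m) = 4 ^ m / u ^ 2 := by
    have : 2 * (1 / (q : ℝ) ^ 3) * (q : ℝ) ^ 2 = 2 / q := by field_simp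
    rw [this, div_pow, e0, pow_mul]; norm_num
  have e2 : (2 : ℝ) ^ (2 * m) = 4 ^ m := by rw [pow_mul]; norm_num
  rw [e1, e2, e0] at h1
  set F : ℝ := 12 * Real.exp 1 * CB * (2 * m + 9).factorial with hF
  have hF0 : 0 ≤ F := by rw [hF]; positivity
  have h2 : ‖Aq * PL‖ ^ 2 ≤ 4 ^ m * (2 * (D / u) ^ 2 + 2 * (2 * D) ^ 2 / γ * (F / u ^ 2))
      + 4 ^ m / u ^ 2 * (2 * D) ^ 2 := by
    refine h1.trans ?_
    gcongr
  have e3 : 4 ^ m * (2 * (D / u) ^ 2 + 2 * (2 * D) ^ 2 / γ * (F / u ^ 2))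
      + 4 ^ m / u ^ 2 * (2 * D) ^ 2 = 4 ^ m * (6 + 8 * F / γ) * D ^ 2 / u ^ 2 := by
    field_simp; ring
  rw [e3] at h2
  have h3 : ‖(A - Aq) * PL‖ ≤ D / u := by
    refine (norm_mul_le _ _).trans ?_
    calc ‖A - Aq‖ * ‖PL‖ ≤ ‖A - Aq‖ * 1 :=
          mul_le_mul_of_nonneg_left hL.norm_le (norm_nonneg _)
      _ ≤ D / u := by rw [mul_one]; exact hd
  have h4 : ‖A * PL‖ ≤ ‖Aq * PL‖ + ‖(A - Aq) * PL‖ := by
    have e : A * PL = Aq * PL + (A - Aq) * PL := by rw [sub_mul]; abel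
    rw [e]; exact norm_add_le _ _
  have h5 : ‖A * PL‖ ^ 2 ≤ 2 * ‖Aq * PL‖ ^ 2 + 2 * (D / u) ^ 2 := by
    have a1 := norm_nonneg (A * PL)
    have a2 := norm_nonneg (Aq * PL)
    have a3 := norm_nonneg ((A - Aq) * PL)
    nlinarith [sq_nonneg (‖Aq * PL‖ - ‖(A - Aq) * PL‖),
      mul_le_mul h3 h3 a3 (div_nonneg hD hu0.le), mul_le_mul h4 h4 a1 (by linarith)]
  refine h5.trans ?_
  rw [e0]
  calc 2 * ‖Aq * PL‖ ^ 2 + 2 * (D / u) ^ 2
      ≤ 2 * (4 ^ m * (6 + 8 * F / γ) * D ^ 2 / u ^ 2) + 2 * (D / u) ^ 2 := by gcongr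
    _ = C1 m γ CB * D ^ 2 / u ^ 2 := by
        unfold C1
        rw [hF]
        field_simp
        ring

end

end Crest.Agent.R340.Thin565
end

-- ▼ part R340/Thin9_565
section

/-!
# R340 (helper565), thinning 9: (R1) for quasi-local operators
-/

set_option autoImplicit false
set_option linter.unusedSectionVars false

open scoped ComplexOrder

namespace Crest.Agent.R340.Thin565

variable {𝒜 : Type*} [CStarAlgebra 𝒜] [PartialOrder 𝒜] [StarOrderedRing 𝒜]

/-- weighted Cauchy--Schwarz -/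
lemma star_sum_mul_le (N : ℕ) (x : ℕ → 𝒜) :
    star (∑ l ∈ Finset.range N, x l) * (∑ l ∈ Finset.range N, x l)
      ≤ ∑ l ∈ Finset.range N, (2 : ℝ) ^ (l + 1) • (star (x l) * x l) := by
  induction N generalizing x with
  | zero => simp
  | succ N ih =>
    rw [Finset.sum_range_succ', Finset.sum_range_succ']
    refine (star_add_mul_le _ _).trans ?_
    refine add_le_add ?_ (by simp)
    have h := smul_le_smul' (by norm_num : (0:ℝ) ≤ 2) (ih (fun l => x (l + 1)))
    refine h.trans (le_of_eq ?_)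
    rw [Finset.smul_sum]
    refine Finset.sum_congr rfl fun l _ => ?_
    rw [smul_smul]
    congr 1
    ring

variable {ι : Type*} [DecidableEq ι] [Fintype ι] {κ : Type*} [Fintype κ]
variable {c : ι → 𝒜} {deg : ι → ℕ} {β : κ → ι → ι → ℂ} {dp : κ → ℕ} {P : 𝒜} {γ : ℝ}

/-- one telescoping piece -/
lemma piece_le {L L' : ℕ} (hLL : L ≤ L') {PL PL' : 𝒜} (hL : IsKerL c β dp L PL)
    (hL' : IsKerL c β dp L' PL') (A : 𝒜) :
    star (A * (PL - PL')) * (A * (PL - PL')) ≤ ‖A * PL‖ ^ 2 • (1 - PL') := by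
  have e1 : PL * (PL - PL') = PL - PL' := by
    rw [mul_sub, hL.idem, hL.mul_of_le hLL hL']
  have e2 : A * (PL - PL') = A * PL * (PL - PL') := by rw [mul_assoc, e1]
  have e3 : star (PL - PL') = PL - PL' := by rw [star_sub, hL.sa, hL'.sa]
  have e4 : (PL - PL') * (PL - PL') = PL - PL' := by
    rw [sub_mul, e1, mul_sub, hL'.idem, hL.mul_of_le' hLL hL', sub_self, sub_zero]
  rw [e2, star_mul]
  have e5 : star (PL - PL') * star (A * PL) * (A * PL * (PL - PL'))
      = star (PL - PL') * (star (A * PL) * (A * PL)) * (PL - PL') := by noncomm_ring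
  rw [e5]
  refine (CStarAlgebra.star_left_conjugate_le_norm_smul (IsSelfAdjoint.star_mul_self _)).trans ?_
  rw [e3, e4, CStarRing.norm_star_mul_self, ← pow_two]
  refine smul_le_smul' (by positivity) ?_
  have : 0 ≤ (1 - PL') - (PL - PL') := by
    have := hL.compl_nonneg
    rwa [sub_sub_sub_cancel_right]
  exact sub_nonneg.mp this

lemma first_le {L' : ℕ} {PL' : 𝒜} (hL' : IsKerL c β dp L' PL') (A : 𝒜) :
    star (A * (1 - PL')) * (A * (1 - PL')) ≤ ‖A‖ ^ 2 • (1 - PL') := by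
  have e5 : star (A * (1 - PL')) * (A * (1 - PL'))
      = star (1 - PL') * (star A * A) * (1 - PL') := by rw [star_mul]; noncomm_ring
  rw [e5]
  refine (CStarAlgebra.star_left_conjugate_le_norm_smul (IsSelfAdjoint.star_mul_self _)).trans ?_
  rw [hL'.compl_sa, hL'.compl_idem, CStarRing.norm_star_mul_self, ← pow_two]

/-- the constant of (R1) -/
noncomputable def CR (n : ℕ) (γ CB : ℝ) : ℝ :=
  Real.exp 3 * n.factorial / γ * (2 + 8 * 256 ^ n * C1 (4 * n + 1) γ CB)

lemma CR_nonneg (n : ℕ) {γ CB : ℝ} (hγ : 0 < γ) (hCB : 0 ≤ CB) : 0 ≤ CR n γ CB := by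
  have := C1_nonneg (4 * n + 1) hγ hCB
  unfold CR; positivity

/-- **(R1) for quasi-local operators**: `A P_Z = 0`, `‖A‖ ≤ D`, `A` is approximated within
`D 2^{-(4n+1) l}` by operators which only see the orbitals of degree `< 2^l`. -/
theorem Geo.R1q (h : Geo c deg β dp P γ) (hinj : Function.Injective dp) {CB : ℝ}
    (hCB : 0 ≤ CB) (hB : ∀ p, ‖pr c (β p)‖ ^ 2 ≤ CB * (dp p + 1))
    {PL : ℕ → 𝒜} (hPL : ∀ L, IsKerL c β dp L (PL L)) (n : ℕ)
    {A : 𝒜} {D : ℝ} (hAP : A * P = 0) (hA : ‖A‖ ≤ D) {App : ℕ → 𝒜}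
    (hloc : ∀ l, Loc c (low deg (2 ^ l)) (App l))
    (happ : ∀ l, ‖A - App l‖ ≤ D / ((2 : ℝ) ^ l) ^ (4 * n + 1)) :
    star A * A ≤ HW c β (fun p => CR n γ CB * D ^ 2 / ((dp p : ℝ) + 1) ^ n) := by
  have hγ := h.pos
  have hD : 0 ≤ D := (norm_nonneg _).trans hA
  have hC1 := C1_nonneg (4 * n + 1) hγ hCB
  obtain ⟨N, hN⟩ : ∃ N : ℕ, ∀ p, dp p < 16 ^ N := by
    refine ⟨Finset.univ.sup dp, fun p => ?_⟩
    exact (Finset.le_sup (f := dp) (Finset.mem_univ p)).trans_lt
      (Nat.lt_pow_self (by norm_num))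
  -- decomposition
  set x : ℕ → 𝒜 := fun l => Nat.casesOn l (A * (1 - PL 1))
    (fun l => A * (PL (16 ^ l) - PL (16 ^ (l + 1)))) with hx
  have hx0 : x 0 = A * (1 - PL 1) := rfl
  have hxs : ∀ l, x (l + 1) = A * (PL (16 ^ l) - PL (16 ^ (l + 1))) := fun l => rfl
  have hsum : ∀ K : ℕ, ∑ l ∈ Finset.range (K + 1), x l = A * (1 - PL (16 ^ K)) := by
    intro K
    induction K with
    | zero => simp [hx0]
    | succ K ih => rw [Finset.sum_range_succ, ih, hxs, ← mul_add]; congr 1; abel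
  have hAN : A * PL (16 ^ N) = 0 := by
    rw [← (hPL (16 ^ N)).ker_mul h.ker hN, ← mul_assoc, hAP, zero_mul]
  have hA' : ∑ l ∈ Finset.range (N + 1), x l = A := by
    rw [hsum, mul_sub, mul_one, hAN, sub_zero]
  have h1 := star_sum_mul_le (N + 1) x
  rw [hA'] at h1
  -- the pieces
  have hp0 : star (x 0) * x 0 ≤ HW c β
      (fun p => D ^ 2 * (Real.exp 2 / γ) * Real.exp (-2 * dp p / (1 : ℝ))) := by
    rw [hx0]
    refine (first_le (hPL 1) A).trans ?_
    refine (smul_le_smul' (by positivity) (h.one_sub_le one_pos (hPL 1))).trans ?_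
    rw [smul_smul, HW_smul]
    refine HW_mono _ _ fun p => ?_
    have : (-2 * (dp p : ℝ) / ((1 : ℕ) : ℝ) ^ 2) = -2 * dp p / 1 := by norm_num
    rw [this]
    gcongr
  have hps : ∀ l, star (x (l + 1)) * x (l + 1) ≤ HW c β
      (fun p => (C1 (4 * n + 1) γ CB * D ^ 2 / ((2 : ℝ) ^ l) ^ (2 * (4 * n + 1))) *
        (Real.exp 2 / γ) * Real.exp (-2 * dp p / (256 : ℝ) ^ (l + 1))) := by
    intro l
    rw [hxs]
    refine (piece_le (Nat.pow_le_pow_right (by norm_num) (Nat.le_succ l)) (hPL _) (hPL _) A).trans ?_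
    refine (smul_le_smul' (by positivity) (h.one_sub_le (by positivity) (hPL _))).trans ?_
    rw [smul_smul, HW_smul]
    refine HW_mono _ _ fun p => ?_
    have e : ((16 ^ (l + 1) : ℕ) : ℝ) ^ 2 = (256 : ℝ) ^ (l + 1) := by
      push_cast
      rw [← pow_mul, mul_comm, pow_mul]; norm_num
    rw [e]
    have hk : IsKerL c β dp ((2 ^ l) ^ 4) (PL (16 ^ l)) := by
      have : (2 ^ l) ^ 4 = 16 ^ l := by rw [← pow_mul, mul_comm, pow_mul]; norm_num
      rw [this]; exact hPL _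
    have hh := h.norm_mul_PL hinj hCB hB (4 * n + 1) (q := 2 ^ l) Nat.one_le_two_pow hk hAP hA
      (hloc l) (by push_cast; exact happ l)
    push_cast at hh
    gcongr
  -- collect
  have h2 : star A * A ≤ HW c β (fun p => ∑ l ∈ Finset.range (N + 1), (2 : ℝ) ^ (l + 1) *
      (Nat.casesOn (motive := fun _ => ℝ) l
        (D ^ 2 * (Real.exp 2 / γ) * Real.exp (-2 * dp p / (1 : ℝ)))
        (fun l => (C1 (4 * n + 1) γ CB * D ^ 2 / ((2 : ℝ) ^ l) ^ (2 * (4 * n + 1))) *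
          (Real.exp 2 / γ) * Real.exp (-2 * dp p / (256 : ℝ) ^ (l + 1))))) := by
    rw [← HW_sum]
    refine h1.trans (Finset.sum_le_sum fun l _ => ?_)
    rw [← HW_smul]
    refine smul_le_smul' (by positivity) ?_
    rcases l with _ | l
    · exact hp0
    · exact hps l
  refine h2.trans (HW_mono _ _ fun p => ?_)
  rw [Finset.sum_range_succ']
  set d : ℝ := (dp p : ℝ) with hd
  have hd0 : 0 ≤ d := Nat.cast_nonneg _
  have hd1 : 0 < (d + 1) ^ n := by positivity
  simp only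
  -- first term
  have t0 : (2 : ℝ) ^ (0 + 1) * (D ^ 2 * (Real.exp 2 / γ) * Real.exp (-2 * d / 1))
      ≤ 2 * (D ^ 2 * (Real.exp 2 / γ) * (Real.exp 1 * n.factorial / (d + 1) ^ n)) := by
    have := exp_weight_le n (X := 1) le_rfl hd0
    rw [one_pow, mul_one] at this
    have e : (2 : ℝ) ^ (0 + 1) = 2 := by norm_num
    rw [e]
    gcongr
  have ts : ∀ l ∈ Finset.range N, (2 : ℝ) ^ (l + 1 + 1) *
      ((C1 (4 * n + 1) γ CB * D ^ 2 / ((2 : ℝ) ^ l) ^ (2 * (4 * n + 1))) *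
          (Real.exp 2 / γ) * Real.exp (-2 * d / (256 : ℝ) ^ (l + 1)))
      ≤ (4 * 256 ^ n * (C1 (4 * n + 1) γ CB * D ^ 2 * (Real.exp 2 / γ) *
        (Real.exp 1 * n.factorial / (d + 1) ^ n))) * (1 / 2) ^ l := by
    intro l _
    have h3 := exp_weight_le n (X := (256 : ℝ) ^ (l + 1)) (one_le_pow₀ (by norm_num)) hd0
    have h4 : (2 : ℝ) ^ (l + 1 + 1) *
        ((C1 (4 * n + 1) γ CB * D ^ 2 / ((2 : ℝ) ^ l) ^ (2 * (4 * n + 1))) *
          (Real.exp 2 / γ) * Real.exp (-2 * d / (256 : ℝ) ^ (l + 1)))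
        ≤ (2 : ℝ) ^ (l + 1 + 1) *
        ((C1 (4 * n + 1) γ CB * D ^ 2 / ((2 : ℝ) ^ l) ^ (2 * (4 * n + 1))) *
          (Real.exp 2 / γ) * (Real.exp 1 * n.factorial * ((256 : ℝ) ^ (l + 1)) ^ n / (d + 1) ^ n)) := by
      gcongr
    refine h4.trans (le_of_eq ?_)
    have e1 : ((256 : ℝ) ^ (l + 1)) ^ n = 256 ^ n * ((2 : ℝ) ^ l) ^ (8 * n) := by
      have : (256 : ℝ) = 2 ^ 8 := by norm_num
      rw [this]
      simp only [← pow_mul, ← pow_add]
      congr 1; ring
    have e2 : ((2 : ℝ) ^ l) ^ (2 * (4 * n + 1)) = ((2 : ℝ) ^ l) ^ (8 * n) * ((2 : ℝ) ^ l * (2:ℝ) ^ l) := by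
      rw [← pow_two ((2:ℝ) ^ l), ← pow_add]; congr 1; ring
    have e3 : (2 : ℝ) ^ (l + 1 + 1) = 4 * 2 ^ l := by rw [pow_succ, pow_succ]; ring
    have e4 : (1 / 2 : ℝ) ^ l = 1 / 2 ^ l := by rw [div_pow, one_pow]
    rw [e1, e2, e3, e4]
    have p1 : (0:ℝ) < (2 : ℝ) ^ l := by positivity
    have p2 : (0:ℝ) < ((2 : ℝ) ^ l) ^ (8 * n) := by positivity
    field_simp
  have hgeo : ∑ l ∈ Finset.range N, (1 / 2 : ℝ) ^ l ≤ 2 := by
    have := geom_sum_eq (x := (1/2 : ℝ)) (by norm_num) N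
    rw [this]
    have p : (0:ℝ) ≤ (1 / 2) ^ N := by positivity
    rw [div_le_iff_of_neg (by norm_num)]
    linarith
  have hsumle := Finset.sum_le_sum ts
  rw [← Finset.mul_sum] at hsumle
  have hfin : (4 * 256 ^ n * (C1 (4 * n + 1) γ CB * D ^ 2 * (Real.exp 2 / γ) *
        (Real.exp 1 * n.factorial / (d + 1) ^ n))) * ∑ l ∈ Finset.range N, (1 / 2 : ℝ) ^ l
      ≤ (4 * 256 ^ n * (C1 (4 * n + 1) γ CB * D ^ 2 * (Real.exp 2 / γ) *
        (Real.exp 1 * n.factorial / (d + 1) ^ n))) * 2 := by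
    gcongr
  refine (add_le_add (hsumle.trans hfin) t0).trans (le_of_eq ?_)
  unfold CR
  have e5 : Real.exp 3 = Real.exp 2 * Real.exp 1 := by rw [← Real.exp_add]; norm_num
  rw [e5]
  field_simp
  ring

end Crest.Agent.R340.Thin565
end

-- ▼ part R340/Thin10_565
section

/-!
# R340 (helper565), thinning 10: (R1) on Fock space, any geometry, any frame
-/

set_option autoImplicit false
set_option linter.unusedSectionVars false

open scoped ComplexOrder

namespace Crest.Agent.R340.Thin565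

/-! ### rotated frames, abstract -/

section conj

variable {𝒜 : Type*} [CStarAlgebra 𝒜] [PartialOrder 𝒜] [StarOrderedRing 𝒜]
variable {ι : Type*} [DecidableEq ι] [Fintype ι] {κ : Type*} [Fintype κ]
variable {c : ι → 𝒜} {deg : ι → ℕ} {β : κ → ι → ι → ℂ} {dp : κ → ℕ} {P : 𝒜} {γ : ℝ}

lemma norm_conj_unitary {U : 𝒜} (hU : star U * U = 1) (A : 𝒜) :
    ‖star U * A * U‖ ≤ ‖A‖ := by
  have h1 : ‖U‖ ≤ 1 := by
    have : ‖U‖ * ‖U‖ ≤ 1 := by rw [← CStarRing.norm_star_mul_self, hU]; exact norm_one_le'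
    nlinarith [norm_nonneg U]
  calc ‖star U * A * U‖ ≤ ‖star U * A‖ * ‖U‖ := norm_mul_le _ _
    _ ≤ ‖star U * A‖ * 1 := mul_le_mul_of_nonneg_left h1 (norm_nonneg _)
    _ ≤ ‖star U‖ * ‖A‖ := by rw [mul_one]; exact norm_mul_le _ _
    _ ≤ 1 * ‖A‖ := by rw [norm_star]; exact mul_le_mul_of_nonneg_right h1 (norm_nonneg _)
    _ = ‖A‖ := one_mul _

lemma loc_conj {U : 𝒜} (hU : star U * U = 1) {S : Set ι} {B : 𝒜}
    (hloc : ∀ m, m ∉ S → Commute B (U * c m * star U) ∧ Commute B (U * star (c m) * star U)) :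
    Loc c S (star U * B * U) := by
  have key : ∀ X : 𝒜, Commute B (U * X * star U) → Commute (star U * B * U) X := by
    intro X h
    show star U * B * U * X = X * (star U * B * U)
    have e1 : star U * (B * (U * X * star U)) * U = star U * B * U * X := by
      calc star U * (B * (U * X * star U)) * U = star U * B * U * X * (star U * U) := by
            noncomm_ring
        _ = _ := by rw [hU, mul_one]
    have e2 : star U * ((U * X * star U) * B) * U = X * (star U * B * U) := by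
      calc star U * ((U * X * star U) * B) * U = (star U * U) * X * (star U * B * U) := by
            noncomm_ring
        _ = _ := by rw [hU, one_mul]
    rw [← e1, h.eq, e2]
  intro m hm
  exact ⟨key _ (hloc m hm).1, key _ (hloc m hm).2⟩

/-- `(R1)` in the frame rotated by a unitary `U` which commutes with the zero mode projection -/
theorem Geo.R1q_conj (h : Geo c deg β dp P γ) (hinj : Function.Injective dp) {CB : ℝ}
    (hCB : 0 ≤ CB) (hB : ∀ p, ‖pr c (β p)‖ ^ 2 ≤ CB * (dp p + 1))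
    {PL : ℕ → 𝒜} (hPL : ∀ L, IsKerL c β dp L (PL L)) (n : ℕ)
    {U : 𝒜} (hU : star U * U = 1) (hU' : U * star U = 1) (hUP : U * P = P * U)
    {A : 𝒜} {D : ℝ} (hAP : A * P = 0) (hA : ‖A‖ ≤ D) {App : ℕ → 𝒜}
    (hloc : ∀ l m, 2 ^ l ≤ deg m → Commute (App l) (U * c m * star U) ∧
      Commute (App l) (U * star (c m) * star U))
    (happ : ∀ l, ‖A - App l‖ ≤ D / ((2 : ℝ) ^ l) ^ (4 * n + 1)) :
    star A * A ≤ ∑ p, (CR n γ CB * D ^ 2 / ((dp p : ℝ) + 1) ^ n) •
      (star (U * pr c (β p) * star U) * (U * pr c (β p) * star U)) := by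
  have h1 := h.R1q hinj hCB hB hPL n (A := star U * A * U) (D := D)
    (App := fun l => star U * App l * U) (by
      rw [mul_assoc, mul_assoc, hUP, ← mul_assoc A, hAP]; simp)
    ((norm_conj_unitary hU A).trans hA) (fun l => loc_conj hU (fun m hm => hloc l m (by
      simpa [low] using hm)))
    (fun l => by
      have e : star U * A * U - star U * App l * U = star U * (A - App l) * U := by noncomm_ring
      rw [e]
      exact (norm_conj_unitary hU _).trans (happ l))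
  have h2 := star_left_conjugate_le_conjugate h1 (star U)
  rw [star_star] at h2
  have e1 : U * (star (star U * A * U) * (star U * A * U)) * star U = star A * A := by
    rw [star_mul, star_mul, star_star]
    calc U * (star U * (star A * U) * (star U * A * U)) * star U
        = (U * star U) * star A * (U * star U) * A * (U * star U) := by noncomm_ring
      _ = _ := by rw [hU']; simp
  rw [e1] at h2
  refine h2.trans (le_of_eq ?_)
  unfold HW
  rw [Finset.mul_sum, Finset.sum_mul]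
  refine Finset.sum_congr rfl fun p _ => ?_
  rw [mul_smul_comm, smul_mul_assoc]
  congr 1
  rw [star_mul, star_mul, star_star]
  calc U * (star (pr c (β p)) * pr c (β p)) * star U
      = U * star (pr c (β p)) * 1 * pr c (β p) * star U := by noncomm_ring
    _ = U * star (pr c (β p)) * (star U * U) * pr c (β p) * star U := by rw [hU]
    _ = _ := by noncomm_ring

end conj

/-! ### Fock space -/

open Fock649 GG467

section fock

variable {ι : Type*} [LinearOrder ι] [Fintype ι] {κ : Type*} [Fintype κ]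

theorem car_fock : CARel (c : ι → Op ι) where
  anti := c_c
  canti i j := by rw [star_c]; exact c_d i j

/-- coefficients of the pair annihilator -/
noncomputable def bet (w : Matrix ι ι ℂ) (i j : ι) : ℂ :=
  (Real.sqrt 2 : ℂ)⁻¹ * (starRingEnd ℂ) (w j i)

theorem pa_eq_pr (w : Matrix ι ι ℂ) : pa w = pr c (bet w) := by
  unfold pa pr bet
  rw [Finset.sum_comm (s := (Finset.univ : Finset ι)) (f := fun i j =>
    ((Real.sqrt 2 : ℂ)⁻¹ * (starRingEnd ℂ) (w j i)) • ((c i : Op ι) * c j)), Finset.smul_sum]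
  refine Finset.sum_congr rfl fun i _ => ?_
  rw [Finset.smul_sum]
  refine Finset.sum_congr rfl fun j _ => ?_
  rw [smul_smul]

theorem bet_ne_zero {w : Matrix ι ι ℂ} {i j : ι} (h : bet w i j ≠ 0) : w j i ≠ 0 := by
  intro h0
  apply h
  unfold bet
  rw [h0, map_zero, mul_zero]

/-- kernel projections exist on Fock space -/
theorem isKer_PK {σ : Type*} [Fintype σ] (B : σ → Op ι) : IsKer B (PK (hs B)) where
  sa := star_PK _
  idem := PK_mul_self _
  ann := mul_PK_hs B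
  max := by
    intro A hA
    refine Op.ext fun v => ?_
    rw [mul_ap]
    refine pj_of_mem (mem_ker_hs.2 fun p => ?_)
    rw [← mul_ap, hA p, zero_ap]

/-- kernel projection of the pair energies of degree `< L` -/
noncomputable def PLf (w : κ → Matrix ι ι ℂ) (dp : κ → ℕ) (L : ℕ) : Op ι :=
  PK (hs fun p : {p : κ // dp p < L} => pa (w p.1))

theorem isKerL_PLf (w : κ → Matrix ι ι ℂ) (dp : κ → ℕ) (L : ℕ) :
    IsKerL c (fun p => bet (w p)) dp L (PLf w dp L) := by
  have h := isKer_PK (fun p : {p : κ // dp p < L} => pa (w p.1))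
  unfold IsKerL PLf
  simp only [← pa_eq_pr]
  exact h

/-- norm of a normalised pair annihilator of fixed degree -/
theorem norm_pa_sq_le_deg {deg : ι → ℕ} (hinj : Function.Injective deg) {w : Matrix ι ι ℂ} {d : ℕ}
    (hsupp : ∀ i j, w i j ≠ 0 → deg i + deg j = d) (hw : ∑ i, ∑ j, ‖w i j‖ ^ 2 ≤ 1) :
    ‖pa w‖ ^ 2 ≤ 1 / 2 * (d + 1) := by
  refine (Prof482.norm_pa_sq_le w).trans ?_
  have h1 : ∀ i, ∑ j, ‖w i j‖ = if deg i ≤ d then ∑ j, ‖w i j‖ else 0 := by
    intro i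
    split_ifs with h
    · rfl
    · refine Finset.sum_eq_zero fun j _ => ?_
      by_contra hne
      have := hsupp i j (fun h0 => hne (by rw [h0, norm_zero]))
      omega
  have h2 : ∀ i, (∑ j, ‖w i j‖) ^ 2 ≤ ∑ j, ‖w i j‖ ^ 2 := by
    intro i
    by_cases hex : ∃ j0, w i j0 ≠ 0
    · obtain ⟨j0, hj0⟩ := hex
      have hz : ∀ j ∈ Finset.univ, j ≠ j0 → ‖w i j‖ = 0 := by
        intro j _ hj
        by_contra hne
        have e1 := hsupp i j (fun h0 => hne (by rw [h0, norm_zero]))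
        have e2 := hsupp i j0 hj0
        exact hj (hinj (by omega))
      rw [Finset.sum_eq_single j0 hz (by simp)]
      exact Finset.single_le_sum (f := fun j => ‖w i j‖ ^ 2) (fun j _ => by positivity)
        (Finset.mem_univ j0)
    · push Not at hex
      simp [hex]
  have h3 : (∑ i, ∑ j, ‖w i j‖) ^ 2 ≤ (d + 1) * ∑ i, ∑ j, ‖w i j‖ ^ 2 := by
    have e1 : ∑ i, ∑ j, ‖w i j‖ = ∑ i ∈ Finset.univ.filter (fun i => deg i ≤ d), ∑ j, ‖w i j‖ := by
      rw [Finset.sum_filter]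
      exact Finset.sum_congr rfl fun i _ => h1 i
    rw [e1]
    refine sq_sum_le_card_mul_sum_sq.trans ?_
    have hcard : ((Finset.univ.filter (fun i => deg i ≤ d)).card : ℝ) ≤ d + 1 := by
      have : (Finset.univ.filter (fun i => deg i ≤ d)).card ≤ (Finset.range (d + 1)).card := by
        refine Finset.card_le_card_of_injOn deg ?_ (fun a _ b _ h => hinj h)
        intro i hi
        have hi' := (Finset.mem_filter.mp (Finset.mem_coe.mp hi)).2
        exact Finset.mem_coe.mpr (Finset.mem_range.mpr (by omega))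
      rw [Finset.card_range] at this
      exact_mod_cast this
    have hs1 : ∑ i ∈ Finset.univ.filter (fun i => deg i ≤ d), (∑ j, ‖w i j‖) ^ 2
        ≤ ∑ i, ∑ j, ‖w i j‖ ^ 2 := by
      refine (Finset.sum_le_sum fun i _ => h2 i).trans ?_
      exact Finset.sum_le_sum_of_subset_of_nonneg (Finset.filter_subset _ _)
        (fun i _ _ => Finset.sum_nonneg fun j _ => by positivity)
    exact mul_le_mul hcard hs1 (Finset.sum_nonneg fun i _ => by positivity) (by positivity)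
  have h4 : (d + 1 : ℝ) * ∑ i, ∑ j, ‖w i j‖ ^ 2 ≤ d + 1 :=
    mul_le_of_le_one_right (by positivity) hw
  linarith

/-- the geometry on Fock space -/
theorem geo_fock {w : κ → Matrix ι ι ℂ} {deg : ι → ℕ} {dp : κ → ℕ} (hdeg : Function.Injective deg)
    (hsupp : ∀ p i j, w p i j ≠ 0 → deg i + deg j = dp p) {γ : ℝ} (hγ : 0 < γ)
    (hgap : γ • (1 - PK (hs fun p => pa (w p))) ≤ hs fun p => pa (w p)) :
    Geo c deg (fun p => bet (w p)) dp (PK (hs fun p => pa (w p))) γ where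
  car := car_fock
  inj := hdeg
  supp p i j hb := by
    rw [add_comm]; exact hsupp p j i (bet_ne_zero hb)
  ker := by
    have h := isKer_PK (fun p => pa (w p))
    simp only [← pa_eq_pr]
    exact h
  pos := hγ
  gap := by
    have e : HW c (fun p => bet (w p)) (fun _ => 1) = hs fun p => pa (w p) := by
      unfold HW hs
      refine Finset.sum_congr rfl fun p _ => ?_
      show (1 : ℝ) • (star (pr c (bet (w p))) * pr c (bet (w p))) = star (pa (w p)) * pa (w p)
      rw [one_smul, pa_eq_pr]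
    rw [e]; exact hgap

/-- **(R1) on Fock space**, any geometry, frame rotated by `U`. -/
theorem R1_fock {w : κ → Matrix ι ι ℂ} {deg : ι → ℕ} {dp : κ → ℕ} (hdeg : Function.Injective deg)
    (hdp : Function.Injective dp) (hsupp : ∀ p i j, w p i j ≠ 0 → deg i + deg j = dp p)
    (hw : ∀ p, ∑ i, ∑ j, ‖w p i j‖ ^ 2 ≤ 1) {γ : ℝ} (hγ : 0 < γ)
    (hgap : γ • (1 - PK (hs fun p => pa (w p))) ≤ hs fun p => pa (w p)) (n : ℕ)
    {U : Op ι} (hU : star U * U = 1) (hU' : U * star U = 1)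
    (hUP : U * PK (hs fun p => pa (w p)) = PK (hs fun p => pa (w p)) * U)
    {A : Op ι} {D : ℝ} (hAP : A * PK (hs fun p => pa (w p)) = 0) (hA : ‖A‖ ≤ D) {App : ℕ → Op ι}
    (hloc : ∀ l m, 2 ^ l ≤ deg m → Commute (App l) (U * c m * star U) ∧
      Commute (App l) (U * d m * star U))
    (happ : ∀ l, ‖A - App l‖ ≤ D / ((2 : ℝ) ^ l) ^ (4 * n + 1)) :
    star A * A ≤ ∑ p, (CR n γ (1 / 2) * D ^ 2 / ((dp p : ℝ) + 1) ^ n) •
      (star (U * pa (w p) * star U) * (U * pa (w p) * star U)) := by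
  have h := (geo_fock hdeg hsupp hγ hgap).R1q_conj hdp (CB := 1 / 2) (by norm_num)
    (fun p => by
      rw [← pa_eq_pr]; exact norm_pa_sq_le_deg hdeg (hsupp p) (hw p))
    (isKerL_PLf w dp) n hU hU' hUP hAP hA (fun l m hm => by
      rw [star_c]; exact hloc l m hm) happ
  simpa only [← pa_eq_pr] using h


end fock

/-! ### the closed sphere -/

section sphere

open Bridge649 Crest.MathPhysics.Laughlin Prof385 PV341

theorem wM_supp {Q : ℕ} {p : Fin (2 * Q - 1)} {i j : Fin (Q + 1)} (h : wM Q p i j ≠ 0) :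
    (i : ℕ) + (j : ℕ) = (p : ℕ) + 1 := by
  by_contra hne
  apply h
  rw [wM_apply]
  unfold pairVec
  rw [if_neg hne]; simp

theorem sum_wM_sq (Q : ℕ) (p : Fin (2 * Q - 1)) : ∑ i, ∑ j, ‖wM Q p i j‖ ^ 2 ≤ 1 := by
  have hQ : 1 ≤ Q := by
    have := p.2
    omega
  have hp := p.2
  set b : ℕ := (p : ℕ) + 1 with hb
  have hpn : 2 * pairNorm Q b = mom Q b 2 := two_pairNorm_eq_mom Q p hQ
  have hmom0 : 0 ≤ mom Q b 2 := by
    unfold mom
    refine Finset.sum_nonneg fun i _ => ?_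
    unfold aa
    positivity
  -- each row
  have h1 : ∀ i : Fin (Q + 1), ∑ j, ‖wM Q p i j‖ ^ 2
      ≤ if (i : ℕ) ≤ b then aa Q b i * xx b i ^ 2 / mom Q b 2 else 0 := by
    intro i
    by_cases hex : ∃ j0 : Fin (Q + 1), (i : ℕ) + j0 = b
    · obtain ⟨j0, hj0⟩ := hex
      have hz : ∀ j ∈ Finset.univ, j ≠ j0 → ‖wM Q p i j‖ ^ 2 = 0 := by
        intro j _ hj
        have : wM Q p i j = 0 := by
          by_contra hne
          have := wM_supp hne
          exact hj (Fin.ext (by omega))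
        rw [this]; simp
      rw [Finset.sum_eq_single j0 hz (by simp), if_pos (by omega), wM_apply]
      unfold pairVec
      rw [if_pos (by omega), Complex.norm_real, Real.norm_eq_abs, sq_abs, div_pow, mul_pow,
        Real.sq_sqrt (by positivity), Real.sq_sqrt (by rw [← hb, hpn]; exact hmom0), ← hb, hpn]
      refine le_of_eq ?_
      congr 1
      unfold aa xx
      have e : b - (i : ℕ) = j0 := by omega
      rw [e]
      have e2 : (b : ℝ) = (i : ℝ) + (j0 : ℝ) := by rw [← hj0]; push_cast; ring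
      rw [e2]
      ring
    · have hz : ∑ j, ‖wM Q p i j‖ ^ 2 = 0 := by
        refine Finset.sum_eq_zero fun j _ => ?_
        have : wM Q p i j = 0 := by
          by_contra hne
          exact hex ⟨j, wM_supp hne⟩
        rw [this]; simp
      rw [hz]
      split_ifs
      · unfold aa; positivity
      · exact le_rfl
  refine (Finset.sum_le_sum fun i _ => h1 i).trans ?_
  have h2 : ∑ i : Fin (Q + 1), (if (i : ℕ) ≤ b then aa Q b i * xx b i ^ 2 / mom Q b 2 else 0)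
      = ∑ i ∈ Finset.range (Q + 1), (if i ≤ b then aa Q b i * xx b i ^ 2 / mom Q b 2 else 0) :=
    Fin.sum_univ_eq_sum_range
      (fun i : ℕ => if i ≤ b then aa Q b i * xx b i ^ 2 / mom Q b 2 else 0) (Q + 1)
  rw [h2, ← Finset.sum_filter]
  have h3 : ∑ i ∈ (Finset.range (Q + 1)).filter (fun i => i ≤ b), aa Q b i * xx b i ^ 2 / mom Q b 2
      ≤ ∑ i ∈ Finset.range (b + 1), aa Q b i * xx b i ^ 2 / mom Q b 2 := by
    refine Finset.sum_le_sum_of_subset_of_nonneg ?_ ?_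
    · intro i hi
      rw [Finset.mem_filter] at hi
      exact Finset.mem_range.mpr (by omega)
    · intro i _ _
      unfold aa; positivity
  refine h3.trans ?_
  rw [← Finset.sum_div]
  exact div_self_le_one _


end sphere

end Crest.Agent.R340.Thin565
end

-- ▼ part R340/Thin11_565
section

/-!
# R340 (helper565), thinning 11: (R1) on the closed sphere about an arbitrary centre `g`
(names of `Bridge_320` and `Rot3_303`)
-/

set_option autoImplicit false
set_option linter.unusedSectionVars false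

namespace Crest.Agent.R340.Thin565

open Matrix Crest.Agent.R340.Fock649 Crest.Agent.R340.GG467 Crest.Agent.R340.Rot303
  Crest.Agent.R340.CS809 Crest.Agent.R340.Gam303 Crest.Agent.R340.Br320

theorem wM320_supp {Q : ℕ} {p : Fin (2 * Q - 1)} {i j : Fin (Q + 1)} (h : wM Q p i j ≠ 0) :
    (i : ℕ) + (j : ℕ) = (p : ℕ) + 1 := wM_supp h

theorem sum_wM320_sq (Q : ℕ) (p : Fin (2 * Q - 1)) : ∑ i, ∑ j, ‖wM Q p i j‖ ^ 2 ≤ 1 :=
  sum_wM_sq Q p

theorem PK_comm_Rg {Q : ℕ} {g : Matrix (Fin 2) (Fin 2) ℂ} (hg : g * gᴴ = 1) :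
    Rg Q g * PK (HH Q) = PK (HH Q) * Rg Q g := by
  refine (commute_PK (A := HH Q) (T := Rg Q g) (Rg_mul_HH hg) ?_)
  have h1 : star (Rg Q g) * Rg Q g = 1 := star_Rg_mul hg
  have h2 : Rg Q g * star (Rg Q g) = 1 := Rg_mul_star hg
  calc star (Rg Q g) * HH Q = star (Rg Q g) * (HH Q * Rg Q g) * star (Rg Q g) := by
        rw [mul_assoc, mul_assoc, h2, mul_one]
    _ = star (Rg Q g) * (Rg Q g * HH Q) * star (Rg Q g) := by rw [Rg_mul_HH hg]
    _ = HH Q * star (Rg Q g) := by rw [← mul_assoc, h1, one_mul]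

/-- **(R1) on the closed sphere about the centre `g`**. -/
theorem R1_group (Q : ℕ) {γ : ℝ} (hγ : 0 < γ)
    (hgap : γ • (1 - PK (HH Q)) ≤ HH Q) (n : ℕ)
    {g : Matrix (Fin 2) (Fin 2) ℂ} (hg : g * gᴴ = 1)
    {A : Op (Fin (Q + 1))} {D : ℝ} (hAP : A * PK (HH Q) = 0) (hA : ‖A‖ ≤ D)
    {App : ℕ → Op (Fin (Q + 1))}
    (hloc : ∀ l (m : Fin (Q + 1)), 2 ^ l ≤ (m : ℕ) →
      Commute (App l) (an (mv (sp Q g) (e m))) ∧ Commute (App l) (cr (mv (sp Q g) (e m))))
    (happ : ∀ l, ‖A - App l‖ ≤ D / ((2 : ℝ) ^ l) ^ (4 * n + 1)) :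
    star A * A ≤ ∑ p : Fin (2 * Q - 1), (CR n γ (1 / 2) * D ^ 2 / ((p : ℝ) + 2) ^ n) •
      (star (Bg Q g p) * Bg Q g p) := by
  have h := R1_fock (w := wM Q) (deg := fun i : Fin (Q + 1) => (i : ℕ))
    (dp := fun p : Fin (2 * Q - 1) => (p : ℕ) + 1) Fin.val_injective
    (fun a b h => Fin.ext (by simpa using h)) (fun p i j hne => wM320_supp hne)
    (sum_wM320_sq Q) hγ hgap n (U := Rg Q g) (star_Rg_mul hg) (Rg_mul_star hg) (PK_comm_Rg hg)
    hAP hA (fun l m hm => by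
      have h1 : Rg Q g * c m * star (Rg Q g) = an (mv (sp Q g) (e m)) := by
        rw [← an_e m]; exact cj_an hg (e m)
      have h2 : Rg Q g * d m * star (Rg Q g) = cr (mv (sp Q g) (e m)) := by
        rw [← cr_e m]; exact cj_cr hg (e m)
      rw [h1, h2]
      exact hloc l m hm) happ
  refine h.trans (le_of_eq ?_)
  refine Finset.sum_congr rfl fun p _ => ?_
  have e1 : (((p : ℕ) + 1 : ℕ) : ℝ) + 1 = (p : ℝ) + 2 := by push_cast; ring
  rw [e1]
  rfl


end Crest.Agent.R340.Thin565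
end

-- ▼ part R340/ZsBp_725

/-!
R340 (S0532), helper725: the zero modes of `HH Q` (Br320.Bp) are `Zs (nu0 Q) Q` (Geo986).

* `Bp_eq_bz` : `Bp Q p = (√(pairNorm Q (p+1)))⁻¹ • bz (nu0 Q) Q (p+1)`;
* `mem_Zs_nu0_iff` : `ψ ∈ Zs (nu0 Q) Q ↔ ∀ p, Bp Q p ψ = 0`;
* `mem_Zn_nu0_iff` : `ψ ∈ Zn (nu0 Q) Q n ↔ (∀ p, Bp Q p ψ = 0) ∧ Nh ψ = n • ψ`.
-/

set_option autoImplicit false

open Finset

namespace Crest.Agent.R340.ZsBp725

open Crest.Agent.R340.Fock649 Crest.Agent.R340.Br320 Crest.Agent.R340.Geo986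
open Crest.Agent.R340.Peel596
open Crest.MathPhysics.Laughlin

/-- an antisymmetric double sum over ordered pairs -/
theorem sum_anti {ι : Type*} [Fintype ι] [LinearOrder ι] {M : Type*} [AddCommGroup M] [Module ℂ M]
    (F : ι → ι → M) (hs : ∀ i j, F i j = F j i) (hd : ∀ i, F i i = 0) :
    ∑ i, ∑ j, F i j = (2 : ℂ) • ∑ x ∈ univ.filter (fun x : ι × ι => x.1 < x.2), F x.1 x.2 := by
  classical
  have h1 : ∑ i, ∑ j, F i j = ∑ x : ι × ι, F x.1 x.2 := by
    rw [← univ_product_univ, sum_product]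
  have h2 : ∑ x : ι × ι, F x.1 x.2 =
      ∑ x ∈ univ.filter (fun x : ι × ι => x.1 < x.2), F x.1 x.2 +
        ∑ x ∈ univ.filter (fun x : ι × ι => x.2 < x.1), F x.1 x.2 := by
    rw [← sum_filter_add_sum_filter_not univ (fun x : ι × ι => x.1 < x.2)]
    congr 1
    symm
    apply sum_subset_zero_on_sdiff
    · intro x hx
      simp only [mem_filter, mem_univ, true_and] at hx ⊢
      exact not_lt.2 hx.le
    · intro x hx
      simp only [mem_sdiff, mem_filter, mem_univ, true_and, not_lt] at hx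
      have : x.1 = x.2 := le_antisymm hx.2 hx.1
      rw [this, hd]
    · intro x _; rfl
  have h3 : ∑ x ∈ univ.filter (fun x : ι × ι => x.2 < x.1), F x.1 x.2 =
      ∑ x ∈ univ.filter (fun x : ι × ι => x.1 < x.2), F x.1 x.2 := by
    refine sum_bij' (fun x _ => (x.2, x.1)) (fun x _ => (x.2, x.1)) ?_ ?_ ?_ ?_ ?_
    · intro x hx
      simp only [mem_filter, mem_univ, true_and] at hx ⊢
      exact hx
    · intro x hx
      simp only [mem_filter, mem_univ, true_and] at hx ⊢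
      exact hx
    · intro x _; rfl
    · intro x _; rfl
    · intro x _; exact hs _ _
  rw [h1, h2, h3, two_smul]

variable {Q : ℕ}

theorem pairNorm_pos (p : Fin (2 * Q - 1)) : 0 < pairNorm Q ((p : ℕ) + 1) := by
  have hp := p.2
  have hQ : 1 ≤ Q := by omega
  have h1 : (1 : ℝ) ≤ Q := by exact_mod_cast hQ
  have h2 : (((p : ℕ) + 1 : ℕ) : ℝ) < 2 * Q := by exact_mod_cast (by omega : (p : ℕ) + 1 < 2 * Q)
  have h3 : (0 : ℝ) < ((2 * Q).choose ((p : ℕ) + 1) : ℝ) := by
    exact_mod_cast Nat.choose_pos (by omega)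
  have h4 : (0 : ℝ) < (((p : ℕ) + 1 : ℕ) : ℝ) := by positivity
  unfold pairNorm
  apply div_pos
  · apply mul_pos (mul_pos h4 (by linarith)) h3
  · linarith

theorem nu0_inv (i : ℕ) : (nu0 Q i)⁻¹ = √(Q.choose i : ℝ) := by
  unfold nu0; rw [inv_inv]

theorem bcoef_nu0' (i j : ℕ) :
    bcoef (nu0 Q) i j = ((j : ℝ) - i) * (√(Q.choose i : ℝ) * √(Q.choose j : ℝ)) := by
  unfold bcoef
  rw [div_eq_mul_inv, mul_inv, nu0_inv, nu0_inv]

/-- `Bp` and `bz (nu0 Q)` -/
theorem Bp_eq_bz (p : Fin (2 * Q - 1)) :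
    Bp Q p = (((√(pairNorm Q ((p : ℕ) + 1)))⁻¹ : ℝ) : ℂ) • bz (nu0 Q) Q ((p : ℕ) + 1) := by
  unfold Bp pa
  rw [sum_anti]
  · rw [smul_smul]
    unfold bz pairs
    rw [smul_sum, smul_sum]
    have hsub : univ.filter (fun x : Fin (Q + 1) × Fin (Q + 1) => x.1 < x.2 ∧
        (x.1 : ℕ) + (x.2 : ℕ) = (p : ℕ) + 1) ⊆
        univ.filter (fun x : Fin (Q + 1) × Fin (Q + 1) => x.1 < x.2) := by
      intro x hx
      simp only [mem_filter, mem_univ, true_and] at hx ⊢
      exact hx.1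
    rw [← sum_subset hsub]
    · apply sum_congr rfl
      intro x hx
      simp only [mem_filter, mem_univ, true_and] at hx
      rw [smul_smul, smul_smul]
      congr 1
      rw [wM_apply, Complex.conj_ofReal]
      unfold pairVec
      rw [if_pos hx.2, bcoef_nu0']
      have h2 : (Real.sqrt 2 : ℂ) = ((Real.sqrt 2 : ℝ) : ℂ) := rfl
      rw [h2, ← Complex.ofReal_inv]
      have h3 : (2 : ℂ) = ((2 : ℝ) : ℂ) := by norm_num
      rw [h3, ← Complex.ofReal_mul, ← Complex.ofReal_mul, ← Complex.ofReal_mul]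
      congr 1
      have hn := pairNorm_pos p
      rw [Real.sqrt_mul (by norm_num : (0 : ℝ) ≤ 2)]
      try rw [Real.sqrt_mul (Nat.cast_nonneg _)]
      have hs2 : 0 < Real.sqrt 2 := by positivity
      have hsn : 0 < Real.sqrt (pairNorm Q ((p : ℕ) + 1)) := Real.sqrt_pos.2 hn
      have h22 : Real.sqrt 2 * Real.sqrt 2 = 2 := Real.mul_self_sqrt (by norm_num)
      field_simp
      rw [sq, h22]
    · intro x hx hx'
      simp only [mem_filter, mem_univ, true_and] at hx hx'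
      have hne : ¬ ((x.1 : ℕ) + (x.2 : ℕ) = (p : ℕ) + 1) := fun h => hx' ⟨hx, h⟩
      rw [wM_apply]
      unfold pairVec
      rw [if_neg hne]
      simp
  · intro i j
    rw [wM_apply, wM_apply]
    have h1 : pairVec Q p j i = - pairVec Q p i j := by
      unfold pairVec
      by_cases h : (i : ℕ) + j = p + 1
      · rw [if_pos h, if_pos (by omega : (j : ℕ) + i = p + 1)]
        rw [mul_comm ((Q.choose j : ℕ) : ℝ)]
        ring
      · rw [if_neg h, if_neg (by omega : ¬ ((j : ℕ) + i = p + 1))]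
        simp
    rw [h1, c_c_eq j i]
    simp
  · intro i
    have : (c i * c i : Op (Fin (Q + 1))) = 0 := by
      have h := c_c_eq (ι := Fin (Q + 1)) i i
      have h2 : (2 : ℂ) • (c i * c i : Op (Fin (Q + 1))) = 0 := by
        rw [two_smul]; nth_rewrite 1 [h]; simp
      rcases smul_eq_zero.1 h2 with h3 | h3
      · norm_num at h3
      · exact h3
    rw [this, smul_zero]

/-- **Zero modes.** -/
theorem mem_Zs_nu0_iff {ψ : Fk (Fin (Q + 1))} :
    ψ ∈ Zs (nu0 Q) Q ↔ ∀ p : Fin (2 * Q - 1), Bp Q p ψ = 0 := by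
  rw [mem_Zs]
  constructor
  · intro h p
    rw [Bp_eq_bz, smul_ap, h, smul_zero]
  · intro h p
    by_cases hp : 1 ≤ p ∧ p < 2 * Q
    · have h1 := h ⟨p - 1, by omega⟩
      rw [Bp_eq_bz, smul_ap] at h1
      have h2 : p - 1 + 1 = p := by omega
      simp only [h2] at h1
      rcases smul_eq_zero.1 h1 with h3 | h3
      · exfalso
        have hn := pairNorm_pos (Q := Q) ⟨p - 1, by omega⟩
        simp only [h2] at hn
        have : (√(pairNorm Q p))⁻¹ ≠ 0 := inv_ne_zero (Real.sqrt_pos.2 hn).ne'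
        exact this (by exact_mod_cast h3)
      · exact h3
    · have h0 : bz (nu0 Q) Q p = 0 := by
        apply bz_eq_zero_of_empty
        rcases Nat.lt_or_ge p (2 * Q) with h1 | h1
        · have hp0 : p = 0 := by
            by_contra hne
            exact hp ⟨by omega, h1⟩
          subst hp0
          refine eq_empty_of_forall_notMem fun x hx => ?_
          obtain ⟨h2, h3⟩ := mem_pairs.mp hx
          have h4 : (x.1 : ℕ) < x.2 := h2
          omega
        · exact pairs_eq_empty_of_ge h1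
      rw [h0, zero_ap]

theorem mem_Zn_nu0_iff {n : ℕ} {ψ : Fk (Fin (Q + 1))} :
    ψ ∈ Zn (nu0 Q) Q n ↔ (∀ p : Fin (2 * Q - 1), Bp Q p ψ = 0) ∧ Nh ψ = (n : ℂ) • ψ := by
  rw [mem_Zn, mem_Zs_nu0_iff]

/-- zero modes and the Hamiltonian -/
theorem mem_Zs_nu0_iff_HH {ψ : Fk (Fin (Q + 1))} : ψ ∈ Zs (nu0 Q) Q ↔ HH Q ψ = 0 := by
  rw [mem_Zs_nu0_iff]
  constructor
  · intro h
    unfold HH
    rw [sum_ap]
    apply sum_eq_zero
    intro p _
    rw [mul_ap, h p, map_zero]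
  · intro h p
    have h1 : (inner ℂ ψ (HH Q ψ) : ℂ) = ∑ p, (inner ℂ (Bp Q p ψ) (Bp Q p ψ) : ℂ) := by
      unfold HH
      rw [sum_ap, inner_sum]
      apply sum_congr rfl
      intro p _
      rw [mul_ap, inner_star_right]
    rw [h, inner_zero_right] at h1
    have h2 : ∑ p, ‖Bp Q p ψ‖ ^ 2 = 0 := by
      have h3 : ((∑ p, ‖Bp Q p ψ‖ ^ 2 : ℝ) : ℂ) = 0 := by
        rw [h1]
        push_cast
        apply sum_congr rfl
        intro p _
        rw [inner_self_eq_norm_sq_to_K]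
        norm_cast
      exact_mod_cast h3
    have h3 := (sum_eq_zero_iff_of_nonneg fun p _ => sq_nonneg _).1 h2 p (mem_univ p)
    exact norm_eq_zero.1 ((pow_eq_zero_iff two_ne_zero).1 h3)

end Crest.Agent.R340.ZsBp725
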