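import Crest.Agent.R340.J3b_421
import Crest.Agent.R340.DLk_482
import Crest.Agent.R340.Rot6_303
import Crest.Agent.R340.FI2_331
import Crest.Agent.R340.ZsBp_725_Mg
import Crest.Agent.R340.U6_856
import Crest.Agent.R340.AvgG_725
import Crest.Agent.R340.Defs_150
import Crest.Agent.R340.FX2_963

-- ▼ part R340/J3c_421
section

/-!
R340 (helper421): the `W`-part of the descending lemma on Fock space over `Fin (Q+1)`:
`J3c` (LOSS-W) and `J4c` ((R1) for the jump commutators `[B_g, W]`, averaged), literally the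
hypotheses `J3`, `J4` of `U4_856.Jump.Uf` with 482's instance.
-/

set_option autoImplicit false
set_option linter.unusedSectionVars false

namespace Crest.Agent.R340.J3421

open MeasureTheory Finset
open Crest.Agent.R340.Fock649 Crest.Agent.R340.Br320 Crest.Agent.R340.JumpH674
open Crest.Agent.R340.Rot303 (Rg Bg Rg_mul_star star_Rg_mul Bg_eq Bg_zero cj cj_an cj_cr)
open Crest.Agent.R340.U856 (Rep Fam Frame cint cmem pB qf TT)
open Crest.Agent.R340.Prof385 (sP sP_nonneg sP_le_one)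
open Crest.Agent.R340.CS809 (U2 U2_ct_mul U2_mul_ct sp dQ dQ_nonneg dQ_comm dQ_triangle)
open Crest.Agent.R340.QL331 (fcar fcar_an fcar_cr)
open Crest.Agent.R340.FI331 (fb fb_apply uf uf_eq vec kpf kpf_le Kg Kg_nonneg)
open Crest.Agent.R340.DLi482 (nuQ opRep aG Phg PZ B0 pB_aG)
open Crest.Agent.R340.PD757 (Frm frm_fb uf_zero sj Kn Kn_pos)
open scoped InnerProductSpace Matrix

/-- 331's frame on 482's measure -/
theorem frameQ {Q m : ℕ} (hQ : 1 ≤ Q) (hm6 : 6 ≤ m) :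
    Frame (nuQ Q) (aG Q) (dQ Q) (kpf Q) (Nh : Op (Fin (Q + 1))) m 1 (Kg m) 1 := by
  have hpos : (0:ℝ) ≤ 2 * (Q:ℝ) - 1 := by
    have : (1:ℝ) ≤ Q := by exact_mod_cast hQ
    linarith
  exact FI331.frame_inst hQ hm6 (c := Real.toNNReal (2 * (Q:ℝ) - 1))
    (by rw [Real.coe_toNNReal _ hpos]; linarith)

theorem rc_eq {Q : ℕ} (g : U2) (j : Fin (Q + 1)) :
    rc (Rg Q (g : Matrix (Fin 2) (Fin 2) ℂ)) j = an (fb Q g j) := by
  have h : Rg Q (g : Matrix (Fin 2) (Fin 2) ℂ) * c j * star (Rg Q (g : Matrix (Fin 2) (Fin 2) ℂ)) =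
      an (mv (sp Q g) (e j)) := by
    rw [← an_e j]; exact cj_an (U2_mul_ct g) (e j)
  rw [fb_apply]
  exact h

theorem cs_eq {Q : ℕ} (A : Op (Fin (Q + 1))) (v : L (Fin (Q + 1))) :
    (fcar : QL331.Car (Op (Fin (Q + 1))) (L (Fin (Q + 1)))).cs A v =
      ‖A * an v - an v * A‖ + ‖A * star (an v) - star (an v) * A‖ := by
  unfold QL331.Car.cs
  rw [fcar_an, fcar_cr, star_an]
  rfl

/-- the coherent profile of `W` is flat: `cs W (u_0(z)) ≤ 2` -/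
theorem cs_W {Q m : ℕ} (hQ : 1 ≤ Q) (hm : 6 ≤ m) {X : U2 → Op (Fin (Q + 1))}
    (hX : Fam (aG Q) (dQ Q) Nh m 1 X) {s : U2 → ℝ} (hs : Measurable s) (hs1 : ∀ x, |s x| ≤ 1)
    (z : U2) :
    (fcar : QL331.Car (Op (Fin (Q + 1))) (L (Fin (Q + 1)))).cs
      (∫ x, (s x : ℂ) • X x ∂(nuQ Q)) (fb Q z 0) ≤ 2 := by
  have F := frameQ (m := m) hQ hm
  have h1 := com_W_a F (by omega) zero_le_one hX hs hs1 0 z
  have hsa : IsSelfAdjoint (∫ x, (s x : ℂ) • X x ∂(nuQ Q)) := U856.sa_integral_fam hX hs hs1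
  rw [cs_eq, ← uf_zero]
  have h2 := norm_com_star_right hsa (an (uf Q 0 z))
  have h3 : aG Q 0 z = an (uf Q 0 z) := rfl
  rw [h3] at h1
  rw [h2]
  linarith

/-- **(LOSS-W)** in norm -/
theorem norm_sub_Phg {Q m : ℕ} (hQ : 1 ≤ Q) (hm : 6 ≤ m) (P1 : ℕ) {X : U2 → Op (Fin (Q + 1))}
    (hX : Fam (aG Q) (dQ Q) Nh m 1 X) {s : U2 → ℝ} (hs : Measurable s) (hs1 : ∀ x, |s x| ≤ 1)
    (g : U2) :
    ‖(∫ x, (s x : ℂ) • X x ∂(nuQ Q)) - Phg Q P1 g (∫ x, (s x : ℂ) • X x ∂(nuQ Q))‖ ≤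
      76068 * ((P1 : ℝ) + 1) ^ 2 := by
  set W : Op (Fin (Q + 1)) := ∫ x, (s x : ℂ) • X x ∂(nuQ Q) with hW
  have h := norm_sub_Phi (star_Rg_mul (Q := Q) (U2_mul_ct g)) (Rg_mul_star (Q := Q) (U2_mul_ct g))
    (s := fun j : Fin (Q + 1) => sP P1 j) (fun j => sP_nonneg P1 j) (fun j => sP_le_one P1 j) W
  refine h.trans ?_
  have h1 : ∀ j : Fin (Q + 1), (1 - sP P1 j) *
      (3 * ‖star (rc (Rg Q (g : Matrix (Fin 2) (Fin 2) ℂ)) j) * W -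
          W * star (rc (Rg Q (g : Matrix (Fin 2) (Fin 2) ℂ)) j)‖
        + ‖rc (Rg Q (g : Matrix (Fin 2) (Fin 2) ℂ)) j * W -
          W * rc (Rg Q (g : Matrix (Fin 2) (Fin 2) ℂ)) j‖) ≤
      25356 * ((1 - sP P1 j) * sj (j : ℕ)) := by
    intro j
    have h2 := cs_flat (frm_fb Q) (fcar : QL331.Car (Op (Fin (Q + 1))) (L (Fin (Q + 1))))
      (y := W) (w := g) (c := 2) (by norm_num) (fun z => cs_W hQ hm hX hs hs1 z) j
    rw [cs_eq] at h2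
    have h3 : 0 ≤ 1 - sP P1 j := by linarith [sP_le_one P1 j]
    rw [rc_eq g j, norm_sub_rev (star (an (fb Q g j)) * W), norm_sub_rev (an (fb Q g j) * W)]
    calc _ ≤ (1 - sP P1 j) * (3 * (4226 * 2 * sj (j : ℕ))) := by
          refine mul_le_mul_of_nonneg_left ?_ h3
          have := norm_nonneg (W * an (fb Q g j) - an (fb Q g j) * W)
          linarith
      _ = _ := by ring
  refine (sum_le_sum fun j _ => h1 j).trans ?_
  rw [← mul_sum]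
  have h2 := sum_loss P1 Q
  calc 25356 * ∑ j : Fin (Q + 1), (1 - sP P1 j) * sj (j : ℕ) ≤ 25356 * (3 * ((P1 : ℝ) + 1) ^ 2) := by
        gcongr
    _ = _ := by ring

theorem abs_q_le {𝒜 V : Type*} [CStarAlgebra 𝒜] [NormedAddCommGroup V] [InnerProductSpace ℂ V]
    (R : Rep 𝒜 V) (φ : V) (A : 𝒜) : |R.q φ A| ≤ ‖A‖ * ‖φ‖ ^ 2 := by
  rw [Rep.q_apply, qf]
  refine (Complex.abs_re_le_norm _).trans ((norm_inner_le_norm _ _).trans ?_)
  have h5 : ‖R.π A φ‖ ≤ ‖A‖ * ‖φ‖ :=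
    ((R.π A).le_opNorm φ).trans (mul_le_mul_of_nonneg_right (R.norm_le A) (norm_nonneg _))
  nlinarith [norm_nonneg φ]

/-- **(LOSS-W)** = hypothesis `J3` of `U4_856.Jump.Uf`, `CE = 76068 (P1+1)²` -/
theorem J3c {Q m : ℕ} (hQ : 1 ≤ Q) (hm : 6 ≤ m) (P1 : ℕ) :
    ∀ W, Fam (aG Q) (dQ Q) (Nh : Op (Fin (Q + 1))) m 1 W → ∀ s : U2 → ℝ, Measurable s →
      (∀ x, |s x| ≤ 1) → ∀ g φ,
      |(opRep (ι := Fin (Q + 1))).q φ ((∫ x, (s x : ℂ) • W x ∂(nuQ Q)) -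
        Phg Q P1 g (∫ x, (s x : ℂ) • W x ∂(nuQ Q)))| ≤
        (76068 * ((P1 : ℝ) + 1) ^ 2) * ‖φ‖ ^ 2 := by
  intro W hW s hs hs1 g φ
  refine (abs_q_le _ φ _).trans ?_
  exact mul_le_mul_of_nonneg_right (norm_sub_Phg hQ hm P1 hW hs hs1 g) (by positivity)

/-! ### the jump commutator `A_g = [B_g, W]` -/

/-- zero modes are annihilated by every rotated pair operator -/
theorem Bg_PZ {Q : ℕ} (g : U2) (p : Fin (2 * Q - 1)) :
    Bg Q (g : Matrix (Fin 2) (Fin 2) ℂ) p * PZ Q = 0 := by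
  refine Op.ext fun v => ?_
  rw [mul_ap, zero_ap]
  set u := PZ Q v with hu
  have h0 : HH Q u = 0 := by
    rw [hu, ← mul_ap, GG467.mul_PK, zero_ap]
  have h1 := Prof482.re_inner_sum_star Finset.univ
    (fun p => Bg Q (g : Matrix (Fin 2) (Fin 2) ℂ) p) u
  rw [Rot303.sum_star_Bg (U2_mul_ct g), h0, inner_zero_right, Complex.zero_re] at h1
  have h2 := (Finset.sum_eq_zero_iff_of_nonneg (fun p _ => sq_nonneg _)).mp h1.symm p
    (Finset.mem_univ p)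
  exact norm_eq_zero.mp (pow_eq_zero_iff (two_ne_zero) |>.mp h2)

theorem sum_inv_two (n : ℕ) : ∑ p : Fin n, 1 / (((p : ℕ) : ℝ) + 2) ^ 2 ≤ 1 := by
  rw [Fin.sum_univ_eq_sum_range (fun p => 1 / ((p : ℝ) + 2) ^ 2) n]
  have h : ∀ k : ℕ, ∑ p ∈ range k, 1 / ((p : ℝ) + 2) ^ 2 ≤ 1 - 1 / ((k : ℝ) + 1) := by
    intro k
    induction k with
    | zero => simp
    | succ k ih =>
      rw [sum_range_succ]
      have h2 : (1:ℝ) / ((k : ℝ) + 2) ^ 2 ≤ 1 / ((k : ℝ) + 1) - 1 / (((k + 1 : ℕ) : ℝ) + 1) := by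
        push_cast
        rw [div_sub_div _ _ (by positivity) (by positivity),
          div_le_div_iff₀ (by positivity) (by positivity)]
        have : (0:ℝ) ≤ k := Nat.cast_nonneg k
        nlinarith
      linarith
  have h1 := h n
  have : (0:ℝ) ≤ 1 / ((n : ℝ) + 1) := by positivity
  linarith

theorem half_pow (l : ℕ) : (((2:ℝ) ^ (l / 2))⁻¹) ^ 18 ≤ 2 ^ 9 / ((2:ℝ) ^ l) ^ 9 := by
  have h1 : l ≤ 2 * (l / 2) + 1 := by omega
  have h2 : ((2:ℝ) ^ l) ^ 9 ≤ 2 ^ 9 * ((2:ℝ) ^ (l / 2)) ^ 18 := by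
    have h3 : (2:ℝ) ^ l ≤ 2 ^ (2 * (l / 2) + 1) := pow_le_pow_right₀ (by norm_num) h1
    calc ((2:ℝ) ^ l) ^ 9 ≤ (2 ^ (2 * (l / 2) + 1)) ^ 9 := pow_le_pow_left₀ (by positivity) h3 9
      _ = 2 ^ 9 * ((2:ℝ) ^ (l / 2)) ^ 18 := by
          rw [← pow_mul, ← pow_mul, ← pow_add]
          congr 1
          ring
  rw [inv_pow, inv_eq_one_div, div_le_div_iff₀ (by positivity) (by positivity), one_mul]
  exact h2

/-- norm constant for `A_g` and its truncations -/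
noncomputable def DA (k : ℕ) : ℝ := 2048 * Kn 20 * cA k (Kg k) 1 + 2

theorem cA_nonneg (k : ℕ) {Kκ Ck : ℝ} (h1 : 0 ≤ Kκ) (h2 : 0 ≤ Ck) : 0 ≤ cA k Kκ Ck := by
  unfold cA; positivity

theorem DA_nonneg (k : ℕ) : 0 ≤ DA k := by
  have h1 := cA_nonneg k (Kg_nonneg k) (zero_le_one (α := ℝ))
  have h2 := Kn_pos 20
  unfold DA; positivity

section

variable {Q k : ℕ} (hQ : 1 ≤ Q) (hk : 22 ≤ k) {X : U2 → Op (Fin (Q + 1))}
  (hX : Fam (aG Q) (dQ Q) Nh (k + 3) 1 X) {s : U2 → ℝ} (hs : Measurable s)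
  (hs1 : ∀ x, |s x| ≤ 1) (g : U2)

/-- the jump commutator -/
noncomputable def Agc (Q : ℕ) (X : U2 → Op (Fin (Q + 1))) (s : U2 → ℝ) (g : U2) :
    Op (Fin (Q + 1)) :=
  pB (aG Q) g * (∫ x, (s x : ℂ) • X x ∂(nuQ Q)) - (∫ x, (s x : ℂ) • X x ∂(nuQ Q)) * pB (aG Q) g

include hQ hk hX hs hs1

theorem norm_Agc : ‖Agc Q X s g‖ ≤ 2 := by
  have F := frameQ (m := k + 3) hQ (by omega)
  have := norm_Ag F (by omega) zero_le_one hX hs hs1 g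
  unfold Agc
  linarith

theorem cs_Agc (z : U2) :
    (fcar : QL331.Car (Op (Fin (Q + 1))) (L (Fin (Q + 1)))).cs (Agc Q X s g) (fb Q z 0) ≤
      (2 * cA k (Kg k) 1) * ((1 + dQ Q z g)⁻¹) ^ (17 + 5) := by
  have F := frameQ (m := k + 3) hQ (by omega)
  have htri : ∀ x g w : U2, dQ Q g w ≤ dQ Q x g + dQ Q x w := by
    intro x g w
    have := dQ_triangle Q g x w
    rw [dQ_comm Q g x] at this
    exact this
  have h1 := com_Ag F rfl zero_le_one hX hs hs1 htri (Kg_nonneg k) g z 0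
  have h2 := com_star_Ag F rfl zero_le_one hX hs hs1 htri g z (kpf_le Q k g z) 0
  rw [cs_eq, ← uf_zero]
  have h3 : aG Q 0 z = an (uf Q 0 z) := rfl
  rw [h3] at h1 h2
  have hd := dQ_nonneg Q g z
  have hcA := cA_nonneg k (Kg_nonneg k) (zero_le_one (α := ℝ))
  have h4 : cA k (Kg k) 1 * 1 / (1 + dQ Q g z) ^ k ≤
      cA k (Kg k) 1 * ((1 + dQ Q z g)⁻¹) ^ (17 + 5) := by
    rw [mul_one, div_eq_mul_inv, dQ_comm Q z g, inv_pow]
    refine mul_le_mul_of_nonneg_left ?_ hcA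
    exact inv_anti₀ (by positivity) (pow_le_pow_right₀ (by linarith) (by omega))
  unfold Agc
  linarith

theorem sub_App (l : ℕ) :
    ‖Agc Q X s g - (fcar : QL331.Car (Op (Fin (Q + 1))) (L (Fin (Q + 1)))).E (fb Q g)
      (4 ^ (l / 2)) (Agc Q X s g)‖ ≤ DA k / ((2:ℝ) ^ l) ^ (4 * 2 + 1) := by
  have hcA := cA_nonneg k (Kg_nonneg k) (zero_le_one (α := ℝ))
  have hKn := Kn_pos 20
  have h := (frm_fb Q).sub_E_le (fcar : QL331.Car (Op (Fin (Q + 1))) (L (Fin (Q + 1))))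
    (y := Agc Q X s g) (w := g) (c := 2 * cA k (Kg k) 1) (by positivity) 17
    (fun z => cs_Agc hQ hk hX hs hs1 g z) (l / 2)
  refine h.trans ?_
  have h1 := half_pow l
  have h2 : 2 * Kn (17 + 3) * (2 * cA k (Kg k) 1) * (((2:ℝ) ^ (l / 2))⁻¹) ^ (17 + 1) ≤
      2 * Kn (17 + 3) * (2 * cA k (Kg k) 1) * (2 ^ 9 / ((2:ℝ) ^ l) ^ 9) :=
    mul_le_mul_of_nonneg_left h1 (by positivity)
  refine h2.trans ?_
  have h3 : 2 * Kn (17 + 3) * (2 * cA k (Kg k) 1) * (2 ^ 9 / ((2:ℝ) ^ l) ^ 9) =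
      (2048 * Kn 20 * cA k (Kg k) 1) / ((2:ℝ) ^ l) ^ (4 * 2 + 1) := by
    norm_num
    ring
  rw [h3]
  unfold DA
  gcongr
  linarith

theorem Agc_mul_PZ (hP : ∀ x, X x * PZ Q = PZ Q * X x) : Agc Q X s g * PZ Q = 0 := by
  have hi : Integrable (fun x => (s x : ℂ) • X x) (nuQ Q) := isfam hX.cont hs hs1
  have h1 := int_com hi (PZ Q)
  have h2 : ∫ x, ((s x : ℂ) • X x * PZ Q - PZ Q * (s x : ℂ) • X x) ∂(nuQ Q) = 0 := by
    have : (fun x => (s x : ℂ) • X x * PZ Q - PZ Q * (s x : ℂ) • X x) = fun _ => 0 := by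
      funext x
      rw [smul_com, hP x, sub_self, smul_zero]
    rw [this]
    simp
  rw [h2, sub_eq_zero] at h1
  have h3 : pB (aG Q) g * PZ Q = 0 := by
    rw [pB_aG hQ]
    exact Bg_PZ g _
  unfold Agc
  rw [sub_mul, mul_assoc, h1, ← mul_assoc, h3, zero_mul, mul_assoc, h3, mul_zero, sub_zero]

/-- **(R1) for the jump commutator** -/
theorem R1_Agc {γ : ℝ} (hγ : 0 < γ) (hgap : γ • (1 - PZ Q) ≤ HH Q)
    (hP : ∀ x, X x * PZ Q = PZ Q * X x) :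
    star (Agc Q X s g) * Agc Q X s g ≤ ∑ p : Fin (2 * Q - 1),
      (Thin565.CR 2 γ (1 / 2) * DA k ^ 2 / ((p : ℝ) + 2) ^ 2) •
        (star (Bg Q (g : Matrix (Fin 2) (Fin 2) ℂ) p) * Bg Q (g : Matrix (Fin 2) (Fin 2) ℂ) p) := by
  have hcA := cA_nonneg k (Kg_nonneg k) (zero_le_one (α := ℝ))
  have hKn := Kn_pos 20
  refine Thin565.R1_group Q hγ hgap 2 (U2_mul_ct g) (A := Agc Q X s g) (D := DA k)
    (Agc_mul_PZ hQ hk hX hs hs1 g hP) ?_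
    (App := fun l => (fcar : QL331.Car (Op (Fin (Q + 1))) (L (Fin (Q + 1)))).E (fb Q g)
      (4 ^ (l / 2)) (Agc Q X s g)) ?_ ?_
  · refine (norm_Agc hQ hk hX hs hs1 g).trans ?_
    unfold DA
    have : 0 ≤ 2048 * Kn 20 * cA k (Kg k) 1 := by positivity
    linarith
  · intro l m hm
    have h1 : 4 ^ (l / 2) ≤ (m : ℕ) := by
      refine le_trans ?_ hm
      calc 4 ^ (l / 2) = 2 ^ (2 * (l / 2)) := by rw [pow_mul]; norm_num
        _ ≤ 2 ^ l := Nat.pow_le_pow_right (by norm_num) (by omega)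
    have h2 := (fcar : QL331.Car (Op (Fin (Q + 1))) (L (Fin (Q + 1)))).E_cm (fb Q g)
      (4 ^ (l / 2)) (Agc Q X s g) m h1
    rw [fb_apply] at h2
    exact ⟨h2.1, by have := h2.2; rw [fcar_cr] at this; exact this⟩
  · intro l
    exact sub_App hQ hk hX hs hs1 g l

end

end Crest.Agent.R340.J3421
end

-- ▼ part R340/J3d_421
section

/-!
R340 (helper421): the inputs `J3P`, `J4P` of `U6_856.U_of`.
-/

set_option autoImplicit false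
set_option linter.unusedSectionVars false

namespace Crest.Agent.R340.J3421

open MeasureTheory Finset
open Crest.Agent.R340.Fock649 Crest.Agent.R340.Br320
open Crest.Agent.R340.Rot303 (Rg Bg Bg_eq Bg_zero continuous_Bg)
open Crest.Agent.R340.U856 (Rep Fam Frame cint cmem pB qf FamQ sm J3P J4P JumpP)
open Crest.Agent.R340.CS809 (U2 U2_ct_mul U2_mul_ct dQ)
open Crest.Agent.R340.DLi482 (nuQ opRep aG Phg PZ)
open scoped InnerProductSpace Matrix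

/-- operator form of the gap -/
theorem gap_op_of {Q : ℕ} {γ : ℝ} (hgap : ∀ φ : Fk (Fin (Q + 1)), PZ Q φ = 0 →
    γ * ‖φ‖ ^ 2 ≤ (⟪φ, HH Q φ⟫_ℂ).re) : γ • (1 - PZ Q) ≤ HH Q := by
  have hsP : star (PZ Q) = PZ Q := GG467.star_PK _
  have hsa : IsSelfAdjoint (γ • (1 - PZ Q) : Op (Fin (Q + 1))) := by
    have : star (γ • (1 - PZ Q) : Op (Fin (Q + 1))) = γ • (1 - PZ Q) := by
      rw [star_smul, star_sub, star_one, hsP]
      simp
    exact this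
  rw [Op.le_iff hsa (star_HH Q)]
  intro v
  set u := v - PZ Q v with hu
  have hPP : PZ Q (PZ Q v) = PZ Q v := by rw [← mul_ap, GG467.PK_mul_self]
  have hPu : PZ Q u = 0 := by
    rw [hu, map_sub, hPP, sub_self]
  have hHP : ∀ w, HH Q (PZ Q w) = 0 := fun w => by rw [← mul_ap, GG467.mul_PK, zero_ap]
  have hHu : HH Q v = HH Q u := by rw [hu, map_sub, hHP, sub_zero]
  have hsa2 : ∀ w w' : Fk (Fin (Q + 1)), ⟪w, HH Q w'⟫_ℂ = ⟪HH Q w, w'⟫_ℂ := fun w w' => by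
    have := inner_star_right (HH Q) w w'
    rwa [star_HH] at this
  have h1 : ⟪v, HH Q v⟫_ℂ = ⟪u, HH Q u⟫_ℂ := by
    rw [hHu, hsa2, hHu, ← hsa2]
  have h2 : (⟪v, (γ • (1 - PZ Q) : Op (Fin (Q + 1))) v⟫_ℂ).re = γ * ‖u‖ ^ 2 := by
    have e1 : (γ • (1 - PZ Q) : Op (Fin (Q + 1))) v = (γ : ℂ) • u := by
      have : (γ • (1 - PZ Q) : Op (Fin (Q + 1))) = (γ : ℂ) • (1 - PZ Q) := (Complex.coe_smul _ _).symm
      rw [this, smul_ap, sub_ap, one_ap]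
    rw [e1, inner_smul_right, Complex.re_ofReal_mul]
    congr 1
    have e2 : v = u + PZ Q v := by rw [hu]; abel
    have e3 : ⟪PZ Q v, u⟫_ℂ = 0 := by
      have := inner_star_left (PZ Q) v u
      rw [hsP] at this
      rw [this, hPu, inner_zero_right]
    have e4 : ⟪v, u⟫_ℂ = ⟪u, u⟫_ℂ := by
      conv_lhs => rw [e2]
      rw [inner_add_left, e3, add_zero]
    rw [e4, inner_self_eq_norm_sq_to_K]
    norm_cast
  rw [h1, h2]
  exact hgap u hPu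

/-- `∫ ‖B_p(g) ψ‖² dν(g) = ⟨ψ, H ψ⟩` -/
theorem int_Bg {Q : ℕ} (p : Fin (2 * Q - 1)) (ψ : Fk (Fin (Q + 1))) :
    ∫ g, ‖Bg Q (g : Matrix (Fin 2) (Fin 2) ℂ) p ψ‖ ^ 2 ∂(nuQ Q) = (⟪ψ, HH Q ψ⟫_ℂ).re := by
  unfold nuQ
  rw [integral_smul_measure, ENNReal.toReal_ofReal (Rot303.two_mul_sub_one_pos p).le,
    smul_eq_mul]
  exact Rot303.integral_norm_Bg_sq p ψ

theorem cont_Bg {Q : ℕ} (p : Fin (2 * Q - 1)) (ψ : Fk (Fin (Q + 1))) :
    Continuous fun g : U2 => Bg Q (g : Matrix (Fin 2) (Fin 2) ℂ) p ψ :=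
  DLi482.continuous_ap ((continuous_Bg p).comp continuous_subtype_val) continuous_const

/-- constant of `J4` -/
noncomputable def CRc (k : ℕ) (γ : ℝ) : ℝ := Real.sqrt (Thin565.CR 2 γ (1 / 2)) * DA k

/-- **(R1-W)**: `∫ ‖[B_g, W] ψ‖² dν ≤ CRc² ⟨ψ, H ψ⟩` -/
theorem J4c {Q k : ℕ} (hQ : 1 ≤ Q) (hk : 22 ≤ k) {γ : ℝ} (hγ : 0 < γ)
    (hgap : γ • (1 - PZ Q) ≤ HH Q) {X : U2 → Op (Fin (Q + 1))}
    (hX : Fam (aG Q) (dQ Q) Nh (k + 3) 1 X) (hP : ∀ x, X x * PZ Q = PZ Q * X x)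
    {s : U2 → ℝ} (hs : Measurable s) (hs1 : ∀ x, |s x| ≤ 1) (ψ : Fk (Fin (Q + 1))) :
    ∫ g, ‖Agc Q X s g ψ‖ ^ 2 ∂(nuQ Q) ≤ CRc k γ ^ 2 * (⟪ψ, HH Q ψ⟫_ℂ).re := by
  have hCR : 0 ≤ Thin565.CR 2 γ (1 / 2) := Thin565.CR_nonneg 2 hγ (by norm_num)
  set K : ℝ := Thin565.CR 2 γ (1 / 2) * DA k ^ 2 with hK
  have hK0 : 0 ≤ K := by positivity
  have hpt : ∀ g : U2, ‖Agc Q X s g ψ‖ ^ 2 ≤ ∑ p : Fin (2 * Q - 1),
      (K / (((p : ℕ) : ℝ) + 2) ^ 2) * ‖Bg Q (g : Matrix (Fin 2) (Fin 2) ℂ) p ψ‖ ^ 2 := by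
    intro g
    have h := R1_Agc hQ hk hX hs hs1 g hγ hgap hP
    have hs1 : IsSelfAdjoint (star (Agc Q X s g) * Agc Q X s g) := IsSelfAdjoint.star_mul_self _
    have e0 : ∀ p : Fin (2 * Q - 1), IsSelfAdjoint
        ((K / (((p : ℕ) : ℝ) + 2) ^ 2) • (star (Bg Q (g : Matrix (Fin 2) (Fin 2) ℂ) p) *
          Bg Q (g : Matrix (Fin 2) (Fin 2) ℂ) p)) := by
      intro p
      exact (IsSelfAdjoint.all (K / (((p : ℕ) : ℝ) + 2) ^ 2)).smul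
        (IsSelfAdjoint.star_mul_self _)
    have hs2 : IsSelfAdjoint (∑ p : Fin (2 * Q - 1),
        (K / (((p : ℕ) : ℝ) + 2) ^ 2) • (star (Bg Q (g : Matrix (Fin 2) (Fin 2) ℂ) p) *
          Bg Q (g : Matrix (Fin 2) (Fin 2) ℂ) p)) := by
      unfold IsSelfAdjoint
      rw [star_sum]
      exact Finset.sum_congr rfl fun p _ => e0 p
    have h1 := (Op.le_iff hs1 hs2).mp h ψ
    rw [inner_star_mul_self, sum_ap, inner_sum, Complex.re_sum] at h1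
    have h2 : (((‖Agc Q X s g ψ‖ : ℝ) : ℂ) ^ 2).re = ‖Agc Q X s g ψ‖ ^ 2 := by
      rw [← Complex.ofReal_pow, Complex.ofReal_re]
    rw [h2] at h1
    refine h1.trans (le_of_eq ?_)
    refine Finset.sum_congr rfl fun p _ => ?_
    have h3 : ((K / (((p : ℕ) : ℝ) + 2) ^ 2) • (star (Bg Q (g : Matrix (Fin 2) (Fin 2) ℂ) p) *
        Bg Q (g : Matrix (Fin 2) (Fin 2) ℂ) p) : Op (Fin (Q + 1))) =
        ((K / (((p : ℕ) : ℝ) + 2) ^ 2 : ℝ) : ℂ) • (star (Bg Q (g : Matrix (Fin 2) (Fin 2) ℂ) p) *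
        Bg Q (g : Matrix (Fin 2) (Fin 2) ℂ) p) := (Complex.coe_smul _ _).symm
    rw [h3, smul_ap, inner_smul_right, inner_star_mul_self, ← Complex.ofReal_pow,
      ← Complex.ofReal_mul, Complex.ofReal_re]
  have hc : ∀ p : Fin (2 * Q - 1), Integrable
      (fun g : U2 => ‖Bg Q (g : Matrix (Fin 2) (Fin 2) ℂ) p ψ‖ ^ 2) (nuQ Q) := fun p =>
    cint ((cont_Bg p ψ).norm.pow 2)
  have h0 : 0 ≤ (⟪ψ, HH Q ψ⟫_ℂ).re := by
    rw [inner_HH, Complex.re_sum]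
    refine Finset.sum_nonneg fun p _ => ?_
    exact inner_self_nonneg (𝕜 := ℂ)
  calc ∫ g, ‖Agc Q X s g ψ‖ ^ 2 ∂(nuQ Q)
      ≤ ∫ g : U2, ∑ p : Fin (2 * Q - 1), (K / (((p : ℕ) : ℝ) + 2) ^ 2) *
          ‖Bg Q (g : Matrix (Fin 2) (Fin 2) ℂ) p ψ‖ ^ 2 ∂(nuQ Q) :=
        integral_mono_of_nonneg (Filter.Eventually.of_forall fun g => sq_nonneg _)
          (integrable_finsetSum _ fun p _ => (hc p).const_mul _)
          (Filter.Eventually.of_forall hpt)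
    _ = ∑ p : Fin (2 * Q - 1), (K / (((p : ℕ) : ℝ) + 2) ^ 2) * (⟪ψ, HH Q ψ⟫_ℂ).re := by
        rw [integral_finsetSum _ fun p _ => (hc p).const_mul _]
        refine Finset.sum_congr rfl fun p _ => ?_
        rw [integral_const_mul, int_Bg]
    _ = K * (∑ p : Fin (2 * Q - 1), 1 / (((p : ℕ) : ℝ) + 2) ^ 2) * (⟪ψ, HH Q ψ⟫_ℂ).re := by
        rw [← Finset.sum_mul, Finset.mul_sum]
        congr 1
        exact Finset.sum_congr rfl fun p _ => by ring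
    _ ≤ K * 1 * (⟪ψ, HH Q ψ⟫_ℂ).re := by
        have := sum_inv_two (2 * Q - 1)
        gcongr
    _ = CRc k γ ^ 2 * (⟪ψ, HH Q ψ⟫_ℂ).re := by
        unfold CRc
        rw [mul_pow, Real.sq_sqrt hCR, mul_one]

/-- **`J3P`**, every `m ≥ 6`, every `P1`. -/
theorem j3P (m P1 : ℕ) (hm : 6 ≤ m) : J3P m P1 :=
  ⟨1, 76068 * ((P1 : ℝ) + 1) ^ 2, by positivity, fun Q hQ W hW s hs hs1 g φ =>
    J3c hQ hm P1 W hW s hs hs1 g φ⟩

/-- **`J4P`**, every `m ≥ 25`, from the uniform gap. -/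
theorem j4P_of_gap {m : ℕ} (hm : 25 ≤ m) {γ : ℝ} (hγ : 0 < γ) (Q₀ : ℕ)
    (hgap : ∀ Q, Q₀ ≤ Q → ∀ φ : Fk (Fin (Q + 1)), PZ Q φ = 0 →
      γ * ‖φ‖ ^ 2 ≤ (⟪φ, HH Q φ⟫_ℂ).re) : J4P m := by
  obtain ⟨k, rfl⟩ : ∃ k, m = k + 3 := ⟨m - 3, by omega⟩
  refine ⟨Q₀ + 1, CRc k γ, ?_, ?_⟩
  · unfold CRc
    have := DA_nonneg k
    positivity
  · intro Q hQ W hW hWP s hs hs1 ψ
    have hP : ∀ x, W x * PZ Q = PZ Q * W x := fun x => Op.ext fun φ => hWP x φ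
    exact J4c (by omega) (by omega) hγ (gap_op_of (hgap Q (by omega))) hW hP hs hs1 ψ

/-- **`J4P`** from the jump data. -/
theorem j4P_of_jump {m P1 : ℕ} (hm : 25 ≤ m) {γ₀ γ₂ : ℝ} (hJ : JumpP P1 γ₀ γ₂) : J4P m := by
  obtain ⟨Q₀, hJ⟩ := hJ
  exact j4P_of_gap hm (hJ Q₀ le_rfl).gap_pos Q₀ fun Q hQ φ hφ => (hJ Q hQ).gap φ hφ

end Crest.Agent.R340.J3421
end

-- ▼ part R340/F5_725
section

/-!
R340 (S0532), F5 of PLAN-F1 (helper725): the final form of (F1) from (S).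

`F1_core`: from the strong pass at the centre (for an arbitrary class `Cl` of local operators,
closed under the rescaled recentred family) to the integrated bound with respect to `nuQ Q`.
-/

set_option autoImplicit false

open Matrix Finset MeasureTheory

namespace Crest.Agent.R340.F5725

open Crest.Agent.R340.Fock649 Crest.Agent.R340.Gam303 Crest.Agent.R340.Rot303
open Crest.Agent.R340.Avg814 Crest.Agent.R340.CS809 Crest.Agent.R124.Haar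
open Crest.Agent.R340.DomF735 Crest.Agent.R340.Scal725 Crest.Agent.R340.AvgG725
open Crest.Agent.R340.ZsBp725 Crest.Agent.R340.Geo986 Crest.Agent.R340.Peel596
open Crest.Agent.R340.Br320 Crest.Agent.R340.DLi482 Crest.Agent.R340.GG467

noncomputable section

variable {Q : ℕ}

/-- rotations preserve the zero modes of a sector -/
theorem star_Rg_mem_Zn (n : ℕ) (g : G2) {ψ : Fk (Fin (Q + 1))} (h : ψ ∈ Zn (nu0 Q) Q n) :
    star (Rg Q (g : Matrix (Fin 2) (Fin 2) ℂ)) ψ ∈ Zn (nu0 Q) Q n := by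
  rw [mem_Zn_nu0_iff] at h ⊢
  have hg' : (g : Matrix (Fin 2) (Fin 2) ℂ)ᴴ * ((g : Matrix (Fin 2) (Fin 2) ℂ)ᴴ)ᴴ = 1 := by
    rw [conjTranspose_conjTranspose]; exact g2_ct_mul g
  rw [star_Rg]
  refine ⟨Bp_Rg_eq_zero hg' h.1, ?_⟩
  have e : (Nh : Op (Fin (Q + 1))) * Rg Q ((g : Matrix (Fin 2) (Fin 2) ℂ)ᴴ) =
      Rg Q ((g : Matrix (Fin 2) (Fin 2) ℂ)ᴴ) * Nh := (Gam_mul_Nh _).symm
  rw [← mul_ap, e, mul_ap, h.2, map_smul]

theorem Rg_mem_Zn (n : ℕ) (g : G2) {ψ : Fk (Fin (Q + 1))} (h : ψ ∈ Zn (nu0 Q) Q n) :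
    Rg Q (g : Matrix (Fin 2) (Fin 2) ℂ) ψ ∈ Zn (nu0 Q) Q n := by
  have h1 := star_Rg_mem_Zn n (star g) h
  rw [star_Rg] at h1
  have e : ((star g : G2) : Matrix (Fin 2) (Fin 2) ℂ)ᴴ = (g : Matrix (Fin 2) (Fin 2) ℂ) := by
    change ((g : Matrix (Fin 2) (Fin 2) ℂ)ᴴ)ᴴ = _
    rw [conjTranspose_conjTranspose]
  rwa [e] at h1

/-- the form of `Dop` -/
theorem re_inner_Dop (s CS : ℝ) (f : ℕ → ℝ) (X : Op (Fin (Q + 1))) (φ : Fk (Fin (Q + 1))) :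
    (inner ℂ φ (Dop Q s (3 * CS) f X φ) : ℂ).re =
      s * ‖φ‖ ^ 2 - 3 * CS * (inner ℂ φ (dGf f Q φ) : ℂ).re - (inner ℂ φ (X φ) : ℂ).re := by
  have e : dG (Matrix.diagonal fun j : Fin (Q + 1) => ((f j : ℝ) : ℂ)) = dGf f Q := rfl
  have h2 : ((RCLike.ofReal ‖φ‖ : ℂ) ^ 2).re = ‖φ‖ ^ 2 := by norm_cast
  unfold Dop
  rw [e, sub_ap, sub_ap, smul_ap, smul_ap, one_ap, inner_sub_right, inner_sub_right,
    inner_smul_right, inner_smul_right, Complex.sub_re, Complex.sub_re, Complex.re_ofReal_mul,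
    Complex.re_ofReal_mul, inner_self_eq_norm_sq_to_K, h2]

theorem isSelfAdjoint_cj {X : Op (Fin (Q + 1))} (hX : IsSelfAdjoint X)
    (g : Matrix (Fin 2) (Fin 2) ℂ) : IsSelfAdjoint (cj g X) := by
  unfold IsSelfAdjoint
  rw [cj_star, hX.star_eq]

/-- **(F1) from (S).** `Cl` is the class of local operators about the north pole for which the
strong pass is known (norm bound 1); `κ` the norm of the recentred family in this class. -/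
theorem F1_core {N₀ n : ℕ} (hQN : Q + 3 = 3 * N₀) (hn : n ≤ N₀) {CS κ : ℝ} (hCS : 0 ≤ CS)
    (hκ : 0 < κ) {f : ℕ → ℝ} (hf0 : ∀ j, 0 ≤ f j) {Cl : Op (Fin (Q + 1)) → Prop}
    {Om Ψ : Fk (Fin (Q + 1))} (hOm : Om ∈ Zn (nu0 Q) Q N₀)
    (huniq : ∀ φ ∈ Zn (nu0 Q) Q N₀, ∃ z : ℂ, φ = z • Ψ)
    (hSP : ∀ X : Op (Fin (Q + 1)), IsSelfAdjoint X → Cl X →
      LB (nu0 Q) Q n (Dop Q (3 * CS * cs f Q + (inner ℂ Om (X Om) : ℂ).re) (3 * CS) f X) 0)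
    {W : G2 → Op (Fin (Q + 1))} (hWc : Continuous W) (hWs : ∀ g, IsSelfAdjoint (W g))
    (hCl : ∀ g : G2, Cl (((κ⁻¹ : ℝ) : ℂ) • cj (g : Matrix (Fin 2) (Fin 2) ℂ)ᴴ (W g)))
    (hCl' : ∀ g : G2, Cl (-(((κ⁻¹ : ℝ) : ℂ) • cj (g : Matrix (Fin 2) (Fin 2) ℂ)ᴴ (W g))))
    (hWΨ : ∀ g, W g Ψ = 0) {s : G2 → ℝ} (hs : Measurable s) (hs1 : ∀ g, |s g| ≤ 1)
    {φ : Fk (Fin (Q + 1))} (hφ : φ ∈ Zn (nu0 Q) Q n) :
    |(inner ℂ φ ((∫ g, (s g : ℂ) • W g ∂(nuQ Q)) φ) : ℂ).re| ≤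
      (6 * κ * CS * ∑ j ∈ range (Q + 1), f j) * ((N₀ : ℝ) - n) * ‖φ‖ ^ 2 := by
  -- vacuum expectation
  have hvac : ∀ g : G2, cj (g : Matrix (Fin 2) (Fin 2) ℂ)ᴴ (W g) Om = 0 := by
    intro g
    obtain ⟨z, hz⟩ := huniq _ (Rg_mem_Zn N₀ g hOm)
    unfold cj
    rw [mul_ap, mul_ap, star_Rg, conjTranspose_conjTranspose, hz, map_smul, hWΨ, smul_zero,
      map_zero]
  have hW : ∀ g : G2, ∀ χ ∈ Zn (nu0 Q) Q n,
      |(inner ℂ χ (cj (g : Matrix (Fin 2) (Fin 2) ℂ)ᴴ (W g) χ) : ℂ).re - (0 : ℝ) * ‖χ‖ ^ 2| ≤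
        (κ * CS) * hf f Q χ := by
    intro g χ hχ
    set X := cj (g : Matrix (Fin 2) (Fin 2) ℂ)ᴴ (W g) with hX
    have hXs : IsSelfAdjoint X := isSelfAdjoint_cj (hWs g) _
    have hXs' : IsSelfAdjoint (((κ⁻¹ : ℝ) : ℂ) • X) := by
      unfold IsSelfAdjoint
      rw [star_smul, hXs.star_eq, Complex.star_def, Complex.conj_ofReal]
    have h1 := hSP _ hXs' (hCl g) χ hχ
    have h2 := hSP _ hXs'.neg (hCl' g) χ hχ
    have hO : X Om = 0 := hvac g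
    have hO1 : (((κ⁻¹ : ℝ) : ℂ) • X) Om = 0 := by rw [smul_ap, hO, smul_zero]
    have hO2 : (-(((κ⁻¹ : ℝ) : ℂ) • X)) Om = 0 := by rw [neg_ap, hO1, neg_zero]
    rw [re_inner_Dop, hO1, inner_zero_right, Complex.zero_re, add_zero] at h1
    rw [re_inner_Dop, hO2, inner_zero_right, Complex.zero_re, add_zero] at h2
    rw [smul_ap, inner_smul_right, Complex.re_ofReal_mul] at h1
    rw [neg_ap, smul_ap, inner_neg_right, inner_smul_right, Complex.neg_re,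
      Complex.re_ofReal_mul] at h2
    have h3 : CS * hf f Q χ = 3 * CS * cs f Q * ‖χ‖ ^ 2 -
        3 * CS * (inner ℂ χ (dGf f Q χ) : ℂ).re := by unfold hf; ring
    have h4 : |κ⁻¹ * (inner ℂ χ (X χ) : ℂ).re| ≤ CS * hf f Q χ := by
      rw [abs_le, h3]
      constructor
      · linarith
      · linarith
    rw [abs_mul, abs_of_pos (inv_pos.2 hκ), inv_mul_le_iff₀ hκ] at h4
    rw [zero_mul, sub_zero, mul_assoc]
    exact h4
  have hZn : ∀ ψ ∈ Zn (nu0 Q) Q n, (Nh : Op (Fin (Q + 1))) ψ = (n : ℂ) • ψ := fun ψ h => h.2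
  have h := f1_final (fun g ψ hψ => star_Rg_mem_Zn n g hψ) hZn hWc (t := fun _ => (0 : ℝ)) hW
    hs.aestronglyMeasurable hs1 (by simp) hφ
  simp only [mul_zero, integral_zero, zero_mul, sub_zero] at h
  -- pass to `nuQ`
  have e1 : (∫ g, (s g : ℂ) • W g ∂(nuQ Q)) =
      (((ENNReal.ofReal (2 * (Q : ℝ) - 1)).toReal : ℝ) : ℂ) • ∫ g, (s g : ℂ) • W g ∂hm := by
    unfold nuQ
    rw [integral_smul_measure]
    exact (Complex.coe_smul _ _).symm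
  rw [e1, smul_ap, inner_smul_right, Complex.re_ofReal_mul, abs_mul]
  set r : ℝ := (ENNReal.ofReal (2 * (Q : ℝ) - 1)).toReal with hr
  have hr0 : 0 ≤ r := ENNReal.toReal_nonneg
  have hr1 : r ≤ 2 * ((Q : ℝ) + 1) := by
    rw [hr, ENNReal.toReal_ofReal']
    have : (0 : ℝ) ≤ Q := Nat.cast_nonneg Q
    exact max_le (by linarith) (by linarith)
  rw [abs_of_nonneg hr0]
  have hK : ((Q : ℝ) + 3 - 3 * n) = 3 * ((N₀ : ℝ) - n) := by
    have : ((Q : ℝ) + 3) = 3 * N₀ := by exact_mod_cast hQN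
    linarith
  have hK0 : 0 ≤ (N₀ : ℝ) - n := by
    have : (n : ℝ) ≤ N₀ := by exact_mod_cast hn
    linarith
  have hS : 0 ≤ ∑ j ∈ range (Q + 1), f j := sum_nonneg fun j _ => hf0 j
  have hB : 0 ≤ κ * CS * ((∑ j ∈ range (Q + 1), f j) / (Q + 1) * ((Q : ℝ) + 3 - 3 * n)) *
      ‖φ‖ ^ 2 := by
    rw [hK]; positivity
  calc r * |(inner ℂ φ ((∫ g, (s g : ℂ) • W g ∂hm) φ) : ℂ).re| ≤
      (2 * ((Q : ℝ) + 1)) * (κ * CS * ((∑ j ∈ range (Q + 1), f j) / (Q + 1) *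
        ((Q : ℝ) + 3 - 3 * n)) * ‖φ‖ ^ 2) :=
        mul_le_mul hr1 h (abs_nonneg _) (by positivity)
    _ = (6 * κ * CS * ∑ j ∈ range (Q + 1), f j) * ((N₀ : ℝ) - n) * ‖φ‖ ^ 2 := by
        rw [hK]; field_simp; ring

end

end Crest.Agent.R340.F5725
end

-- ▼ part R340/F5b_725

/-!
R340 (S0532), F5 of PLAN-F1 (helper725), part 2: `F1P_of_SP`, the literal (F1) of `U6_856.lean` from
the literal strong pass `Defs150.SP`.
-/

set_option autoImplicit false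

open Matrix Finset MeasureTheory

namespace Crest.Agent.R340.F5725

open Crest.Agent.R340.Fock649 Crest.Agent.R340.Gam303 Crest.Agent.R340.Rot303
open Crest.Agent.R340.Avg814 Crest.Agent.R340.CS809
open Crest.Agent.R340.DomF735 Crest.Agent.R340.Scal725
open Crest.Agent.R340.ZsBp725 Crest.Agent.R340.Geo986 Crest.Agent.R340.Peel596
open Crest.Agent.R340.Br320 Crest.Agent.R340.GG467 Crest.Agent.R340.FX963
open Crest.Agent.R340.QL331 Crest.Agent.R340.FI331 Crest.Agent.R340.DC867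
open Crest.Agent.R340.Defs150 Crest.MathPhysics.Laughlin

noncomputable section

variable {Q : ℕ}

/-- a profile family (856) is a profile about each centre (331) -/
theorem pc_of_FamQ {m : ℕ} {C : ℝ} {W : U2 → Op (Fin (Q + 1))} (hW : U856.FamQ Q m C W) (g : U2) :
    PC (Rq Q) (uf Q) (dQ Q) m C (W g) g := by
  refine ⟨hW.norm_le g, fun k w => ?_⟩
  obtain ⟨k, b⟩ := k
  rw [dQ_comm]
  cases b
  · rw [gen_false, fcar_an, Ring.lie_def]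
    exact hW.com g k w
  · rw [gen_true, fcar_cr, Ring.lie_def]
    have := hW.com_star g k w
    rwa [U856.aG, star_an] at this

theorem comm_of_FamQ {m : ℕ} {C : ℝ} {W : U2 → Op (Fin (Q + 1))} (hW : U856.FamQ Q m C W) (g : U2) :
    Commute (W g) (Nh : Op (Fin (Q + 1))) := (hW.num g).symm

/-- the recentred, rescaled family is in the class of the strong pass -/
theorem Dy_of_FamQ {k : ℕ} {W : U2 → Op (Fin (Q + 1))} (hW : U856.FamQ Q (k + 5) 1 W) (g : U2) :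
    DY Q (k + 1) 1 ((((KB k)⁻¹ : ℝ) : ℂ) • cj (g : Matrix (Fin 2) (Fin 2) ℂ)ᴴ (W g)) := by
  have h := (DY.of_pc_rot (comm_of_FamQ hW g) (pc_of_FamQ hW g)).smul (((KB k)⁻¹ : ℝ) : ℂ)
  have hK := KB_pos k
  rw [Complex.norm_real, Real.norm_of_nonneg (inv_nonneg.2 hK.le), mul_one,
    inv_mul_cancel₀ hK.ne'] at h
  exact h

/-- **(F1) of `U6_856` from the strong pass.** -/
theorem F1P_of_SP {k : ℕ} {A S CS : ℝ} (hA : 1 < A) (hAS : A < S + 1) (hCS : 0 ≤ CS)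
    (hSP : SP (k + 1) A S CS) : U856.F1P (k + 5) := by
  have hS : 0 < S := by linarith
  refine ⟨1, 6 * KB k * CS * (S / (A - 1)), ?_, ?_⟩
  · have := KB_pos k
    have h1 : 0 < A - 1 := by linarith
    positivity
  intro N₀ Q hQN hQ1 Ψ hΨ hΨ0 hne W hW _ hWΨ s hs hs1 N hN φ hφ hPφ
  have hN₀ : 2 ≤ N₀ := by omega
  have hQN' : Q + 3 = 3 * N₀ := by omega
  have hΨZ : Ψ ∈ Zn (nu0 Q) Q N₀ := ⟨mem_Zs_nu0_iff_HH.2 hΨ0, mem_sector_iff_Nh.1 hΨ⟩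
  have hφZ : φ ∈ Zn (nu0 Q) Q N := by
    refine ⟨mem_Zs_nu0_iff_HH.2 ?_, mem_sector_iff_Nh.1 hφ⟩
    rw [← hPφ]
    exact U856.PZ_HH φ
  have huniq : ∀ v ∈ Zn (nu0 Q) Q N₀, ∃ z : ℂ, v = z • Ψ := by
    intro v hv
    have hv1 : HH Q v = 0 := mem_Zs_nu0_iff_HH.1 hv.1
    have hv2 : v ∈ sector (Fin (Q + 1)) N₀ := mem_sector_iff_Nh.2 hv.2
    subst hQN
    exact U856.uniq_of hΨ hΨ0 hne hv2 hv1
  set Om : Fk (Fin (Q + 1)) := ((‖Ψ‖⁻¹ : ℝ) : ℂ) • Ψ with hOmdef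
  have hΨn : 0 < ‖Ψ‖ := norm_pos_iff.2 hne
  have hOm : Om ∈ Zn (nu0 Q) Q N₀ := Submodule.smul_mem _ _ hΨZ
  have hOm1 : ‖Om‖ = 1 := by
    rw [hOmdef, norm_smul, Complex.norm_real, Real.norm_of_nonneg (inv_nonneg.2 hΨn.le),
      inv_mul_cancel₀ hΨn.ne']
  have hvac : IsVac Q Om := by
    refine ⟨?_, hOm1⟩
    have e : Q / 3 + 1 = N₀ := by omega
    rw [e]; exact hOm
  have key := F1_core (Q := Q) (N₀ := N₀) (n := N) hQN' hN hCS (KB_pos k)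
    (f := prof A S) (fun j => (prof_pos hS.le hAS j).le) (Cl := fun X => DY Q (k + 1) 1 X) (Om := Om)
    (Ψ := Ψ) hOm huniq
    (fun X hX hXD => hSP Q N X Om (by omega) (by omega) ⟨hX, hXD⟩ hvac)
    (W := W) hW.cont hW.sa (fun g => Dy_of_FamQ hW g) (fun g => (Dy_of_FamQ hW g).neg)
    hWΨ hs hs1 hφZ
  refine (show |(inner ℂ φ ((∫ g, (s g : ℂ) • W g ∂(DLi482.nuQ Q)) φ) : ℂ).re| ≤ _ from key).trans ?_
  have h1 : ∑ j ∈ range (Q + 1), prof A S j ≤ S / (A - 1) :=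
    sum_prof_le_of_one_lt hS.le hA hAS _
  have h2 : (0 : ℝ) ≤ (N₀ : ℝ) - N := by
    have : (N : ℝ) ≤ N₀ := by exact_mod_cast hN
    linarith
  have hK := KB_pos k
  gcongr

end

end Crest.Agent.R340.F5725
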