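import Crest.Agent.R340.FI2_331
import Crest.Agent.R340.DLk_482

/-!
Frame instance (helper331), part 3: the instances for helper482's measure `nuQ Q` and frame `aG Q`.
-/

set_option autoImplicit false
set_option linter.unusedSectionVars false

namespace Crest.Agent.R340.FI331

open Matrix MeasureTheory Crest.Agent.R340.CS809 Crest.Agent.R340.Fock649
  Crest.Agent.R340.Gam303 Crest.Agent.R340.Rot303 Crest.Agent.R340.QL331
  Crest.Agent.R340.Avg814 Crest.Agent.R340.DLi482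
open scoped ENNReal NNReal

theorem nuQ_eq (Q : ℕ) : nuQ Q = (Real.toNNReal (2 * Q - 1)) • hm := rfl

theorem toNNReal_le (Q : ℕ) : ((Real.toNNReal (2 * Q - 1) : ℝ≥0) : ℝ) ≤ 2 * Q := by
  rw [Real.coe_toNNReal']
  refine max_le (by linarith) (by positivity)

/-- **856's `Frame` for `nuQ Q`, `aG Q`**, all `m ≥ 6`, all `Q ≥ 1` -/
theorem frame_nuQ {Q m : ℕ} (hQ : 1 ≤ Q) (hm6 : 6 ≤ m) :
    U856.Frame (nuQ Q) (aG Q) (dQ Q) (kpf Q) (Nh : Op (Fin (Q + 1))) m 1 (Kg m) 1 := by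
  rw [nuQ_eq]
  exact frame_inst hQ hm6 (toNNReal_le Q)




theorem int_le_nuQ {Q : ℕ} (hQ : 1 ≤ Q) (g : U2) {F : U2 → ℝ} {K : ℝ} (hK : 0 ≤ K)
    (hF0 : ∀ h, 0 ≤ F h) (hF : ∀ h, F h ≤ K / (1 + dQ Q g h) ^ 3) :
    ∫ h, F h ∂(nuQ Q) ≤ K := by
  rw [nuQ_eq]; exact int_le_of hQ (toNNReal_le Q) g hK hF0 hF



end Crest.Agent.R340.FI331
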