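import Crest.Agent.R340.Peel_596
import Crest.Agent.R340.FI1_331

/-!
R340 (helper963), FX part 1: THE FLUX-INDEPENDENT CLASS `DY Q n C X` (dyadic locality about the
north pole in the standard orbital frame), its closure properties, its stability under compression to
smaller flux, and the decay of the commutators with the orbitals.

`LocN Q L X` : `X` is even and commutes with `c j`, `d j` for all orbitals `j ≥ L`.
`DY Q n C X` : `X` commutes with `Nh`, `‖X‖ ≤ C` and for every `l` there is `Y` with `LocN Q (4^l) Y`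
and `‖X - Y‖ ≤ C * ((2^l)⁻¹)^n`.
-/

set_option autoImplicit false
set_option linter.unusedSectionVars false

namespace Crest.Agent.R340.FX963

open Crest.Agent.R340.Fock649 Crest.Agent.R340.Emb596 Crest.Agent.R340.Peel596
  Crest.Agent.R340.QL331 Crest.Agent.R340.FI331 Crest.Agent.R340.CS809

/-! ### parity -/

section parity

variable {ι κ : Type*} [LinearOrder ι] [Fintype ι] [LinearOrder κ] [Fintype κ]

theorem ev_iff (X : Op ι) : (fcar : Car (Op ι) (L ι)).Ev X ↔ Commute X (thF : Op ι) := by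
  have hs : (thF : Op ι) * thF = 1 := (fcar : Car (Op ι) (L ι)).th_sq
  constructor
  · intro h
    have h1 : (thF : Op ι) * X * thF = X := h
    have h2 : (thF : Op ι) * X = X * thF := by
      calc (thF : Op ι) * X = thF * X * (thF * thF) := by rw [hs, mul_one]
        _ = (thF * X * thF) * thF := by noncomm_ring
        _ = X * thF := by rw [h1]
    exact h2.symm
  · intro h
    have h2 : X * (thF : Op ι) = thF * X := h
    show (thF : Op ι) * X * thF = X
    rw [← h2, mul_assoc, hs, mul_one]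

/-- a number conserving operator is even -/
theorem ev_of_comm_Nh {X : Op ι} (h : Commute X (Nh : Op ι)) : (fcar : Car (Op ι) (L ι)).Ev X := by
  rw [ev_iff]
  have hent : ∀ S T : Finset ι, (X (ket S)) T ≠ 0 → T.card = S.card := by
    intro S T hne
    have h1 : (X * (Nh : Op ι)) (ket S) = ((Nh : Op ι) * X) (ket S) := by rw [h.eq]
    rw [mul_ap, mul_ap, Nh_ket, X.ap.map_smul, Nh_eq] at h1
    have h2 := congrArg (fun v : Fk ι => v T) h1
    simp only [PiLp.smul_apply, smul_eq_mul, diag_apply] at h2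
    have h3 : ((S.card : ℂ) - T.card) * (X (ket S)) T = 0 := by
      rw [sub_mul, sub_eq_zero]; exact h2
    rcases mul_eq_zero.1 h3 with h4 | h4
    · have : (S.card : ℂ) = T.card := sub_eq_zero.1 h4
      exact_mod_cast this.symm
    · exact absurd h4 hne
  refine op_ext fun S => ?_
  rw [mul_ap, mul_ap, thF_ket, X.ap.map_smul]
  ext T
  show ((-1 : ℂ) ^ S.card) • ((X (ket S)) T) = (thF (X (ket S))) T
  rw [thF, diag_apply, smul_eq_mul]
  by_cases hz : (X (ket S)) T = 0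
  · rw [hz, mul_zero, mul_zero]
  · rw [hent S T hz]

theorem thF_emb (e : κ ↪o ι) (ψ : Fk κ) : (thF : Op ι) (emb e ψ) = emb e ((thF : Op κ) ψ) := by
  unfold thF
  rw [diag_emb]
  simp only [Finset.card_map]

theorem rst_thF (e : κ ↪o ι) (φ : Fk ι) : rst e ((thF : Op ι) φ) = (thF : Op κ) (rst e φ) := by
  unfold thF
  rw [rst_diag]
  simp only [Finset.card_map]

theorem cmp_commute_th (e : κ ↪o ι) {X : Op ι} (h : Commute X (thF : Op ι)) :
    Commute (cmp e X) (thF : Op κ) := by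
  have h1 := cmp_mul_right e X (thF : Op ι) (thF : Op κ) (thF_emb e)
  have h2 := cmp_mul_left e (thF : Op ι) X (thF : Op κ) (rst_thF e)
  have h3 : X * (thF : Op ι) = thF * X := h
  rw [h3, h2] at h1
  exact h1.symm

theorem cmp_ev (e : κ ↪o ι) {X : Op ι} (h : (fcar : Car (Op ι) (L ι)).Ev X) :
    (fcar : Car (Op κ) (L κ)).Ev (cmp e X) := by
  rw [ev_iff] at h ⊢
  exact cmp_commute_th e h

theorem cmp_commute_Nh (e : κ ↪o ι) {X : Op ι} (h : Commute X (Nh : Op ι)) :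
    Commute (cmp e X) (Nh : Op κ) := by
  have h1 := cmp_mul_right e X (Nh : Op ι) (Nh : Op κ) (Nh_emb e)
  have h2 := cmp_mul_left e (Nh : Op ι) X (Nh : Op κ) (rst_Nh e)
  have h3 : X * (Nh : Op ι) = Nh * X := h
  rw [h3, h2] at h1
  exact h1.symm

theorem cmp_commute_c (e : κ ↪o ι) {X : Op ι} {i : κ} (h : Commute X (c (e i))) :
    Commute (cmp e X) (c i) := by
  have h1 := cmp_mul_c e X i
  rw [h.eq, cmp_c_mul] at h1
  exact h1.symm

theorem cmp_commute_d (e : κ ↪o ι) {X : Op ι} {i : κ} (h : Commute X (d (e i))) :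
    Commute (cmp e X) (d i) := by
  have h1 := cmp_mul_d e X i
  rw [h.eq, cmp_d_mul] at h1
  exact h1.symm

/-- composition of compressions -/
theorem cmp_cmp {μ : Type*} [LinearOrder μ] [Fintype μ] (e : κ ↪o ι) (f : μ ↪o κ) (X : Op ι)
    (g : μ ↪o ι) (hg : ∀ i, g i = e (f i)) : cmp f (cmp e X) = cmp g X := by
  have hemb : ∀ ψ : Fk μ, emb g ψ = emb e (emb f ψ) := by
    intro ψ
    have : (emb g : Fk μ →L[ℂ] Fk ι) = (emb e).comp (emb f) := by
      refine ContinuousLinearMap.ext fun ψ => ?_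
      rw [fk_eq_sum ψ, map_sum, map_sum]
      refine Finset.sum_congr rfl fun S _ => ?_
      rw [map_smul, map_smul, ContinuousLinearMap.comp_apply, emb_ket, emb_ket, emb_ket,
        Finset.map_map]
      congr 3
      ext i
      simp [hg]
    rw [this]; rfl
  refine Op.ext fun ψ => ?_
  refine ext_inner_left ℂ fun φ => ?_
  rw [inner_cmp, inner_cmp, inner_cmp, hemb, hemb]

end parity

/-! ### strictly local operators -/

/-- even and commuting with all orbitals `j ≥ L` -/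
def LocN (Q L : ℕ) (X : Op (Fin (Q + 1))) : Prop :=
  (fcar : Car (Op (Fin (Q + 1))) (Fock649.L (Fin (Q + 1)))).Ev X ∧
    ∀ j : Fin (Q + 1), L ≤ (j : ℕ) → Commute X (c j) ∧ Commute X (d j)

variable {Q n : ℕ} {C : ℝ}

theorem vec_one (Q : ℕ) (j : Fin (Q + 1)) : vec Q 1 j = e j := by
  unfold vec; rw [sp_one, mv_one]

theorem fb_one (Q : ℕ) (j : Fin (Q + 1)) : fb Q (1 : U2) j = e j := by
  rw [fb_apply]; exact vec_one Q j

theorem locN_iff {L : ℕ} {X : Op (Fin (Q + 1))} :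
    LocN Q L X ↔ (fcar : Car (Op (Fin (Q + 1))) (Fock649.L (Fin (Q + 1)))).Loc (fb Q (1 : U2)) L X := by
  unfold LocN Car.Loc Car.Cm
  refine and_congr_right fun _ => forall_congr' fun j => imp_congr_right fun _ => ?_
  rw [fb_one, fcar_an, fcar_cr, an_e, cr_e]

theorem LocN.mono {L L' : ℕ} {X : Op (Fin (Q + 1))} (h : LocN Q L X) (hL : L ≤ L') : LocN Q L' X :=
  ⟨h.1, fun j hj => h.2 j (hL.trans hj)⟩


theorem LocN.cmp {Q' L : ℕ} (hQ : Q' ≤ Q) {X : Op (Fin (Q + 1))} (h : LocN Q L X) :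
    LocN Q' L (cmp (ee hQ) X) :=
  ⟨cmp_ev _ h.1, fun j hj =>
    ⟨cmp_commute_c _ (h.2 (ee hQ j) (by rw [ee_val]; exact hj)).1,
      cmp_commute_d _ (h.2 (ee hQ j) (by rw [ee_val]; exact hj)).2⟩⟩

theorem LocN.add {L : ℕ} {X Y : Op (Fin (Q + 1))} (h : LocN Q L X) (h' : LocN Q L Y) :
    LocN Q L (X + Y) := by
  rw [locN_iff] at *; exact h.add h'

theorem LocN.sub {L : ℕ} {X Y : Op (Fin (Q + 1))} (h : LocN Q L X) (h' : LocN Q L Y) :
    LocN Q L (X - Y) := by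
  rw [locN_iff] at *; exact h.sub h'

theorem LocN.smul {L : ℕ} {X : Op (Fin (Q + 1))} (z : ℂ) (h : LocN Q L X) : LocN Q L (z • X) := by
  rw [locN_iff] at *; exact h.smul z

theorem LocN.star {L : ℕ} {X : Op (Fin (Q + 1))} (h : LocN Q L X) : LocN Q L (star X) := by
  rw [locN_iff] at *; exact h.star

theorem LocN.one (Q L : ℕ) : LocN Q L 1 := by rw [locN_iff]; exact Car.loc_one _ _ _

/-! ### the dyadic class -/

/-- the flux-independent dyadic class about the north pole -/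
structure DY (Q n : ℕ) (C : ℝ) (X : Op (Fin (Q + 1))) : Prop where
  comm : Commute X (Nh : Op (Fin (Q + 1)))
  norm_le : ‖X‖ ≤ C
  app : ∀ l : ℕ, ∃ Y, LocN Q (4 ^ l) Y ∧ ‖X - Y‖ ≤ C * ((2 ^ l)⁻¹) ^ n

theorem DY.nonneg {X : Op (Fin (Q + 1))} (h : DY Q n C X) : 0 ≤ C := (norm_nonneg _).trans h.norm_le

theorem DY.ev {X : Op (Fin (Q + 1))} (h : DY Q n C X) :
    (fcar : Car (Op (Fin (Q + 1))) (Fock649.L (Fin (Q + 1)))).Ev X := ev_of_comm_Nh h.comm

theorem DY.mono {X : Op (Fin (Q + 1))} (h : DY Q n C X) {C' : ℝ} (hC : C ≤ C') : DY Q n C' X := by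
  refine ⟨h.comm, h.norm_le.trans hC, fun l => ?_⟩
  obtain ⟨Y, hY, hY'⟩ := h.app l
  exact ⟨Y, hY, hY'.trans (by gcongr)⟩

theorem DY.mono_exp {X : Op (Fin (Q + 1))} (h : DY Q n C X) {n' : ℕ} (hn : n' ≤ n) :
    DY Q n' C X := by
  refine ⟨h.comm, h.norm_le, fun l => ?_⟩
  obtain ⟨Y, hY, hY'⟩ := h.app l
  refine ⟨Y, hY, hY'.trans ?_⟩
  have h0 := h.nonneg
  have h1 : ((2 : ℝ) ^ l)⁻¹ ≤ 1 := by
    rw [inv_le_one_iff₀]; right; exact one_le_pow₀ (by norm_num)
  have h2 : (0:ℝ) ≤ ((2 : ℝ) ^ l)⁻¹ := by positivity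
  exact mul_le_mul_of_nonneg_left (pow_le_pow_of_le_one h2 h1 hn) h0

theorem DY.cmp {Q' : ℕ} (hQ : Q' ≤ Q) {X : Op (Fin (Q + 1))} (h : DY Q n C X) :
    DY Q' n C (cmp (ee hQ) X) := by
  refine ⟨cmp_commute_Nh _ h.comm, (norm_cmp_le _ _).trans h.norm_le, fun l => ?_⟩
  obtain ⟨Y, hY, hY'⟩ := h.app l
  refine ⟨Emb596.cmp (ee hQ) Y, hY.cmp hQ, ?_⟩
  rw [← cmp_sub]
  exact (norm_cmp_le _ _).trans hY'

theorem DY.add {X X' : Op (Fin (Q + 1))} {C' : ℝ} (h : DY Q n C X) (h' : DY Q n C' X') :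
    DY Q n (C + C') (X + X') := by
  refine ⟨h.comm.add_left h'.comm, (norm_add_le _ _).trans (add_le_add h.norm_le h'.norm_le),
    fun l => ?_⟩
  obtain ⟨Y, hY, hY1⟩ := h.app l
  obtain ⟨Y', hY', hY1'⟩ := h'.app l
  refine ⟨Y + Y', hY.add hY', ?_⟩
  calc ‖X + X' - (Y + Y')‖ = ‖(X - Y) + (X' - Y')‖ := by congr 1; abel
    _ ≤ ‖X - Y‖ + ‖X' - Y'‖ := norm_add_le _ _
    _ ≤ C * ((2 ^ l)⁻¹) ^ n + C' * ((2 ^ l)⁻¹) ^ n := add_le_add hY1 hY1'
    _ = _ := by ring

theorem DY.smul {X : Op (Fin (Q + 1))} (z : ℂ) (h : DY Q n C X) : DY Q n (‖z‖ * C) (z • X) := by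
  refine ⟨h.comm.smul_left z, ?_, fun l => ?_⟩
  · rw [norm_smul]; exact mul_le_mul_of_nonneg_left h.norm_le (norm_nonneg _)
  obtain ⟨Y, hY, hY1⟩ := h.app l
  refine ⟨z • Y, hY.smul z, ?_⟩
  rw [← smul_sub, norm_smul, mul_assoc]
  exact mul_le_mul_of_nonneg_left hY1 (norm_nonneg _)

theorem DY.neg {X : Op (Fin (Q + 1))} (h : DY Q n C X) : DY Q n C (-X) := by
  have := h.smul (-1)
  rw [norm_neg, norm_one, one_mul, neg_one_smul] at this
  exact this

theorem DY.sub {X X' : Op (Fin (Q + 1))} {C' : ℝ} (h : DY Q n C X) (h' : DY Q n C' X') :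
    DY Q n (C + C') (X - X') := by
  rw [sub_eq_add_neg]; exact h.add h'.neg

theorem star_Nh {ι : Type*} [LinearOrder ι] [Fintype ι] : star (Nh : Op ι) = Nh := by
  unfold Nh; rw [star_dG, Matrix.conjTranspose_one]

theorem DY.star {X : Op (Fin (Q + 1))} (h : DY Q n C X) : DY Q n C (star X) := by
  refine ⟨?_, by rw [norm_star]; exact h.norm_le, fun l => ?_⟩
  · have := h.comm.star_star
    rw [star_Nh] at this
    exact this
  obtain ⟨Y, hY, hY1⟩ := h.app l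
  refine ⟨Star.star Y, hY.star, ?_⟩
  rw [← star_sub, norm_star]; exact hY1

theorem DY.one (Q n : ℕ) : DY Q n 1 1 := by
  refine ⟨Commute.one_left _, le_of_eq norm_one, fun l => ⟨1, LocN.one _ _, ?_⟩⟩
  rw [sub_self, norm_zero]; positivity


theorem DY.zero (Q n : ℕ) : DY Q n 0 0 := by
  refine ⟨Commute.zero_left _, by rw [norm_zero], fun l => ⟨0, ?_, ?_⟩⟩
  · have := (LocN.one Q (4 ^ l)).smul 0
    rwa [zero_smul] at this
  · rw [sub_self, norm_zero]; simp

theorem DY.sum {σ : Type*} (s : Finset σ) {X : σ → Op (Fin (Q + 1))} {K : σ → ℝ}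
    (h : ∀ i ∈ s, DY Q n (K i) (X i)) : DY Q n (∑ i ∈ s, K i) (∑ i ∈ s, X i) := by
  classical
  induction s using Finset.induction_on with
  | empty => simpa using DY.zero Q n
  | insert a s ha ih =>
    rw [Finset.sum_insert ha, Finset.sum_insert ha]
    exact (h a (Finset.mem_insert_self _ _)).add
      (ih fun i hi => h i (Finset.mem_insert_of_mem hi))

/-! ### commutators with orbitals -/

theorem pow_bound {l j k : ℕ} (h : j < 4 ^ (l + 1)) :
    (((2 : ℝ) ^ l)⁻¹) ^ (2 * k) ≤ 4 ^ k / ((j : ℝ) + 1) ^ k := by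
  have h1 : ((j : ℝ) + 1) ≤ 4 ^ (l + 1) := by exact_mod_cast h
  have h2 : (((2 : ℝ) ^ l)⁻¹) ^ (2 * k) = ((4 : ℝ) ^ l)⁻¹ ^ k := by
    rw [pow_mul]
    congr 1
    rw [inv_pow, ← pow_mul, mul_comm l 2, pow_mul]
    norm_num
  rw [h2, ← div_pow]
  refine pow_le_pow_left₀ (by positivity) ?_ k
  rw [inv_eq_one_div, div_le_div_iff₀ (by positivity) (by positivity), one_mul]
  calc ((j : ℝ) + 1) ≤ 4 ^ (l + 1) := h1
    _ = 4 * 4 ^ l := by rw [pow_succ]; ring

theorem exists_level (j : ℕ) : (j = 0) ∨ ∃ l : ℕ, 4 ^ l ≤ j ∧ j < 4 ^ (l + 1) := by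
  rcases Nat.eq_zero_or_pos j with h | h
  · exact Or.inl h
  · right
    exact ⟨Nat.log 4 j, Nat.pow_log_le_self 4 h.ne', Nat.lt_pow_succ_log_self (by norm_num) j⟩

/-- master estimate: commutator with anything commuting with all operators local in orbitals `< j` -/
theorem DY.norm_lie_le {k : ℕ} {X T : Op (Fin (Q + 1))} (h : DY Q (2 * k) C X) (j : ℕ)
    (hT : ∀ L ≤ j, ∀ Y, LocN Q L Y → Commute Y T) :
    ‖X * T - T * X‖ ≤ 2 * (4 ^ k * C / ((j : ℝ) + 1) ^ k) * ‖T‖ := by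
  have h0 := h.nonneg
  have key : ∃ Y : Op (Fin (Q + 1)), Commute Y T ∧ ‖X - Y‖ ≤ 4 ^ k * C / ((j : ℝ) + 1) ^ k := by
    rcases exists_level j with hj | ⟨l, hl, hl'⟩
    · refine ⟨0, Commute.zero_left _, ?_⟩
      subst hj
      rw [sub_zero]
      simp only [Nat.cast_zero, zero_add, one_pow, div_one]
      calc ‖X‖ ≤ C := h.norm_le
        _ ≤ 4 ^ k * C := le_mul_of_one_le_left h0 (one_le_pow₀ (by norm_num))
    · obtain ⟨Y, hY, hY1⟩ := h.app l
      refine ⟨Y, hT _ hl Y hY, hY1.trans ?_⟩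
      have := mul_le_mul_of_nonneg_left (pow_bound (k := k) hl') h0
      refine this.trans (le_of_eq ?_)
      ring
  obtain ⟨Y, hYT, hY⟩ := key
  have e1 : X * T - T * X = (X - Y) * T - T * (X - Y) := by
    rw [sub_mul, mul_sub, hYT.eq]; abel
  rw [e1]
  calc ‖(X - Y) * T - T * (X - Y)‖ ≤ ‖(X - Y) * T‖ + ‖T * (X - Y)‖ := norm_sub_le _ _
    _ ≤ ‖X - Y‖ * ‖T‖ + ‖T‖ * ‖X - Y‖ := add_le_add (norm_mul_le _ _) (norm_mul_le _ _)
    _ = 2 * ‖X - Y‖ * ‖T‖ := by ring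
    _ ≤ _ := by gcongr

theorem DY.norm_lie_c_le {k : ℕ} {X : Op (Fin (Q + 1))} (h : DY Q (2 * k) C X) (j : Fin (Q + 1)) :
    ‖X * c j - c j * X‖ ≤ 2 * (4 ^ k * C / ((j : ℝ) + 1) ^ k) := by
  have := h.norm_lie_le (j : ℕ) (T := c j) fun L hL Y hY => (hY.2 j hL).1
  rwa [norm_c, mul_one] at this



end Crest.Agent.R340.FX963
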