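import Crest.Agent.R340.Rot3_303
import Crest.Agent.R340.CS3_809
import Crest.Agent.R124.Haar

/-!
# R340 (helper303), rotation layer 5: the sphere as a quotient of the unitary group

`map_pt : (haar).map pt = (4π)⁻¹ • toSphere`; `toeplitz_eq` : the Toeplitz matrix as an integral
over the group; `dG_toeplitz` : its second quantisation.
-/

set_option autoImplicit false

open Matrix MeasureTheory
open scoped ENNReal ComplexConjugate

namespace Crest.Agent.R340.Rot303

open Crest.Agent.R340.CS809 Crest.MathPhysics.Laughlin Crest.Agent.R340.Fock649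
  Crest.Agent.R340.Gam303 Crest.Agent.R340.Br320

noncomputable section

set_option maxHeartbeats 400000

variable {Q : ℕ}

/-- Haar probability on `U(2)` -/
abbrev hU : Measure U2 := Crest.Agent.R124.Haar.haar (Fin 2)

/-- surface measure of `S2` -/
abbrev tS : Measure S2 := (volume : Measure (EuclideanSpace ℝ (Fin 3))).toSphere

theorem tS_univ : tS Set.univ = ENNReal.ofReal (4 * Real.pi) := by
  rw [Measure.toSphere_apply_univ, EuclideanSpace.volume_ball_fin_three, finrank_euclideanSpace,
    Fintype.card_fin]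
  simp only [ENNReal.ofReal_one, one_pow, one_mul]
  rw [show ((3 : ℕ) : ℝ≥0∞) = ENNReal.ofReal 3 by simp, ← ENNReal.ofReal_mul (by norm_num)]
  congr 1
  ring

theorem continuous_ro : Continuous fun p : U2 × S2 => ro p.1 p.2 := by
  refine Continuous.subtype_mk ?_ _
  have h1 : Continuous fun p : U2 × S2 =>
      (p.1 : Matrix (Fin 2) (Fin 2) ℂ) * CS809.mv (p.2 : E3) *
        (p.1 : Matrix (Fin 2) (Fin 2) ℂ)ᴴ := by
    have ha : Continuous fun p : U2 × S2 => (p.1 : Matrix (Fin 2) (Fin 2) ℂ) :=
      continuous_subtype_val.comp continuous_fst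
    have hv : ∀ i, Continuous fun p : U2 × S2 => ((((p.2 : E3) i : ℝ)) : ℂ) := by
      intro i
      have h0 : Continuous fun p : U2 × S2 => (p.2 : E3) :=
        continuous_subtype_val.comp continuous_snd
      exact Complex.continuous_ofReal.comp
        ((continuous_apply i).comp ((PiLp.continuous_ofLp 2 _).comp h0))
    have hb : Continuous fun p : U2 × S2 => CS809.mv (p.2 : E3) := by
      refine continuous_matrix fun i j => ?_
      fin_cases i <;> fin_cases j
      · exact hv 2
      · exact (hv 0).add ((hv 1).mul continuous_const)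
      · exact (hv 0).sub ((hv 1).mul continuous_const)
      · exact (hv 2).neg
    exact (ha.mul hb).mul ha.matrix_conjTranspose
  have h2 : Continuous fun A : Matrix (Fin 2) (Fin 2) ℂ => vm A := by
    unfold vm
    refine (PiLp.continuous_toLp 2 _).comp ?_
    refine continuous_pi fun i => ?_
    fin_cases i
    · exact Complex.continuous_re.comp (continuous_apply_apply 1 0)
    · exact Complex.continuous_im.comp (continuous_apply_apply 0 1)
    · exact Complex.continuous_re.comp (continuous_apply_apply 0 0)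
  exact h2.comp h1

theorem continuous_pt' : Continuous fun g : U2 => ro g north := by
  have h : Continuous fun g : U2 => (g, north) := Continuous.prodMk continuous_id continuous_const
  have h2 := continuous_ro.comp h
  exact h2

theorem continuous_pt : Continuous pt := by
  have h := continuous_pt'
  exact h

theorem measurable_ro : Measurable fun p : U2 × S2 => ro p.1 p.2 := by
  have := Crest.Agent.R124.Haar.secondCountable (N := Fin 2)
  exact continuous_ro.measurable

theorem measurable_pt : Measurable pt := continuous_pt.measurable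

/-- **The image of Haar measure is the normalised surface measure.** -/
theorem map_pt : hU.map pt = (ENNReal.ofReal (4 * Real.pi))⁻¹ • tS := by
  have hpi : (0 : ℝ) < 4 * Real.pi := by positivity
  have h4 : ENNReal.ofReal (4 * Real.pi) ≠ 0 := by
    rw [Ne, ENNReal.ofReal_eq_zero]; linarith
  have h4' : ENNReal.ofReal (4 * Real.pi) ≠ ⊤ := ENNReal.ofReal_ne_top
  ext A hA
  set F : S2 → ℝ≥0∞ := A.indicator 1 with hF
  have hFm : Measurable F := measurable_one.indicator hA
  rw [Measure.map_apply measurable_pt hA]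
  have e1 : hU (pt ⁻¹' A) = ∫⁻ g, F (pt g) ∂hU := by
    have h : ∀ g, F (pt g) = (pt ⁻¹' A).indicator 1 g := fun g => rfl
    rw [lintegral_congr h, lintegral_indicator_one (measurable_pt hA)]
  have e2 : ∀ x : S2, ∫⁻ g, F (ro g x) ∂hU = hU (pt ⁻¹' A) := by
    intro x
    rw [e1, ← lintegral_mul_right_eq_self (fun g => F (pt g)) (gU x)]
    refine lintegral_congr fun g => ?_
    rw [pt_mul, pt_gU]
  have e3 : ∀ g : U2, ∫⁻ x, F (ro g x) ∂tS = tS A := by
    intro g
    have h : ∫⁻ x, F (ro g x) ∂tS = ∫⁻ x, F x ∂tS :=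
      Crest.Agent.R070.RotInv260.lintegral_sphMap
      (rotE (g : Matrix (Fin 2) (Fin 2) ℂ) (U2_ct_mul g)) hFm
    rw [h, hF, lintegral_indicator_one hA]
  have e4 : ∫⁻ x, ∫⁻ g, F (ro g x) ∂hU ∂tS = ∫⁻ g, ∫⁻ x, F (ro g x) ∂tS ∂hU := by
    refine lintegral_lintegral_swap ?_
    have h0 : Measurable fun p : S2 × U2 => (p.2, p.1) := measurable_swap
    have h1 := measurable_ro.comp h0
    have h2 := hFm.comp h1
    have h3 := h2.aemeasurable (μ := tS.prod hU)
    exact h3
  simp only [e2, e3] at e4
  have hU1 : hU Set.univ = 1 := measure_univ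
  rw [lintegral_const, lintegral_const, hU1, mul_one, tS_univ] at e4
  rw [Measure.smul_apply, smul_eq_mul, ← e4, mul_comm, mul_assoc, ENNReal.mul_inv_cancel h4 h4',
    mul_one]

/-- integration over the sphere as integration over the group -/
theorem integral_tS {E : Type*} [NormedAddCommGroup E] [NormedSpace ℝ E] {F : S2 → E}
    (hF : AEStronglyMeasurable F tS) :
    ∫ x, F x ∂tS = (4 * Real.pi) • ∫ g, F (pt g) ∂hU := by
  have hpi : (0 : ℝ) < 4 * Real.pi := by positivity
  have h4 : ENNReal.ofReal (4 * Real.pi) ≠ 0 := by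
    rw [Ne, ENNReal.ofReal_eq_zero]; linarith
  have h1 : AEStronglyMeasurable F (hU.map pt) := by
    rw [map_pt]
    exact hF.mono_ac (Measure.smul_absolutelyContinuous)
  rw [← integral_map measurable_pt.aemeasurable h1, map_pt, integral_smul_measure,
    ENNReal.toReal_inv, ENNReal.toReal_ofReal hpi.le, smul_smul, mul_inv_cancel₀ hpi.ne', one_smul]

/-- the coherent kernel in terms of a spinor over the point -/
theorem kernel_eq {x : S2} {a : Fin 2 → ℂ} (hx : prj x = vecMulVec a (star a))
    (j j' : Fin (Q + 1)) :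
    ((sb Q j : ℝ) : ℂ) * ((sb Q j' : ℝ) : ℂ) * coherentKernel Q j j' x =
      kap Q a j * star (kap Q a j') := by
  have h00 : (1 + (((x : E3) 2 : ℝ) : ℂ)) / 2 = a 0 * star (a 0) := by
    rw [← prj_00, hx, vecMulVec_apply]; rfl
  have h11 : (1 - (((x : E3) 2 : ℝ) : ℂ)) / 2 = a 1 * star (a 1) := by
    rw [← prj_11, hx, vecMulVec_apply]; rfl
  have h01 : ((((x : E3) 0 : ℝ) : ℂ) + (((x : E3) 1 : ℝ) : ℂ) * Complex.I) / 2 =
      a 0 * star (a 1) := by
    rw [← prj_01, hx, vecMulVec_apply]; rfl
  have h10 : ((((x : E3) 0 : ℝ) : ℂ) - (((x : E3) 1 : ℝ) : ℂ) * Complex.I) / 2 =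
      a 1 * star (a 0) := by
    rw [← prj_10, hx, vecMulVec_apply]; rfl
  have hj : (j : ℕ) ≤ Q := Nat.lt_succ_iff.1 j.2
  have hj' : (j' : ℕ) ≤ Q := Nat.lt_succ_iff.1 j'.2
  unfold coherentKernel kap
  push_cast
  rw [h00, h11, h01, h10]
  simp only [star_mul', star_pow, star_ofReal]
  by_cases h : (j : ℕ) ≤ j'
  · rw [if_pos h, max_eq_right h, min_eq_left h]
    have e1 : Q - (j : ℕ) = (Q - (j' : ℕ)) + ((j' : ℕ) - j) := by omega
    have e2 : (j' : ℕ) = j + ((j' : ℕ) - j) := by omega
    have e3 : star (a 1) ^ (j' : ℕ) = star (a 1) ^ (j : ℕ) * star (a 1) ^ ((j' : ℕ) - j) := by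
      rw [← pow_add, ← e2]
    rw [e1, e3, pow_add]
    simp only [mul_pow]
    ring
  · have h' : (j' : ℕ) ≤ j := (not_le.1 h).le
    rw [if_neg h, max_eq_left h', min_eq_right h']
    have e1 : Q - (j' : ℕ) = (Q - (j : ℕ)) + ((j : ℕ) - j') := by omega
    have e2 : (j : ℕ) = j' + ((j : ℕ) - j') := by omega
    have e3 : a 1 ^ (j : ℕ) = a 1 ^ (j' : ℕ) * a 1 ^ ((j : ℕ) - j') := by
      rw [← pow_add, ← e2]
    rw [e1, e3, pow_add]
    simp only [mul_pow]
    ring
where
  star_ofReal (r : ℝ) : star (r : ℂ) = (r : ℂ) := Complex.conj_ofReal r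

theorem continuous_kernel (j j' : Fin (Q + 1)) : Continuous (coherentKernel Q j j') := by
  unfold coherentKernel
  have hv : ∀ i, Continuous fun x : S2 => (x : E3) i := fun i =>
    (continuous_apply i).comp ((PiLp.continuous_ofLp 2 _).comp continuous_subtype_val)
  refine Continuous.mul ?_ ?_
  · exact Complex.continuous_ofReal.comp
      (((continuous_const.add (hv 2)).div_const 2).pow _ |>.mul
        (((continuous_const.sub (hv 2)).div_const 2).pow _))
  · split_ifs
    · exact (((Complex.continuous_ofReal.comp (hv 0)).add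
        ((Complex.continuous_ofReal.comp (hv 1)).mul continuous_const)).div_const 2).pow _
    · exact (((Complex.continuous_ofReal.comp (hv 0)).sub
        ((Complex.continuous_ofReal.comp (hv 1)).mul continuous_const)).div_const 2).pow _

/-- **The Toeplitz matrix as an integral over the group.** -/
theorem toeplitz_eq {φ : S2 → ℝ} (hφ : Measurable φ) (j j' : Fin (Q + 1)) :
    toeplitz Q φ j j' = ((Q : ℂ) + 1) * ∫ g : U2, (φ (pt g) : ℂ) *
      (sp Q (g : Matrix (Fin 2) (Fin 2) ℂ) j 0 *
        star (sp Q (g : Matrix (Fin 2) (Fin 2) ℂ) j' 0)) ∂hU := by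
  have hm : AEStronglyMeasurable (fun x : S2 => (φ x : ℂ) * coherentKernel Q j j' x) tS :=
    ((Complex.measurable_ofReal.comp hφ).mul (continuous_kernel j j').measurable).aestronglyMeasurable
  have hpi : ((4 * Real.pi : ℝ) : ℂ) ≠ 0 := by
    have : (0 : ℝ) < 4 * Real.pi := by positivity
    exact_mod_cast this.ne'
  unfold toeplitz
  rw [of_apply, integral_tS hm]
  have hs : Real.sqrt ((Nat.choose Q j : ℝ) * Nat.choose Q j') = sb Q j * sb Q j' := by
    rw [Real.sqrt_mul (by positivity)]; rfl
  rw [hs]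
  have h1 : ∀ g : U2, (φ (pt g) : ℂ) * (sp Q (g : Matrix (Fin 2) (Fin 2) ℂ) j 0 *
        star (sp Q (g : Matrix (Fin 2) (Fin 2) ℂ) j' 0)) =
      (((sb Q j : ℝ) : ℂ) * ((sb Q j' : ℝ) : ℂ)) *
        ((φ (pt g) : ℂ) * coherentKernel Q j j' (pt g)) := by
    intro g
    have h := kernel_eq (Q := Q) (prj_pt g) j j'
    rw [sp_apply_zero, sp_apply_zero]
    have h2 : (fun k => (g : Matrix (Fin 2) (Fin 2) ℂ) k 0) = c0 (g : Matrix (Fin 2) (Fin 2) ℂ) :=
      rfl
    rw [h2, ← h]
    ring
  rw [integral_congr_ae (Filter.Eventually.of_forall h1), integral_const_mul,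
    Complex.real_smul]
  push_cast at hpi ⊢
  field_simp

/-! ## second quantisation -/

/-- occupation of the coherent orbital at `pt g` -/
def n0g (Q : ℕ) (g : Matrix (Fin 2) (Fin 2) ℂ) : Op (Fin (Q + 1)) :=
  cr (Fock649.mv (sp Q g) (e 0)) * an (Fock649.mv (sp Q g) (e 0))

theorem n0g_eq_sum (g : Matrix (Fin 2) (Fin 2) ℂ) :
    n0g Q g = ∑ j, ∑ j', (sp Q g j 0 * star (sp Q g j' 0)) • (d j * c j') := by
  unfold n0g cr an
  rw [Finset.sum_mul_sum]
  refine Finset.sum_congr rfl fun j _ => Finset.sum_congr rfl fun j' _ => ?_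
  rw [mv_e, mv_e, smul_mul_smul_comm]
  rfl


theorem continuous_n0g : Continuous (n0g Q) := by
  have h : n0g Q = fun g : Matrix (Fin 2) (Fin 2) ℂ =>
      ∑ j, ∑ j', (sp Q g j 0 * star (sp Q g j' 0)) • (d j * c j' : Op (Fin (Q + 1))) :=
    funext n0g_eq_sum
  have he : ∀ i : Fin (Q + 1), Continuous fun g : Matrix (Fin 2) (Fin 2) ℂ => sp Q g i 0 :=
    fun i => (continuous_sp Q).matrix_elem i 0
  rw [h]
  refine continuous_finsetSum _ fun j _ => continuous_finsetSum _ fun j' _ => ?_
  exact ((he j).mul (he j').star).smul continuous_const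

/-- **The second quantised Toeplitz operator as an integral over the group.** -/
theorem dG_toeplitz {φ : S2 → ℝ} (hφ : Measurable φ) {C : ℝ} (hC : ∀ x, |φ x| ≤ C) :
    dG (toeplitz Q φ) = ((Q : ℂ) + 1) • ∫ g : U2, (φ (pt g) : ℂ) •
      n0g Q (g : Matrix (Fin 2) (Fin 2) ℂ) ∂hU := by
  have hmeas : Measurable fun g : U2 => (φ (pt g) : ℂ) :=
    Complex.measurable_ofReal.comp (hφ.comp measurable_pt)
  have hint : ∀ f : U2 → ℂ, Continuous f →
      Integrable (fun g : U2 => (φ (pt g) : ℂ) * f g) hU := by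
    intro f hf
    have h1 := Crest.Agent.R124.Haar.integrable_of_cont hf
    refine h1.bdd_mul (c := C) hmeas.aestronglyMeasurable ?_
    refine Filter.Eventually.of_forall fun g => ?_
    rw [Complex.norm_real]
    exact hC _
  have hcont : ∀ j j' : Fin (Q + 1), Continuous fun g : U2 =>
      sp Q (g : Matrix (Fin 2) (Fin 2) ℂ) j 0 *
        star (sp Q (g : Matrix (Fin 2) (Fin 2) ℂ) j' 0) := by
    intro j j'
    have h : ∀ i : Fin (Q + 1), Continuous fun g : U2 =>
        sp Q (g : Matrix (Fin 2) (Fin 2) ℂ) i 0 := fun i =>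
      ((continuous_sp Q).matrix_elem i 0).comp continuous_subtype_val
    exact (h j).mul (h j').star
  have h1 : ∀ g : U2, (φ (pt g) : ℂ) • n0g Q (g : Matrix (Fin 2) (Fin 2) ℂ) =
      ∑ j, ∑ j', ((φ (pt g) : ℂ) * (sp Q (g : Matrix (Fin 2) (Fin 2) ℂ) j 0 *
        star (sp Q (g : Matrix (Fin 2) (Fin 2) ℂ) j' 0))) • (d j * c j' : Op (Fin (Q + 1))) := by
    intro g
    rw [n0g_eq_sum, Finset.smul_sum]
    refine Finset.sum_congr rfl fun j _ => ?_
    rw [Finset.smul_sum]
    refine Finset.sum_congr rfl fun j' _ => ?_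
    rw [smul_smul]
  rw [integral_congr_ae (Filter.Eventually.of_forall h1), integral_finsetSum]
  · rw [Finset.smul_sum]
    unfold dG
    refine Finset.sum_congr rfl fun j _ => ?_
    rw [integral_finsetSum]
    · rw [Finset.smul_sum]
      refine Finset.sum_congr rfl fun j' _ => ?_
      rw [integral_smul_const, smul_smul, ← toeplitz_eq hφ]
    · intro j' _
      exact (hint _ (hcont j j')).smul_const _
  · intro j _
    exact integrable_finsetSum _ fun j' _ => (hint _ (hcont j j')).smul_const _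

end

end Crest.Agent.R340.Rot303
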