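import Crest.Agent.R340.Kernel

-- ▼ part R340/LaughlinState
section

set_option autoImplicit false

open Crest.MathPhysics.Laughlin
open scoped BigOperators

namespace Crest.Agent.R340

variable {q N : ℕ}

/-- The exponent vector of the configuration `m`. -/
noncomputable def expo (q : ℕ) {N : ℕ} (m : Fin N → Fin (q + 1)) : (Fin N × Fin 2) →₀ ℕ :=
  ∑ a : Fin N, (Finsupp.single (a, (0 : Fin 2)) (q - (m a : ℕ)) +
        Finsupp.single (a, (1 : Fin 2)) (m a : ℕ))

/-- The elementary factor. -/
noncomputable def dfac (N : ℕ) (a b : Fin N) : MvPolynomial (Fin N × Fin 2) ℂ :=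
  MvPolynomial.X (a, (0 : Fin 2)) * MvPolynomial.X (b, (1 : Fin 2)) -
            MvPolynomial.X (a, (1 : Fin 2)) * MvPolynomial.X (b, (0 : Fin 2))

/-- The Laughlin polynomial. -/
noncomputable def lpoly (N : ℕ) : MvPolynomial (Fin N × Fin 2) ℂ :=
  ∏ a : Fin N, ∏ b : Fin N, if a < b then (dfac N a b) ^ 3 else 1

theorem laughlin_eq (q N : ℕ) (m : Fin N → Fin (q + 1)) :
    laughlin q N m = MvPolynomial.coeff (expo q m) (lpoly N) /
      ((∏ a : Fin N, Real.sqrt (Nat.choose q (m a)) : ℝ) : ℂ) := rfl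

theorem expo_zero (m : Fin N → Fin (q + 1)) (c : Fin N) : expo q m (c, 0) = q - m c := by
  simp only [expo, Finsupp.coe_finsetSum, Finset.sum_apply, Finsupp.add_apply,
    Finsupp.single_apply, Prod.mk.injEq]
  simp

theorem expo_one (m : Fin N → Fin (q + 1)) (c : Fin N) : expo q m (c, 1) = m c := by
  simp only [expo, Finsupp.coe_finsetSum, Finset.sum_apply, Finsupp.add_apply,
    Finsupp.single_apply, Prod.mk.injEq]
  simp

theorem expo_ext {m : Fin N → Fin (q + 1)} {e : (Fin N × Fin 2) →₀ ℕ}
    (h0 : ∀ c, e (c, 0) = q - m c) (h1 : ∀ c, e (c, 1) = m c) : e = expo q m := by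
  ext ⟨c, t⟩
  fin_cases t
  · simp only [Fin.zero_eta]; rw [h0, expo_zero]
  · simp only [Fin.mk_one]; rw [h1, expo_one]

theorem lpoly_eq_det (N : ℕ) : lpoly N =
    (Matrix.projVandermonde (fun a : Fin N => (MvPolynomial.X (a, (1 : Fin 2)) :
      MvPolynomial (Fin N × Fin 2) ℂ)) (fun a => MvPolynomial.X (a, (0 : Fin 2)))).det ^ 3 := by
  rw [Matrix.det_projVandermonde, lpoly, ← Finset.prod_pow]
  refine Finset.prod_congr rfl fun a _ => ?_
  rw [← Finset.prod_pow, Finset.prod_ite, Finset.prod_const_one, mul_one]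
  have : Finset.univ.filter (fun b => a < b) = Finset.Ioi a := by
    ext b; simp
  rw [this]
  refine Finset.prod_congr rfl fun b _ => ?_
  rw [dfac]
  ring

theorem rename_lpoly (N : ℕ) (σ : Equiv.Perm (Fin N)) :
    MvPolynomial.rename (fun x : Fin N × Fin 2 => (σ x.1, x.2)) (lpoly N) =
      ((Equiv.Perm.sign σ : ℤ) : MvPolynomial (Fin N × Fin 2) ℂ) * lpoly N := by
  rw [lpoly_eq_det, map_pow, AlgHom.map_det]
  have h1 : (MvPolynomial.rename (R := ℂ) (fun x : Fin N × Fin 2 => (σ x.1, x.2))).mapMatrix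
      (Matrix.projVandermonde (fun a : Fin N => (MvPolynomial.X (a, (1 : Fin 2)) :
      MvPolynomial (Fin N × Fin 2) ℂ)) (fun a => MvPolynomial.X (a, (0 : Fin 2)))) =
      (Matrix.projVandermonde (fun a : Fin N => (MvPolynomial.X (a, (1 : Fin 2)) :
      MvPolynomial (Fin N × Fin 2) ℂ)) (fun a => MvPolynomial.X (a, (0 : Fin 2)))).submatrix σ id := by
    ext1 i j
    simp [Matrix.projVandermonde_apply]
  rw [h1, Matrix.det_permute]
  rcases Int.units_eq_one_or (Equiv.Perm.sign σ) with h | h
  · simp [h]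
  · simp [h]; ring

theorem laughlin_antisymm (q N : ℕ) : IsAntisymmetric (laughlin q N) := by
  intro π m
  rw [laughlin_eq, laughlin_eq]
  have hden : (∏ a : Fin N, Real.sqrt (Nat.choose q ((m ∘ π) a)) : ℝ) =
      ∏ a : Fin N, Real.sqrt (Nat.choose q (m a)) := by
    exact Equiv.prod_comp π (fun a => Real.sqrt (Nat.choose q (m a)))
  rw [hden]
  set f : Fin N × Fin 2 → Fin N × Fin 2 := fun x => (π.symm x.1, x.2) with hf
  have hinj : Function.Injective f := by
    rintro ⟨a, s⟩ ⟨b, t⟩ h
    simp only [hf, Prod.mk.injEq, EmbeddingLike.apply_eq_iff_eq] at h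
    exact Prod.ext h.1 h.2
  have hexpo : expo q (m ∘ π) = Finsupp.mapDomain f (expo q m) := by
    symm
    apply expo_ext
    · intro c
      have : ((c, (0 : Fin 2)) : Fin N × Fin 2) = f (π c, 0) := by simp [hf]
      rw [this, Finsupp.mapDomain_apply hinj, expo_zero]
      rfl
    · intro c
      have : ((c, (1 : Fin 2)) : Fin N × Fin 2) = f (π c, 1) := by simp [hf]
      rw [this, Finsupp.mapDomain_apply hinj, expo_one]
      rfl
  rw [hexpo]
  have h1 : lpoly N = ((Equiv.Perm.sign π : ℤ) : MvPolynomial (Fin N × Fin 2) ℂ) *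
      MvPolynomial.rename f (lpoly N) := by
    have h2 := rename_lpoly N π.symm
    have h3 : f = fun x : Fin N × Fin 2 => (π.symm x.1, x.2) := rfl
    rw [h3, h2, ← mul_assoc]
    have h4 : Equiv.Perm.sign π.symm = Equiv.Perm.sign π := Equiv.Perm.sign_symm π
    rw [h4]
    rcases Int.units_eq_one_or (Equiv.Perm.sign π) with h | h <;> simp [h]
  have h5 : MvPolynomial.coeff (Finsupp.mapDomain f (expo q m)) (lpoly N) =
      ((Equiv.Perm.sign π : ℤ) : ℂ) * MvPolynomial.coeff (expo q m) (lpoly N) := by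
    conv_lhs => rw [h1]
    have h6 : ((Equiv.Perm.sign π : ℤ) : MvPolynomial (Fin N × Fin 2) ℂ) =
        MvPolynomial.C ((Equiv.Perm.sign π : ℤ) : ℂ) := by
      simp
    rw [h6, MvPolynomial.coeff_C_mul, MvPolynomial.coeff_rename_mapDomain f hinj]
  rw [h5]
  ring

end Crest.Agent.R340
end

-- ▼ part R340/LaughlinKer
section

set_option autoImplicit false

open Crest.MathPhysics.Laughlin
open scoped BigOperators

namespace Crest.Agent.R340

variable {q N : ℕ}

/-- Weight counting the degree in the spinor of particle `a`. -/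
def wt (N : ℕ) (a : Fin N) : Fin N × Fin 2 → ℕ := fun x => if x.1 = a then 1 else 0

theorem dfac_homog (a b c : Fin N) :
    MvPolynomial.IsWeightedHomogeneous (wt N c) (dfac N a b)
      ((if a = c then 1 else 0) + (if b = c then 1 else 0)) := by
  unfold dfac
  apply MvPolynomial.IsWeightedHomogeneous.sub
  · exact (MvPolynomial.isWeightedHomogeneous_X ℂ (wt N c) (a, (0 : Fin 2))).mul
      (MvPolynomial.isWeightedHomogeneous_X ℂ (wt N c) (b, (1 : Fin 2)))
  · exact (MvPolynomial.isWeightedHomogeneous_X ℂ (wt N c) (a, (1 : Fin 2))).mul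
      (MvPolynomial.isWeightedHomogeneous_X ℂ (wt N c) (b, (0 : Fin 2)))

theorem degree_sum (c : Fin N) :
    (∑ a : Fin N, ∑ b : Fin N, if a < b then
      3 * ((if a = c then 1 else 0) + (if b = c then 1 else 0)) else 0) = 3 * (N - 1) := by
  have h1 : ∀ a b : Fin N, (if a < b then
      3 * ((if a = c then 1 else 0) + (if b = c then 1 else 0)) else 0) =
      (if a = c then (if c < b then 3 else 0) else 0) +
        (if b = c then (if a < c then 3 else 0) else 0) := by
    intro a b
    by_cases hab : a < b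
    · by_cases ha : a = c
      · by_cases hb : b = c
        · exfalso; rw [ha, hb] at hab; exact lt_irrefl _ hab
        · subst ha; simp [hab, hb]
      · by_cases hb : b = c
        · subst hb; simp [hab, ha]
        · simp [ha, hb]
    · by_cases ha : a = c
      · subst ha
        by_cases hb : b = a
        · subst hb; simp
        · simp [hab, hb]
      · by_cases hb : b = c
        · subst hb; simp [hab, ha]
        · simp [ha, hb]
  simp only [h1, Finset.sum_add_distrib]
  have h2 : (∑ a : Fin N, ∑ b : Fin N, if a = c then (if c < b then 3 else 0) else 0) =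
      3 * (Finset.Ioi c).card := by
    rw [Finset.sum_eq_single c]
    · simp only [if_true]
      rw [← Finset.sum_filter]
      rw [Finset.sum_const, smul_eq_mul, mul_comm]
      congr 2
      ext b; simp
    · intro a _ ha; simp [ha]
    · intro h; exact absurd (Finset.mem_univ _) h
  have h3 : (∑ a : Fin N, ∑ b : Fin N, if b = c then (if a < c then 3 else 0) else 0) =
      3 * (Finset.Iio c).card := by
    rw [Finset.sum_comm, Finset.sum_eq_single c]
    · simp only [if_true]
      rw [← Finset.sum_filter]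
      rw [Finset.sum_const, smul_eq_mul, mul_comm]
      congr 2
      ext b; simp
    · intro a _ ha; simp [ha]
    · intro h; exact absurd (Finset.mem_univ _) h
  rw [h2, h3, Fin.card_Ioi, Fin.card_Iio]
  have := c.isLt
  omega

theorem lpoly_homog (c : Fin N) :
    MvPolynomial.IsWeightedHomogeneous (wt N c) (lpoly N) (3 * (N - 1)) := by
  rw [← degree_sum c]
  unfold lpoly
  apply MvPolynomial.IsWeightedHomogeneous.prod
  intro a _
  apply MvPolynomial.IsWeightedHomogeneous.prod
  intro b _
  by_cases hab : a < b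
  · rw [if_pos hab, if_pos hab, ← smul_eq_mul]
    exact (dfac_homog a b c).pow 3
  · rw [if_neg hab, if_neg hab]
    exact MvPolynomial.isWeightedHomogeneous_one ℂ (wt N c)

theorem dfac_ne_zero {a b : Fin N} (h : a ≠ b) : dfac N a b ≠ 0 := by
  intro h0
  have h1 := congrArg (MvPolynomial.coeff (Finsupp.single ((a, 0) : Fin N × Fin 2) 1 +
    Finsupp.single ((b, 1) : Fin N × Fin 2) 1)) h0
  unfold dfac at h1
  have e1 : (MvPolynomial.X (a, (0 : Fin 2)) * MvPolynomial.X (b, (1 : Fin 2)) :
      MvPolynomial (Fin N × Fin 2) ℂ) = MvPolynomial.monomial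
        (Finsupp.single ((a, 0) : Fin N × Fin 2) 1 + Finsupp.single ((b, 1) : Fin N × Fin 2) 1) 1 := by
    rw [MvPolynomial.X, MvPolynomial.X, MvPolynomial.monomial_mul, one_mul]
  have e2 : (MvPolynomial.X (a, (1 : Fin 2)) * MvPolynomial.X (b, (0 : Fin 2)) :
      MvPolynomial (Fin N × Fin 2) ℂ) = MvPolynomial.monomial
        (Finsupp.single ((a, 1) : Fin N × Fin 2) 1 + Finsupp.single ((b, 0) : Fin N × Fin 2) 1) 1 := by
    rw [MvPolynomial.X, MvPolynomial.X, MvPolynomial.monomial_mul, one_mul]
  rw [e1, e2, MvPolynomial.coeff_sub, MvPolynomial.coeff_monomial, MvPolynomial.coeff_monomial,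
    if_pos rfl, if_neg] at h1
  · simp at h1
  · intro h2
    have h3 := DFunLike.congr_fun h2 (a, 0)
    simp [Finsupp.single_apply, h, h.symm] at h3

theorem lpoly_ne_zero (N : ℕ) : lpoly N ≠ 0 := by
  unfold lpoly
  rw [Finset.prod_ne_zero_iff]
  intro a _
  rw [Finset.prod_ne_zero_iff]
  intro b _
  split_ifs with hab
  · exact pow_ne_zero _ (dfac_ne_zero hab.ne)
  · exact one_ne_zero

theorem weight_wt (c : Fin N) (d : (Fin N × Fin 2) →₀ ℕ) :
    Finsupp.weight (wt N c) d = d (c, 0) + d (c, 1) := by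
  rw [Finsupp.weight_apply, Finsupp.sum_fintype _ _ (by simp)]
  rw [Fintype.sum_prod_type]
  simp only [Fin.sum_univ_two, wt, smul_eq_mul, mul_ite, mul_one, mul_zero]
  rw [Finset.sum_eq_single c]
  · simp
  · intro b _ hb; simp [hb]
  · intro h; exact absurd (Finset.mem_univ _) h

theorem den_ne_zero (m : Fin N → Fin (q + 1)) :
    ((∏ a : Fin N, Real.sqrt (Nat.choose q (m a)) : ℝ) : ℂ) ≠ 0 := by
  rw [Ne, Complex.ofReal_eq_zero, Finset.prod_eq_zero_iff]
  push Not
  intro a _
  have h1 : (0 : ℝ) < (Nat.choose q (m a) : ℝ) := by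
    exact_mod_cast Nat.choose_pos (by have := (m a).isLt; omega)
  exact (Real.sqrt_pos.2 h1).ne'

theorem laughlin_ne_zero (N : ℕ) : laughlin (3 * (N - 1)) N ≠ 0 := by
  obtain ⟨d, hd⟩ := MvPolynomial.ne_zero_iff.1 (lpoly_ne_zero N)
  have hw : ∀ c : Fin N, d (c, 0) + d (c, 1) = 3 * (N - 1) := by
    intro c
    rw [← weight_wt]
    exact lpoly_homog c hd
  let m : Fin N → Fin (3 * (N - 1) + 1) := fun c => ⟨d (c, 1), by have := hw c; omega⟩
  have hdm : d = expo (3 * (N - 1)) m := by
    apply expo_ext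
    · intro c
      have := hw c
      simp only [m]
      omega
    · intro c
      rfl
  apply Function.ne_iff.2
  refine ⟨m, ?_⟩
  rw [laughlin_eq, ← hdm]
  simp only [Pi.zero_apply]
  exact div_ne_zero hd (den_ne_zero m)

/-- Balanced exponent vectors relative to the background `m` and the pair `a, b`. -/
def Good (q s : ℕ) (m : Fin N → Fin (q + 1)) (a b : Fin N) (e : (Fin N × Fin 2) →₀ ℕ) : Prop :=
  (∀ c, c ≠ a → c ≠ b → e (c, 0) = q - m c ∧ e (c, 1) = m c) ∧
    e (a, 0) + e (a, 1) = q ∧ e (b, 0) + e (b, 1) = q ∧ e (a, 1) + e (b, 1) = s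

/-- The linear functional attached to a pair vector. -/
noncomputable def lam (q s : ℕ) (m : Fin N → Fin (q + 1)) (a b : Fin N)
    (P : MvPolynomial (Fin N × Fin 2) ℂ) : ℂ :=
  ∑ i : Fin (q + 1), ∑ j : Fin (q + 1), if (i : ℕ) + j = s then
    (((j : ℕ) : ℂ) - ((i : ℕ) : ℂ)) * MvPolynomial.coeff (expo q (upd2 m a b i j)) P else 0

theorem lam_add (s : ℕ) (m : Fin N → Fin (q + 1)) (a b : Fin N)
    (P Q : MvPolynomial (Fin N × Fin 2) ℂ) :
    lam q s m a b (P + Q) = lam q s m a b P + lam q s m a b Q := by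
  unfold lam
  rw [← Finset.sum_add_distrib]
  refine Finset.sum_congr rfl fun i _ => ?_
  rw [← Finset.sum_add_distrib]
  refine Finset.sum_congr rfl fun j _ => ?_
  split_ifs
  · rw [MvPolynomial.coeff_add]; ring
  · simp

theorem lam_smul (s : ℕ) (m : Fin N → Fin (q + 1)) (a b : Fin N) (k : ℂ)
    (P : MvPolynomial (Fin N × Fin 2) ℂ) :
    lam q s m a b (MvPolynomial.C k * P) = k * lam q s m a b P := by
  unfold lam
  rw [Finset.mul_sum]
  refine Finset.sum_congr rfl fun i _ => ?_
  rw [Finset.mul_sum]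
  refine Finset.sum_congr rfl fun j _ => ?_
  split_ifs
  · rw [MvPolynomial.coeff_C_mul]; ring
  · simp

open Classical in
theorem lam_monomial (s : ℕ) (m : Fin N → Fin (q + 1)) {a b : Fin N} (hab : a ≠ b)
    (e : (Fin N × Fin 2) →₀ ℕ) (k : ℂ) :
    lam q s m a b (MvPolynomial.monomial e k) =
      if Good q s m a b e then (((e (b, 1) : ℕ) : ℂ) - ((e (a, 1) : ℕ) : ℂ)) * k else 0 := by
  unfold lam
  split_ifs with hg
  · obtain ⟨h1, h2, h3, h4⟩ := hg
    have hia : e (a, 1) < q + 1 := by omega
    have hjb : e (b, 1) < q + 1 := by omega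
    rw [Finset.sum_eq_single ⟨e (a, 1), hia⟩]
    · rw [Finset.sum_eq_single ⟨e (b, 1), hjb⟩]
      · rw [if_pos (by simpa using h4), MvPolynomial.coeff_monomial, if_pos]
        apply expo_ext
        · intro c
          by_cases hb : c = b
          · subst hb; rw [upd2_right]; simp only; omega
          · by_cases ha : c = a
            · subst ha; rw [upd2_left hab]; simp only; omega
            · rw [upd2_of_ne ha hb]; exact (h1 c ha hb).1
        · intro c
          by_cases hb : c = b
          · subst hb; rw [upd2_right]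
          · by_cases ha : c = a
            · subst ha; rw [upd2_left hab]
            · rw [upd2_of_ne ha hb]; exact (h1 c ha hb).2
      · intro j _ hj
        split_ifs with hs
        · exfalso
          apply hj
          apply Fin.ext
          simp only at hs ⊢
          omega
        · rfl
      · intro h; exact absurd (Finset.mem_univ _) h
    · intro i _ hi
      refine Finset.sum_eq_zero fun j _ => ?_
      split_ifs with hs
      · rw [MvPolynomial.coeff_monomial, if_neg, mul_zero]
        intro he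
        apply hi
        apply Fin.ext
        have h5 := DFunLike.congr_fun he (a, 1)
        rw [expo_one, upd2_left hab] at h5
        simp only [h5]
      · rfl
    · intro h; exact absurd (Finset.mem_univ _) h
  · refine Finset.sum_eq_zero fun i _ => Finset.sum_eq_zero fun j _ => ?_
    split_ifs with hs
    · rw [MvPolynomial.coeff_monomial, if_neg, mul_zero]
      intro he
      apply hg
      have hi := i.isLt
      have hj := j.isLt
      refine ⟨?_, ?_, ?_, ?_⟩
      · intro c ha hb
        rw [he, expo_zero, expo_one, upd2_of_ne ha hb]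
        exact ⟨rfl, rfl⟩
      · rw [he, expo_zero, expo_one, upd2_left hab]; omega
      · rw [he, expo_zero, expo_one, upd2_right]; omega
      · rw [he, expo_one, expo_one, upd2_left hab, upd2_right]; exact hs
    · rfl

/-- The functional vanishes on multiples of the cube of the elementary factor. -/
theorem lam_cube (s : ℕ) (m : Fin N → Fin (q + 1)) {a b : Fin N} (hab : a ≠ b)
    (P : MvPolynomial (Fin N × Fin 2) ℂ) :
    lam q s m a b (dfac N a b ^ 3 * P) = 0 := by
  classical
  induction P using MvPolynomial.induction_on' with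
  | add P Q hP hQ => rw [mul_add, lam_add, hP, hQ, add_zero]
  | monomial d k =>
    set α : (Fin N × Fin 2) →₀ ℕ := Finsupp.single ((a, 0) : Fin N × Fin 2) 1 +
      Finsupp.single ((b, 1) : Fin N × Fin 2) 1 with hα
    set β : (Fin N × Fin 2) →₀ ℕ := Finsupp.single ((a, 1) : Fin N × Fin 2) 1 +
      Finsupp.single ((b, 0) : Fin N × Fin 2) 1 with hβ
    have e1 : (MvPolynomial.X (a, (0 : Fin 2)) * MvPolynomial.X (b, (1 : Fin 2)) :
        MvPolynomial (Fin N × Fin 2) ℂ) = MvPolynomial.monomial α 1 := by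
      rw [MvPolynomial.X, MvPolynomial.X, MvPolynomial.monomial_mul, one_mul]
    have e2 : (MvPolynomial.X (a, (1 : Fin 2)) * MvPolynomial.X (b, (0 : Fin 2)) :
        MvPolynomial (Fin N × Fin 2) ℂ) = MvPolynomial.monomial β 1 := by
      rw [MvPolynomial.X, MvPolynomial.X, MvPolynomial.monomial_mul, one_mul]
    have e3 : dfac N a b ^ 3 * MvPolynomial.monomial d k =
        MvPolynomial.monomial (α + α + α + d) k +
        (MvPolynomial.C (-3) * MvPolynomial.monomial (α + α + β + d) k +
        (MvPolynomial.C 3 * MvPolynomial.monomial (α + β + β + d) k +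
        MvPolynomial.C (-1) * MvPolynomial.monomial (β + β + β + d) k)) := by
      unfold dfac
      rw [e1, e2]
      have m1 : MvPolynomial.monomial (α + α + α + d) k =
          MvPolynomial.monomial α (1 : ℂ) * MvPolynomial.monomial α 1 *
            MvPolynomial.monomial α 1 * MvPolynomial.monomial d k := by
        simp [MvPolynomial.monomial_mul]
      have m2 : MvPolynomial.monomial (α + α + β + d) k =
          MvPolynomial.monomial α (1 : ℂ) * MvPolynomial.monomial α 1 *
            MvPolynomial.monomial β 1 * MvPolynomial.monomial d k := by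
        simp [MvPolynomial.monomial_mul]
      have m3 : MvPolynomial.monomial (α + β + β + d) k =
          MvPolynomial.monomial α (1 : ℂ) * MvPolynomial.monomial β 1 *
            MvPolynomial.monomial β 1 * MvPolynomial.monomial d k := by
        simp [MvPolynomial.monomial_mul]
      have m4 : MvPolynomial.monomial (β + β + β + d) k =
          MvPolynomial.monomial β (1 : ℂ) * MvPolynomial.monomial β 1 *
            MvPolynomial.monomial β 1 * MvPolynomial.monomial d k := by
        simp [MvPolynomial.monomial_mul]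
      rw [m1, m2, m3, m4]
      have c3' : (MvPolynomial.C 3 : MvPolynomial (Fin N × Fin 2) ℂ) = 3 := map_ofNat _ 3
      have c3 : (MvPolynomial.C (-3) : MvPolynomial (Fin N × Fin 2) ℂ) = -3 := by
        rw [map_neg, c3']
      have c1 : (MvPolynomial.C (-1) : MvPolynomial (Fin N × Fin 2) ℂ) = -1 := by
        rw [map_neg, map_one]
      rw [c3, c3', c1]
      ring
    rw [e3, lam_add, lam_add, lam_add, lam_smul, lam_smul, lam_smul,
      lam_monomial s m hab, lam_monomial s m hab, lam_monomial s m hab, lam_monomial s m hab]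
    have ha' : a ≠ b := hab
    have hb' : b ≠ a := hab.symm
    have va0 : α (a, 0) = 1 := by simp [hα, ha', hb']
    have va1 : α (a, 1) = 0 := by simp [hα, ha', hb']
    have vb0 : α (b, 0) = 0 := by simp [hα, ha', hb']
    have vb1 : α (b, 1) = 1 := by simp [hα, ha', hb']
    have wa0 : β (a, 0) = 0 := by simp [hβ, ha', hb']
    have wa1 : β (a, 1) = 1 := by simp [hβ, ha', hb']
    have wb0 : β (b, 0) = 1 := by simp [hβ, ha', hb']
    have wb1 : β (b, 1) = 0 := by simp [hβ, ha', hb']
    have vc : ∀ c, c ≠ a → c ≠ b → α (c, 0) = 0 ∧ α (c, 1) = 0 := by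
      intro c h1 h2
      simp [hα, Finsupp.single_apply, h1.symm, h2.symm]
    have wc : ∀ c, c ≠ a → c ≠ b → β (c, 0) = 0 ∧ β (c, 1) = 0 := by
      intro c h1 h2
      simp [hβ, Finsupp.single_apply, h1.symm, h2.symm]
    have hgood : ∀ x y : (Fin N × Fin 2) →₀ ℕ,
        (x (a, 0) + x (a, 1) = y (a, 0) + y (a, 1)) → (x (b, 0) + x (b, 1) = y (b, 0) + y (b, 1)) →
        (x (a, 1) + x (b, 1) = y (a, 1) + y (b, 1)) →
        (∀ c, c ≠ a → c ≠ b → x (c, 0) = y (c, 0) ∧ x (c, 1) = y (c, 1)) →
        (Good q s m a b x ↔ Good q s m a b y) := by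
      intro x y h1 h2 h3 h4
      unfold Good
      rw [h1, h2, h3]
      constructor
      · rintro ⟨g1, g2⟩
        refine ⟨fun c hc hc' => ?_, g2⟩
        rw [← (h4 c hc hc').1, ← (h4 c hc hc').2]
        exact g1 c hc hc'
      · rintro ⟨g1, g2⟩
        refine ⟨fun c hc hc' => ?_, g2⟩
        rw [(h4 c hc hc').1, (h4 c hc hc').2]
        exact g1 c hc hc'
    have g1 : Good q s m a b (α + α + β + d) ↔ Good q s m a b (α + α + α + d) := by
      refine hgood _ _ ?_ ?_ ?_ ?_
      · simp only [Finsupp.add_apply, va0, va1, vb0, vb1, wa0, wa1, wb0, wb1]; omega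
      · simp only [Finsupp.add_apply, va0, va1, vb0, vb1, wa0, wa1, wb0, wb1]; omega
      · simp only [Finsupp.add_apply, va0, va1, vb0, vb1, wa0, wa1, wb0, wb1]; omega
      · intro c h1 h2
        simp [(vc c h1 h2).1, (vc c h1 h2).2, (wc c h1 h2).1, (wc c h1 h2).2]
    have g2 : Good q s m a b (α + β + β + d) ↔ Good q s m a b (α + α + α + d) := by
      refine hgood _ _ ?_ ?_ ?_ ?_
      · simp only [Finsupp.add_apply, va0, va1, vb0, vb1, wa0, wa1, wb0, wb1]; omega
      · simp only [Finsupp.add_apply, va0, va1, vb0, vb1, wa0, wa1, wb0, wb1]; omega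
      · simp only [Finsupp.add_apply, va0, va1, vb0, vb1, wa0, wa1, wb0, wb1]; omega
      · intro c h1 h2
        simp [(vc c h1 h2).1, (vc c h1 h2).2, (wc c h1 h2).1, (wc c h1 h2).2]
    have g3 : Good q s m a b (β + β + β + d) ↔ Good q s m a b (α + α + α + d) := by
      refine hgood _ _ ?_ ?_ ?_ ?_
      · simp only [Finsupp.add_apply, va0, va1, vb0, vb1, wa0, wa1, wb0, wb1]; omega
      · simp only [Finsupp.add_apply, va0, va1, vb0, vb1, wa0, wa1, wb0, wb1]; omega
      · simp only [Finsupp.add_apply, va0, va1, vb0, vb1, wa0, wa1, wb0, wb1]; omega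
      · intro c h1 h2
        simp [(vc c h1 h2).1, (vc c h1 h2).2, (wc c h1 h2).1, (wc c h1 h2).2]
    simp only [g1, g2, g3]
    split_ifs with hg
    · simp only [Finsupp.add_apply, va1, vb1, wa1, wb1]
      push_cast
      ring
    · ring

theorem dvd_lpoly {a b : Fin N} (hab : a < b) : dfac N a b ^ 3 ∣ lpoly N := by
  unfold lpoly
  refine dvd_trans ?_ (Finset.dvd_prod_of_mem _ (Finset.mem_univ a))
  refine dvd_trans ?_ (Finset.dvd_prod_of_mem _ (Finset.mem_univ b))
  rw [if_pos hab]

theorem amp_laughlin (q N : ℕ) {a b : Fin N} (hab : a < b) (p : Fin (2 * q - 1))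
    (m : Fin N → Fin (q + 1)) : amp a b p (laughlin q N) m = 0 := by
  obtain ⟨P, hP⟩ := dvd_lpoly (N := N) hab
  have hlam := lam_cube (q := q) (p + 1) m hab.ne P
  rw [← hP] at hlam
  have hne := hab.ne
  have hb : b ∈ (Finset.univ.erase a : Finset (Fin N)) := by simp [hne.symm]
  set R : ℝ := ∏ c ∈ (Finset.univ.erase a).erase b, Real.sqrt (Nat.choose q (m c)) with hR
  have hden : ∀ i j : Fin (q + 1), (∏ c : Fin N, Real.sqrt (Nat.choose q (upd2 m a b i j c)) : ℝ) =
      Real.sqrt (Nat.choose q i) * (Real.sqrt (Nat.choose q j) * R) := by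
    intro i j
    rw [← Finset.mul_prod_erase Finset.univ _ (Finset.mem_univ a),
      ← Finset.mul_prod_erase _ _ hb, upd2_left hne, upd2_right]
    congr 2
    refine Finset.prod_congr rfl fun c hc => ?_
    simp only [Finset.mem_erase, Finset.mem_univ, and_true] at hc
    rw [upd2_of_ne hc.2 hc.1]
  have hRpos : R ≠ 0 := by
    rw [hR, Finset.prod_ne_zero_iff]
    intro c _
    have h1 : (0 : ℝ) < (Nat.choose q (m c) : ℝ) := by
      exact_mod_cast Nat.choose_pos (by have := (m c).isLt; omega)
    exact (Real.sqrt_pos.2 h1).ne'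
  have hterm : ∀ i j : Fin (q + 1), (pairVec q p i j : ℂ) * laughlin q N (upd2 m a b i j) =
      (((Real.sqrt (2 * pairNorm q ((p : ℕ) + 1)) * R)⁻¹ : ℝ) : ℂ) *
      (if (i : ℕ) + j = p + 1 then
        (((j : ℕ) : ℂ) - ((i : ℕ) : ℂ)) *
          MvPolynomial.coeff (expo q (upd2 m a b i j)) (lpoly N) else 0) := by
    intro i j
    rw [laughlin_eq, hden]
    unfold pairVec
    split_ifs with hs
    · have hi : (0 : ℝ) < (Nat.choose q i : ℝ) := by
        exact_mod_cast Nat.choose_pos (by have := i.isLt; omega)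
      have hj : (0 : ℝ) < (Nat.choose q j : ℝ) := by
        exact_mod_cast Nat.choose_pos (by have := j.isLt; omega)
      rw [Real.sqrt_mul hi.le]
      have hi' := (Real.sqrt_pos.2 hi).ne'
      have hj' := (Real.sqrt_pos.2 hj).ne'
      have hiC : ((Real.sqrt (Nat.choose q i) : ℝ) : ℂ) ≠ 0 := by exact_mod_cast hi'
      have hjC : ((Real.sqrt (Nat.choose q j) : ℝ) : ℂ) ≠ 0 := by exact_mod_cast hj'
      have hRC : ((R : ℝ) : ℂ) ≠ 0 := by exact_mod_cast hRpos
      push_cast
      by_cases hZ : ((Real.sqrt (2 * pairNorm q ((p : ℕ) + 1)) : ℝ) : ℂ) = 0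
      · have hZ' : Real.sqrt (2 * pairNorm q ((p : ℕ) + 1)) = 0 := by exact_mod_cast hZ
        simp [hZ']
      · field_simp
    · simp
  unfold amp
  simp only [hterm, ← Finset.mul_sum]
  unfold lam at hlam
  rw [hlam, mul_zero]

/-- The interaction annihilates the Laughlin state. -/
theorem interaction_laughlin (q N : ℕ) : (interaction q N).mulVec (laughlin q N) = 0 :=
  interaction_mulVec_eq_zero fun _ _ hab p m => amp_laughlin q N hab p m

theorem laughlin_root_ne_zero (N : ℕ) : laughlin (3 * (N - 1)) N (root N) ≠ 0 := by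
  intro h
  exact laughlin_ne_zero N (zero_mode_unique (laughlin_antisymm _ _)
    (fun _ _ hab p m => amp_laughlin _ N hab p m) h)

/-- The kernel of the interaction on antisymmetric states at filling 1/3 is spanned by the
Laughlin state. -/
theorem ker_eq_span {N : ℕ} {ψ : (Fin N → Fin (3 * (N - 1) + 1)) → ℂ} (hψ : IsAntisymmetric ψ)
    (h0 : (star ψ ⬝ᵥ (interaction (3 * (N - 1)) N).mulVec ψ).re = 0) :
    ∃ t : ℂ, ψ = t • laughlin (3 * (N - 1)) N := by
  set L := laughlin (3 * (N - 1)) N with hL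
  set t : ℂ := ψ (root N) / L (root N) with ht
  refine ⟨t, ?_⟩
  have hanti : IsAntisymmetric (ψ - t • L) := by
    intro π m
    have h1 := hψ π m
    have h2 := laughlin_antisymm (3 * (N - 1)) N π m
    simp only [Pi.sub_apply, Pi.smul_apply, smul_eq_mul]
    rw [h1, hL, h2]
    ring
  have hamp : ∀ a b : Fin N, a < b → ∀ p m, amp a b p (ψ - t • L) m = 0 := by
    intro a b hab p m
    have h1 : amp a b p (ψ - t • L) m = amp a b p ψ m - t * amp a b p L m := by
      unfold amp
      rw [Finset.mul_sum, ← Finset.sum_sub_distrib]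
      refine Finset.sum_congr rfl fun i _ => ?_
      rw [Finset.mul_sum, ← Finset.sum_sub_distrib]
      refine Finset.sum_congr rfl fun j _ => ?_
      simp only [Pi.sub_apply, Pi.smul_apply, smul_eq_mul]
      ring
    rw [h1, amp_eq_zero_of_dot_eq_zero h0 hab, hL, amp_laughlin _ N hab]
    ring
  have hroot : (ψ - t • L) (root N) = 0 := by
    simp only [Pi.sub_apply, Pi.smul_apply, smul_eq_mul, ht]
    rw [div_mul_cancel₀ _ (laughlin_root_ne_zero N), sub_self]
  have := zero_mode_unique hanti hamp hroot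
  exact sub_eq_zero.1 this

end Crest.Agent.R340
end

-- ▼ part R340/Gap

set_option autoImplicit false

open Crest.MathPhysics.Laughlin
open scoped BigOperators

namespace Crest.Agent.R340

variable {q N : ℕ}

theorem upd2_comp (π : Equiv.Perm (Fin N)) (m : Fin N → Fin (q + 1)) (a b : Fin N)
    (i j : Fin (q + 1)) : upd2 (m ∘ π) a b i j = (upd2 m (π a) (π b) i j) ∘ π := by
  funext c
  simp only [upd2, Function.update_apply, Function.comp, EmbeddingLike.apply_eq_iff_eq]

theorem upd2_comm {a b : Fin N} (h : a ≠ b) (m : Fin N → Fin (q + 1)) (i j : Fin (q + 1)) :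
    upd2 m b a i j = upd2 m a b j i := by
  unfold upd2
  rw [Function.update_comm h]

theorem amp_comp (π : Equiv.Perm (Fin N)) {ψ : (Fin N → Fin (q + 1)) → ℂ}
    (hψ : IsAntisymmetric ψ) (a b : Fin N) (p : Fin (2 * q - 1)) (m : Fin N → Fin (q + 1)) :
    amp a b p ψ (m ∘ π) = ((Equiv.Perm.sign π : ℤ) : ℂ) * amp (π a) (π b) p ψ m := by
  unfold amp
  rw [Finset.mul_sum]
  refine Finset.sum_congr rfl fun i _ => ?_
  rw [Finset.mul_sum]
  refine Finset.sum_congr rfl fun j _ => ?_
  rw [upd2_comp, hψ π]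
  ring

theorem amp_swap {a b : Fin N} (h : a ≠ b) (p : Fin (2 * q - 1))
    (ψ : (Fin N → Fin (q + 1)) → ℂ) (m : Fin N → Fin (q + 1)) :
    amp b a p ψ m = - amp a b p ψ m := by
  unfold amp
  rw [Finset.sum_comm, ← Finset.sum_neg_distrib]
  refine Finset.sum_congr rfl fun i _ => ?_
  rw [← Finset.sum_neg_distrib]
  refine Finset.sum_congr rfl fun j _ => ?_
  rw [upd2_comm h, pairVec_swap]
  push_cast
  ring

theorem two_mul_sum_lt (t : Fin N → Fin N → ℂ) (ht : ∀ a b, a ≠ b → t b a = t a b) :
    2 * (∑ a, ∑ b, if a < b then t a b else 0) = ∑ a, ∑ b, if a ≠ b then t a b else 0 := by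
  have h1 : (∑ a, ∑ b, if a < b then t a b else 0) = ∑ a, ∑ b, if b < a then t a b else 0 := by
    rw [Finset.sum_comm]
    refine Finset.sum_congr rfl fun a _ => Finset.sum_congr rfl fun b _ => ?_
    split_ifs with h
    · exact ht a b h.ne'
    · rfl
  rw [two_mul]
  nth_rewrite 2 [h1]
  rw [← Finset.sum_add_distrib]
  refine Finset.sum_congr rfl fun a _ => ?_
  rw [← Finset.sum_add_distrib]
  refine Finset.sum_congr rfl fun b _ => ?_
  rcases lt_trichotomy a b with h | h | h
  · simp [h, h.ne, h.not_gt]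
  · simp [h]
  · simp [h, h.ne', h.not_gt]

theorem sum_lt_perm (π : Equiv.Perm (Fin N)) (t : Fin N → Fin N → ℂ)
    (ht : ∀ a b, a ≠ b → t b a = t a b) :
    (∑ a, ∑ b, if a < b then t (π a) (π b) else 0) = ∑ a, ∑ b, if a < b then t a b else 0 := by
  have h1 := two_mul_sum_lt (fun a b => t (π a) (π b)) (fun a b hab =>
    ht _ _ (fun h => hab (π.injective h)))
  have h2 := two_mul_sum_lt t ht
  have h3 : (∑ a, ∑ b, if a ≠ b then t (π a) (π b) else 0) = ∑ a, ∑ b, if a ≠ b then t a b else 0 := by
    rw [← Equiv.sum_comp π (fun a => ∑ b, if a ≠ b then t a b else 0)]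
    refine Finset.sum_congr rfl fun a _ => ?_
    rw [← Equiv.sum_comp π (fun b => if π a ≠ b then t (π a) b else 0)]
    refine Finset.sum_congr rfl fun b _ => ?_
    simp
  have h4 : (2 : ℂ) * (∑ a, ∑ b, if a < b then t (π a) (π b) else 0) =
      2 * ∑ a, ∑ b, if a < b then t a b else 0 := by
    rw [h2, ← h3]; exact h1
  exact mul_left_cancel₀ two_ne_zero h4

/-- The interaction preserves antisymmetry. -/
theorem interaction_antisymm {ψ : (Fin N → Fin (q + 1)) → ℂ} (hψ : IsAntisymmetric ψ) :
    IsAntisymmetric ((interaction q N).mulVec ψ) := by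
  intro π m
  have key : ∀ m : Fin N → Fin (q + 1), (interaction q N).mulVec ψ m =
      ∑ a, ∑ b, if a < b then
        (∑ p : Fin (2 * q - 1), (pairVec q p (m a) (m b) : ℂ) * amp a b p ψ m) else 0 := by
    intro m
    rw [interaction_mulVec]
    simp only [Finset.sum_apply]
    refine Finset.sum_congr rfl fun a _ => Finset.sum_congr rfl fun b _ => ?_
    split_ifs with h
    · exact pairProj_mulVec h.ne ψ m
    · rfl
  rw [key, key]
  have h1 := sum_lt_perm π (fun a b =>
    ∑ p : Fin (2 * q - 1), (pairVec q p (m a) (m b) : ℂ) * amp a b p ψ m) (by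
      intro a b hab
      refine Finset.sum_congr rfl fun p _ => ?_
      rw [amp_swap hab, pairVec_swap]
      push_cast
      ring)
  rw [← h1, Finset.mul_sum]
  refine Finset.sum_congr rfl fun a _ => ?_
  rw [Finset.mul_sum]
  refine Finset.sum_congr rfl fun b _ => ?_
  split_ifs with h
  · rw [Finset.mul_sum]
    refine Finset.sum_congr rfl fun p _ => ?_
    rw [amp_comp π hψ]
    simp only [Function.comp]
    ring
  · simp

/-- The space of antisymmetric coefficient functions. -/
def antiSub (q N : ℕ) : Submodule ℂ (EuclideanSpace ℂ (Fin N → Fin (q + 1))) where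
  carrier := {ψ | IsAntisymmetric (WithLp.ofLp ψ)}
  add_mem' := by
    intro x y hx hy π m
    simp only [Set.mem_ofPred_eq] at hx hy
    have h1 := hx π m
    have h2 := hy π m
    simp only [WithLp.ofLp_add, Pi.add_apply]
    rw [h1, h2]; ring
  zero_mem' := by
    intro π m
    simp
  smul_mem' := by
    intro c x hx π m
    have h1 := hx π m
    simp only [WithLp.ofLp_smul, Pi.smul_apply, smul_eq_mul]
    rw [h1]; ring

theorem inner_eq_dot {ι : Type*} [Fintype ι] (x y : EuclideanSpace ℂ ι) :
    inner ℂ x y = star (WithLp.ofLp x) ⬝ᵥ (WithLp.ofLp y) := by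
  rw [EuclideanSpace.inner_eq_star_dotProduct, dotProduct_comm]

/-- Abstract spectral step: a positive symmetric operator on a finite-dimensional space with
trivial kernel and `T² ≥ γ T` satisfies `T ≥ γ`. -/
theorem ge_of_sq_ge {W : Type*} [NormedAddCommGroup W] [InnerProductSpace ℂ W]
    [FiniteDimensional ℂ W] (T : W →ₗ[ℂ] W) (hT : T.IsSymmetric) (γ : ℝ)
    (hpos : ∀ x, 0 ≤ (inner ℂ x (T x)).re) (hker : ∀ x, T x = 0 → x = 0)
    (hsq : ∀ x, γ * (inner ℂ x (T x)).re ≤ (inner ℂ x (T (T x))).re) (x : W) :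
    γ * ‖x‖ ^ 2 ≤ (inner ℂ x (T x)).re := by
  set n := Module.finrank ℂ W with hn
  set b := hT.eigenvectorBasis hn.symm with hb
  have hev : ∀ i, T (b i) = ((hT.eigenvalues hn.symm i : ℝ) : ℂ) • b i := fun i =>
    hT.apply_eigenvectorBasis hn.symm i
  have hnorm : ∀ i, inner ℂ (b i) (b i) = (1 : ℂ) := by
    intro i
    rw [inner_self_eq_norm_sq_to_K, b.orthonormal.1 i]; simp
  have hlam : ∀ i, γ ≤ hT.eigenvalues hn.symm i := by
    intro i
    set lam := hT.eigenvalues hn.symm i with hlamdef
    have h1 : inner ℂ (b i) (T (b i)) = (lam : ℂ) := by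
      rw [hev, inner_smul_right, hnorm, mul_one]
    have h2 : inner ℂ (b i) (T (T (b i))) = ((lam * lam : ℝ) : ℂ) := by
      rw [hev, map_smul, hev, inner_smul_right, inner_smul_right, hnorm]
      push_cast; ring
    have h3 := hpos (b i)
    rw [h1, Complex.ofReal_re] at h3
    have h4 := hsq (b i)
    rw [h1, h2, Complex.ofReal_re, Complex.ofReal_re] at h4
    have h5 : lam ≠ 0 := by
      intro h0
      have h6 : T (b i) = 0 := by rw [hev, ← hlamdef, h0]; simp
      have h7 := hker _ h6
      have h8 := hnorm i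
      rw [h7] at h8
      simp at h8
    have h6 : 0 < lam := lt_of_le_of_ne h3 (Ne.symm h5)
    exact le_of_mul_le_mul_right h4 h6
  have hx : inner ℂ x (T x) = ∑ i, (((hT.eigenvalues hn.symm i) * ‖inner ℂ (b i) x‖ ^ 2 : ℝ) : ℂ) := by
    rw [← b.sum_inner_mul_inner x (T x)]
    refine Finset.sum_congr rfl fun i _ => ?_
    have h1 : inner ℂ (b i) (T x) = ((hT.eigenvalues hn.symm i : ℝ) : ℂ) * inner ℂ (b i) x := by
      rw [← hT (b i) x, hev, inner_smul_left, Complex.conj_ofReal]
    rw [h1]
    have h2 : inner ℂ x (b i) * inner ℂ (b i) x = ((‖inner ℂ (b i) x‖ ^ 2 : ℝ) : ℂ) := by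
      rw [← inner_conj_symm x (b i), ← Complex.normSq_eq_conj_mul_self,
        Complex.normSq_eq_norm_sq]
    push_cast at h2 ⊢
    linear_combination ((hT.eigenvalues hn.symm i : ℝ) : ℂ) * h2
  rw [hx, ← Complex.ofReal_sum, Complex.ofReal_re, ← b.sum_sq_norm_inner_right x,
    Finset.mul_sum]
  refine Finset.sum_le_sum fun i _ => ?_
  exact mul_le_mul_of_nonneg_right (hlam i) (by positivity)

end Crest.Agent.R340
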