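import Crest.Agent.R340.QL1_331
import Crest.Agent.R340.Fock_649

-- ▼ part R340/QL2_331
section

/-!
Quasi-local calculus, part 2: parity, the subalgebra generated by a set of modes, and the fact
that the conditional expectation of an even element lies in the subalgebra of the near modes.
-/

set_option autoImplicit false
set_option linter.unusedSectionVars false

namespace Crest.Agent.R340.QL331

open Complex ComplexConjugate

variable {A V : Type*} [NormedRing A] [StarRing A] [CStarRing A] [NormedAlgebra ℂ A]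
  [StarModule ℂ A] [NormedAddCommGroup V] [InnerProductSpace ℂ V]

namespace Car

variable (R : Car A V)

/-- parity automorphism -/
def par (a : A) : A := R.th * a * R.th

/-- even elements -/
def Ev (a : A) : Prop := R.par a = a

theorem par_add (a b : A) : R.par (a + b) = R.par a + R.par b := by
  unfold par; noncomm_ring

theorem par_sub (a b : A) : R.par (a - b) = R.par a - R.par b := by
  unfold par; noncomm_ring

theorem par_smul (z : ℂ) (a : A) : R.par (z • a) = z • R.par a := by
  unfold par; rw [mul_smul_comm, smul_mul_assoc]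

theorem par_mul (a b : A) : R.par (a * b) = R.par a * R.par b := by
  unfold par
  calc R.th * (a * b) * R.th = R.th * a * 1 * b * R.th := by noncomm_ring
    _ = R.th * a * (R.th * R.th) * b * R.th := by rw [R.th_sq]
    _ = _ := by noncomm_ring

theorem par_one : R.par 1 = 1 := by unfold par; rw [mul_one, R.th_sq]

theorem par_zero : R.par 0 = 0 := by unfold par; simp

theorem par_par (a : A) : R.par (R.par a) = a := by
  unfold par
  calc R.th * (R.th * a * R.th) * R.th = (R.th * R.th) * a * (R.th * R.th) := by noncomm_ring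
    _ = a := by rw [R.th_sq]; noncomm_ring

theorem par_star (a : A) : R.par (star a) = star (R.par a) := by
  unfold par; rw [star_mul, star_mul, R.th_star, mul_assoc]

theorem par_an (v : V) : R.par (R.an v) = - R.an v := R.th_an v

theorem par_cr (v : V) : R.par (R.cr v) = - R.cr v := by
  unfold cr; rw [par_star, par_an, star_neg]

theorem par_maj (v : V) : R.par (R.maj v) = - R.maj v := by
  unfold maj; rw [par_add, par_star, par_an, star_neg]; abel


theorem ev_one : R.Ev 1 := R.par_one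
theorem ev_zero : R.Ev 0 := R.par_zero
theorem Ev.add {R : Car A V} {a b : A} (ha : R.Ev a) (hb : R.Ev b) : R.Ev (a + b) := by
  unfold Ev at *; rw [par_add, ha, hb]
theorem Ev.sub {R : Car A V} {a b : A} (ha : R.Ev a) (hb : R.Ev b) : R.Ev (a - b) := by
  unfold Ev at *; rw [par_sub, ha, hb]
theorem Ev.smul {R : Car A V} (z : ℂ) {a : A} (ha : R.Ev a) : R.Ev (z • a) := by
  unfold Ev at *; rw [par_smul, ha]
theorem Ev.neg {R : Car A V} {a : A} (ha : R.Ev a) : R.Ev (-a) := by
  have := ha.smul (-1); simpa using this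
theorem Ev.mul {R : Car A V} {a b : A} (ha : R.Ev a) (hb : R.Ev b) : R.Ev (a * b) := by
  unfold Ev at *; rw [par_mul, ha, hb]
theorem Ev.star {R : Car A V} {a : A} (ha : R.Ev a) : R.Ev (star a) := by
  unfold Ev at *; rw [par_star, ha]
theorem Ev.br {R : Car A V} {a b : A} (ha : R.Ev a) (hb : R.Ev b) : R.Ev (br a b) :=
  (ha.mul hb).sub (hb.mul ha)

theorem ev_odd_mul_odd {a b : A} (ha : R.par a = -a) (hb : R.par b = -b) : R.Ev (a * b) := by
  unfold Ev; rw [par_mul, ha, hb]; noncomm_ring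

theorem Ev.tw {R : Car A V} {a : A} (ha : R.Ev a) (v : V) : R.Ev (R.tw v a) := by
  unfold Car.tw
  refine Ev.smul _ (ha.add ?_)
  unfold Ev at *
  rw [par_mul, par_mul, ha, par_maj]; noncomm_ring

theorem Ev.ex1 {R : Car A V} {a : A} (ha : R.Ev a) (v : V) : R.Ev (R.ex1 v a) :=
  (ha.tw _).tw _

theorem Ev.ex {R : Car A V} {a : A} (ha : R.Ev a) (l : List V) : R.Ev (R.ex l a) := by
  induction l with
  | nil => exact ha
  | cons v l ih => exact Ev.ex1 ih v

/-- the algebra generated by a set of modes -/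
def alg (W : Set V) : Subalgebra ℂ A := Algebra.adjoin ℂ (R.an '' W ∪ R.cr '' W)

theorem an_mem_alg {W : Set V} {v : V} (hv : v ∈ W) : R.an v ∈ R.alg W :=
  Algebra.subset_adjoin (Or.inl ⟨v, hv, rfl⟩)

theorem cr_mem_alg {W : Set V} {v : V} (hv : v ∈ W) : R.cr v ∈ R.alg W :=
  Algebra.subset_adjoin (Or.inr ⟨v, hv, rfl⟩)

theorem alg_mono {W W' : Set V} (h : W ⊆ W') : R.alg W ≤ R.alg W' :=
  Algebra.adjoin_mono (Set.union_subset_union (Set.image_mono h) (Set.image_mono h))

theorem alg_induction {W : Set V} {p : A → Prop}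
    (h_an : ∀ v ∈ W, p (R.an v)) (h_cr : ∀ v ∈ W, p (R.cr v)) (h_al : ∀ z : ℂ, p (algebraMap ℂ A z))
    (h_add : ∀ a b, p a → p b → p (a + b)) (h_mul : ∀ a b, p a → p b → p (a * b))
    {a : A} (ha : a ∈ R.alg W) : p a := by
  refine Algebra.adjoin_induction (p := fun x _ => p x) ?_ h_al (fun x y _ _ => h_add x y)
    (fun x y _ _ => h_mul x y) ha
  rintro x (⟨v, hv, rfl⟩ | ⟨v, hv, rfl⟩)
  · exact h_an v hv
  · exact h_cr v hv

theorem star_mem_alg {W : Set V} {a : A} (ha : a ∈ R.alg W) : star a ∈ R.alg W := by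
  refine R.alg_induction (p := fun x => star x ∈ R.alg W) ?_ ?_ ?_ ?_ ?_ ha
  · intro v hv; exact R.cr_mem_alg hv
  · intro v hv; rw [star_cr]; exact R.an_mem_alg hv
  · intro z
    rw [Algebra.algebraMap_eq_smul_one, star_smul, star_one]
    exact Subalgebra.smul_mem _ (Subalgebra.one_mem _) _
  · intro a b ha hb; rw [star_add]; exact Subalgebra.add_mem _ ha hb
  · intro a b ha hb; rw [star_mul]; exact Subalgebra.mul_mem _ hb ha

theorem par_mem_alg {W : Set V} {a : A} (ha : a ∈ R.alg W) : R.par a ∈ R.alg W := by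
  refine R.alg_induction (p := fun x => R.par x ∈ R.alg W) ?_ ?_ ?_ ?_ ?_ ha
  · intro v hv; rw [par_an]; exact Subalgebra.neg_mem _ (R.an_mem_alg hv)
  · intro v hv; rw [par_cr]; exact Subalgebra.neg_mem _ (R.cr_mem_alg hv)
  · intro z
    rw [Algebra.algebraMap_eq_smul_one, par_smul, par_one]
    exact Subalgebra.smul_mem _ (Subalgebra.one_mem _) _
  · intro a b ha hb; rw [par_add]; exact Subalgebra.add_mem _ ha hb
  · intro a b ha hb; rw [par_mul]; exact Subalgebra.mul_mem _ ha hb

/-- an element commuting with all modes of `W` commutes with the algebra they generate -/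
theorem commute_alg {W : Set V} {a : A} (h : ∀ v ∈ W, R.Cm v a) {y : A} (hy : y ∈ R.alg W) :
    Commute a y := by
  refine R.alg_induction (p := fun x => Commute a x) ?_ ?_ ?_ ?_ ?_ hy
  · intro v hv; exact (h v hv).1
  · intro v hv; exact (h v hv).2
  · intro z; exact (Algebra.commutes z a).symm
  · intro x y hx hy; exact hx.add_right hy
  · intro x y hx hy; exact hx.mul_right hy

/-- orthogonal annihilators graded-commute with the algebra -/
theorem an_mul_alg {W : Set V} {w : V} (h : ∀ v ∈ W, (inner ℂ w v : ℂ) = 0) {y : A}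
    (hy : y ∈ R.alg W) : R.an w * y = R.par y * R.an w := by
  refine R.alg_induction (p := fun x => R.an w * x = R.par x * R.an w) ?_ ?_ ?_ ?_ ?_ hy
  · intro v _; rw [par_an, neg_mul]; exact eq_neg_of_add_eq_zero_left (R.an_an w v)
  · intro v hv
    rw [par_cr, neg_mul]
    refine eq_neg_of_add_eq_zero_left ?_
    have := R.an_cr w v
    rw [h v hv, zero_smul] at this
    exact this
  · intro z
    rw [Algebra.algebraMap_eq_smul_one, par_smul, par_one, mul_smul_comm, smul_mul_assoc, mul_one,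
      one_mul]
  · intro x y hx hy; rw [par_add, mul_add, add_mul, hx, hy]
  · intro x y hx hy
    rw [par_mul, ← mul_assoc, hx, mul_assoc, hy, mul_assoc]

theorem cr_mul_alg {W : Set V} {w : V} (h : ∀ v ∈ W, (inner ℂ w v : ℂ) = 0) {y : A}
    (hy : y ∈ R.alg W) : R.cr w * y = R.par y * R.cr w := by
  have h1 := R.an_mul_alg h (R.par_mem_alg (R.star_mem_alg hy))
  rw [par_par] at h1
  have h2 := congrArg star h1
  rw [star_mul, star_mul, par_star, star_star, star_star] at h2
  exact h2.symm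


/-- normal form relative to one extra mode -/
theorem normal_form {W : Set V} {e : V} (he : ‖e‖ = 1) (h : ∀ v ∈ W, (inner ℂ e v : ℂ) = 0)
    {y : A} (hy : y ∈ R.alg (insert e W)) :
    ∃ a ∈ R.alg W, ∃ b ∈ R.alg W, ∃ d ∈ R.alg W, ∃ f ∈ R.alg W,
      y = a + b * R.an e + d * R.cr e + f * (R.cr e * R.an e) := by
  have hee : (inner ℂ e e : ℂ) = 1 := by
    rw [inner_self_eq_norm_sq_to_K, he]; simp
  have h1 : R.an e * R.cr e = 1 - R.cr e * R.an e := by
    have := R.an_cr e e
    rw [hee, one_smul] at this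
    unfold cr; rw [← this]; abel
  have two : (2 : ℂ) ≠ 0 := two_ne_zero
  have h2 : R.an e * R.an e = 0 := by
    have := R.an_an e e
    rw [← two_smul ℂ] at this
    exact (smul_eq_zero.mp this).resolve_left two
  have h3 : R.cr e * R.cr e = 0 := by
    have := R.cr_cr e e
    rw [← two_smul ℂ] at this
    exact (smul_eq_zero.mp this).resolve_left two
  let M : A → Prop := fun y => ∃ a ∈ R.alg W, ∃ b ∈ R.alg W, ∃ d ∈ R.alg W, ∃ f ∈ R.alg W,
      y = a + b * R.an e + d * R.cr e + f * (R.cr e * R.an e)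
  have hadd : ∀ y z, M y → M z → M (y + z) := by
    rintro y z ⟨a, ha, b, hb, d, hd, f, hf, rfl⟩ ⟨a', ha', b', hb', d', hd', f', hf', rfl⟩
    exact ⟨a + a', Subalgebra.add_mem _ ha ha', b + b', Subalgebra.add_mem _ hb hb',
      d + d', Subalgebra.add_mem _ hd hd', f + f', Subalgebra.add_mem _ hf hf', by noncomm_ring⟩
  have hcoef : ∀ x ∈ R.alg W, ∀ y, M y → M (x * y) := by
    rintro x hx y ⟨a, ha, b, hb, d, hd, f, hf, rfl⟩
    exact ⟨x * a, Subalgebra.mul_mem _ hx ha, x * b, Subalgebra.mul_mem _ hx hb,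
      x * d, Subalgebra.mul_mem _ hx hd, x * f, Subalgebra.mul_mem _ hx hf, by noncomm_ring⟩
  have han : ∀ y, M y → M (R.an e * y) := by
    rintro y ⟨a, ha, b, hb, d, hd, f, hf, rfl⟩
    refine ⟨R.par d, R.par_mem_alg hd, R.par a + R.par f,
      Subalgebra.add_mem _ (R.par_mem_alg ha) (R.par_mem_alg hf), 0, Subalgebra.zero_mem _,
      - R.par d, Subalgebra.neg_mem _ (R.par_mem_alg hd), ?_⟩
    have ea := R.an_mul_alg h ha
    have eb := R.an_mul_alg h hb
    have ed := R.an_mul_alg h hd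
    have ef := R.an_mul_alg h hf
    calc R.an e * (a + b * R.an e + d * R.cr e + f * (R.cr e * R.an e))
        = R.an e * a + (R.an e * b) * R.an e + (R.an e * d) * R.cr e
          + (R.an e * f) * (R.cr e * R.an e) := by noncomm_ring
      _ = R.par a * R.an e + R.par b * (R.an e * R.an e) + R.par d * (R.an e * R.cr e)
          + R.par f * ((R.an e * R.cr e) * R.an e) := by
            rw [ea, eb, ed, ef]; noncomm_ring
      _ = _ := by
        rw [h2, h1]
        have : (1 - R.cr e * R.an e) * R.an e = R.an e := by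
          calc (1 - R.cr e * R.an e) * R.an e = R.an e - R.cr e * (R.an e * R.an e) := by
                noncomm_ring
            _ = R.an e := by rw [h2]; noncomm_ring
        rw [this]; noncomm_ring
  have hcr : ∀ y, M y → M (R.cr e * y) := by
    rintro y ⟨a, ha, b, hb, d, hd, f, hf, rfl⟩
    refine ⟨0, Subalgebra.zero_mem _, 0, Subalgebra.zero_mem _, R.par a, R.par_mem_alg ha,
      R.par b, R.par_mem_alg hb, ?_⟩
    have ea := R.cr_mul_alg h ha
    have eb := R.cr_mul_alg h hb
    have ed := R.cr_mul_alg h hd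
    have ef := R.cr_mul_alg h hf
    calc R.cr e * (a + b * R.an e + d * R.cr e + f * (R.cr e * R.an e))
        = R.cr e * a + (R.cr e * b) * R.an e + (R.cr e * d) * R.cr e
          + (R.cr e * f) * (R.cr e * R.an e) := by noncomm_ring
      _ = R.par a * R.cr e + R.par b * (R.cr e * R.an e) + R.par d * (R.cr e * R.cr e)
          + R.par f * ((R.cr e * R.cr e) * R.an e) := by
            rw [ea, eb, ed, ef]; noncomm_ring
      _ = _ := by
        rw [h3]; noncomm_ring
  have hleft : ∀ x ∈ R.alg (insert e W), ∀ y, M y → M (x * y) := by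
    intro x hx
    refine R.alg_induction (p := fun x => ∀ y, M y → M (x * y)) ?_ ?_ ?_ ?_ ?_ hx
    · rintro v (rfl | hv) y hy
      · exact han y hy
      · exact hcoef _ (R.an_mem_alg hv) y hy
    · rintro v (rfl | hv) y hy
      · exact hcr y hy
      · exact hcoef _ (R.cr_mem_alg hv) y hy
    · intro z y hy; exact hcoef _ (Subalgebra.algebraMap_mem _ z) y hy
    · intro a b ha hb y hy; rw [add_mul]; exact hadd _ _ (ha y hy) (hb y hy)
    · intro a b ha hb y hy; rw [mul_assoc]; exact ha _ (hb y hy)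
  have hone : M 1 := ⟨1, Subalgebra.one_mem _, 0, Subalgebra.zero_mem _, 0, Subalgebra.zero_mem _,
    0, Subalgebra.zero_mem _, by noncomm_ring⟩
  have := hleft y hy 1 hone
  rwa [mul_one] at this

theorem maj_conj_an {e : V} (he : ‖e‖ = 1) : R.maj e * R.an e * R.maj e = R.cr e := by
  have hee : (inner ℂ e e : ℂ) = 1 := by
    rw [inner_self_eq_norm_sq_to_K, he]; simp
  have h1 : R.an e * R.cr e + R.cr e * R.an e = 1 := by
    have := R.an_cr e e
    rw [hee, one_smul] at this
    exact this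
  have two : (2 : ℂ) ≠ 0 := two_ne_zero
  have h2 : R.an e * R.an e = 0 := by
    have := R.an_an e e
    rw [← two_smul ℂ] at this
    exact (smul_eq_zero.mp this).resolve_left two
  have h3 : R.cr e * R.cr e = 0 := by
    have := R.cr_cr e e
    rw [← two_smul ℂ] at this
    exact (smul_eq_zero.mp this).resolve_left two
  have hm : R.maj e = R.an e + R.cr e := rfl
  calc R.maj e * R.an e * R.maj e
      = (R.an e * R.an e) * (R.an e + R.cr e) + R.cr e * (R.an e * R.an e)
        + R.cr e * (R.an e * R.cr e + R.cr e * R.an e) - (R.cr e * R.cr e) * R.an e := by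
          rw [hm]; noncomm_ring
    _ = R.cr e := by rw [h1, h2, h3]; noncomm_ring

theorem maj_conj_cr {e : V} (he : ‖e‖ = 1) : R.maj e * R.cr e * R.maj e = R.an e := by
  have h := congrArg star (R.maj_conj_an he)
  rw [star_mul, star_mul, star_maj, star_cr, ← mul_assoc] at h
  exact h

theorem majI_conj_an {e : V} (he : ‖e‖ = 1) :
    R.maj (I • e) * R.an e * R.maj (I • e) = - R.cr e := by
  have h := R.maj_conj_an (e := I • e) (by rw [norm_smul, Complex.norm_I, one_mul, he])
  rw [R.an_smul, cr_smul, Complex.conj_I, mul_smul_comm, smul_mul_assoc] at h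
  have h2 : R.maj (I • e) * R.an e * R.maj (I • e)
      = I • ((-I) • (R.maj (I • e) * R.an e * R.maj (I • e))) := by
    rw [smul_smul]; simp
  rw [h2, h, smul_smul]; simp

theorem majI_conj_cr {e : V} (he : ‖e‖ = 1) :
    R.maj (I • e) * R.cr e * R.maj (I • e) = - R.an e := by
  have h := congrArg star (R.majI_conj_an he)
  rw [star_mul, star_mul, star_maj, star_neg, star_cr, ← mul_assoc] at h
  exact h

theorem maj_mul_alg {W : Set V} {w : V} (h : ∀ v ∈ W, (inner ℂ w v : ℂ) = 0) {y : A}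
    (hy : y ∈ R.alg W) : R.maj w * y = R.par y * R.maj w := by
  have h1 := R.an_mul_alg h hy
  have h2 := R.cr_mul_alg h hy
  have hm : R.maj w = R.an w + R.cr w := rfl
  rw [hm, add_mul, mul_add, h1, h2]

/-- twirling kills odd parts and averages the number operator -/
theorem ex1_normal {W : Set V} {e : V} (he : ‖e‖ = 1) (h : ∀ v ∈ W, (inner ℂ e v : ℂ) = 0)
    {a b d f : A} (ha : a ∈ R.alg W) (hb : b ∈ R.alg W) (hd : d ∈ R.alg W) (hf : f ∈ R.alg W)
    (ea : R.par a = a) (eb : R.par b = -b) (ed : R.par d = -d) (ef : R.par f = f) :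
    R.ex1 e (a + b * R.an e + d * R.cr e + f * (R.cr e * R.an e)) = a + (2 : ℂ)⁻¹ • f := by
  have hI : ∀ v ∈ W, (inner ℂ (I • e) v : ℂ) = 0 := by
    intro v hv; rw [inner_smul_left, h v hv, mul_zero]
  have hIn : ‖(I : ℂ) • e‖ = 1 := by rw [norm_I_smul, he]
  have hee : (inner ℂ e e : ℂ) = 1 := by
    rw [inner_self_eq_norm_sq_to_K, he]; simp
  have h1 : R.an e * R.cr e = 1 - R.cr e * R.an e := by
    have := R.an_cr e e
    rw [hee, one_smul] at this
    unfold cr; rw [← this]; abel
  have two : (2 : ℂ) ≠ 0 := two_ne_zero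
  -- conjugations by g = maj (I•e)
  set g := R.maj (I • e) with hg
  set u := R.maj e with hu
  have gg : g * g = 1 := R.maj_sq_one hIn
  have uu : u * u = 1 := R.maj_sq_one he
  have ga : g * a = a * g := by rw [hg, R.maj_mul_alg hI ha, ea]
  have gb : g * b = - (b * g) := by rw [hg, R.maj_mul_alg hI hb, eb, neg_mul]
  have gd : g * d = - (d * g) := by rw [hg, R.maj_mul_alg hI hd, ed, neg_mul]
  have gf : g * f = f * g := by rw [hg, R.maj_mul_alg hI hf, ef]
  have ua : u * a = a * u := by rw [hu, R.maj_mul_alg h ha, ea]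
  have ub : u * b = - (b * u) := by rw [hu, R.maj_mul_alg h hb, eb, neg_mul]
  have ud : u * d = - (d * u) := by rw [hu, R.maj_mul_alg h hd, ed, neg_mul]
  have uf : u * f = f * u := by rw [hu, R.maj_mul_alg h hf, ef]
  have g1 : g * R.an e * g = - R.cr e := R.majI_conj_an he
  have g2 : g * R.cr e * g = - R.an e := R.majI_conj_cr he
  have u1 : u * R.an e * u = R.cr e := R.maj_conj_an he
  have u2 : u * R.cr e * u = R.an e := R.maj_conj_cr he
  have g3 : g * (R.cr e * R.an e) * g = R.an e * R.cr e := by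
    calc g * (R.cr e * R.an e) * g = (g * R.cr e * g) * (g * R.an e * g) := by
          have : (g * R.cr e * g) * (g * R.an e * g) = g * R.cr e * (g * g) * R.an e * g := by
            noncomm_ring
          rw [this, gg]; noncomm_ring
      _ = _ := by rw [g1, g2]; noncomm_ring
  -- first twirl
  have t1 : R.tw (I • e) (a + b * R.an e + d * R.cr e + f * (R.cr e * R.an e))
      = a + (2 : ℂ)⁻¹ • (b * R.an e + b * R.cr e + d * R.cr e + d * R.an e) + (2 : ℂ)⁻¹ • f := by
    unfold tw
    have c1 : g * (a + b * R.an e + d * R.cr e + f * (R.cr e * R.an e)) * g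
        = a + b * R.cr e + d * R.an e + f * (1 - R.cr e * R.an e) := by
      calc g * (a + b * R.an e + d * R.cr e + f * (R.cr e * R.an e)) * g
          = (g * a) * g + (g * b) * R.an e * g + (g * d) * R.cr e * g
            + (g * f) * (R.cr e * R.an e) * g := by noncomm_ring
        _ = a * (g * g) - b * (g * R.an e * g) - d * (g * R.cr e * g)
            + f * (g * (R.cr e * R.an e) * g) := by rw [ga, gb, gd, gf]; noncomm_ring
        _ = _ := by rw [gg, g1, g2, g3, h1]; noncomm_ring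
    rw [c1]
    have c2 : a + b * R.an e + d * R.cr e + f * (R.cr e * R.an e)
        + (a + b * R.cr e + d * R.an e + f * (1 - R.cr e * R.an e))
        = (2 : ℂ) • a + (b * R.an e + b * R.cr e + d * R.cr e + d * R.an e) + f := by
      rw [two_smul]; noncomm_ring
    rw [c2, smul_add, smul_add, smul_smul, inv_mul_cancel₀ two, one_smul]
  unfold ex1
  rw [t1]
  unfold tw
  have c3 : u * (a + (2 : ℂ)⁻¹ • (b * R.an e + b * R.cr e + d * R.cr e + d * R.an e)
      + (2 : ℂ)⁻¹ • f) * u
      = a - (2 : ℂ)⁻¹ • (b * R.an e + b * R.cr e + d * R.cr e + d * R.an e) + (2 : ℂ)⁻¹ • f := by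
    calc u * (a + (2 : ℂ)⁻¹ • (b * R.an e + b * R.cr e + d * R.cr e + d * R.an e)
          + (2 : ℂ)⁻¹ • f) * u
        = (u * a) * u + (2 : ℂ)⁻¹ • ((u * b) * R.an e * u + (u * b) * R.cr e * u
            + (u * d) * R.cr e * u + (u * d) * R.an e * u) + (2 : ℂ)⁻¹ • ((u * f) * u) := by
          rw [mul_add, mul_add, add_mul, add_mul, mul_smul_comm, smul_mul_assoc, mul_smul_comm,
            smul_mul_assoc]
          congr 2
          congr 1
          noncomm_ring
      _ = a * (u * u) - (2 : ℂ)⁻¹ • (b * (u * R.an e * u) + b * (u * R.cr e * u)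
            + d * (u * R.cr e * u) + d * (u * R.an e * u)) + (2 : ℂ)⁻¹ • (f * (u * u)) := by
          rw [ua, ub, ud, uf, sub_eq_add_neg, ← smul_neg]
          congr 2
          · noncomm_ring
          · congr 1
            noncomm_ring
          · noncomm_ring
      _ = _ := by
          rw [uu, u1, u2, mul_one, mul_one]
          congr 2
          congr 1
          abel
  rw [c3]
  have c4 : a + (2 : ℂ)⁻¹ • (b * R.an e + b * R.cr e + d * R.cr e + d * R.an e) + (2 : ℂ)⁻¹ • f
      + (a - (2 : ℂ)⁻¹ • (b * R.an e + b * R.cr e + d * R.cr e + d * R.an e) + (2 : ℂ)⁻¹ • f)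
      = (2 : ℂ) • (a + (2 : ℂ)⁻¹ • f) := by
    rw [two_smul]; abel
  rw [c4, smul_smul, inv_mul_cancel₀ two, one_smul]

/-- even part -/
noncomputable def evp (a : A) : A := (2 : ℂ)⁻¹ • (a + R.par a)
/-- odd part -/
noncomputable def odp (a : A) : A := (2 : ℂ)⁻¹ • (a - R.par a)

theorem par_evp (a : A) : R.par (R.evp a) = R.evp a := by
  unfold evp; rw [par_smul, par_add, par_par]; congr 1; abel

theorem par_odp (a : A) : R.par (R.odp a) = - R.odp a := by
  unfold odp; rw [par_smul, par_sub, par_par, ← smul_neg]; congr 1; abel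

theorem evp_mem {W : Set V} {a : A} (ha : a ∈ R.alg W) : R.evp a ∈ R.alg W :=
  Subalgebra.smul_mem _ (Subalgebra.add_mem _ ha (R.par_mem_alg ha)) _

theorem odp_mem {W : Set V} {a : A} (ha : a ∈ R.alg W) : R.odp a ∈ R.alg W :=
  Subalgebra.smul_mem _ (Subalgebra.sub_mem _ ha (R.par_mem_alg ha)) _

/-- the conditional expectation of an even element of the algebra of `insert e W` lies in the
algebra of `W`. -/
theorem ex1_mem {W : Set V} {e : V} (he : ‖e‖ = 1) (h : ∀ v ∈ W, (inner ℂ e v : ℂ) = 0)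
    {y : A} (hy : y ∈ R.alg (insert e W)) (hev : R.Ev y) : R.ex1 e y ∈ R.alg W := by
  obtain ⟨a, ha, b, hb, d, hd, f, hf, rfl⟩ := R.normal_form he h hy
  have two : (2 : ℂ) ≠ 0 := two_ne_zero
  have key : a + b * R.an e + d * R.cr e + f * (R.cr e * R.an e)
      = R.evp a + R.odp b * R.an e + R.odp d * R.cr e + R.evp f * (R.cr e * R.an e) := by
    have h1 : R.par (a + b * R.an e + d * R.cr e + f * (R.cr e * R.an e))
        = R.par a - R.par b * R.an e - R.par d * R.cr e + R.par f * (R.cr e * R.an e) := by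
      rw [par_add, par_add, par_add, par_mul, par_mul, par_mul, par_mul, par_an, par_cr]
      noncomm_ring
    have h2 : a + b * R.an e + d * R.cr e + f * (R.cr e * R.an e)
        = (2 : ℂ)⁻¹ • ((a + b * R.an e + d * R.cr e + f * (R.cr e * R.an e))
          + R.par (a + b * R.an e + d * R.cr e + f * (R.cr e * R.an e))) := by
      have : R.par (a + b * R.an e + d * R.cr e + f * (R.cr e * R.an e))
          = a + b * R.an e + d * R.cr e + f * (R.cr e * R.an e) := hev
      rw [this, ← two_smul ℂ, smul_smul, inv_mul_cancel₀ two, one_smul]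
    rw [h2, h1]
    unfold evp odp
    rw [smul_mul_assoc, smul_mul_assoc, smul_mul_assoc, ← smul_add, ← smul_add, ← smul_add]
    congr 1
    noncomm_ring
  rw [key, R.ex1_normal he h (R.evp_mem ha) (R.odp_mem hb) (R.odp_mem hd) (R.evp_mem hf)
    (R.par_evp _) (R.par_odp _) (R.par_odp _) (R.par_evp _)]
  exact Subalgebra.add_mem _ (R.evp_mem ha) (Subalgebra.smul_mem _ (R.evp_mem hf) _)

/-- list version -/
theorem ex_mem (l : List V) : ∀ (W : Set V), (∀ v ∈ l, ‖v‖ = 1) →
    (l.Pairwise fun v w => (inner ℂ v w : ℂ) = 0) →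
    (∀ e ∈ l, ∀ v ∈ W, (inner ℂ e v : ℂ) = 0) →
    ∀ {y : A}, y ∈ R.alg (W ∪ {v | v ∈ l}) → R.Ev y → R.ex l y ∈ R.alg W := by
  induction l with
  | nil =>
    intro W _ _ _ y hy _
    simpa using hy
  | cons v l ih =>
    intro W hn ho hW y hy hev
    rw [List.pairwise_cons] at ho
    rw [ex_cons]
    refine R.ex1_mem (hn v (by simp)) (hW v (by simp)) ?_ (hev.ex l)
    refine ih (insert v W) (fun w hw => hn w (by simp [hw])) ho.2 ?_ ?_ hev
    · rintro e he w (rfl | hw)
      · rw [← inner_conj_symm, ho.1 e he, map_zero]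
      · exact hW e (by simp [he]) w hw
    · convert hy using 2
      ext w
      simp only [Set.mem_union, Set.mem_insert_iff, Set.mem_setOf_eq, List.mem_cons]
      tauto

end Car

end Crest.Agent.R340.QL331
end

-- ▼ part R340/QL3_331

/-!
Quasi-local calculus, part 3: the Fock instance; orthonormal frames of modes, the conditional
expectations `E b L`, the local algebras `Loc b L`.
-/

set_option autoImplicit false
set_option linter.unusedSectionVars false

namespace Crest.Agent.R340.QL331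

open Complex ComplexConjugate

section Fock
open Fock649

variable {ι : Type*} [LinearOrder ι] [Fintype ι]

/-- parity operator on Fock space -/
noncomputable def thF : Op ι := diag fun S => (-1) ^ S.card

theorem thF_ket (S : Finset ι) : thF (ket S) = ((-1 : ℂ) ^ S.card) • ket S := diag_ket _ _

theorem thF_c (i : ι) : (thF : Op ι) * c i * thF = - c i := by
  refine op_ext fun S => ?_
  rw [mul_ap, mul_ap, neg_ap, thF_ket]
  have hl : (c i : Op ι) (((-1 : ℂ) ^ S.card) • ket S) = ((-1 : ℂ) ^ S.card) • (c i : Op ι) (ket S) :=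
    (c i : Op ι).ap.map_smul _ _
  rw [hl]
  have hl2 : ∀ (z : ℂ) (v : Fk ι), (thF : Op ι) (z • v) = z • (thF : Op ι) v :=
    fun z v => (thF : Op ι).ap.map_smul _ _
  rw [hl2, c_ket]
  split_ifs with h
  · rw [hl2, thF_ket, Finset.card_erase_of_mem h, smul_smul, smul_smul, ← neg_smul]
    congr 1
    obtain ⟨m, hm⟩ : ∃ m, S.card = m + 1 := ⟨S.card - 1, by
      have := Finset.card_pos.mpr ⟨i, h⟩; omega⟩
    rw [hm, Nat.add_sub_cancel, pow_succ]
    have : ((-1 : ℂ) ^ m) * ((-1 : ℂ) ^ m) = 1 := by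
      rw [← mul_pow]; norm_num
    linear_combination (-(sg i S)) * this
  · have h0 : (thF : Op ι) (0 : Fk ι) = 0 := (thF : Op ι).ap.map_zero
    rw [h0]; simp

/-- The Fock representation as an abstract CAR representation. -/
noncomputable def fcar : Car (Op ι) (L ι) where
  an := an
  an_add := an_add
  an_smul := an_smul
  an_cr v w := by rw [star_an]; exact Fock649.an_cr v w
  an_an := an_an
  th := thF
  th_star := by
    unfold thF
    rw [star_diag]
    congr 1
    funext S
    simp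
  th_sq := by
    unfold thF
    rw [← diag_mul, ← diag_one]
    congr 1
    funext S
    simp only [Pi.mul_apply, Pi.one_apply]
    rw [← mul_pow]; norm_num
  th_an v := by
    have h1 : ∀ s : Finset ι, (thF : Op ι) * (∑ i ∈ s, (starRingEnd ℂ) (v i) • c i) * thF
        = - ∑ i ∈ s, (starRingEnd ℂ) (v i) • c i := by
      intro s
      rw [Finset.mul_sum, Finset.sum_mul, ← Finset.sum_neg_distrib]
      refine Finset.sum_congr rfl fun i _ => ?_
      rw [mul_smul_comm, smul_mul_assoc, thF_c, smul_neg]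
    exact h1 _

theorem fcar_an (v : L ι) : (fcar : Car (Op ι) (L ι)).an v = an v := rfl
theorem fcar_cr (v : L ι) : (fcar : Car (Op ι) (L ι)).cr v = cr v := star_an v

theorem c_mem (i : ι) : (c i : Op ι) ∈ (fcar : Car (Op ι) (L ι)).alg Set.univ := by
  rw [← an_e]; exact Car.an_mem_alg _ (Set.mem_univ _)

theorem d_mem (i : ι) : (d i : Op ι) ∈ (fcar : Car (Op ι) (L ι)).alg Set.univ := by
  rw [← cr_e, ← fcar_cr]; exact Car.cr_mem_alg _ (Set.mem_univ _)


/-- indicator diagonal operators are generated -/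
theorem diag_pt_mem (S : Finset ι) :
    diag (fun T => if T = S then (1 : ℂ) else 0) ∈ (fcar : Car (Op ι) (L ι)).alg Set.univ := by
  classical
  have h1 : ∀ i : ι, diag (fun T : Finset ι => if (i ∈ T ↔ i ∈ S) then (1 : ℂ) else 0)
      ∈ (fcar : Car (Op ι) (L ι)).alg Set.univ := by
    intro i
    have hn : (d i * c i : Op ι) ∈ (fcar : Car (Op ι) (L ι)).alg Set.univ :=
      Subalgebra.mul_mem _ (d_mem i) (c_mem i)
    by_cases hi : i ∈ S
    · convert hn using 1
      rw [d_mul_c]
      congr 1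
      funext T
      simp [hi]
    · have : (1 - d i * c i : Op ι) ∈ (fcar : Car (Op ι) (L ι)).alg Set.univ :=
        Subalgebra.sub_mem _ (Subalgebra.one_mem _) hn
      convert this using 1
      rw [d_mul_c, ← diag_one]
      refine op_ext fun T => ?_
      rw [sub_ap, diag_ket, diag_ket, diag_ket, ← sub_smul]
      congr 1
      by_cases hT : i ∈ T <;> simp [hi, hT]
  have h2 : ∀ s : Finset ι, diag (fun T : Finset ι => ∏ i ∈ s, if (i ∈ T ↔ i ∈ S) then (1 : ℂ) else 0)
      ∈ (fcar : Car (Op ι) (L ι)).alg Set.univ := by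
    intro s
    induction s using Finset.induction_on with
    | empty =>
      convert Subalgebra.one_mem _ using 1
      rw [← diag_one]; congr 1
    | insert a s ha ih =>
      have := Subalgebra.mul_mem _ (h1 a) ih
      rw [← diag_mul] at this
      convert this using 2
      funext T
      rw [Finset.prod_insert ha]; rfl
  convert h2 Finset.univ using 2
  funext T
  by_cases hT : T = S
  · subst hT; simp
  · rw [if_neg hT]
    symm
    rw [Finset.prod_eq_zero_iff]
    by_contra hcon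
    push Not at hcon
    apply hT
    ext i
    have := hcon i (Finset.mem_univ _)
    by_contra hne
    exact this (if_neg hne)

theorem exists_up (S : Finset ι) :
    ∃ y ∈ (fcar : Car (Op ι) (L ι)).alg Set.univ, (y : Op ι) (ket ∅) = ket S := by
  induction S using Finset.induction_on with
  | empty => exact ⟨1, Subalgebra.one_mem _, rfl⟩
  | insert a s ha ih =>
    obtain ⟨y, hy, h⟩ := ih
    refine ⟨sg a s • (d a * y), Subalgebra.smul_mem _ (Subalgebra.mul_mem _ (d_mem a) hy) _, ?_⟩
    rw [smul_ap, mul_ap, h, d_ket, if_neg ha, smul_smul, sg_mul_self, one_smul]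

theorem exists_down (S : Finset ι) :
    ∃ y ∈ (fcar : Car (Op ι) (L ι)).alg Set.univ, (y : Op ι) (ket S) = ket ∅ := by
  induction S using Finset.induction_on with
  | empty => exact ⟨1, Subalgebra.one_mem _, rfl⟩
  | insert a s ha ih =>
    obtain ⟨y, hy, h⟩ := ih
    refine ⟨sg a (insert a s) • (y * c a),
      Subalgebra.smul_mem _ (Subalgebra.mul_mem _ hy (c_mem a)) _, ?_⟩
    have hl : ∀ (z : ℂ) (v : Fk ι), (y : Op ι) (z • v) = z • (y : Op ι) v :=
      fun z v => (y : Op ι).ap.map_smul _ _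
    rw [smul_ap, mul_ap, c_ket, if_pos (Finset.mem_insert_self _ _), hl,
      Finset.erase_insert ha, h, smul_smul, sg_mul_self, one_smul]

/-- every operator on Fock space is generated by the modes. -/
theorem alg_univ (a : Op ι) : a ∈ (fcar : Car (Op ι) (L ι)).alg Set.univ := by
  classical
  have hunit : ∀ S T : Finset ι, ∃ y ∈ (fcar : Car (Op ι) (L ι)).alg Set.univ,
      ∀ U, (y : Op ι) (ket U) = if U = T then ket S else 0 := by
    intro S T
    obtain ⟨y, hy, h1⟩ := exists_up S
    obtain ⟨x, hx, h2⟩ := exists_down T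
    refine ⟨y * x * diag (fun U => if U = T then (1 : ℂ) else 0),
      Subalgebra.mul_mem _ (Subalgebra.mul_mem _ hy hx) (diag_pt_mem T), fun U => ?_⟩
    have hl : ∀ (z : ℂ) (v : Fk ι), (y * x : Op ι) (z • v) = z • (y * x : Op ι) v :=
      fun z v => (y * x : Op ι).ap.map_smul _ _
    rw [mul_ap, diag_ket, hl, mul_ap]
    by_cases h : U = T
    · subst h; simp [h2, h1]
    · simp [h]
  choose y hy hy2 using hunit
  have : a = ∑ T, ∑ S, (a (ket T)) S • y S T := by
    refine op_ext fun U => ?_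
    rw [sum_ap]
    have h3 : ∀ T : Finset ι, (∑ S, (a (ket T)) S • y S T : Op ι) (ket U)
        = if U = T then a (ket U) else 0 := by
      intro T
      rw [sum_ap]
      by_cases h : U = T
      · subst h
        rw [if_pos rfl]
        conv_rhs => rw [fk_eq_sum (a (ket U))]
        refine Finset.sum_congr rfl fun S _ => ?_
        rw [smul_ap, hy2, if_pos rfl]
      · rw [if_neg h]
        refine Finset.sum_eq_zero fun S _ => ?_
        rw [smul_ap, hy2, if_neg h, smul_zero]
    rw [Finset.sum_congr rfl fun T _ => h3 T]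
    simp
  rw [this]
  refine Subalgebra.sum_mem _ fun T _ => Subalgebra.sum_mem _ fun S _ =>
    Subalgebra.smul_mem _ (hy S T) _

end Fock

section Frame

variable {A V : Type*} [NormedRing A] [StarRing A] [CStarRing A] [NormedAlgebra ℂ A]
  [StarModule ℂ A] [NormedAddCommGroup V] [InnerProductSpace ℂ V]

variable {n : ℕ} (b : OrthonormalBasis (Fin n) ℂ V)

/-- indices `j ≥ L` -/
def farS (n L : ℕ) : Finset (Fin n) := Finset.univ.filter fun j : Fin n => L ≤ (j : ℕ)

/-- indices `j < L` -/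
def nearS (n L : ℕ) : Finset (Fin n) := Finset.univ.filter fun j : Fin n => (j : ℕ) < L

theorem mem_farS {n L : ℕ} {j : Fin n} : j ∈ farS n L ↔ L ≤ (j : ℕ) := by simp [farS]
theorem mem_nearS {n L : ℕ} {j : Fin n} : j ∈ nearS n L ↔ (j : ℕ) < L := by simp [nearS]

/-- the far modes `j ≥ L` of a frame, as a list -/
noncomputable def far (L : ℕ) : List V := ((List.finRange n).filter fun j : Fin n => L ≤ (j : ℕ)).map b

/-- the near modes `j < L` of a frame, as a list -/
noncomputable def near (L : ℕ) : List V := ((List.finRange n).filter fun j : Fin n => (j : ℕ) < L).map b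

theorem mem_far {L : ℕ} {v : V} : v ∈ far b L ↔ ∃ j : Fin n, L ≤ (j : ℕ) ∧ b j = v := by
  simp [far]

theorem mem_near {L : ℕ} {v : V} : v ∈ near b L ↔ ∃ j : Fin n, (j : ℕ) < L ∧ b j = v := by
  simp [near]

theorem far_norm (L : ℕ) : ∀ v ∈ far b L, ‖v‖ = 1 := by
  intro v hv
  obtain ⟨j, _, rfl⟩ := (mem_far b).mp hv
  exact b.orthonormal.1 j

theorem near_norm (L : ℕ) : ∀ v ∈ near b L, ‖v‖ = 1 := by
  intro v hv
  obtain ⟨j, _, rfl⟩ := (mem_near b).mp hv
  exact b.orthonormal.1 j

theorem pairwise_map_orth (l : List (Fin n)) (hl : l.Nodup) :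
    (l.map b).Pairwise fun v w => (inner ℂ v w : ℂ) = 0 := by
  rw [List.pairwise_map]
  refine hl.imp fun {i j} hij => b.orthonormal.2 hij

theorem far_orth (L : ℕ) : (far b L).Pairwise fun v w => (inner ℂ v w : ℂ) = 0 :=
  pairwise_map_orth b _ ((List.nodup_finRange n).filter _)

theorem near_orth (L : ℕ) : (near b L).Pairwise fun v w => (inner ℂ v w : ℂ) = 0 :=
  pairwise_map_orth b _ ((List.nodup_finRange n).filter _)

theorem sum_filter_finRange (p : Fin n → Prop) [DecidablePred p] (f : Fin n → ℝ) :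
    (((List.finRange n).filter fun j => p j).map f).sum = ∑ j ∈ Finset.univ.filter p, f j := by
  rw [← List.sum_toFinset f ((List.nodup_finRange n).filter _)]
  refine Finset.sum_congr ?_ fun _ _ => rfl
  ext j
  simp

theorem sum_far (L : ℕ) (f : V → ℝ) :
    ((far b L).map f).sum = ∑ j ∈ farS n L, f (b j) := by
  unfold far
  rw [List.map_map]
  exact sum_filter_finRange (fun j : Fin n => L ≤ (j : ℕ)) _

theorem sum_near (L : ℕ) (f : V → ℝ) :
    ((near b L).map f).sum = ∑ j ∈ nearS n L, f (b j) := by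
  unfold near
  rw [List.map_map]
  exact sum_filter_finRange (fun j : Fin n => (j : ℕ) < L) _

namespace Car

variable (R : Car A V)

/-- conditional expectation onto (the commutant form of) the near algebra -/
noncomputable def E (L : ℕ) (a : A) : A := R.ex (far b L) a

/-- near twirl -/
noncomputable def E' (L : ℕ) (a : A) : A := R.ex (near b L) a

/-- local elements (commutant form) -/
def Loc (L : ℕ) (a : A) : Prop := R.Ev a ∧ ∀ j : Fin n, L ≤ (j : ℕ) → R.Cm (b j) a

/-- the near algebra -/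
def nalg (L : ℕ) : Subalgebra ℂ A := R.alg {v | ∃ j : Fin n, (j : ℕ) < L ∧ b j = v}

theorem E_sub (L : ℕ) (a c : A) : R.E b L (a - c) = R.E b L a - R.E b L c := R.ex_sub _ _ _
theorem norm_E_le (L : ℕ) (a : A) : ‖R.E b L a‖ ≤ ‖a‖ := R.norm_ex_le (far_norm b L) a

/-- `E b L` as a continuous linear map -/
noncomputable def EL (L : ℕ) : A →L[ℂ] A :=
  LinearMap.mkContinuous (R.exL (far b L)) 1 fun a => by
    rw [one_mul]; exact R.norm_ex_le (far_norm b L) a


theorem norm_sub_E_le (L : ℕ) (a : A) :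
    ‖a - R.E b L a‖ ≤ ∑ j ∈ farS n L, R.cs a (b j) := by
  rw [← sum_far]; exact R.norm_sub_ex_le (far_norm b L) a

theorem norm_sub_E'_le (L : ℕ) (a : A) :
    ‖a - R.E' b L a‖ ≤ ∑ j ∈ nearS n L, R.cs a (b j) := by
  rw [← sum_near]; exact R.norm_sub_ex_le (near_norm b L) a

theorem E_cm (L : ℕ) (a : A) (j : Fin n) (hj : L ≤ (j : ℕ)) : R.Cm (b j) (R.E b L a) :=
  R.ex_cm (far_norm b L) (far_orth b L) a _ ((mem_far b).mpr ⟨j, hj, rfl⟩)

theorem E'_cm (L : ℕ) (a : A) (j : Fin n) (hj : (j : ℕ) < L) : R.Cm (b j) (R.E' b L a) :=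
  R.ex_cm (near_norm b L) (near_orth b L) a _ ((mem_near b).mpr ⟨j, hj, rfl⟩)

theorem E_loc (L : ℕ) {a : A} (ha : R.Ev a) : R.Loc b L (R.E b L a) :=
  ⟨ha.ex _, fun j hj => R.E_cm b L a j hj⟩

theorem E_fix {L : ℕ} {a : A} (ha : R.Loc b L a) : R.E b L a = a := by
  refine R.ex_fix (far_norm b L) fun v hv => ?_
  obtain ⟨j, hj, rfl⟩ := (mem_far b).mp hv
  exact ha.2 j hj

theorem Loc.mono {R : Car A V} {b : OrthonormalBasis (Fin n) ℂ V} {L L' : ℕ} (h : L ≤ L') {a : A}
    (ha : R.Loc b L a) : R.Loc b L' a :=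
  ⟨ha.1, fun j hj => ha.2 j (h.trans hj)⟩


theorem Cm.add {R : Car A V} {v : V} {a c : A} (ha : R.Cm v a) (hc : R.Cm v c) :
    R.Cm v (a + c) := ⟨ha.1.add_left hc.1, ha.2.add_left hc.2⟩
theorem Cm.sub {R : Car A V} {v : V} {a c : A} (ha : R.Cm v a) (hc : R.Cm v c) :
    R.Cm v (a - c) := ⟨ha.1.sub_left hc.1, ha.2.sub_left hc.2⟩
theorem Cm.mul {R : Car A V} {v : V} {a c : A} (ha : R.Cm v a) (hc : R.Cm v c) :
    R.Cm v (a * c) := ⟨ha.1.mul_left hc.1, ha.2.mul_left hc.2⟩
theorem Cm.smul {R : Car A V} {v : V} {a : A} (z : ℂ) (ha : R.Cm v a) : R.Cm v (z • a) :=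
  ⟨ha.1.smul_left z, ha.2.smul_left z⟩
theorem Cm.star {R : Car A V} {v : V} {a : A} (ha : R.Cm v a) : R.Cm v (star a) := by
  refine ⟨?_, ?_⟩
  · have := ha.2.star_star
    rw [star_cr] at this
    exact this
  · exact ha.1.star_star
theorem cm_one (v : V) : R.Cm v 1 := ⟨Commute.one_left _, Commute.one_left _⟩

theorem Loc.add {R : Car A V} {b : OrthonormalBasis (Fin n) ℂ V} {L : ℕ} {a c : A}
    (ha : R.Loc b L a) (hc : R.Loc b L c) : R.Loc b L (a + c) :=
  ⟨ha.1.add hc.1, fun j hj => (ha.2 j hj).add (hc.2 j hj)⟩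
theorem Loc.sub {R : Car A V} {b : OrthonormalBasis (Fin n) ℂ V} {L : ℕ} {a c : A}
    (ha : R.Loc b L a) (hc : R.Loc b L c) : R.Loc b L (a - c) :=
  ⟨ha.1.sub hc.1, fun j hj => (ha.2 j hj).sub (hc.2 j hj)⟩
theorem Loc.mul {R : Car A V} {b : OrthonormalBasis (Fin n) ℂ V} {L : ℕ} {a c : A}
    (ha : R.Loc b L a) (hc : R.Loc b L c) : R.Loc b L (a * c) :=
  ⟨ha.1.mul hc.1, fun j hj => (ha.2 j hj).mul (hc.2 j hj)⟩
theorem Loc.smul {R : Car A V} {b : OrthonormalBasis (Fin n) ℂ V} {L : ℕ} {a : A} (z : ℂ)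
    (ha : R.Loc b L a) : R.Loc b L (z • a) :=
  ⟨ha.1.smul z, fun j hj => (ha.2 j hj).smul z⟩
theorem Loc.star {R : Car A V} {b : OrthonormalBasis (Fin n) ℂ V} {L : ℕ} {a : A}
    (ha : R.Loc b L a) : R.Loc b L (star a) :=
  ⟨ha.1.star, fun j hj => (ha.2 j hj).star⟩
theorem loc_one (L : ℕ) : R.Loc b L 1 := ⟨R.ev_one, fun _ _ => R.cm_one _⟩
theorem Loc.br {R : Car A V} {b : OrthonormalBasis (Fin n) ℂ V} {L : ℕ} {a c : A}
    (ha : R.Loc b L a) (hc : R.Loc b L c) : R.Loc b L (br a c) := (ha.mul hc).sub (hc.mul ha)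

/-- near-optimality of `E`. -/
theorem norm_sub_E_le_of_loc {L : ℕ} {a c : A} (hc : R.Loc b L c) :
    ‖a - R.E b L a‖ ≤ 2 * ‖a - c‖ := by
  have h : a - R.E b L a = (a - c) - R.E b L (a - c) := by
    rw [E_sub, R.E_fix b hc]; abel
  rw [h]
  calc ‖(a - c) - R.E b L (a - c)‖ ≤ ‖a - c‖ + ‖R.E b L (a - c)‖ := norm_sub_le _ _
    _ ≤ 2 * ‖a - c‖ := by have := R.norm_E_le b L (a - c); linarith


/-- even local elements lie in the near algebra (for an irreducible representation). -/
theorem nalg_of_loc (htop : ∀ a : A, a ∈ R.alg Set.univ) {L : ℕ} {a : A} (ha : R.Loc b L a) :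
    a ∈ R.nalg b L := by
  have h1 : ∀ v : V, R.an v ∈ R.alg (Set.range b) ∧ R.cr v ∈ R.alg (Set.range b) := by
    intro v
    have hv : v ∈ Submodule.span ℂ (Set.range b) := by
      have := b.toBasis.span_eq
      rw [OrthonormalBasis.coe_toBasis] at this
      rw [this]; trivial
    refine Submodule.span_induction (p := fun v _ => R.an v ∈ R.alg (Set.range b) ∧
      R.cr v ∈ R.alg (Set.range b)) ?_ ?_ ?_ ?_ hv
    · rintro x ⟨j, rfl⟩
      exact ⟨R.an_mem_alg ⟨j, rfl⟩, R.cr_mem_alg ⟨j, rfl⟩⟩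
    · rw [an_zero, cr_zero]; exact ⟨Subalgebra.zero_mem _, Subalgebra.zero_mem _⟩
    · rintro x y _ _ ⟨hx1, hx2⟩ ⟨hy1, hy2⟩
      rw [R.an_add, cr_add]
      exact ⟨Subalgebra.add_mem _ hx1 hy1, Subalgebra.add_mem _ hx2 hy2⟩
    · rintro z x _ ⟨hx1, hx2⟩
      rw [R.an_smul, cr_smul]
      exact ⟨Subalgebra.smul_mem _ hx1 _, Subalgebra.smul_mem _ hx2 _⟩
  have h2 : a ∈ R.alg (Set.range b) := by
    refine R.alg_induction (p := fun x => x ∈ R.alg (Set.range b)) ?_ ?_ ?_ ?_ ?_ (htop a)
    · intro v _; exact (h1 v).1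
    · intro v _; exact (h1 v).2
    · intro z; exact Subalgebra.algebraMap_mem _ z
    · intro x y hx hy; exact Subalgebra.add_mem _ hx hy
    · intro x y hx hy; exact Subalgebra.mul_mem _ hx hy
  have h3 : a ∈ R.alg ({v | ∃ j : Fin n, (j : ℕ) < L ∧ b j = v} ∪ {v | v ∈ far b L}) := by
    refine R.alg_mono ?_ h2
    rintro v ⟨j, rfl⟩
    rcases lt_or_ge (j : ℕ) L with h | h
    · exact Or.inl ⟨j, h, rfl⟩
    · exact Or.inr ((mem_far b).mpr ⟨j, h, rfl⟩)
  have h4 := R.ex_mem (far b L) {v | ∃ j : Fin n, (j : ℕ) < L ∧ b j = v} (far_norm b L)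
    (far_orth b L) ?_ h3 ha.1
  · have h5 : R.ex (far b L) a = a := R.E_fix b ha
    rw [h5] at h4
    exact h4
  · rintro e he v ⟨i, hi, rfl⟩
    obtain ⟨j, hj, rfl⟩ := (mem_far b).mp he
    refine b.orthonormal.2 ?_
    rintro rfl
    omega

/-- commutator with an element of the near algebra -/
theorem norm_br_le_of_nalg {L : ℕ} {y : A} (hy : y ∈ R.nalg b L) (a : A) :
    ‖br a y‖ ≤ 2 * ‖y‖ * ∑ j ∈ nearS n L, R.cs a (b j) := by
  have h1 : Commute (R.E' b L a) y := by
    refine R.commute_alg ?_ hy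
    rintro v ⟨j, hj, rfl⟩
    exact R.E'_cm b L a j hj
  have h2 : br a y = br (a - R.E' b L a) y := by
    rw [sub_br, br_eq_zero h1, sub_zero]
  rw [h2]
  calc ‖br (a - R.E' b L a) y‖ ≤ 2 * ‖a - R.E' b L a‖ * ‖y‖ := norm_br_le _ _
    _ ≤ 2 * (∑ j ∈ nearS n L, R.cs a (b j)) * ‖y‖ := by
      have := R.norm_sub_E'_le b L a
      gcongr
    _ = _ := by ring

/-- projection onto the near modes -/
noncomputable def Pn (L : ℕ) (v : V) : V := ∑ j ∈ nearS n L, (inner ℂ (b j) v : ℂ) • b j

theorem sub_Pn (L : ℕ) (v : V) :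
    v - Pn b L v = ∑ j ∈ farS n L, (inner ℂ (b j) v : ℂ) • b j := by
  have h := b.sum_repr' v
  unfold Pn
  rw [sub_eq_iff_eq_add]
  nth_rewrite 1 [← h]
  rw [← Finset.sum_filter_add_sum_filter_not Finset.univ (fun j : Fin n => L ≤ (j : ℕ))]
  congr 1
  refine Finset.sum_congr ?_ fun _ _ => rfl
  ext j; simp [mem_nearS]

theorem an_sum {σ : Type*} (s : Finset σ) (f : σ → V) : R.an (∑ i ∈ s, f i) = ∑ i ∈ s, R.an (f i) := by
  classical
  induction s using Finset.induction_on with
  | empty => simp [an_zero]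
  | insert a s ha ih => rw [Finset.sum_insert ha, Finset.sum_insert ha, R.an_add, ih]

theorem cr_sum {σ : Type*} (s : Finset σ) (f : σ → V) : R.cr (∑ i ∈ s, f i) = ∑ i ∈ s, R.cr (f i) := by
  unfold cr; rw [an_sum, star_sum]

theorem cm_far_part {L : ℕ} {a : A} (ha : R.Loc b L a) (v : V) : R.Cm (v - Pn b L v) a := by
  rw [sub_Pn]
  refine ⟨?_, ?_⟩
  · rw [an_sum]
    refine Commute.sum_right _ _ _ fun j hj => ?_
    rw [R.an_smul]
    exact (ha.2 j (mem_farS.mp hj)).1.smul_right _
  · rw [cr_sum]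
    refine Commute.sum_right _ _ _ fun j hj => ?_
    rw [cr_smul]
    exact (ha.2 j (mem_farS.mp hj)).2.smul_right _

/-- commutators of a local element only see the near part of a vector -/
theorem br_an_near {L : ℕ} {a : A} (ha : R.Loc b L a) (v : V) :
    br a (R.an v) = br a (R.an (Pn b L v)) := by
  have h := (R.cm_far_part b ha v).1
  have : R.an v = R.an (Pn b L v) + R.an (v - Pn b L v) := by
    rw [← R.an_add]; congr 1; abel
  rw [this, br_add, br_eq_zero h, add_zero]

theorem br_cr_near {L : ℕ} {a : A} (ha : R.Loc b L a) (v : V) :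
    br a (R.cr v) = br a (R.cr (Pn b L v)) := by
  have h := (R.cm_far_part b ha v).2
  have : R.cr v = R.cr (Pn b L v) + R.cr (v - Pn b L v) := by
    rw [← cr_add]; congr 1; abel
  rw [this, br_add, br_eq_zero h, add_zero]

theorem cs_le_of_loc {L : ℕ} {a : A} (ha : R.Loc b L a) (v : V) :
    R.cs a v ≤ 4 * ‖a‖ * ‖Pn b L v‖ := by
  unfold cs
  rw [R.br_an_near b ha, R.br_cr_near b ha]
  have h1 := norm_br_le a (R.an (Pn b L v))
  have h2 := norm_br_le a (R.cr (Pn b L v))
  have h3 := R.norm_an_le (Pn b L v)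
  have h4 := R.norm_cr_le (Pn b L v)
  have h5 := norm_nonneg a
  nlinarith [mul_le_mul_of_nonneg_left h3 h5, mul_le_mul_of_nonneg_left h4 h5]

theorem cs_le (a : A) (v : V) : R.cs a v ≤ 4 * ‖a‖ * ‖v‖ := by
  unfold cs
  have h1 := norm_br_le a (R.an v)
  have h2 := norm_br_le a (R.cr v)
  have h3 := R.norm_an_le v
  have h4 := R.norm_cr_le v
  have h5 := norm_nonneg a
  nlinarith [mul_le_mul_of_nonneg_left h3 h5, mul_le_mul_of_nonneg_left h4 h5]

theorem norm_Pn_sq (L : ℕ) (v : V) :
    ‖Pn b L v‖ ^ 2 = ∑ j ∈ nearS n L, ‖(inner ℂ (b j) v : ℂ)‖ ^ 2 := by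
  unfold Pn
  have h := b.orthonormal.inner_sum (fun j => (inner ℂ (b j) v : ℂ))
    (fun j => (inner ℂ (b j) v : ℂ)) (nearS n L)
  have h2 : ((‖∑ j ∈ nearS n L, (inner ℂ (b j) v : ℂ) • b j‖ : ℂ)) ^ 2
      = ∑ j ∈ nearS n L, (((‖(inner ℂ (b j) v : ℂ)‖ ^ 2 : ℝ)) : ℂ) := by
    have h3 := inner_self_eq_norm_sq_to_K (𝕜 := ℂ) (∑ j ∈ nearS n L, (inner ℂ (b j) v : ℂ) • b j)
    rw [h] at h3
    refine h3.symm.trans ?_
    refine Finset.sum_congr rfl fun j _ => ?_
    rw [Complex.conj_mul']
    push_cast; rfl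
  exact_mod_cast h2

end Car

end Frame

end Crest.Agent.R340.QL331
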