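import Crest.Agent.R340.LR3_667
import Crest.Agent.R340.DC0_867
import Crest.Agent.R340.QL3_331

-- ▼ part R340/Filt_867
section

/-!
Evolution and filters in the profile class without loss of exponent (helper867).

Dual picture: `‖⁅τ_t X, g‖ = ‖⁅X, τ_{-t} g⁆‖`, the evolved generator `τ_{-t} g` multiplied by the
parity `θ` satisfies the Lieb-Robinson bound, hence is approximated by local operators about `w`
faster than any power; local operators about `w` almost commute with `X`.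
-/

set_option autoImplicit false
set_option linter.unusedSectionVars false

open scoped ENNReal NNReal
open MeasureTheory

namespace Crest.Agent.R340.Filt867

open Crest.Agent.R340.QL331 Crest.Agent.R340.LR667 Crest.Agent.R340.DC867

section scalar

/-- `x ^ M ≤ M! exp x`. -/
theorem pow_le_factorial_mul_exp (M : ℕ) {x : ℝ} (hx : 0 ≤ x) :
    x ^ M ≤ (M.factorial : ℝ) * Real.exp x := by
  have h := Real.pow_div_factorial_le_exp x hx M
  rw [div_le_iff₀ (by positivity)] at h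
  linarith

/-- the constant of the polynomial light cone -/
noncomputable def cPoly (v μ0 C0 : ℝ) (M : ℕ) : ℝ :=
  2 * (1 + 2 * v / μ0) ^ M + C0 * (Real.exp (μ0 / 2) * (M.factorial : ℝ) * (2 / μ0) ^ M)

theorem cPoly_nonneg {v μ0 C0 : ℝ} (hv : 0 ≤ v) (hμ : 0 < μ0) (hC : 0 ≤ C0) (M : ℕ) :
    0 ≤ cPoly v μ0 C0 M := by
  unfold cPoly; positivity

theorem min_le_poly {v μ0 C0 : ℝ} (hv : 0 ≤ v) (hμ : 0 < μ0) (hC : 0 ≤ C0) (M : ℕ) {t D b : ℝ}
    (ht : 0 ≤ t) (hD : 0 ≤ D) (h2 : b ≤ 2) (hb : b ≤ C0 * Real.exp (v * t) * Real.exp (-μ0 * D)) :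
    b ≤ cPoly v μ0 C0 M * (1 + t) ^ M / (1 + D) ^ M := by
  have hD1 : 0 < 1 + D := by linarith
  rw [le_div_iff₀ (by positivity)]
  have hc1 : 0 ≤ 2 * (1 + 2 * v / μ0) ^ M := by positivity
  have hc2 : 0 ≤ C0 * (Real.exp (μ0 / 2) * (M.factorial : ℝ) * (2 / μ0) ^ M) := by positivity
  rcases le_total b 0 with hb0 | hb0
  · have : b * (1 + D) ^ M ≤ 0 := mul_nonpos_of_nonpos_of_nonneg hb0 (by positivity)
    refine this.trans ?_
    have := cPoly_nonneg hv hμ hC M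
    positivity
  rcases le_total (μ0 * D) (2 * v * t) with h | h
  · have h1 : 1 + D ≤ (1 + 2 * v / μ0) * (1 + t) := by
      have : D ≤ 2 * v / μ0 * t := by
        rw [div_mul_eq_mul_div, le_div_iff₀ hμ]
        linarith
      have h3 : 0 ≤ 2 * v / μ0 := by positivity
      nlinarith
    calc b * (1 + D) ^ M ≤ 2 * ((1 + 2 * v / μ0) * (1 + t)) ^ M := by gcongr
      _ = 2 * (1 + 2 * v / μ0) ^ M * (1 + t) ^ M := by rw [mul_pow]; ring
      _ ≤ cPoly v μ0 C0 M * (1 + t) ^ M := by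
        unfold cPoly
        gcongr
        linarith
  · have h1 : b ≤ C0 * Real.exp (-(μ0 * D / 2)) := by
      refine hb.trans ?_
      rw [mul_assoc, ← Real.exp_add]
      gcongr
      linarith
    have h3 : (1 + D) ^ M * Real.exp (-(μ0 * D / 2)) ≤
        Real.exp (μ0 / 2) * (M.factorial : ℝ) * (2 / μ0) ^ M := by
      have h4 := pow_le_factorial_mul_exp M (x := μ0 / 2 * (1 + D)) (by positivity)
      have h5 : (1 + D) ^ M = (2 / μ0) ^ M * (μ0 / 2 * (1 + D)) ^ M := by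
        rw [← mul_pow]
        congr 1
        field_simp
      rw [h5]
      calc (2 / μ0) ^ M * (μ0 / 2 * (1 + D)) ^ M * Real.exp (-(μ0 * D / 2))
          ≤ (2 / μ0) ^ M * ((M.factorial : ℝ) * Real.exp (μ0 / 2 * (1 + D))) *
            Real.exp (-(μ0 * D / 2)) := by gcongr
        _ = (2 / μ0) ^ M * (M.factorial : ℝ) *
            (Real.exp (μ0 / 2 * (1 + D)) * Real.exp (-(μ0 * D / 2))) := by ring
        _ = _ := by
          rw [← Real.exp_add]
          have : μ0 / 2 * (1 + D) + -(μ0 * D / 2) = μ0 / 2 := by ring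
          rw [this]; ring
    calc b * (1 + D) ^ M ≤ C0 * Real.exp (-(μ0 * D / 2)) * (1 + D) ^ M := by gcongr
      _ = C0 * ((1 + D) ^ M * Real.exp (-(μ0 * D / 2))) := by ring
      _ ≤ C0 * (Real.exp (μ0 / 2) * (M.factorial : ℝ) * (2 / μ0) ^ M) := by gcongr
      _ ≤ cPoly v μ0 C0 M := by unfold cPoly; linarith
      _ = cPoly v μ0 C0 M * 1 := by ring
      _ ≤ cPoly v μ0 C0 M * (1 + t) ^ M := by
        gcongr
        · exact cPoly_nonneg hv hμ hC M
        · exact one_le_pow₀ (by linarith)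

end scalar

section klein

variable {A V : Type*} [CStarAlgebra A] [NormedAddCommGroup V] [InnerProductSpace ℂ V]
  (R : Car A V) {G : Type*}

/-- `θ` is unitary. -/
theorem th_mem_unitary : R.th ∈ unitary A := by
  rw [Unitary.mem_iff, R.th_star]
  exact ⟨R.th_sq, R.th_sq⟩

theorem norm_mul_th (y : A) : ‖y * R.th‖ = ‖y‖ :=
  CStarRing.norm_mul_mem_unitary y (th_mem_unitary R)

theorem th_cr (v : V) : R.th * R.cr v * R.th = - R.cr v := by
  have h := congrArg star (R.th_an v)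
  simp only [star_mul, star_neg, R.th_star] at h
  rw [← mul_assoc] at h
  exact h

theorem th_mul_an (v : V) : R.th * R.an v = - (R.an v * R.th) := by
  have h := R.th_an v
  calc R.th * R.an v = R.th * R.an v * (R.th * R.th) := by rw [R.th_sq, mul_one]
    _ = (R.th * R.an v * R.th) * R.th := by noncomm_ring
    _ = _ := by rw [h, neg_mul]

theorem th_mul_cr (v : V) : R.th * R.cr v = - (R.cr v * R.th) := by
  have h := th_cr R v
  calc R.th * R.cr v = R.th * R.cr v * (R.th * R.th) := by rw [R.th_sq, mul_one]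
    _ = (R.th * R.cr v * R.th) * R.th := by noncomm_ring
    _ = _ := by rw [h, neg_mul]

theorem th_mul_gen (u : Fin 2 → G → V) (k : Fin 2 × Bool) (z : G) :
    R.th * gen R u k z = - (gen R u k z * R.th) := by
  obtain ⟨k, b⟩ := k
  cases b
  · exact th_mul_an R _
  · exact th_mul_cr R _

/-- Klein trick: commutator of `y θ` with a generator is the anticommutator of `y`. -/
theorem lie_mul_th (u : Fin 2 → G → V) (y : A) (k : Fin 2 × Bool) (z : G) :
    ⁅y * R.th, gen R u k z⁆ = -((y * gen R u k z + gen R u k z * y) * R.th) := by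
  rw [Ring.lie_def, mul_assoc, th_mul_gen]
  noncomm_ring

theorem norm_lie_gen_th_le {u : Fin 2 → G → V} (k l : Fin 2 × Bool) (w z : G) :
    ‖⁅gen R u k w * R.th, gen R u l z⁆‖ ≤ ‖(inner ℂ (u k.1 w) (u l.1 z) : ℂ)‖ := by
  rw [lie_mul_th, norm_neg, norm_mul_th]
  obtain ⟨k, b⟩ := k
  obtain ⟨l, c⟩ := l
  have h1 : ‖(1 : A)‖ ≤ 1 := by
    rcases subsingleton_or_nontrivial A with hA | hA
    · rw [Subsingleton.elim (1 : A) 0, norm_zero]; exact zero_le_one
    · rw [CStarRing.norm_one]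
  cases b <;> cases c <;> simp only [gen_false, gen_true]
  · rw [R.an_an, norm_zero]; positivity
  · rw [show R.cr (u l z) = star (R.an (u l z)) from rfl, R.an_cr, norm_smul]
    exact mul_le_of_le_one_right (norm_nonneg _) h1
  · rw [R.cr_an, norm_smul, norm_inner_symm]
    exact mul_le_of_le_one_right (norm_nonneg _) h1
  · rw [R.cr_cr, norm_zero]; positivity

theorem tau_th {H : A} (hth : Commute H R.th) (t : ℝ) : tau H t R.th = R.th := by
  have h : Commute (U H t) R.th := by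
    let _ : NormedAlgebra ℚ A := NormedAlgebra.restrictScalars ℚ ℂ A
    have h1 : Commute (t • (Complex.I • H)) R.th := (hth.smul_left _).smul_left _
    exact h1.exp_left
  rw [tau, h.eq, mul_assoc, U_mul_neg, mul_one]

theorem tau_mul_th {H : A} (hth : Commute H R.th) (t : ℝ) (y : A) :
    tau H t (y * R.th) = tau H t y * R.th := by
  rw [tau_mul, tau_th R hth]

/-- Lieb-Robinson bound for the evolved generators (with the Klein factor). -/
theorem lr_gen [MeasurableSpace G] (μ : Measure G) {H : A} (hH : IsSelfAdjoint H)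
    (hth : Commute H R.th) {u : Fin 2 → G → V} (hu : ∀ k z, ‖u k z‖ ≤ 1) {κ : G → G → ℝ≥0∞}
    (hκ : ∀ (X : A) (k : Fin 2 × Bool) (w : G),
      ‖⁅X, ⁅H, gen R u k w⁆⁆‖ₑ ≤ ∫⁻ z, κ w z * prof (gen R u) X z ∂μ)
    {D : G → G → ℝ} (hDtri : ∀ x y z, D x z ≤ D x y + D y z) (hDb : ∃ B, ∀ x y, D x y ≤ B)
    {μ0 v C0 : ℝ} (hμ : 0 ≤ μ0) (hv : 0 ≤ v) (hC0 : 0 ≤ C0)
    (hS : ∀ w, ∫⁻ z, κ w z * ENNReal.ofReal (Real.exp (μ0 * D w z)) ∂μ ≤ ENNReal.ofReal v)
    (hov : ∀ k l w z, ‖(inner ℂ (u k w) (u l z) : ℂ)‖ ≤ C0 * Real.exp (-μ0 * D z w))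
    (t : ℝ) (k l : Fin 2 × Bool) (w z : G) :
    ‖⁅tau H t (gen R u k w) * R.th, gen R u l z⁆‖ ≤
      C0 * Real.exp (v * |t|) * Real.exp (-μ0 * D z w) := by
  obtain ⟨B, hB⟩ := hDb
  rw [← tau_mul_th R hth]
  refine lr μ hH zero_le_one (norm_gen_le R hu) hκ
    (ρ := fun z => Real.exp (-μ0 * D z w)) (δ := Real.exp (-μ0 * B)) (Real.exp_pos _) ?_ hv ?_ hC0
    ?_ t l z
  · intro z
    apply Real.exp_le_exp.2
    have := hB z w
    nlinarith
  · intro w'
    calc ∫⁻ z, κ w' z * ENNReal.ofReal (Real.exp (-μ0 * D z w)) ∂μ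
        ≤ ∫⁻ z, κ w' z * ENNReal.ofReal (Real.exp (μ0 * D w' z)) *
            ENNReal.ofReal (Real.exp (-μ0 * D w' w)) ∂μ := by
          refine lintegral_mono fun z => ?_
          show κ w' z * _ ≤ _
          rw [mul_assoc, ← ENNReal.ofReal_mul (Real.exp_nonneg _), ← Real.exp_add]
          gcongr
          have := hDtri w' z w
          nlinarith
      _ = (∫⁻ z, κ w' z * ENNReal.ofReal (Real.exp (μ0 * D w' z)) ∂μ) *
            ENNReal.ofReal (Real.exp (-μ0 * D w' w)) :=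
          lintegral_mul_const' _ _ ENNReal.ofReal_ne_top
      _ ≤ ENNReal.ofReal v * ENNReal.ofReal (Real.exp (-μ0 * D w' w)) := by
          gcongr
          exact hS w'
      _ = _ := by rw [← ENNReal.ofReal_mul hv]
  · intro l z
    exact (norm_lie_gen_th_le R k l w z).trans (hov _ _ _ _)

end klein

section filt

variable {A V : Type*} [CStarAlgebra A] [NormedAddCommGroup V] [InnerProductSpace ℂ V]
  (R : Car A V) {G : Type*}

/-- The constant of the evolution theorem. -/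
noncomputable def cFilt (v μ0 C0 : ℝ) (Cf Cn : ℕ → ℝ) (m : ℕ) : ℝ :=
  Cn m * (1 + 2 ^ (m + 6) * (Cf (m + 9) * cPoly v μ0 C0 (m + 9)))

/-- **Evolution in the profile class without loss of exponent** (abstract form).
`E w l` are truncations about `w` at scale `2 ^ l`. -/
theorem tau_profile {H : A} (hH : IsSelfAdjoint H) {u : Fin 2 → G → V}
    (hu : ∀ k z, ‖u k z‖ ≤ 1) {D : G → G → ℝ} (hD0 : ∀ x y, 0 ≤ D x y)
    {μ0 v C0 : ℝ} (hμ : 0 < μ0) (hv : 0 ≤ v) (hC0 : 0 ≤ C0)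
    (hlr : ∀ (t : ℝ) (k l : Fin 2 × Bool) (w z : G),
      ‖⁅tau H t (gen R u k w) * R.th, gen R u l z⁆‖ ≤
        C0 * Real.exp (v * |t|) * Real.exp (-μ0 * D z w))
    {E : G → ℕ → A → A} {l0 : ℕ} (hE0 : ∀ w y, E w l0 y = y)
    {Cf Cn : ℕ → ℝ} (hCf0 : ∀ M, 0 ≤ Cf M) (hCn0 : ∀ m, 0 ≤ Cn m) {m : ℕ}
    (hfar : ∀ (y : A) (w : G) (K : ℝ), 0 ≤ K →
      (∀ k z, ‖⁅y, gen R u k z⁆‖ ≤ K / (1 + D z w) ^ (m + 9)) →
        ∀ l, ‖y - E w l y‖ ≤ Cf (m + 9) * K / 2 ^ ((m + 5) * l))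
    {X : A} {x : G} {K : ℝ} (hK : 0 ≤ K)
    (hnear : ∀ (k : Fin 2 × Bool) (t : ℝ) (w : G) (l l' : ℕ), l ≤ l' → l' ≤ l + 1 →
      ‖⁅X, (E w l' (tau H t (gen R u k w) * R.th) - E w l (tau H t (gen R u k w) * R.th)) * R.th⁆‖ ≤
        Cn m * K * 2 ^ ((m + 4) * l') *
          ‖E w l' (tau H t (gen R u k w) * R.th) - E w l (tau H t (gen R u k w) * R.th)‖ /
          (1 + D w x) ^ m)
    (hnear0 : ∀ (k : Fin 2 × Bool) (t : ℝ) (w : G),
      ‖⁅X, E w 0 (tau H t (gen R u k w) * R.th) * R.th⁆‖ ≤ Cn m * K / (1 + D w x) ^ m)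
    (t : ℝ) (k : Fin 2 × Bool) (w : G) :
    ‖⁅tau H t X, gen R u k w⁆‖ ≤
      cFilt v μ0 C0 Cf Cn m * K * (1 + |t|) ^ (m + 9) / (1 + D w x) ^ m := by
  set y : A := tau H (-t) (gen R u k w) * R.th with hy
  have hyth : y * R.th = tau H (-t) (gen R u k w) := by
    rw [hy, mul_assoc, R.th_sq, mul_one]
  have hW : 0 < (1 + D w x) ^ m := by have := hD0 w x; positivity
  set Ky : ℝ := cPoly v μ0 C0 (m + 9) * (1 + |t|) ^ (m + 9) with hKy
  have hcP := cPoly_nonneg hv hμ hC0 (m + 9)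
  have hKy0 : 0 ≤ Ky := by positivity
  have hyn : ‖y‖ ≤ 1 := by
    rw [hy, norm_mul_th, norm_tau hH]
    exact norm_gen_le R hu k w
  have hprof : ∀ l z, ‖⁅y, gen R u l z⁆‖ ≤ Ky / (1 + D z w) ^ (m + 9) := by
    intro l z
    refine min_le_poly hv hμ hC0 (m + 9) (abs_nonneg t) (hD0 z w) ?_ ?_
    · refine (norm_lie_le _ _).trans ?_
      have h1 := norm_gen_le R hu l z
      nlinarith [norm_nonneg y, norm_nonneg (gen R u l z)]
    · have := hlr (-t) k l w z
      rwa [abs_neg] at this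
  have htail := hfar y w Ky hKy0 hprof
  -- telescoping
  have htel : y = E w 0 y + ∑ l ∈ Finset.range l0, (E w (l + 1) y - E w l y) := by
    rw [Finset.sum_range_sub (fun l => E w l y), hE0]
    abel
  have hdiff : ∀ l, ‖E w (l + 1) y - E w l y‖ ≤ 2 * (Cf (m + 9) * Ky / 2 ^ ((m + 5) * l)) := by
    intro l
    have e : E w (l + 1) y - E w l y = (y - E w l y) - (y - E w (l + 1) y) := by abel
    rw [e]
    have h1 := htail l
    have h2 := htail (l + 1)
    have h3 : Cf (m + 9) * Ky / 2 ^ ((m + 5) * (l + 1)) ≤ Cf (m + 9) * Ky / 2 ^ ((m + 5) * l) := by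
      have := hCf0 (m + 9)
      gcongr
      · norm_num
      · omega
    calc ‖(y - E w l y) - (y - E w (l + 1) y)‖ ≤ ‖y - E w l y‖ + ‖y - E w (l + 1) y‖ :=
          norm_sub_le _ _
      _ ≤ _ := by linarith
  have hterm : ∀ l, ‖⁅X, (E w (l + 1) y - E w l y) * R.th⁆‖ ≤
      Cn m * K / (1 + D w x) ^ m * (2 ^ (m + 5) * (Cf (m + 9) * Ky)) * (1 / 2) ^ l := by
    intro l
    refine (hnear k (-t) w l (l + 1) (Nat.le_succ _) le_rfl).trans ?_
    rw [← hy]
    have h1 := hdiff l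
    have h2 : (2 : ℝ) ^ ((m + 4) * (l + 1)) * (2 * (Cf (m + 9) * Ky / 2 ^ ((m + 5) * l))) =
        2 ^ (m + 5) * (Cf (m + 9) * Ky) * (1 / 2) ^ l := by
      have e1 : (2 : ℝ) ^ ((m + 5) * l) = 2 ^ ((m + 4) * l) * 2 ^ l := by
        rw [← pow_add]; congr 1; ring
      have e2 : (2 : ℝ) ^ ((m + 4) * (l + 1)) = 2 ^ ((m + 4) * l) * 2 ^ (m + 4) := by
        rw [← pow_add]; congr 1
      have e3 : (2 : ℝ) ^ (m + 5) = 2 * 2 ^ (m + 4) := by rw [← pow_succ']
      rw [e1, e2, e3, one_div, inv_pow]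
      have : (2 : ℝ) ^ ((m + 4) * l) ≠ 0 := by positivity
      have : (2 : ℝ) ^ l ≠ 0 := by positivity
      field_simp
    calc Cn m * K * 2 ^ ((m + 4) * (l + 1)) * ‖E w (l + 1) y - E w l y‖ / (1 + D w x) ^ m
        = Cn m * K / (1 + D w x) ^ m *
          (2 ^ ((m + 4) * (l + 1)) * ‖E w (l + 1) y - E w l y‖) := by ring
      _ ≤ Cn m * K / (1 + D w x) ^ m *
          (2 ^ ((m + 4) * (l + 1)) * (2 * (Cf (m + 9) * Ky / 2 ^ ((m + 5) * l)))) := by
          have := hCn0 m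
          gcongr
      _ = _ := by rw [h2]; ring
  have hsum : ‖⁅X, y * R.th⁆‖ ≤ Cn m * K / (1 + D w x) ^ m * (1 + 2 ^ (m + 6) * (Cf (m + 9) * Ky)) := by
    have e : ⁅X, y * R.th⁆ = ⁅X, E w 0 y * R.th⁆ +
        ∑ l ∈ Finset.range l0, ⁅X, (E w (l + 1) y - E w l y) * R.th⁆ := by
      conv_lhs => rw [htel]
      rw [add_mul, lie_add', Finset.sum_mul]
      congr 1
      have h := map_sum (adR X) (fun l => (E w (l + 1) y - E w l y) * R.th) (Finset.range l0)
      simpa only [adR_apply] using h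
    rw [e]
    have h0 := hnear0 k (-t) w
    rw [← hy] at h0
    have hC := hCn0 m
    have hCf := hCf0 (m + 9)
    calc ‖⁅X, E w 0 y * R.th⁆ + ∑ l ∈ Finset.range l0, ⁅X, (E w (l + 1) y - E w l y) * R.th⁆‖
        ≤ ‖⁅X, E w 0 y * R.th⁆‖ + ∑ l ∈ Finset.range l0, ‖⁅X, (E w (l + 1) y - E w l y) * R.th⁆‖ :=
          (norm_add_le _ _).trans (by gcongr; exact norm_sum_le _ _)
      _ ≤ Cn m * K / (1 + D w x) ^ m + ∑ l ∈ Finset.range l0,
          Cn m * K / (1 + D w x) ^ m * (2 ^ (m + 5) * (Cf (m + 9) * Ky)) * (1 / 2) ^ l :=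
          add_le_add h0 (Finset.sum_le_sum fun l _ => hterm l)
      _ = Cn m * K / (1 + D w x) ^ m + Cn m * K / (1 + D w x) ^ m *
          (2 ^ (m + 5) * (Cf (m + 9) * Ky)) * ∑ l ∈ Finset.range l0, (1 / 2 : ℝ) ^ l := by
          rw [Finset.mul_sum]
      _ ≤ Cn m * K / (1 + D w x) ^ m + Cn m * K / (1 + D w x) ^ m *
          (2 ^ (m + 5) * (Cf (m + 9) * Ky)) * 2 := by
          gcongr
          have h := summable_geometric_two.sum_le_tsum (Finset.range l0)
            (fun i _ => by positivity)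
          rwa [tsum_geometric_two] at h
      _ = _ := by ring
  have h1 : ‖⁅tau H t X, gen R u k w⁆‖ = ‖⁅X, y * R.th⁆‖ := by
    rw [norm_lie_tau hH, hyth]
  rw [h1]
  refine hsum.trans ?_
  rw [cFilt, hKy]
  have ht1 : 1 ≤ (1 + |t|) ^ (m + 9) := one_le_pow₀ (by linarith [abs_nonneg t])
  have hC := hCn0 m
  have hCf := hCf0 (m + 9)
  calc Cn m * K / (1 + D w x) ^ m *
        (1 + 2 ^ (m + 6) * (Cf (m + 9) * (cPoly v μ0 C0 (m + 9) * (1 + |t|) ^ (m + 9))))
      ≤ Cn m * K / (1 + D w x) ^ m *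
        ((1 + |t|) ^ (m + 9) +
          2 ^ (m + 6) * (Cf (m + 9) * (cPoly v μ0 C0 (m + 9) * (1 + |t|) ^ (m + 9)))) := by
        gcongr
    _ = _ := by ring

end filt

end Crest.Agent.R340.Filt867
end

-- ▼ part R340/FiltQL_867

/-!
Near commutators for Klein-transformed odd operators and the instantiation of
`Filt867.tau_profile` with the twirls of `QL331` (helper867).
-/

set_option autoImplicit false
set_option linter.unusedSectionVars false

open scoped ENNReal NNReal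
open MeasureTheory

namespace Crest.Agent.R340.Filt867

open Crest.Agent.R340.QL331 Crest.Agent.R340.LR667 Crest.Agent.R340.DC867

section klein2

variable {A V : Type*} [CStarAlgebra A] [NormedAddCommGroup V] [InnerProductSpace ℂ V]
  (R : Car A V)





/-- `Z` anticommuting with all generators graded-commutes with the algebra they generate. -/
theorem graded_alg {W : Set V} {Z : A} (h1 : ∀ v ∈ W, Z * R.an v = - (R.an v * Z))
    (h2 : ∀ v ∈ W, Z * R.cr v = - (R.cr v * Z)) {y : A} (hy : y ∈ R.alg W) :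
    Z * y = R.par y * Z := by
  refine R.alg_induction (p := fun x => Z * x = R.par x * Z) ?_ ?_ ?_ ?_ ?_ hy
  · intro v hv; rw [Car.par_an, h1 v hv, neg_mul]
  · intro v hv; rw [Car.par_cr, h2 v hv, neg_mul]
  · intro z
    rw [Algebra.algebraMap_eq_smul_one, Car.par_smul, Car.par_one, mul_smul_comm, smul_mul_assoc,
      mul_one, one_mul]
  · intro x y hx hy; rw [Car.par_add, mul_add, add_mul, hx, hy]
  · intro x y hx hy; rw [Car.par_mul, ← mul_assoc, hx, mul_assoc, hy, ← mul_assoc]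

variable {n : ℕ} (b : OrthonormalBasis (Fin n) ℂ V)

/-- every element lies in the algebra generated by the frame -/
theorem mem_alg_range (htop : ∀ a : A, a ∈ R.alg Set.univ) (a : A) :
    a ∈ R.alg (Set.range b) := by
  have h1 : ∀ v : V, R.an v ∈ R.alg (Set.range b) ∧ R.cr v ∈ R.alg (Set.range b) := by
    intro v
    have hv : v ∈ Submodule.span ℂ (Set.range b) := by
      have := b.toBasis.span_eq
      rw [OrthonormalBasis.coe_toBasis] at this
      rw [this]; trivial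
    refine Submodule.span_induction (p := fun v _ => R.an v ∈ R.alg (Set.range b) ∧
      R.cr v ∈ R.alg (Set.range b)) ?_ ?_ ?_ ?_ hv
    · rintro x ⟨j, rfl⟩
      exact ⟨R.an_mem_alg ⟨j, rfl⟩, R.cr_mem_alg ⟨j, rfl⟩⟩
    · rw [Car.an_zero, Car.cr_zero]; exact ⟨Subalgebra.zero_mem _, Subalgebra.zero_mem _⟩
    · rintro x y _ _ ⟨hx1, hx2⟩ ⟨hy1, hy2⟩
      rw [R.an_add, Car.cr_add]
      exact ⟨Subalgebra.add_mem _ hx1 hy1, Subalgebra.add_mem _ hx2 hy2⟩
    · rintro z x _ ⟨hx1, hx2⟩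
      rw [R.an_smul, Car.cr_smul]
      exact ⟨Subalgebra.smul_mem _ hx1 _, Subalgebra.smul_mem _ hx2 _⟩
  refine R.alg_induction (p := fun x => x ∈ R.alg (Set.range b)) ?_ ?_ ?_ ?_ ?_ (htop a)
  · intro v _; exact (h1 v).1
  · intro v _; exact (h1 v).2
  · intro z; exact Subalgebra.algebraMap_mem _ z
  · intro x y hx hy; exact Subalgebra.add_mem _ hx hy
  · intro x y hx hy; exact Subalgebra.mul_mem _ hx hy

/-- an even operator after the near twirl lies in the algebra of the far modes -/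
theorem E'_mem_far (htop : ∀ a : A, a ∈ R.alg Set.univ) {L : ℕ} {X : A} (hX : R.Ev X) :
    R.E' b L X ∈ R.alg {v | ∃ j : Fin n, L ≤ (j : ℕ) ∧ b j = v} := by
  have h3 : X ∈ R.alg ({v | ∃ j : Fin n, L ≤ (j : ℕ) ∧ b j = v} ∪ {v | v ∈ near b L}) := by
    refine R.alg_mono ?_ (mem_alg_range R b htop X)
    rintro v ⟨j, rfl⟩
    rcases lt_or_ge (j : ℕ) L with h | h
    · exact Or.inr ((mem_near b).mpr ⟨j, h, rfl⟩)
    · exact Or.inl ⟨j, h, rfl⟩
  refine R.ex_mem (near b L) {v | ∃ j : Fin n, L ≤ (j : ℕ) ∧ b j = v} (near_norm b L)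
    (near_orth b L) ?_ h3 hX
  rintro e he v ⟨i, hi, rfl⟩
  obtain ⟨j, hj, rfl⟩ := (mem_near b).mp he
  refine b.orthonormal.2 ?_
  rintro rfl
  omega

/-- **Near commutator bound for Klein-transformed odd operators.** `y` commutes with all modes
`j ≥ L`, `X` is even; then `⁅X, y θ⁆` only sees the modes `j < L` of `X`. -/
theorem norm_lie_klein_le (htop : ∀ a : A, a ∈ R.alg Set.univ) {L : ℕ} {y : A}
    (hfar : ∀ j : Fin n, L ≤ (j : ℕ) → R.Cm (b j) y) {X : A} (hX : R.Ev X) :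
    ‖⁅X, y * R.th⁆‖ ≤ 2 * ‖y‖ * ∑ j ∈ nearS n L, R.cs X (b j) := by
  have hth1 : ∀ v, R.th * R.an v = - (R.an v * R.th) := th_mul_an R
  have hth2 : ∀ v, R.th * R.cr v = - (R.cr v * R.th) := th_mul_cr R
  have hEX : R.Ev (R.E' b L X) := hX.ex _
  have hcomm : Commute (R.E' b L X) (y * R.th) := by
    have h := graded_alg R (Z := y * R.th) (W := {v | ∃ j : Fin n, L ≤ (j : ℕ) ∧ b j = v})
      (by
        rintro v ⟨j, hj, rfl⟩
        rw [mul_assoc, hth1, mul_neg, ← mul_assoc, (hfar j hj).1.eq, mul_assoc])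
      (by
        rintro v ⟨j, hj, rfl⟩
        rw [mul_assoc, hth2, mul_neg, ← mul_assoc, (hfar j hj).2.eq, mul_assoc])
      (E'_mem_far R b htop (L := L) hX)
    have hE : R.par (R.E' b L X) = R.E' b L X := hEX
    rw [hE] at h
    exact h.symm
  have e : ⁅X, y * R.th⁆ = ⁅X - R.E' b L X, y * R.th⁆ := by
    have h0 : ⁅R.E' b L X, y * R.th⁆ = 0 := by
      rw [Ring.lie_def, hcomm.eq, sub_self]
    have : ⁅X - R.E' b L X, y * R.th⁆ = ⁅X, y * R.th⁆ - ⁅R.E' b L X, y * R.th⁆ := by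
      simp only [Ring.lie_def, sub_mul, mul_sub]; abel
    rw [this, h0, sub_zero]
  rw [e]
  calc ‖⁅X - R.E' b L X, y * R.th⁆‖ ≤ 2 * ‖X - R.E' b L X‖ * ‖y * R.th‖ := norm_lie_le _ _
    _ ≤ 2 * (∑ j ∈ nearS n L, R.cs X (b j)) * ‖y‖ := by
        rw [norm_mul_th]
        gcongr
        exact R.norm_sub_E'_le b L X
    _ = _ := by ring

end klein2

section frame

variable {A V : Type*} [CStarAlgebra A] [NormedAddCommGroup V] [InnerProductSpace ℂ V]
  (R : Car A V) {G : Type*} [MeasurableSpace G] (μ : Measure G) {n : ℕ}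
  (b : G → OrthonormalBasis (Fin n) ℂ V)

/-- the far sums of commutators are controlled by the profile -/
def FarB (u : Fin 2 → G → V) (D : G → G → ℝ) (M : ℕ) (C : ℝ) : Prop :=
  ∀ (y : A) (w : G) (K : ℝ), 0 ≤ K → (∀ k z, ‖⁅y, gen R u k z⁆‖ ≤ K / (1 + D z w) ^ M) →
    ∀ l : ℕ, ∑ j ∈ farS n (4 ^ l), R.cs y (b w j) ≤ C * K / 2 ^ ((M - 4) * l)

/-- the near sums of commutators are controlled by the profile -/
def NearB (u : Fin 2 → G → V) (D : G → G → ℝ) (m : ℕ) (C : ℝ) : Prop :=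
  ∀ (X : A) (x : G) (K : ℝ), 0 ≤ K → (∀ k z, ‖⁅X, gen R u k z⁆‖ ≤ K / (1 + D z x) ^ m) →
    ∀ (w : G) (l : ℕ), ∑ j ∈ nearS n (4 ^ l), R.cs X (b w j) ≤
      C * K * 2 ^ ((m + 4) * l) / (1 + D w x) ^ m

/-- the constant of the evolution theorem in a frame -/
noncomputable def cEvo (v μ0 C0 Cf Cn : ℝ) (m : ℕ) : ℝ :=
  2 * Cn * (1 + 2 ^ (m + 6) * (Cf * cPoly v μ0 C0 (m + 9)))

/-- **Evolution in the profile class, no loss of exponent** (frame version). -/
theorem tau_profile_frame (htop : ∀ a : A, a ∈ R.alg Set.univ) {H : A} (hH : IsSelfAdjoint H)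
    (hth : Commute H R.th) {u : Fin 2 → G → V} (hu : ∀ k z, ‖u k z‖ ≤ 1) {κ : G → G → ℝ≥0∞}
    (hκ : ∀ (X : A) (k : Fin 2 × Bool) (w : G),
      ‖⁅X, ⁅H, gen R u k w⁆⁆‖ₑ ≤ ∫⁻ z, κ w z * prof (gen R u) X z ∂μ)
    {D : G → G → ℝ} (hD0 : ∀ x y, 0 ≤ D x y) (hDtri : ∀ x y z, D x z ≤ D x y + D y z)
    (hDb : ∃ B, ∀ x y, D x y ≤ B)
    {μ0 v C0 : ℝ} (hμ : 0 < μ0) (hv : 0 ≤ v) (hC0 : 0 ≤ C0)
    (hS : ∀ w, ∫⁻ z, κ w z * ENNReal.ofReal (Real.exp (μ0 * D w z)) ∂μ ≤ ENNReal.ofReal v)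
    (hov : ∀ k l w z, ‖(inner ℂ (u k w) (u l z) : ℂ)‖ ≤ C0 * Real.exp (-μ0 * D z w))
    {m : ℕ} {Cf Cn : ℝ} (hCf : 0 ≤ Cf) (hCn : 0 ≤ Cn) (hfar : FarB R b u D (m + 9) Cf)
    (hnear : NearB R b u D m Cn) {X : A} (hX : R.Ev X) {x : G} {K : ℝ} (hK : 0 ≤ K)
    (hXp : ∀ k z, ‖⁅X, gen R u k z⁆‖ ≤ K / (1 + D z x) ^ m)
    (t : ℝ) (k : Fin 2 × Bool) (w : G) :
    ‖⁅tau H t X, gen R u k w⁆‖ ≤
      cEvo v μ0 C0 Cf Cn m * K * (1 + |t|) ^ (m + 9) / (1 + D w x) ^ m := by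
  have hlr := lr_gen R μ hH hth hu hκ hDtri hDb hμ.le hv hC0 hS hov
  have hfixed : ∀ (w : G) (y : A), R.E (b w) (4 ^ n) y = y := by
    intro w y
    have hl : far (b w) (4 ^ n) = [] := by
      unfold far
      rw [List.map_eq_nil_iff, List.filter_eq_nil_iff]
      intro j _
      have h1 : (j : ℕ) < n := j.2
      have h2 : n < 4 ^ n := Nat.lt_pow_self (by norm_num)
      simp only [decide_eq_true_eq, not_le]
      omega
    rw [Car.E, hl, Car.ex_nil]
  have key : ∀ (w : G) (l : ℕ) (y' : A),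
      (∀ j : Fin n, 4 ^ l ≤ (j : ℕ) → R.Cm (b w j) y') →
      ‖⁅X, y' * R.th⁆‖ ≤ 2 * Cn * K * 2 ^ ((m + 4) * l) * ‖y'‖ / (1 + D w x) ^ m := by
    intro w l y' hy'
    refine (norm_lie_klein_le R (b w) htop hy' hX).trans ?_
    have h1 := hnear X x K hK hXp w l
    calc 2 * ‖y'‖ * ∑ j ∈ nearS n (4 ^ l), R.cs X (b w j)
        ≤ 2 * ‖y'‖ * (Cn * K * 2 ^ ((m + 4) * l) / (1 + D w x) ^ m) := by gcongr
      _ = _ := by ring
  have h := tau_profile R hH hu hD0 hμ hv hC0 hlr (E := fun w l => R.E (b w) (4 ^ l)) (l0 := n)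
    hfixed (Cf := fun _ => Cf) (Cn := fun _ => 2 * Cn) (fun _ => hCf) (fun _ => by positivity)
    (m := m) ?_ (X := X) (x := x) (K := K) hK ?_ ?_ t k w
  · refine h.trans (le_of_eq ?_)
    unfold cFilt cEvo
    ring
  · intro y w K' hK' hy l
    refine (R.norm_sub_E_le (b w) (4 ^ l) y).trans ?_
    exact hfar y w K' hK' hy l
  · intro k t w l l' hll' _
    refine key w l' _ ?_
    intro j hj
    refine Car.Cm.sub (R.E_cm _ _ _ _ hj) (R.E_cm _ _ _ _ (le_trans ?_ hj))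
    exact Nat.pow_le_pow_right (by norm_num) hll'
  · intro k t w
    have h1 := key w 0 (R.E (b w) (4 ^ 0) (tau H t (gen R u k w) * R.th))
      (fun j hj => R.E_cm _ _ _ _ hj)
    refine h1.trans ?_
    have h2 : ‖R.E (b w) (4 ^ 0) (tau H t (gen R u k w) * R.th)‖ ≤ 1 := by
      refine (R.norm_E_le _ _ _).trans ?_
      rw [norm_mul_th, norm_tau hH]
      exact norm_gen_le R hu k w
    have hW : 0 < (1 + D w x) ^ m := by have := hD0 w x; positivity
    rw [mul_zero, pow_zero, mul_one]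
    refine div_le_div_of_nonneg_right ?_ hW.le
    calc 2 * Cn * K * ‖R.E (b w) (4 ^ 0) (tau H t (gen R u k w) * R.th)‖ ≤ 2 * Cn * K * 1 := by
          gcongr
      _ = _ := by ring

end frame

end Crest.Agent.R340.Filt867
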