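import Crest.Agent.R340.KnI2_249
import Crest.Agent.R340.Cert_132

-- ▼ part R340/Lin1_120
section

/-!
# S0533, linear part of the certificate (helper120): channel expansions

Closed forms of the `kap` polynomials of `Pl1_249` and the expansions of the one-body term `DD`, the
four-body term `TT` in the channel weights.
-/

set_option autoImplicit false
open scoped BigOperators
open Finset

namespace Crest.Agent.R340.Lin120

open Crest.Agent.R340.Kn249 Crest.Agent.R340.Pl249

section kap
variable {R : Type*} [CommRing R]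

theorem kap_left (α : R) (m K : ℕ) : kap α m K 0 (m + K) = (-1) ^ m := by
  induction K with
  | zero =>
    induction m with
    | zero => simp [kap_zero_zero]
    | succ m ih =>
      have ih' : kap α m 0 0 m = (-1) ^ m := ih
      show kap α (m + 1) 0 0 (m + 1) = (-1) ^ (m + 1)
      rw [kap_succ_zero, sh_zero_succ, ih', pow_succ]
      ring
  | succ K ih =>
    rw [kap_succ, show m + (K + 1) = (m + K) + 1 from rfl, sh_zero_succ, ih, one_mul]

theorem kap_right (α : R) (m K : ℕ) : kap α m K (m + K) 0 = α ^ K := by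
  induction K with
  | zero =>
    induction m with
    | zero => simp [kap_zero_zero]
    | succ m ih =>
      have ih' : kap α m 0 m 0 = α ^ 0 := ih
      show kap α (m + 1) 0 (m + 1) 0 = α ^ 0
      rw [kap_succ_zero, sh_succ_zero, ih', one_mul]
  | succ K ih =>
    rw [kap_succ, show m + (K + 1) = (m + K) + 1 from rfl, sh_succ_zero, ih, pow_succ]
    ring

theorem kap_one_zero (α : R) (m : ℕ) : kap α (m + 1) 0 m 1 = -(m + 1 : R) := by
  induction m with
  | zero =>
    rw [kap_succ_zero]
    simp [kap_zero_zero]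
  | succ m ih =>
    rw [kap_succ_zero, sh_succ_succ, ih]
    have h := kap_right α (m + 1) 0
    rw [add_zero, pow_zero] at h
    rw [h]
    push_cast
    ring

/-- `2 κ_m(q, 1) = 2^K (K - 2 m)` for `q + 1 = m + K`, in the case `α = 2`. -/
theorem kap_two_one (m K q : ℕ) (h : q + 1 = m + K) :
    2 * kap (2 : R) m K q 1 = 2 ^ K * ((K : R) - 2 * m) := by
  induction K generalizing q with
  | zero =>
    obtain rfl : m = q + 1 := by omega
    rw [kap_one_zero]
    push_cast
    ring
  | succ K ih =>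
    rw [kap_succ]
    rcases q with _ | q
    · have hm : m = 0 := by omega
      have hK : K = 0 := by omega
      subst hm; subst hK
      simp [kap_zero_zero]
    · rw [sh_succ_succ]
      have h1 := ih q (by omega)
      have h2 := kap_right (2 : R) m K
      have h3 : m + K = q + 1 := by omega
      rw [h3] at h2
      rw [h2]
      push_cast
      linear_combination 2 * h1

end kap

/-! ### expansions -/

/-- extension of the channel sum to a fixed range -/
theorem rhs_range (α c : ℝ) (g : ℕ → ℝ) (q k q' j N : ℕ) (h : q + k = q' + j) (hN : q + k < N) :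
    rhs α c g q k q' j = ∑ m ∈ range N, g m * (if m ≤ q + k then
      kap α m (q + k - m) q k * kap α m (q + k - m) q' j * co α c (q + k - m) else 0) := by
  unfold rhs
  rw [if_pos h]
  have hsub : range (q + k + 1) ⊆ range N := by
    intro m hm; simp only [mem_range] at hm ⊢; omega
  rw [← Finset.sum_subset hsub]
  · refine Finset.sum_congr rfl fun m hm => ?_
    rw [if_pos (by simpa [Nat.lt_succ_iff] using hm)]
    ring
  · intro m _ hm
    rw [if_neg (by simpa [Nat.lt_succ_iff] using hm), mul_zero]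

/-- `b(n,m) = n (n-1) ... (n-m+1) / 3^(n-m)` -/
noncomputable def bb (n m : ℕ) : ℝ := (n.descFactorial m : ℝ) / 3 ^ (n - m)

theorem descF_eq {n m : ℕ} (h : m ≤ n) :
    (n.descFactorial m : ℝ) = (n.factorial : ℝ) / ((n - m).factorial : ℝ) := by
  have h1 : ((n - m).factorial : ℝ) ≠ 0 := by exact_mod_cast Nat.factorial_ne_zero _
  rw [eq_div_iff h1]
  exact_mod_cast (by rw [mul_comm]; exact Nat.factorial_mul_descFactorial h :
    n.descFactorial m * (n - m).factorial = n.factorial)

theorem D_term1 (g : ℕ → ℝ) (p N : ℕ) (hN : p + 1 < N) :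
    ((p + 1).factorial : ℝ) / 2 ^ p * rhs 2 1 g 0 (p + 1) p 1 =
      ∑ m ∈ range N, g m * ((-1) ^ m / 2 ^ m * (((p : ℝ) + 1 - 3 * m) * bb (p + 1) m)) := by
  rw [rhs_range 2 1 g 0 (p + 1) p 1 N (by omega) (by omega), Finset.mul_sum]
  refine Finset.sum_congr rfl fun m _ => ?_
  by_cases hm : m ≤ 0 + (p + 1)
  · rw [if_pos hm]
    have hm' : m ≤ p + 1 := by omega
    obtain ⟨K, hK⟩ : ∃ K, p + 1 = m + K := ⟨p + 1 - m, by omega⟩
    have e0 : 0 + (p + 1) - m = K := by omega
    have e1 : p + 1 - m = K := by omega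
    have hl : kap (2 : ℝ) m K 0 (p + 1) = (-1) ^ m := by rw [hK]; exact kap_left _ _ _
    have ho : 2 * kap (2 : ℝ) m K p 1 = 2 ^ K * ((K : ℝ) - 2 * m) := kap_two_one m K p hK
    have hp : ((p : ℝ) + 1) = m + K := by exact_mod_cast hK
    have h2 : (2 : ℝ) ^ p * 2 = 2 ^ m * 2 ^ K := by rw [← pow_succ, ← pow_add, hK]
    rw [e0, hl, bb, descF_eq hm', e1, co, hp]
    have hf : (K.factorial : ℝ) ≠ 0 := by exact_mod_cast Nat.factorial_ne_zero _
    have h3 : ((2 : ℝ) + 1) ^ K = 3 ^ K := by norm_num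
    rw [h3, one_pow]
    have hx : kap (2 : ℝ) m K p 1 = 2 ^ K * ((K : ℝ) - 2 * m) / 2 := by linarith
    have hy : (2 : ℝ) ^ p = 2 ^ m * 2 ^ K / 2 := by linarith
    rw [hx, hy]
    field_simp
    ring
  · rw [if_neg hm, mul_zero, mul_zero, bb, Nat.descFactorial_of_lt (by omega)]
    simp

theorem D_term2 (g : ℕ → ℝ) (p N : ℕ) (hN : p < N) :
    ((p : ℝ) - 1) * (p.factorial : ℝ) / 2 ^ p * rhs 2 1 g 0 p p 0 =
      ∑ m ∈ range N, g m * ((-1) ^ m / 2 ^ m * (((p : ℝ) - 1) * bb p m)) := by
  rw [rhs_range 2 1 g 0 p p 0 N (by omega) (by omega), Finset.mul_sum]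
  refine Finset.sum_congr rfl fun m _ => ?_
  by_cases hm : m ≤ 0 + p
  · rw [if_pos hm]
    have hm' : m ≤ p := by omega
    obtain ⟨K, rfl⟩ : ∃ K, p = m + K := ⟨p - m, by omega⟩
    have e0 : 0 + (m + K) - m = K := by omega
    have e1 : m + K - m = K := by omega
    rw [e0, kap_left, kap_right, bb, descF_eq hm', e1, co, one_pow]
    have hf : (K.factorial : ℝ) ≠ 0 := by exact_mod_cast Nat.factorial_ne_zero _
    have h3 : ((2 : ℝ) + 1) ^ K = 3 ^ K := by norm_num
    rw [h3, pow_add]
    field_simp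
  · rw [if_neg hm, mul_zero, mul_zero, bb, Nat.descFactorial_of_lt (by omega)]
    simp

/-- channel coefficient of `DD` -/
noncomputable def Dc (P1 m : ℕ) : ℝ :=
  (-1) ^ m / 2 ^ m * ∑ p ∈ range P1,
    (((p : ℝ) + 1 - 3 * m) * bb (p + 1) m - ((p : ℝ) - 1) * bb p m)

theorem DD_eq (P1 : ℕ) (g : ℕ → ℝ) :
    DD P1 (rhs 2 1 g) = ∑ m ∈ range (P1 + 1), g m * Dc P1 m := by
  unfold DD
  have h : ∀ p ∈ range P1, (((p + 1).factorial : ℝ) / 2 ^ p * rhs 2 1 g 0 (p + 1) p 1 -
      ((p : ℝ) - 1) * (p.factorial : ℝ) / 2 ^ p * rhs 2 1 g 0 p p 0) =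
      ∑ m ∈ range (P1 + 1), g m * ((-1) ^ m / 2 ^ m *
        (((p : ℝ) + 1 - 3 * m) * bb (p + 1) m - ((p : ℝ) - 1) * bb p m)) := by
    intro p hp
    have hp' : p < P1 := by simpa using hp
    rw [D_term1 g p (P1 + 1) (by omega), D_term2 g p (P1 + 1) (by omega),
      ← Finset.sum_sub_distrib]
    refine Finset.sum_congr rfl fun m _ => ?_
    ring
  rw [Finset.sum_congr rfl h, Finset.sum_comm]
  refine Finset.sum_congr rfl fun m _ => ?_
  rw [Dc, ← Finset.mul_sum, ← Finset.mul_sum]

/-- channel coefficient of `TT` -/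
noncomputable def Tc (pw r : ℕ) : ℝ := (-1) ^ r * ∑ p ∈ range pw, (p.descFactorial r : ℝ) / 2 ^ p

theorem TT_eq (pw : ℕ) (f : ℕ → ℝ) :
    TT pw (rhs 1 2 f) = ∑ r ∈ range pw, f r * Tc pw r := by
  unfold TT
  have h : ∀ p ∈ range pw, (p.factorial : ℝ) / 2 ^ p * rhs 1 2 f 0 p p 0 =
      ∑ r ∈ range pw, f r * ((-1) ^ r * ((p.descFactorial r : ℝ) / 2 ^ p)) := by
    intro p hp
    have hp' : p < pw := by simpa using hp
    rw [rhs_range 1 2 f 0 p p 0 pw (by omega) (by omega), Finset.mul_sum]
    refine Finset.sum_congr rfl fun m _ => ?_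
    by_cases hm : m ≤ 0 + p
    · rw [if_pos hm]
      obtain ⟨K, rfl⟩ : ∃ K, p = m + K := ⟨p - m, by omega⟩
      have e0 : 0 + (m + K) - m = K := by omega
      have e1 : m + K - m = K := by omega
      rw [e0, kap_left, kap_right, descF_eq (by omega : m ≤ m + K), e1, co, one_pow]
      have hf : (K.factorial : ℝ) ≠ 0 := by exact_mod_cast Nat.factorial_ne_zero _
      have h3 : ((1 : ℝ) + 1) ^ K = 2 ^ K := by norm_num
      rw [h3]
      field_simp
    · rw [if_neg hm, mul_zero, mul_zero, Nat.descFactorial_of_lt (by omega)]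
      simp
  rw [Finset.sum_congr rfl h, Finset.sum_comm]
  refine Finset.sum_congr rfl fun m _ => ?_
  rw [Tc, ← Finset.mul_sum, ← Finset.mul_sum]

end Crest.Agent.R340.Lin120
end

-- ▼ part R340/Lin2_120

/-!
# S0533, linear part of the certificate (helper120): certificates given by lists, numerical part
-/

set_option autoImplicit false
open scoped BigOperators
open Finset

namespace Crest.Agent.R340.Lin120

open Crest.Agent.R340.Kn249 Crest.Agent.R340.Pl249 Crest.Agent.R340.Cert132

/-! ### `kap` by lists -/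

/-- multiplication of a coefficient list (in the `x`-degree) by `a x + b y` -/
def stepL (a b : ℤ) (l : List ℤ) : List ℤ := List.zipWith (fun x y => a * x + b * y) (0 :: l) (l ++ [0])

def baseL : ℕ → List ℤ
  | 0 => [1]
  | m + 1 => stepL 1 (-1) (baseL m)

def kapL (a : ℤ) (m : ℕ) : ℕ → List ℤ
  | 0 => baseL m
  | K + 1 => stepL a 1 (kapL a m K)

theorem stepL_length (a b : ℤ) (l : List ℤ) : (stepL a b l).length = l.length + 1 := by
  simp [stepL]

theorem stepL_getD (a b : ℤ) (l : List ℤ) (q k : ℕ) (h : q + k = l.length) (f : ℕ → ℕ → ℤ)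
    (hf : ∀ q k, q + k + 1 = l.length → f q k = l.getD q 0) :
    sh a b f q k = (stepL a b l).getD q 0 := by
  have hlen := stepL_length a b l
  have hq : q < (stepL a b l).length := by omega
  rw [List.getD_eq_getElem _ _ hq]
  simp only [stepL, List.getElem_zipWith]
  unfold sh
  rcases q with _ | q
  · rcases k with _ | k
    · have hl : l = [] := List.eq_nil_of_length_eq_zero (by omega)
      subst hl; simp
    · have h0 : 0 < l.length := by omega
      rw [if_pos rfl, if_neg (by omega), Nat.add_sub_cancel, hf 0 k (by omega),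
        List.getD_eq_getElem _ _ h0, List.getElem_append_left h0]
      simp
  · have hq' : q < l.length := by omega
    rw [if_neg (by omega), Nat.add_sub_cancel, hf q k (by omega), List.getD_eq_getElem _ _ hq']
    rcases k with _ | k
    · rw [if_pos rfl, List.getElem_append_right (by omega)]
      simp
    · have hq2 : q + 1 < l.length := by omega
      rw [if_neg (by omega), Nat.add_sub_cancel, hf (q + 1) k (by omega),
        List.getD_eq_getElem _ _ hq2, List.getElem_append_left hq2]
      simp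

theorem baseL_length (m : ℕ) : (baseL m).length = m + 1 := by
  induction m with
  | zero => rfl
  | succ m ih => rw [baseL, stepL_length, ih]

theorem kapL_length (a : ℤ) (m K : ℕ) : (kapL a m K).length = m + K + 1 := by
  induction K with
  | zero => exact baseL_length m
  | succ K ih => rw [kapL, stepL_length, ih]; rfl

theorem kap_base (a : ℤ) (m q k : ℕ) (h : q + k = m) : kap a m 0 q k = (baseL m).getD q 0 := by
  induction m generalizing q k with
  | zero =>
    obtain rfl : q = 0 := by omega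
    obtain rfl : k = 0 := by omega
    simp [kap_zero_zero, baseL]
  | succ m ih =>
    rw [kap_succ_zero, baseL]
    exact stepL_getD 1 (-1) (baseL m) q k (by rw [baseL_length]; omega) _
      (fun q k hqk => ih q k (by rw [baseL_length] at hqk; omega))

theorem kap_list (a : ℤ) (m K q k : ℕ) (h : q + k = m + K) :
    kap a m K q k = (kapL a m K).getD q 0 := by
  induction K generalizing q k with
  | zero => exact kap_base a m q k h
  | succ K ih =>
    rw [kap_succ, kapL]
    exact stepL_getD a 1 (kapL a m K) q k (by rw [kapL_length]; omega) _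
      (fun q k hqk => ih q k (by rw [kapL_length] at hqk; omega))

theorem sh_cast (a b : ℤ) (f : ℕ → ℕ → ℤ) (g : ℕ → ℕ → ℝ) (hfg : ∀ q k, g q k = (f q k : ℝ))
    (q k : ℕ) : sh (a : ℝ) (b : ℝ) g q k = ((sh a b f q k : ℤ) : ℝ) := by
  unfold sh
  split_ifs <;> push_cast <;> simp [hfg]

theorem kap_cast (a : ℤ) (m K q k : ℕ) : kap (a : ℝ) m K q k = ((kap a m K q k : ℤ) : ℝ) := by
  induction K generalizing q k with
  | zero =>
    induction m generalizing q k with
    | zero => rw [kap_zero_zero, kap_zero_zero]; split_ifs <;> simp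
    | succ m ih =>
      rw [kap_succ_zero, kap_succ_zero]
      have h := sh_cast 1 (-1) (kap a m 0) (kap (a : ℝ) m 0) ih q k
      push_cast at h
      exact h
  | succ K ih =>
    rw [kap_succ, kap_succ]
    have h := sh_cast a 1 (kap a m K) (kap (a : ℝ) m K) ih q k
    push_cast at h
    exact h

/-- rational channel coefficient of a correlator with `α = a`, `c = b` -/
def cf (a b : ℕ) (m q k q' j : ℕ) : ℚ :=
  if m ≤ q + k then
    ((kapL a m (q + k - m)).getD q 0 * (kapL a m (q + k - m)).getD q' 0 : ℤ) * (b : ℚ) ^ (q + k - m) /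
      (((a + 1) ^ (q + k - m) * (q + k - m).factorial : ℕ) : ℚ)
  else 0

theorem rhs_cf (a b : ℕ) (g : ℕ → ℝ) (q k q' j N : ℕ) (h : q + k = q' + j) (hN : q + k < N) :
    rhs (a : ℝ) (b : ℝ) g q k q' j = ∑ m ∈ range N, g m * (cf a b m q k q' j : ℝ) := by
  rw [rhs_range _ _ g q k q' j N h hN]
  refine Finset.sum_congr rfl fun m _ => ?_
  congr 1
  unfold cf
  split_ifs with hm
  · have h1 : kap (a : ℝ) m (q + k - m) q k = (((kapL a m (q + k - m)).getD q 0 : ℤ) : ℝ) := by
      have := kap_cast a m (q + k - m) q k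
      rw [Int.cast_natCast] at this
      rw [this, kap_list _ _ _ _ _ (by omega)]
    have h2 : kap (a : ℝ) m (q + k - m) q' j = (((kapL a m (q + k - m)).getD q' 0 : ℤ) : ℝ) := by
      have := kap_cast a m (q + k - m) q' j
      rw [Int.cast_natCast] at this
      rw [this, kap_list _ _ _ _ _ (by omega)]
    rw [h1, h2, co]
    push_cast
    ring
  · simp

/-! ### certificates given by lists -/

/-- coefficient function of a list -/
def cfun (B : List (ℕ × ℕ × ℕ × ℕ × ℤ)) (q j q' k : ℕ) : ℤ :=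
  (B.map fun x => if x.1 = q ∧ x.2.1 = j ∧ x.2.2.1 = q' ∧ x.2.2.2.1 = k then x.2.2.2.2 else 0).sum

/-- coefficient function of a diagonal list -/
def gfun (G : List (ℕ × ℤ)) (q : ℕ) : ℤ := (G.map fun x => if x.1 = q then x.2 else 0).sum

theorem sum_cfun {a b c d : ℕ} (B : List (ℕ × ℕ × ℕ × ℕ × ℤ))
    (hB : ∀ x ∈ B, x.1 < a ∧ x.2.1 < b ∧ x.2.2.1 < c ∧ x.2.2.2.1 < d) (F : ℕ → ℕ → ℕ → ℕ → ℝ) :
    ∑ q ∈ range a, ∑ j ∈ range b, ∑ q' ∈ range c, ∑ k ∈ range d, (cfun B q j q' k : ℝ) * F q j q' k =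
      (B.map fun x => (x.2.2.2.2 : ℝ) * F x.1 x.2.1 x.2.2.1 x.2.2.2.1).sum := by
  induction B with
  | nil => simp [cfun]
  | cons x B ih =>
    have ih' := ih fun y hy => hB y (List.mem_cons_of_mem _ hy)
    obtain ⟨h1, h2, h3, h4⟩ := hB x List.mem_cons_self
    rw [List.map_cons, List.sum_cons, ← ih']
    have hc : ∀ q j q' k, (cfun (x :: B) q j q' k : ℝ) * F q j q' k =
        (if x.1 = q ∧ x.2.1 = j ∧ x.2.2.1 = q' ∧ x.2.2.2.1 = k then
          (x.2.2.2.2 : ℝ) * F q j q' k else 0) + (cfun B q j q' k : ℝ) * F q j q' k := by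
      intro q j q' k
      simp only [cfun, List.map_cons, List.sum_cons]
      push_cast
      split_ifs <;> ring
    simp only [hc, Finset.sum_add_distrib]
    congr 1
    rw [Finset.sum_eq_single x.1, Finset.sum_eq_single x.2.1, Finset.sum_eq_single x.2.2.1,
      Finset.sum_eq_single x.2.2.2.1]
    · simp
    all_goals first
      | (intro y _ hy
         first
          | (rw [if_neg]; tauto)
          | (refine Finset.sum_eq_zero fun _ _ => ?_
             first
              | (rw [if_neg]; tauto)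
              | (refine Finset.sum_eq_zero fun _ _ => ?_
                 first
                  | (rw [if_neg]; tauto)
                  | (refine Finset.sum_eq_zero fun _ _ => ?_
                     rw [if_neg]; tauto))))
      | (intro h; exact absurd (mem_range.mpr (by assumption)) h)

theorem sum_gfun {a : ℕ} (G : List (ℕ × ℤ)) (hG : ∀ x ∈ G, x.1 < a) (F : ℕ → ℝ) :
    ∑ q ∈ range a, (gfun G q : ℝ) * F q = (G.map fun x => (x.2 : ℝ) * F x.1).sum := by
  induction G with
  | nil => simp [gfun]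
  | cons x B ih =>
    have ih' := ih fun y hy => hG y (List.mem_cons_of_mem _ hy)
    have h1 := hG x List.mem_cons_self
    rw [List.map_cons, List.sum_cons, ← ih']
    have hc : ∀ q, (gfun (x :: B) q : ℝ) * F q =
        (if x.1 = q then (x.2 : ℝ) * F q else 0) + (gfun B q : ℝ) * F q := by
      intro q
      simp only [gfun, List.map_cons, List.sum_cons]
      push_cast
      split_ifs <;> ring
    simp only [hc, Finset.sum_add_distrib]
    congr 1
    rw [Finset.sum_ite_eq, if_pos (mem_range.mpr h1)]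

/-- certificate from lists with common denominator `D`; the `G` list enters with a plus sign -/
def ofLists (P : ℕ) (G : List (ℕ × ℤ)) (B A : List (ℕ × ℕ × ℕ × ℕ × ℤ)) (D : ℕ) : CertN where
  P := P
  Gc q := -(gfun G q : ℚ) / D
  Bc q j q' k := (cfun B q j q' k : ℚ) / D
  Ac q j q' k := (cfun A q j q' k : ℚ) / D

theorem LamN_ofLists {P : ℕ} {G : List (ℕ × ℤ)} {B A : List (ℕ × ℕ × ℕ × ℕ × ℤ)} (hA : Adm P G B A)
    (D : ℕ) (X Y : ℕ → ℕ → ℕ → ℕ → ℝ) :
    LamN (ofLists P G B A D) X Y =
      ((G.map fun x => (x.2 : ℝ) * (2 ^ x.1 / (x.1.factorial : ℝ))).sum +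
      (B.map fun x => (x.2.2.2.2 : ℝ) * X x.1 x.2.1 x.2.2.1 x.2.2.2.1).sum +
      (A.map fun x => (x.2.2.2.2 : ℝ) * Y x.1 x.2.1 x.2.2.1 x.2.2.2.1).sum) / D := by
  obtain ⟨h1, h2, h3⟩ := hA
  rw [← sum_gfun (a := P) G h1 (fun q => 2 ^ q / (q.factorial : ℝ)),
    ← sum_cfun (a := P) (b := P + 1) (c := P) (d := P + 1) B
      (fun x hx => ⟨(h2 x hx).1, Nat.lt_succ_of_le (h2 x hx).2.1, (h2 x hx).2.2.1,
        Nat.lt_succ_of_le (h2 x hx).2.2.2⟩) X,
    ← sum_cfun (a := P) (b := P) (c := P) (d := P) A h3 Y]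
  unfold LamN ofLists
  simp only [add_div, Finset.sum_div]
  push_cast
  have e1 : ∀ q, -((gfun G q : ℤ) : ℝ) / (D : ℝ) * (2 ^ q / (q.factorial : ℝ)) =
      -((gfun G q : ℝ) * (2 ^ q / (q.factorial : ℝ)) / D) := by intro q; ring
  have e2 : ∀ q j q' k, ((cfun B q j q' k : ℤ) : ℝ) / (D : ℝ) * X q j q' k =
      (cfun B q j q' k : ℝ) * X q j q' k / D := by intro q j q' k; ring
  have e3 : ∀ q j q' k, ((cfun A q j q' k : ℤ) : ℝ) / (D : ℝ) * Y q j q' k =
      (cfun A q j q' k : ℝ) * Y q j q' k / D := by intro q j q' k; ring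
  simp only [e1, e2, e3, Finset.sum_neg_distrib]
  ring

end Crest.Agent.R340.Lin120
private theorem rz_74a58ae356 : type_of% @_root_.Crest.Agent.R340.Lin120.baseL.eq_def := @_root_.Crest.Agent.R340.Lin120.baseL.eq_def -- L20
private theorem rz_c2d7ae55b4 : type_of% @_root_.Crest.Agent.R340.Lin120.baseL.eq_1 := @_root_.Crest.Agent.R340.Lin120.baseL.eq_1 -- L20
private theorem rz_ac957aec0b : type_of% @_root_.Crest.Agent.R340.Lin120.kapL.eq_def := @_root_.Crest.Agent.R340.Lin120.kapL.eq_def -- L24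
private theorem rz_d5eba80bf3 : type_of% @_root_.Crest.Agent.R340.Lin120.kapL.eq_1 := @_root_.Crest.Agent.R340.Lin120.kapL.eq_1 -- L24
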