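import Crest.Agent.R340.Pl6_249
import Crest.Agent.R340.Lad_978
import Crest.Agent.R340.Pl8_249

-- ▼ part R340/As_249
section

set_option autoImplicit false
open scoped BigOperators Topology
open Finset Filter

namespace Crest.Agent.R340.Kn249

open Crest.Agent.R340.Fock649 Crest.MathPhysics.Laughlin

theorem tendsto_sub_div (a k : ℕ) (ha : 1 ≤ a) :
    Tendsto (fun Q : ℕ => ((a * Q - k : ℕ) : ℝ) / (Q : ℝ)) atTop (𝓝 (a : ℝ)) := by
  have h1 : Tendsto (fun Q : ℕ => (a : ℝ) - (k : ℝ) / (Q : ℝ)) atTop (𝓝 ((a : ℝ) - 0)) :=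
    tendsto_const_nhds.sub (tendsto_const_div_atTop_nhds_zero_nat (k : ℝ))
  rw [sub_zero] at h1
  refine h1.congr' ?_
  filter_upwards [eventually_ge_atTop (k + 1)] with Q hQ
  have hQ0 : (Q : ℝ) ≠ 0 := by
    have : 0 < Q := by omega
    positivity
  have hk : k ≤ a * Q := by nlinarith
  rw [Nat.cast_sub hk]
  push_cast
  field_simp

theorem tendsto_choose (a j : ℕ) (ha : 1 ≤ a) :
    Tendsto (fun Q : ℕ => ((Nat.choose (a * Q) j : ℕ) : ℝ) / (Q : ℝ) ^ j) atTop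
      (𝓝 ((a : ℝ) ^ j / (j.factorial : ℝ))) := by
  induction j with
  | zero => simp
  | succ j ih =>
    have h1 := (ih.mul (tendsto_sub_div a j ha)).div_const ((j : ℝ) + 1)
    have e1 : (a : ℝ) ^ (j + 1) / ((j + 1).factorial : ℝ) =
        (a : ℝ) ^ j / (j.factorial : ℝ) * a / ((j : ℝ) + 1) := by
      rw [Nat.factorial_succ]
      push_cast
      have : (j.factorial : ℝ) ≠ 0 := by positivity
      field_simp
      try ring
    rw [e1]
    refine h1.congr fun Q => ?_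
    have h2 : ((Nat.choose (a * Q) (j + 1) : ℕ) : ℝ) * ((j : ℝ) + 1) =
        ((Nat.choose (a * Q) j : ℕ) : ℝ) * ((a * Q - j : ℕ) : ℝ) := by
      exact_mod_cast Nat.choose_succ_right_eq (a * Q) j
    have h3 : ((Nat.choose (a * Q) (j + 1) : ℕ) : ℝ) =
        ((Nat.choose (a * Q) j : ℕ) : ℝ) * ((a * Q - j : ℕ) : ℝ) / ((j : ℝ) + 1) := by
      rw [← h2]
      field_simp
    rw [h3, pow_succ, div_mul_div_comm, div_div, div_div, mul_comm ((j : ℝ) + 1)]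

theorem lam_lim (k : ℕ) : Tendsto (fun Q : ℕ => lam Q k / Real.sqrt Q) atTop
    (𝓝 (Real.sqrt ((k : ℝ) + 1))) := by
  have h1 := (tendsto_sub_div 1 k le_rfl).const_mul ((k : ℝ) + 1)
  have h2 := h1.sqrt
  simp only [Nat.cast_one, mul_one, one_mul] at h2
  refine h2.congr fun Q => ?_
  unfold lam
  rw [← Real.sqrt_div (by positivity), mul_div_assoc]

theorem mu_lim (q : ℕ) : Tendsto (fun Q : ℕ => mu Q q / Real.sqrt Q) atTop
    (𝓝 (Real.sqrt (2 * ((q : ℝ) + 1)))) := by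
  have h1 := (tendsto_sub_div 2 (2 + q) (by norm_num)).const_mul ((q : ℝ) + 1)
  have h2 := h1.sqrt
  have e : ((q : ℝ) + 1) * ((2 : ℕ) : ℝ) = 2 * ((q : ℝ) + 1) := by push_cast; ring
  rw [e] at h2
  refine h2.congr fun Q => ?_
  unfold mu
  rw [← Real.sqrt_div (by positivity), mul_div_assoc]
  have : 2 * Q - (2 + q) = 2 * Q - 2 - q := by omega
  rw [this]

theorem nu_lim (j : ℕ) : Tendsto (fun Q : ℕ => nuQ Q j) atTop
    (𝓝 (Real.sqrt (1 / (j.factorial : ℝ)))) := by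
  have h1 := (tendsto_choose 1 j le_rfl).sqrt
  simp only [Nat.cast_one, one_pow, one_mul] at h1
  exact h1

theorem pairNorm_lim (q : ℕ) : Tendsto (fun Q : ℕ => pairNorm Q (q + 1) / (Q : ℝ) ^ (q + 1)) atTop
    (𝓝 (2 ^ q / (q.factorial : ℝ))) := by
  have h1 := tendsto_choose 2 (q + 1) (by norm_num)
  have h2 : Tendsto (fun Q : ℕ => (2 * (Q : ℝ) - ((q + 1 : ℕ) : ℝ)) / (2 * (Q : ℝ) - 1)) atTop
      (𝓝 (2 / 2)) := by
    have a1 : Tendsto (fun Q : ℕ => (2 : ℝ) - ((q + 1 : ℕ) : ℝ) / (Q : ℝ)) atTop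
        (𝓝 ((2 : ℝ) - 0)) :=
      tendsto_const_nhds.sub (tendsto_const_div_atTop_nhds_zero_nat _)
    have a2 : Tendsto (fun Q : ℕ => (2 : ℝ) - (1 : ℝ) / (Q : ℝ)) atTop (𝓝 ((2 : ℝ) - 0)) :=
      tendsto_const_nhds.sub (tendsto_const_div_atTop_nhds_zero_nat _)
    have a3 := a1.div a2 (by norm_num)
    rw [sub_zero] at a3
    refine a3.congr' ?_
    filter_upwards [eventually_ge_atTop 2] with Q hQ
    have hQ0 : (0 : ℝ) < (Q : ℝ) := by
      have : 0 < Q := by omega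
      positivity
    have hQ1 : (1 : ℝ) ≤ (Q : ℝ) := by
      have : 1 ≤ Q := by omega
      exact_mod_cast this
    have n1 : (2 : ℝ) * Q - 1 ≠ 0 := by linarith
    have n2 : (2 : ℝ) - 1 / Q ≠ 0 := by
      have : 1 / (Q : ℝ) ≤ 1 := by
        rw [div_le_one hQ0]; exact hQ1
      linarith
    simp only [Pi.div_apply]
    rw [div_eq_div_iff n2 n1]
    field_simp
  have h3 := (h1.mul h2).const_mul (((q + 1 : ℕ) : ℝ) / 2)
  have e : (((q + 1 : ℕ) : ℝ) / 2) * (((2 : ℕ) : ℝ) ^ (q + 1) / ((q + 1).factorial : ℝ) * (2 / 2)) =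
      2 ^ q / (q.factorial : ℝ) := by
    rw [Nat.factorial_succ]
    push_cast
    have : (q.factorial : ℝ) ≠ 0 := by positivity
    field_simp
    ring
  rw [e] at h3
  refine h3.congr fun Q => ?_
  unfold pairNorm
  rw [div_mul_eq_div_div _ (2 : ℝ) (2 * (Q : ℝ) - 1)]
  push_cast
  ring

theorem th_lim (q : ℕ) : Tendsto (fun Q : ℕ => thQ Q q) atTop
    (𝓝 (Real.sqrt (2 ^ q / (q.factorial : ℝ)))) := (pairNorm_lim q).sqrt

theorem v0_eq (Q p : ℕ) (hQ : 1 ≤ Q) :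
    v0 Q p = ((p : ℝ) + 1) * nuQ Q (p + 1) / thQ Q p := by
  unfold v0 pv nuQ thQ
  have hQ0 : (0 : ℝ) < (Q : ℝ) := by exact_mod_cast hQ
  rw [if_pos (by omega)]
  rw [Real.sqrt_mul (by norm_num : (0 : ℝ) ≤ 2), Real.sqrt_div' _ (by positivity),
    Real.sqrt_div' _ (by positivity)]
  have h1 : Real.sqrt ((Q : ℝ) ^ (p + 1)) ≠ 0 := by positivity
  have h2 : Real.sqrt 2 ≠ 0 := by positivity
  simp only [Nat.choose_zero_right, Nat.cast_one, one_mul, Nat.cast_zero, sub_zero]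
  push_cast
  by_cases h3 : Real.sqrt (pairNorm Q (p + 1)) = 0
  · rw [h3]; simp
  · field_simp

theorem v1_eq (Q p : ℕ) (hQ : 1 ≤ Q) :
    v1 Q p = ((p : ℝ) - 1) * (nuQ Q 1 * nuQ Q p) / thQ Q p := by
  unfold v1 pv nuQ thQ
  have hQ0 : (0 : ℝ) < (Q : ℝ) := by exact_mod_cast hQ
  rw [if_pos (by omega)]
  rw [Real.sqrt_mul (by norm_num : (0 : ℝ) ≤ 2), Real.sqrt_div' _ (by positivity),
    Real.sqrt_div' _ (by positivity), Real.sqrt_div' _ (by positivity),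
    Real.sqrt_mul (by positivity)]
  have h1 : Real.sqrt ((Q : ℝ) ^ (p + 1)) = Real.sqrt ((Q : ℝ) ^ 1) * Real.sqrt ((Q : ℝ) ^ p) := by
    rw [← Real.sqrt_mul (by positivity)]; congr 1; ring
  have h1a : Real.sqrt ((Q : ℝ) ^ 1) ≠ 0 := by positivity
  have h1b : Real.sqrt ((Q : ℝ) ^ p) ≠ 0 := by positivity
  have h2 : Real.sqrt 2 ≠ 0 := by positivity
  rw [h1]
  by_cases h3 : Real.sqrt (pairNorm Q (p + 1)) = 0
  · rw [h3]; simp
  · push_cast
    field_simp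

theorem v0_lim (p : ℕ) : Tendsto (fun Q : ℕ => v0 Q p) atTop
    (𝓝 (Real.sqrt (((p : ℝ) + 1) / 2 ^ p))) := by
  have hn : Real.sqrt (2 ^ p / (p.factorial : ℝ)) ≠ 0 := by positivity
  have h1 := ((nu_lim (p + 1)).const_mul ((p : ℝ) + 1)).div (th_lim p) hn
  have e : ((p : ℝ) + 1) * Real.sqrt (1 / ((p + 1).factorial : ℝ)) /
      Real.sqrt (2 ^ p / (p.factorial : ℝ)) = Real.sqrt (((p : ℝ) + 1) / 2 ^ p) := by
    rw [div_eq_iff hn, ← Real.sqrt_mul (by positivity)]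
    have h2 : ((p : ℝ) + 1) = Real.sqrt (((p : ℝ) + 1) ^ 2) := (Real.sqrt_sq (by positivity)).symm
    nth_rewrite 1 [h2]
    rw [← Real.sqrt_mul (by positivity), Nat.factorial_succ]
    congr 1
    push_cast
    have : (p.factorial : ℝ) ≠ 0 := by positivity
    field_simp
  rw [e] at h1
  refine h1.congr' ?_
  filter_upwards [eventually_ge_atTop 1] with Q hQ
  exact (v0_eq Q p hQ).symm

theorem v1_lim (p : ℕ) : Tendsto (fun Q : ℕ => v1 Q p) atTop
    (𝓝 (((p : ℝ) - 1) / Real.sqrt (2 ^ p))) := by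
  have hn : Real.sqrt (2 ^ p / (p.factorial : ℝ)) ≠ 0 := by positivity
  have h1 := (((nu_lim 1).mul (nu_lim p)).const_mul ((p : ℝ) - 1)).div (th_lim p) hn
  have e : ((p : ℝ) - 1) * (Real.sqrt (1 / ((1 : ℕ).factorial : ℝ)) *
      Real.sqrt (1 / (p.factorial : ℝ))) / Real.sqrt (2 ^ p / (p.factorial : ℝ)) =
      ((p : ℝ) - 1) / Real.sqrt (2 ^ p) := by
    rw [Nat.factorial_one, Nat.cast_one, div_one, Real.sqrt_one, one_mul,
      Real.sqrt_div' _ (by positivity), Real.sqrt_div' _ (by positivity), Real.sqrt_one]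
    have h3 : Real.sqrt (p.factorial : ℝ) ≠ 0 := by positivity
    have h4 : Real.sqrt ((2 : ℝ) ^ p) ≠ 0 := by positivity
    field_simp
  rw [e] at h1
  refine h1.congr' ?_
  filter_upwards [eventually_ge_atTop 1] with Q hQ
  exact (v1_eq Q p hQ).symm

theorem two_pow_mul_choose_le (n k : ℕ) : 2 ^ k * n.choose k ≤ (2 * n).choose k := by
  induction k with
  | zero => simp
  | succ k ih =>
    by_cases hk : n ≤ k
    · rw [Nat.choose_eq_zero_of_lt (by omega : n < k + 1)]; simp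
    · have h1 := Nat.choose_succ_right_eq n k
      have h2 := Nat.choose_succ_right_eq (2 * n) k
      have h3 : 2 * (n - k) ≤ 2 * n - k := by omega
      have h4 : (2 ^ (k + 1) * n.choose (k + 1)) * (k + 1) ≤ (2 * n).choose (k + 1) * (k + 1) := by
        calc (2 ^ (k + 1) * n.choose (k + 1)) * (k + 1) =
              (2 ^ k * n.choose k) * (2 * (n - k)) := by
              rw [pow_succ]; linear_combination (2 ^ k * 2) * h1
          _ ≤ (2 * n).choose k * (2 * n - k) := Nat.mul_le_mul ih h3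
          _ = _ := h2.symm
      exact Nat.le_of_mul_le_mul_right h4 (Nat.succ_pos k)

/-- explicit tail bound -/
noncomputable def bT (p : ℕ) : ℝ := 4 * ((p : ℝ) + 1) * (5 / 7) ^ p

theorem bT_sum (P1 n : ℕ) : ∑ p ∈ Ico P1 n, bT p ≤ (14 * (P1 : ℝ) + 49) * (5 / 7) ^ P1 := by
  have key : ∀ n, P1 ≤ n → ∑ p ∈ Ico P1 n, bT p =
      (14 * (P1 : ℝ) + 49) * (5 / 7) ^ P1 - (14 * (n : ℝ) + 49) * (5 / 7) ^ n := by
    intro n hn
    induction n, hn using Nat.le_induction with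
    | base => simp
    | succ n hn ih =>
      rw [Finset.sum_Ico_succ_top hn, ih]
      unfold bT
      push_cast
      rw [pow_succ]
      ring
  by_cases h : P1 ≤ n
  · rw [key n h]
    have : 0 ≤ (14 * (n : ℝ) + 49) * (5 / 7) ^ n := by positivity
    linarith
  · rw [Finset.Ico_eq_empty (by omega), Finset.sum_empty]
    positivity

theorem v0_sq_le (Q p : ℕ) (hQ : 2 ≤ Q) : v0 Q p ^ 2 ≤ 2 * ((p : ℝ) + 1) / 2 ^ p := by
  by_cases hp : Q < p + 1
  · have h0 : v0 Q p = 0 := by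
      unfold v0 pv
      rw [Nat.choose_eq_zero_of_lt hp]
      simp
    rw [h0, zero_pow two_ne_zero]; positivity
  · have hp' : p + 1 ≤ Q := by omega
    have hQr : (2 : ℝ) ≤ (Q : ℝ) := by exact_mod_cast hQ
    have hpr : (p : ℝ) + 1 ≤ (Q : ℝ) := by exact_mod_cast hp'
    have hc0 : 0 < (2 * Q).choose (p + 1) := Nat.choose_pos (by omega)
    have hc : (0 : ℝ) < ((2 * Q).choose (p + 1) : ℝ) := by exact_mod_cast hc0
    have hN : 0 < pairNorm Q (p + 1) := by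
      unfold pairNorm
      push_cast
      apply div_pos
      · apply mul_pos (mul_pos (by positivity) (by linarith)) hc
      · linarith
    have h1 : v0 Q p ^ 2 = ((p : ℝ) + 1) ^ 2 * (Q.choose (p + 1) : ℝ) / pairNorm Q (p + 1) := by
      unfold v0 pv
      rw [if_pos (by omega), mul_pow, div_pow, mul_pow, Real.sq_sqrt (by norm_num),
        Real.sq_sqrt (by positivity), Real.sq_sqrt (by positivity)]
      simp only [Nat.choose_zero_right, Nat.cast_one, one_mul, Nat.cast_zero, sub_zero]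
      push_cast
      field_simp
    have h2 : (2 : ℝ) ^ (p + 1) * (Q.choose (p + 1) : ℝ) ≤ ((2 * Q).choose (p + 1) : ℝ) := by
      exact_mod_cast two_pow_mul_choose_le Q (p + 1)
    rw [h1, div_le_div_iff₀ hN (by positivity)]
    have h3 : ((2 * Q).choose (p + 1) : ℝ) * ((p : ℝ) + 1) / 4 ≤ pairNorm Q (p + 1) := by
      unfold pairNorm
      rw [div_le_div_iff₀ (by norm_num) (by linarith)]
      push_cast
      have : (2 * (Q : ℝ) - 1) * 1 ≤ 2 * (2 * (Q : ℝ) - ((p : ℝ) + 1)) := by linarith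
      have hh : 0 ≤ ((2 * Q).choose (p + 1) : ℝ) * ((p : ℝ) + 1) := by positivity
      nlinarith
    have h4 : ((p : ℝ) + 1) ^ 2 * (Q.choose (p + 1) : ℝ) * 2 ^ p =
        ((p : ℝ) + 1) ^ 2 / 2 * (2 ^ (p + 1) * (Q.choose (p + 1) : ℝ)) := by
      rw [pow_succ]; ring
    rw [h4]
    calc ((p : ℝ) + 1) ^ 2 / 2 * (2 ^ (p + 1) * (Q.choose (p + 1) : ℝ)) ≤
          ((p : ℝ) + 1) ^ 2 / 2 * ((2 * Q).choose (p + 1) : ℝ) :=
          mul_le_mul_of_nonneg_left h2 (by positivity)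
      _ = 2 * ((p : ℝ) + 1) * (((2 * Q).choose (p + 1) : ℝ) * ((p : ℝ) + 1) / 4) := by ring
      _ ≤ 2 * ((p : ℝ) + 1) * pairNorm Q (p + 1) :=
          mul_le_mul_of_nonneg_left h3 (by positivity)

theorem v1_sq_le (Q p : ℕ) (hQ : 2 ≤ Q) : v1 Q p ^ 2 ≤ 6 * ((p : ℝ) + 1) ^ 2 / 2 ^ p := by
  by_cases hp : Q < p
  · have h0 : v1 Q p = 0 := by
      unfold v1 pv
      rw [Nat.choose_eq_zero_of_lt hp]
      simp
    rw [h0, zero_pow two_ne_zero]; positivity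
  · have hp' : p ≤ Q := by omega
    have hQr : (2 : ℝ) ≤ (Q : ℝ) := by exact_mod_cast hQ
    have hpr : (p : ℝ) ≤ (Q : ℝ) := by exact_mod_cast hp'
    have hc0 : 0 < (2 * Q).choose (p + 1) := Nat.choose_pos (by omega)
    have hc : (0 : ℝ) < ((2 * Q).choose (p + 1) : ℝ) := by exact_mod_cast hc0
    have hN : 0 < pairNorm Q (p + 1) := by
      unfold pairNorm
      push_cast
      apply div_pos
      · apply mul_pos (mul_pos (by positivity) (by linarith)) hc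
      · linarith
    have h1 : v1 Q p ^ 2 = ((p : ℝ) - 1) ^ 2 * ((Q : ℝ) * (Q.choose p : ℝ)) /
        pairNorm Q (p + 1) := by
      unfold v1 pv
      rw [if_pos (by omega), mul_pow, div_pow, mul_pow, Real.sq_sqrt (by norm_num),
        Real.sq_sqrt (by positivity), Real.sq_sqrt (by positivity)]
      simp only [Nat.choose_one_right, Nat.cast_one]
      field_simp
    have h2 : (2 : ℝ) ^ p * (Q.choose p : ℝ) ≤ ((2 * Q).choose p : ℝ) := by
      exact_mod_cast two_pow_mul_choose_le Q p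
    have h5 : ((2 * Q).choose (p + 1) : ℝ) * ((p : ℝ) + 1) =
        ((2 * Q).choose p : ℝ) * (2 * (Q : ℝ) - p) := by
      have := Nat.choose_succ_right_eq (2 * Q) p
      have h6 : ((2 * Q - p : ℕ) : ℝ) = 2 * (Q : ℝ) - p := by
        rw [Nat.cast_sub (by omega)]; push_cast; ring
      rw [← h6]
      exact_mod_cast this
    rw [h1, div_le_div_iff₀ hN (by positivity)]
    -- pairNorm = C(2Q,p) (2Q-p)(2Q-p-1) / (2(2Q-1))
    have h7 : pairNorm Q (p + 1) = ((2 * Q).choose p : ℝ) * (2 * (Q : ℝ) - p) *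
        (2 * (Q : ℝ) - p - 1) / (2 * (2 * (Q : ℝ) - 1)) := by
      unfold pairNorm
      rw [← h5]
      push_cast
      ring
    have hcp : (0 : ℝ) ≤ ((2 * Q).choose p : ℝ) := by positivity
    have h8 : (Q : ℝ) * ((2 * Q).choose p : ℝ) ≤ 6 * pairNorm Q (p + 1) := by
      rw [h7, ← mul_div_assoc, le_div_iff₀ (by linarith)]
      have g1 : (Q : ℝ) * (2 * (2 * (Q : ℝ) - 1)) ≤ 6 * ((2 * (Q : ℝ) - p) * (2 * (Q : ℝ) - p - 1)) := by
        have g2 : (Q : ℝ) ≤ 2 * (Q : ℝ) - p := by linarith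
        have g3 : (Q : ℝ) - 1 ≤ 2 * (Q : ℝ) - p - 1 := by linarith
        have g4 : (Q : ℝ) * ((Q : ℝ) - 1) ≤ (2 * (Q : ℝ) - p) * (2 * (Q : ℝ) - p - 1) :=
          mul_le_mul g2 g3 (by linarith) (by linarith)
        nlinarith
      nlinarith
    have h9 : ((p : ℝ) - 1) ^ 2 ≤ ((p : ℝ) + 1) ^ 2 := by
      have : (0 : ℝ) ≤ p := by positivity
      nlinarith
    calc ((p : ℝ) - 1) ^ 2 * ((Q : ℝ) * (Q.choose p : ℝ)) * 2 ^ p =
          ((p : ℝ) - 1) ^ 2 * ((Q : ℝ) * (2 ^ p * (Q.choose p : ℝ))) := by ring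
      _ ≤ ((p : ℝ) - 1) ^ 2 * ((Q : ℝ) * ((2 * Q).choose p : ℝ)) :=
          mul_le_mul_of_nonneg_left (mul_le_mul_of_nonneg_left h2 (by positivity)) (by positivity)
      _ ≤ ((p : ℝ) - 1) ^ 2 * (6 * pairNorm Q (p + 1)) :=
          mul_le_mul_of_nonneg_left h8 (by positivity)
      _ ≤ ((p : ℝ) + 1) ^ 2 * (6 * pairNorm Q (p + 1)) :=
          mul_le_mul_of_nonneg_right h9 (by positivity)
      _ = 6 * ((p : ℝ) + 1) ^ 2 * pairNorm Q (p + 1) := by ring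

theorem tail_bound (Q p : ℕ) (hQ : 2 ≤ Q) : |v0 Q p| + |v1 Q p| ≤ bT p := by
  have hr : (1 : ℝ) / 2 ^ p ≤ ((5 / 7 : ℝ) ^ p) ^ 2 := by
    rw [← pow_mul, mul_comm, pow_mul, ← one_div_pow]
    exact pow_le_pow_left₀ (by norm_num) (by norm_num) p
  have hp0 : (0 : ℝ) ≤ (p : ℝ) := by positivity
  have hq : (0 : ℝ) < (5 / 7 : ℝ) ^ p := by positivity
  have h0 : |v0 Q p| ≤ (3 / 2) * ((p : ℝ) + 1) * (5 / 7) ^ p := by
    apply abs_le_of_sq_le_sq _ (by positivity)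
    refine (v0_sq_le Q p hQ).trans ?_
    have : 2 * ((p : ℝ) + 1) / 2 ^ p = 2 * ((p : ℝ) + 1) * (1 / 2 ^ p) := by ring
    rw [this]
    calc 2 * ((p : ℝ) + 1) * (1 / 2 ^ p) ≤ 2 * ((p : ℝ) + 1) * ((5 / 7 : ℝ) ^ p) ^ 2 :=
          mul_le_mul_of_nonneg_left hr (by positivity)
      _ ≤ ((3 / 2) * ((p : ℝ) + 1) * (5 / 7) ^ p) ^ 2 := by
          have e : ((3 / 2) * ((p : ℝ) + 1) * (5 / 7) ^ p) ^ 2 =
            (9 / 4 * ((p : ℝ) + 1) ^ 2) * ((5 / 7 : ℝ) ^ p) ^ 2 := by ring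
          rw [e]
          apply mul_le_mul_of_nonneg_right _ (by positivity)
          nlinarith
  have h1 : |v1 Q p| ≤ (5 / 2) * ((p : ℝ) + 1) * (5 / 7) ^ p := by
    apply abs_le_of_sq_le_sq _ (by positivity)
    refine (v1_sq_le Q p hQ).trans ?_
    have : 6 * ((p : ℝ) + 1) ^ 2 / 2 ^ p = 6 * ((p : ℝ) + 1) ^ 2 * (1 / 2 ^ p) := by ring
    rw [this]
    calc 6 * ((p : ℝ) + 1) ^ 2 * (1 / 2 ^ p) ≤ 6 * ((p : ℝ) + 1) ^ 2 * ((5 / 7 : ℝ) ^ p) ^ 2 :=
          mul_le_mul_of_nonneg_left hr (by positivity)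
      _ ≤ ((5 / 2) * ((p : ℝ) + 1) * (5 / 7) ^ p) ^ 2 := by
          have e : ((5 / 2) * ((p : ℝ) + 1) * (5 / 7) ^ p) ^ 2 =
            (25 / 4 * ((p : ℝ) + 1) ^ 2) * ((5 / 7 : ℝ) ^ p) ^ 2 := by ring
          rw [e]
          apply mul_le_mul_of_nonneg_right _ (by positivity)
          nlinarith
  unfold bT
  linarith

end Crest.Agent.R340.Kn249
end

-- ▼ part R340/Syz_249
section

set_option autoImplicit false
open scoped BigOperators Topology
open Finset Filter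

namespace Crest.Agent.R340.Kn249

open Crest.Agent.R340.Fock649 Crest.MathPhysics.Laughlin

variable {Q : ℕ}

theorem cN_of_gt {Q k : ℕ} (h : Q < k) : cN Q k = 0 := by
  unfold cN
  rw [dif_neg (by omega)]

theorem cN_anti (Q i j : ℕ) : cN Q i * cN Q j + cN Q j * cN Q i = 0 := by
  unfold cN
  split_ifs
  · exact c_c _ _
  all_goals simp

theorem cN_anti' (Q i j : ℕ) : cN Q i * cN Q j = -(cN Q j * cN Q i) :=
  eq_neg_of_add_eq_zero_left (cN_anti Q i j)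

theorem cN_sq (Q i : ℕ) : cN Q i * cN Q i = 0 := by
  have h := cN_anti Q i i
  have h2 : (2 : ℂ) • (cN Q i * cN Q i) = 0 := by rw [two_smul]; exact h
  exact (smul_eq_zero.mp h2).resolve_left two_ne_zero

theorem pv_anti (Q q i j : ℕ) : pv Q q i j = - pv Q q j i := by
  unfold pv
  by_cases h : i + j = q + 1
  · rw [if_pos h, if_pos (by omega), mul_comm ((Nat.choose Q i : ℝ)) _]
    ring
  · rw [if_neg h, if_neg (by omega), neg_zero]

theorem sum_fin_cN (Q : ℕ) (M : ℕ) (hM : Q + 1 ≤ M) (f : ℕ → ℕ → ℂ) :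
    ∑ i : Fin (Q + 1), ∑ j : Fin (Q + 1), f i j • ((c j : Op (Fin (Q + 1))) * c i) =
      ∑ i ∈ range M, ∑ j ∈ range M, f i j • (cN Q j * cN Q i) := by
  have hc : ∀ i : Fin (Q + 1), cN Q i = c i := by
    intro i; unfold cN; rw [dif_pos i.2]
  have h1 : ∀ i : ℕ, ∑ j ∈ range M, f i j • (cN Q j * cN Q i) =
      ∑ j ∈ range (Q + 1), f i j • (cN Q j * cN Q i) := by
    intro i
    symm
    refine Finset.sum_subset (Finset.range_mono hM) fun j _ hj => ?_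
    have : Q < j := by simp only [Finset.mem_range] at hj; omega
    rw [cN_of_gt this, zero_mul, smul_zero]
  have h2 : ∑ i ∈ range M, ∑ j ∈ range M, f i j • (cN Q j * cN Q i) =
      ∑ i ∈ range (Q + 1), ∑ j ∈ range M, f i j • (cN Q j * cN Q i) := by
    symm
    refine Finset.sum_subset (Finset.range_mono hM) fun i _ hi => ?_
    have : Q < i := by simp only [Finset.mem_range] at hi; omega
    refine Finset.sum_eq_zero fun j _ => ?_
    rw [cN_of_gt this, mul_zero, smul_zero]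
  rw [h2, Finset.sum_range]
  refine Finset.sum_congr rfl fun i _ => ?_
  rw [h1, Finset.sum_range]
  refine Finset.sum_congr rfl fun j _ => ?_
  rw [hc, hc]

theorem WN_eq_sum (Q q : ℕ) : WN Q q = ((Real.sqrt 2 : ℂ)⁻¹) •
    ∑ i ∈ range (q + 2), ((pv Q q i (q + 1 - i) : ℝ) : ℂ) • (cN Q (q + 1 - i) * cN Q i) := by
  unfold WN pa
  congr 1
  have h0 : ∑ i : Fin (Q + 1), ∑ j : Fin (Q + 1),
      (starRingEnd ℂ) ((pv Q q i j : ℝ) : ℂ) • ((c j : Op (Fin (Q + 1))) * c i) =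
      ∑ i : Fin (Q + 1), ∑ j : Fin (Q + 1),
      ((pv Q q i j : ℝ) : ℂ) • ((c j : Op (Fin (Q + 1))) * c i) := by
    refine Finset.sum_congr rfl fun i _ => Finset.sum_congr rfl fun j _ => ?_
    rw [Complex.conj_ofReal]
  rw [h0, sum_fin_cN Q (Q + q + 2) (by omega) (fun i j => ((pv Q q i j : ℝ) : ℂ))]
  have h1 : ∑ i ∈ range (q + 2), ((pv Q q i (q + 1 - i) : ℝ) : ℂ) •
      (cN Q (q + 1 - i) * cN Q i) = ∑ i ∈ range (q + 2), ∑ j ∈ range (Q + q + 2),
      ((pv Q q i j : ℝ) : ℂ) • (cN Q j * cN Q i) := by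
    refine Finset.sum_congr rfl fun i hi => ?_
    have hi' : i < q + 2 := by simpa using hi
    rw [Finset.sum_eq_single (q + 1 - i)]
    · intro j _ hj
      have : pv Q q i j = 0 := by
        unfold pv; rw [if_neg (by omega)]
      rw [this]; simp
    · intro h
      exfalso; apply h
      simp only [Finset.mem_range]; omega
  rw [h1]
  symm
  refine Finset.sum_subset (Finset.range_mono (by omega)) fun i _ hi => ?_
  have hi' : q + 2 ≤ i := by simp only [Finset.mem_range] at hi; omega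
  refine Finset.sum_eq_zero fun j _ => ?_
  have : pv Q q i j = 0 := by
    unfold pv; rw [if_neg (by omega)]
  rw [this]; simp

theorem sqrt2_inv (x : ℝ) : (Real.sqrt 2 : ℂ)⁻¹ * ((2 * x : ℝ) : ℂ) = ((Real.sqrt 2 * x : ℝ) : ℂ) := by
  have h : (Real.sqrt 2 : ℂ) * (Real.sqrt 2 : ℂ) = 2 := by
    rw [← Complex.ofReal_mul, Real.mul_self_sqrt (by norm_num)]; norm_num
  have h0 : (Real.sqrt 2 : ℂ) ≠ 0 := by
    intro h1; rw [h1, zero_mul] at h; norm_num at h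
  rw [inv_mul_eq_iff_eq_mul₀ h0]
  push_cast
  rw [← mul_assoc, h]

theorem WN_zero (Q : ℕ) : WN Q 0 = ((v0 Q 0 : ℝ) : ℂ) • (cN Q 1 * cN Q 0) := by
  rw [WN_eq_sum]
  simp only [Finset.sum_range_succ, Finset.sum_range_zero, zero_add, Nat.sub_zero, Nat.sub_self]
  rw [pv_anti Q 0 1 0, cN_anti' Q 0 1, Complex.ofReal_neg, smul_neg, neg_smul, neg_neg, ← two_smul ℂ,
    smul_smul, smul_smul]
  congr 1
  unfold v0
  rw [← sqrt2_inv]
  push_cast
  ring

theorem WN_one (Q : ℕ) : WN Q 1 = ((v0 Q 1 : ℝ) : ℂ) • (cN Q 2 * cN Q 0) := by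
  rw [WN_eq_sum]
  simp only [Finset.sum_range_succ, Finset.sum_range_zero, zero_add, Nat.sub_zero, Nat.sub_self,
    Nat.reduceAdd, Nat.reduceSub]
  rw [cN_sq, smul_zero, add_zero, pv_anti Q 1 2 0, cN_anti' Q 0 2, Complex.ofReal_neg, smul_neg,
    neg_smul, neg_neg, ← two_smul ℂ, smul_smul, smul_smul]
  congr 1
  unfold v0
  rw [← sqrt2_inv]
  push_cast
  ring

theorem WN_two (Q : ℕ) : WN Q 2 = ((v0 Q 2 : ℝ) : ℂ) • (cN Q 3 * cN Q 0) +
    ((v1 Q 2 : ℝ) : ℂ) • (cN Q 2 * cN Q 1) := by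
  rw [WN_eq_sum]
  simp only [Finset.sum_range_succ, Finset.sum_range_zero, zero_add, Nat.sub_zero, Nat.sub_self,
    Nat.reduceAdd, Nat.reduceSub]
  rw [pv_anti Q 2 3 0, pv_anti Q 2 2 1, cN_anti' Q 0 3, cN_anti' Q 1 2]
  unfold v0 v1
  rw [← sqrt2_inv, ← sqrt2_inv]
  simp only [Nat.reduceAdd, Complex.ofReal_neg, Complex.ofReal_mul, Complex.ofReal_ofNat]
  module

theorem WN_three (Q : ℕ) : WN Q 3 = ((v0 Q 3 : ℝ) : ℂ) • (cN Q 4 * cN Q 0) +
    ((v1 Q 3 : ℝ) : ℂ) • (cN Q 3 * cN Q 1) := by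
  rw [WN_eq_sum]
  simp only [Finset.sum_range_succ, Finset.sum_range_zero, zero_add, Nat.sub_zero, Nat.sub_self,
    Nat.reduceAdd, Nat.reduceSub]
  rw [pv_anti Q 3 4 0, pv_anti Q 3 3 1, cN_anti' Q 0 4, cN_anti' Q 1 3, cN_sq]
  unfold v0 v1
  rw [← sqrt2_inv, ← sqrt2_inv]
  simp only [Nat.reduceAdd, Complex.ofReal_neg, Complex.ofReal_mul, Complex.ofReal_ofNat]
  module

theorem c_cc_self (Q i j : ℕ) : cN Q i * (cN Q i * cN Q j) = 0 := by
  rw [← mul_assoc, cN_sq, zero_mul]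

theorem c_cc_self' (Q i j : ℕ) : cN Q i * (cN Q j * cN Q i) = 0 := by
  rw [cN_anti' Q j i, mul_neg, c_cc_self, neg_zero]

theorem t00 (Q : ℕ) : T3 Q 0 0 = 0 := by
  unfold T3; rw [WN_zero, mul_smul_comm, c_cc_self', smul_zero]

theorem t01 (Q : ℕ) : T3 Q 0 1 = 0 := by
  unfold T3; rw [WN_zero, mul_smul_comm, c_cc_self, smul_zero]

theorem t10 (Q : ℕ) : T3 Q 1 0 = 0 := by
  unfold T3; rw [WN_one, mul_smul_comm, c_cc_self', smul_zero]

theorem t12 (Q : ℕ) : T3 Q 1 2 = 0 := by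
  unfold T3; rw [WN_one, mul_smul_comm, c_cc_self, smul_zero]

theorem v0_zero (Q : ℕ) (hQ : 1 ≤ Q) : v0 Q 0 = 1 := by
  have h1 := v0_eq Q 0 hQ
  have hQ0 : (1 : ℝ) ≤ (Q : ℝ) := by exact_mod_cast hQ
  have h2 : nuQ Q 1 = 1 := by
    unfold nuQ
    rw [Nat.choose_one_right, pow_one, div_self (by positivity), Real.sqrt_one]
  have h3 : thQ Q 0 = 1 := by
    unfold thQ pairNorm
    rw [Real.sqrt_eq_one]
    have : (2 : ℝ) * Q - 1 ≠ 0 := by linarith
    rw [zero_add, Nat.choose_one_right, pow_one, Nat.cast_one, one_mul]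
    push_cast
    field_simp
  rw [h1]
  simp [h2, h3]

theorem t21 (Q : ℕ) (hQ : 1 ≤ Q) : T3 Q 2 1 = -(((v0 Q 2 : ℝ) : ℂ) • T3 Q 0 3) := by
  unfold T3
  rw [WN_two, WN_zero, v0_zero Q hQ, mul_add, mul_smul_comm, mul_smul_comm, c_cc_self', smul_zero,
    add_zero, Complex.ofReal_one, one_smul, ← mul_assoc, cN_anti' Q 1 3, neg_mul, smul_neg, mul_assoc]

theorem t30 (Q : ℕ) (hQ : 1 ≤ Q) : T3 Q 3 0 = ((v1 Q 3 : ℝ) : ℂ) • T3 Q 0 3 := by
  unfold T3
  rw [WN_three, WN_zero, v0_zero Q hQ, mul_add, mul_smul_comm, mul_smul_comm, c_cc_self', smul_zero,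
    zero_add, Complex.ofReal_one, one_smul, ← mul_assoc, cN_anti' Q 0 3, neg_mul, mul_assoc,
    cN_anti' Q 0 1, mul_neg, neg_neg]

theorem cc_cc_zero (Q i j k : ℕ) : (cN Q i * cN Q j) * (cN Q i * cN Q k) = 0 := by
  rw [mul_assoc, ← mul_assoc (cN Q j), cN_anti' Q j i, neg_mul, mul_neg, mul_assoc,
    ← mul_assoc (cN Q i) (cN Q i), cN_sq, zero_mul, neg_zero]

theorem cc_cc_zero' (Q i j k : ℕ) : (cN Q i * cN Q j) * (cN Q k * cN Q j) = 0 := by
  rw [cN_anti' Q i j, cN_anti' Q k j, neg_mul_neg, cc_cc_zero]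

theorem f00 (Q : ℕ) : T4 Q 0 0 = 0 := by
  unfold T4; rw [WN_zero, smul_mul_assoc, mul_smul_comm, cc_cc_zero, smul_zero, smul_zero]

theorem f11 (Q : ℕ) : T4 Q 1 1 = 0 := by
  unfold T4; rw [WN_one, smul_mul_assoc, mul_smul_comm, cc_cc_zero, smul_zero, smul_zero]

theorem f02 (Q : ℕ) : T4 Q 0 2 = 0 := by
  unfold T4
  rw [WN_zero, WN_two, mul_smul_comm, add_mul, smul_mul_assoc, smul_mul_assoc]
  have h1 : (cN Q 3 * cN Q 0) * (cN Q 1 * cN Q 0) = 0 := cc_cc_zero' Q 3 0 1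
  have h2 : (cN Q 2 * cN Q 1) * (cN Q 1 * cN Q 0) = 0 := by
    rw [mul_assoc, c_cc_self, mul_zero]
  rw [h1, h2]
  simp

/-- boundedness of a real sequence that converges -/
theorem bdd_of_tendsto {f : ℕ → ℝ} {x : ℝ} (h : Tendsto f atTop (𝓝 x)) :
    ∃ C, ∀ n, |f n| ≤ C := by
  obtain ⟨C, hC⟩ := (h.norm.bddAbove_range)
  exact ⟨C, fun n => hC ⟨n, rfl⟩⟩

theorem pv_bdd (q i j : ℕ) : ∃ C, ∀ Q, |pv Q q i j| ≤ C := by
  by_cases hij : i + j = q + 1
  · have hn : Real.sqrt 2 * Real.sqrt (2 ^ q / (q.factorial : ℝ)) ≠ 0 := by positivity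
    have h1 := (((nu_lim i).mul (nu_lim j)).const_mul ((j : ℝ) - i)).div
      ((th_lim q).const_mul (Real.sqrt 2)) hn
    refine bdd_of_tendsto (h1.congr' ?_)
    filter_upwards [eventually_ge_atTop 1] with Q hQ
    have hQ0 : (0 : ℝ) < (Q : ℝ) := by exact_mod_cast hQ
    simp only [Pi.div_apply]
    unfold pv nuQ thQ
    rw [if_pos hij, Real.sqrt_mul (by norm_num : (0 : ℝ) ≤ 2), Real.sqrt_div' _ (by positivity),
      Real.sqrt_div' _ (by positivity), Real.sqrt_div' _ (by positivity),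
      Real.sqrt_mul (by positivity)]
    have h1 : Real.sqrt ((Q : ℝ) ^ (q + 1)) = Real.sqrt ((Q : ℝ) ^ i) * Real.sqrt ((Q : ℝ) ^ j) := by
      rw [← Real.sqrt_mul (by positivity), ← pow_add, hij]
    have h2 : Real.sqrt ((Q : ℝ) ^ i) ≠ 0 := by positivity
    have h3 : Real.sqrt ((Q : ℝ) ^ j) ≠ 0 := by positivity
    rw [h1]
    by_cases h4 : Real.sqrt (pairNorm Q (q + 1)) = 0
    · rw [h4]; simp
    · have h5 : Real.sqrt 2 ≠ 0 := by positivity
      field_simp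
  · exact ⟨0, fun Q => by unfold pv; rw [if_neg hij]; simp⟩

theorem Wnorm (s : ℕ) : ∃ C : ℝ, ∀ Q : ℕ, ‖WN Q s‖ ≤ C := by
  choose C hC using fun i : ℕ => pv_bdd s i (s + 1 - i)
  refine ⟨(Real.sqrt 2)⁻¹ * ∑ i ∈ range (s + 2), C i, fun Q => ?_⟩
  rw [WN_eq_sum, norm_smul]
  have h0 : ‖((Real.sqrt 2 : ℂ)⁻¹)‖ = (Real.sqrt 2)⁻¹ := by
    rw [norm_inv, Complex.norm_real, Real.norm_of_nonneg (Real.sqrt_nonneg 2)]
  rw [h0]
  refine mul_le_mul_of_nonneg_left ?_ (by positivity)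
  refine (norm_sum_le _ _).trans (Finset.sum_le_sum fun i _ => ?_)
  rw [norm_smul, Complex.norm_real, Real.norm_eq_abs]
  have h1 : ‖cN Q (s + 1 - i) * cN Q i‖ ≤ 1 := by
    refine (norm_mul_le _ _).trans ?_
    have a1 := norm_cN_le Q (s + 1 - i)
    have a2 := norm_cN_le Q i
    have a3 := norm_nonneg (cN Q (s + 1 - i))
    have a4 := norm_nonneg (cN Q i)
    nlinarith
  have h2 := hC i Q
  have h3 := abs_nonneg (pv Q s i (s + 1 - i))
  calc |pv Q s i (s + 1 - i)| * ‖cN Q (s + 1 - i) * cN Q i‖ ≤ |pv Q s i (s + 1 - i)| * 1 :=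
        mul_le_mul_of_nonneg_left h1 h3
    _ ≤ C i := by rw [mul_one]; exact h2

end Crest.Agent.R340.Kn249
end

-- ▼ part R340/Fin_249

set_option autoImplicit false
open scoped BigOperators Topology
open Finset Filter

namespace Crest.Agent.R340.Kn249

open Crest.Agent.R340.Fock649 Crest.MathPhysics.Laughlin

/-- all analytic and algebraic inputs of the planar argument -/
theorem facts (hC : ∀ Q : ℕ, 2 ≤ Q → Comm0 Q) : Facts bT where
  lad Q _ := Lad978.ladQ Q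
  comm0 := hC
  lam_lim := lam_lim
  mu_lim := mu_lim
  nu_lim := nu_lim
  th_lim := th_lim
  v0_lim := v0_lim
  v1_lim := v1_lim
  Wnorm := Wnorm
  t00 Q _ := t00 Q
  t01 Q _ := t01 Q
  t10 Q _ := t10 Q
  t12 Q _ := t12 Q
  t21 Q hQ := t21 Q (by omega)
  t30 Q hQ := t30 Q (by omega)
  f00 Q _ := f00 Q
  f11 Q _ := f11 Q
  f02 Q _ := f02 Q
  tail Q hQ p _ := tail_bound Q p hQ

/-- S0533 from a certificate with `γ0 = 489/10000`, `P1 = pw = 50`. -/
theorem s0533_of_cert50 (hC : ∀ Q : ℕ, 2 ≤ Q → Comm0 Q) (C : CertN) (hLoc : LocPosN C)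
    (hLin : LinCertN C 50 50 (489 / 10000)) :
    ∀ γ : ℝ, 0 < γ → γ < 4616733319001 / 10 ^ 14 →
      ∃ Q₀ : ℕ, ∀ Q : ℕ, Q₀ ≤ Q → ∀ N : ℕ,
        ∀ ψ : (Fin N → Fin (Q + 1)) → ℂ, IsAntisymmetric ψ →
          γ * (star ψ ⬝ᵥ (interaction Q N).mulVec ψ).re ≤
            (star ψ ⬝ᵥ (interaction Q N).mulVec ((interaction Q N).mulVec ψ)).re := by
  refine s0533_of_cert (facts hC) C hLoc 50 50 (489 / 10000) (1 / 1000) hLin (fun n => ?_) ?_
  · refine (bT_sum 50 n).trans ?_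
    norm_num
  · norm_num

end Crest.Agent.R340.Kn249
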