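import Mathlib
import Crest.Agent.R340.CS1_809
import Crest.Agent.R340.Rot1_303

-- ▼ part R340/Geo1_927
section

set_option autoImplicit false

/-!
# Row 340 (O1): locality of the dilated coherent vectors (helper927)

Matrix elements of `sp Q (hᴴ * dil τ * g)` between the orbitals `0, 1`.
-/

namespace Crest.Agent.R340.Geo927

open Matrix Finset Crest.Agent.R340.CS809

/-- the dilation `diag (e^{-τ}, 1)` -/
noncomputable def dil (τ : ℝ) : Matrix (Fin 2) (Fin 2) ℂ :=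
  Matrix.diagonal ![((Real.exp (-τ) : ℝ) : ℂ), 1]

/-- second quantised dilation is diagonal -/
theorem sp_dil (Q : ℕ) (τ : ℝ) :
    sp Q (dil τ) = Matrix.diagonal fun j : Fin (Q + 1) =>
      ((Real.exp (-(τ * ((Q : ℝ) - (j : ℕ)))) : ℝ) : ℂ) := by
  apply ext_kap
  intro ζ
  rw [sp_mulVec_kap]
  ext j
  have hj : (j : ℕ) ≤ Q := Nat.lt_succ_iff.1 j.2
  have h0 : (dil τ *ᵥ ζ) 0 = ((Real.exp (-τ) : ℝ) : ℂ) * ζ 0 := by
    simp [dil, mulVec_diagonal]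
  have h1 : (dil τ *ᵥ ζ) 1 = ζ 1 := by
    simp [dil, mulVec_diagonal]
  rw [mulVec_diagonal]
  simp only [kap, h0, h1, mul_pow]
  have : ((Real.exp (-τ) : ℝ) : ℂ) ^ (Q - (j : ℕ)) =
      ((Real.exp (-(τ * ((Q : ℝ) - (j : ℕ)))) : ℝ) : ℂ) := by
    rw [← Complex.ofReal_pow, ← Real.exp_nat_mul, Nat.cast_sub hj]
    congr 2
    ring
  rw [this]
  ring

/-! ## explicit low matrix elements -/

lemma coeff_one_pow (a b : ℂ) (n : ℕ) :
    ((Polynomial.C a + Polynomial.C b * Polynomial.X) ^ n).coeff 1 = n * a ^ (n - 1) * b := by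
  induction n with
  | zero => simp [Polynomial.coeff_one]
  | succ n ih =>
    have h0 : ((Polynomial.C a + Polynomial.C b * Polynomial.X) ^ n).coeff 0 = a ^ n := by
      rw [Polynomial.coeff_zero_eq_eval_zero]; simp
    rw [pow_succ, mul_add, Polynomial.coeff_add, Polynomial.coeff_mul_C, ← mul_assoc,
      Polynomial.coeff_mul_X, Polynomial.coeff_mul_C, ih, h0]
    rcases n with _ | n
    · simp
    · simp only [Nat.add_sub_cancel]
      push_cast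
      ring

lemma coeff_zero_pow (a b : ℂ) (n : ℕ) :
    ((Polynomial.C a + Polynomial.C b * Polynomial.X) ^ n).coeff 0 = a ^ n := by
  rw [Polynomial.coeff_zero_eq_eval_zero]; simp

lemma sp_00 (Q : ℕ) (M : Matrix (Fin 2) (Fin 2) ℂ) (j k : Fin (Q + 1))
    (hj : (j : ℕ) = 0) (hk : (k : ℕ) = 0) : sp Q M j k = M 0 0 ^ Q := by
  simp only [sp, of_apply, hj, hk, rp, lf, Nat.sub_zero, pow_zero, mul_one, sb_zero,
    Complex.ofReal_one, div_one, one_mul]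
  exact coeff_zero_pow _ _ _

lemma sb_one (Q : ℕ) : sb Q 1 = Real.sqrt Q := by simp [sb]

lemma sp_01 (Q : ℕ) (M : Matrix (Fin 2) (Fin 2) ℂ) (j k : Fin (Q + 1))
    (hj : (j : ℕ) = 0) (hk : (k : ℕ) = 1) :
    sp Q M j k = ((Real.sqrt Q : ℝ) : ℂ) * M 0 0 ^ (Q - 1) * M 0 1 := by
  have hQ : 0 < Q := by have := k.2; omega
  simp only [sp, of_apply, hj, hk, rp, lf, Nat.sub_zero, pow_zero, mul_one, sb_zero,
    Complex.ofReal_one, sb_one]
  rw [coeff_one_pow]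
  have hs : ((Real.sqrt Q : ℝ) : ℂ) ≠ 0 := by
    have : 0 < Real.sqrt (Q : ℝ) := Real.sqrt_pos.2 (by exact_mod_cast hQ)
    exact_mod_cast this.ne'
  have h2 : (Q : ℂ) = ((Real.sqrt Q : ℝ) : ℂ) * ((Real.sqrt Q : ℝ) : ℂ) := by
    rw [← Complex.ofReal_mul, Real.mul_self_sqrt (Nat.cast_nonneg _)]; simp
  rw [h2]
  field_simp

lemma sp_10 (Q : ℕ) (M : Matrix (Fin 2) (Fin 2) ℂ) (j k : Fin (Q + 1))
    (hj : (j : ℕ) = 1) (hk : (k : ℕ) = 0) :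
    sp Q M j k = ((Real.sqrt Q : ℝ) : ℂ) * M 0 0 ^ (Q - 1) * M 1 0 := by
  simp only [sp, of_apply, hj, hk, rp, lf, pow_one, sb_zero,
    Complex.ofReal_one, sb_one, div_one]
  rw [Polynomial.mul_coeff_zero, coeff_zero_pow]
  simp
  ring

lemma sp_11 (Q : ℕ) (M : Matrix (Fin 2) (Fin 2) ℂ) (j k : Fin (Q + 1))
    (hj : (j : ℕ) = 1) (hk : (k : ℕ) = 1) :
    sp Q M j k = M 0 0 ^ (Q - 1) * M 1 1 + ((Q : ℂ) - 1) * M 0 0 ^ (Q - 2) * M 0 1 * M 1 0 := by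
  have hQ : 0 < Q := by have := k.2; omega
  have hs : ((Real.sqrt Q : ℝ) : ℂ) ≠ 0 := by
    have : 0 < Real.sqrt (Q : ℝ) := Real.sqrt_pos.2 (by exact_mod_cast hQ)
    exact_mod_cast this.ne'
  simp only [sp, of_apply, hj, hk, rp, lf, pow_one, sb_one]
  rw [div_self hs, one_mul, mul_add, Polynomial.coeff_add, Polynomial.coeff_mul_C, ← mul_assoc,
    Polynomial.coeff_mul_X, Polynomial.coeff_mul_C, coeff_one_pow, coeff_zero_pow]
  have h1 : ((Q - 1 : ℕ) : ℂ) = (Q : ℂ) - 1 := by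
    rw [Nat.cast_sub hQ]; simp
  have h2 : Q - 1 - 1 = Q - 2 := by omega
  rw [h1, h2]
  ring

/-! ## two by two estimates -/

/-- the matrix `hᴴ T g` -/
noncomputable def MM (τ : ℝ) (g h : Matrix (Fin 2) (Fin 2) ℂ) : Matrix (Fin 2) (Fin 2) ℂ :=
  hᴴ * dil τ * g

lemma MM_apply (τ : ℝ) (g h : Matrix (Fin 2) (Fin 2) ℂ) (a b : Fin 2) :
    MM τ g h a b = star (h 0 a) * ((Real.exp (-τ) : ℝ) : ℂ) * g 0 b + star (h 1 a) * g 1 b := by
  simp [MM, dil, Matrix.mul_apply, Fin.sum_univ_two, Matrix.diagonal_apply]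

lemma MM_sub (τ : ℝ) (g h : Matrix (Fin 2) (Fin 2) ℂ) (a b : Fin 2) :
    (hᴴ * g) a b - MM τ g h a b = star (h 0 a) * (((1 - Real.exp (-τ) : ℝ)) : ℂ) * g 0 b := by
  rw [MM_apply]
  simp [Matrix.mul_apply, Fin.sum_univ_two]
  ring

/-- a unitary `2 × 2` matrix: columns -/
lemma col_norm {g : Matrix (Fin 2) (Fin 2) ℂ} (hg : gᴴ * g = 1) (a : Fin 2) :
    ‖g 0 a‖ ^ 2 + ‖g 1 a‖ ^ 2 = 1 := by
  have h := congrFun (congrFun hg a) a
  simp only [Matrix.mul_apply, Fin.sum_univ_two, conjTranspose_apply, one_apply_eq,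
    Complex.star_def] at h
  rw [← Complex.normSq_eq_norm_sq, ← Complex.normSq_eq_norm_sq]
  rw [← Complex.normSq_eq_conj_mul_self, ← Complex.normSq_eq_conj_mul_self] at h
  exact_mod_cast h

lemma row_norm {g : Matrix (Fin 2) (Fin 2) ℂ} (hg : gᴴ * g = 1) (a : Fin 2) :
    ‖g a 0‖ ^ 2 + ‖g a 1‖ ^ 2 = 1 := by
  have hg' : g * gᴴ = 1 := mul_eq_one_comm.1 hg
  have h := congrFun (congrFun hg' a) a
  simp only [Matrix.mul_apply, Fin.sum_univ_two, conjTranspose_apply, one_apply_eq,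
    Complex.star_def] at h
  rw [← Complex.normSq_eq_norm_sq, ← Complex.normSq_eq_norm_sq]
  rw [Complex.mul_conj, Complex.mul_conj] at h
  exact_mod_cast h

lemma norm_le_one_of {g : Matrix (Fin 2) (Fin 2) ℂ} (hg : gᴴ * g = 1) (a b : Fin 2) :
    ‖g a b‖ ≤ 1 := by
  have h := row_norm hg a
  have h0 : ‖g a b‖ ^ 2 ≤ 1 := by
    fin_cases b
    · simp only [Fin.zero_eta, Fin.isValue]; nlinarith [sq_nonneg ‖g a 1‖]
    · simp only [Fin.mk_one, Fin.isValue]; nlinarith [sq_nonneg ‖g a 0‖]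
  nlinarith [norm_nonneg (g a b)]

lemma unitary_mul {g h : Matrix (Fin 2) (Fin 2) ℂ} (hg : gᴴ * g = 1) (hh : hᴴ * h = 1) :
    (hᴴ * g)ᴴ * (hᴴ * g) = 1 := by
  have hh' : h * hᴴ = 1 := mul_eq_one_comm.1 hh
  rw [conjTranspose_mul, conjTranspose_conjTranspose]
  calc gᴴ * h * (hᴴ * g) = gᴴ * (h * hᴴ) * g := by simp only [Matrix.mul_assoc]
    _ = 1 := by rw [hh', Matrix.mul_one, hg]

/-- the distance: sine of half the angle between the two points of the sphere, that is half the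
chordal distance -/
noncomputable def dd (g h : Matrix (Fin 2) (Fin 2) ℂ) : ℝ := ‖(hᴴ * g) 1 0‖

lemma dd_nonneg (g h : Matrix (Fin 2) (Fin 2) ℂ) : 0 ≤ dd g h := norm_nonneg _

lemma dd_sq {g h : Matrix (Fin 2) (Fin 2) ℂ} (hg : gᴴ * g = 1) (hh : hᴴ * h = 1) :
    dd g h ^ 2 = 1 - ‖(hᴴ * g) 0 0‖ ^ 2 := by
  have := col_norm (unitary_mul hg hh) 0
  rw [dd]; linarith

lemma dd_eq_01 {g h : Matrix (Fin 2) (Fin 2) ℂ} (hg : gᴴ * g = 1) (hh : hᴴ * h = 1) :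
    ‖(hᴴ * g) 0 1‖ = dd g h := by
  have h1 := row_norm (unitary_mul hg hh) 0
  have h2 := dd_sq hg hh
  have h3 : ‖(hᴴ * g) 0 1‖ ^ 2 = dd g h ^ 2 := by rw [h2]; linarith
  exact (pow_left_inj₀ (norm_nonneg _) (dd_nonneg g h) two_ne_zero).1 h3



/-- `s = 1 - e^{-τ}` -/
noncomputable def ss (τ : ℝ) : ℝ := 1 - Real.exp (-τ)

lemma ss_nonneg {τ : ℝ} (hτ : 0 ≤ τ) : 0 ≤ ss τ := by
  have : Real.exp (-τ) ≤ 1 := Real.exp_le_one_iff.2 (by linarith)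
  rw [ss]; linarith

lemma ss_le_one (τ : ℝ) : ss τ ≤ 1 := by
  have := Real.exp_pos (-τ)
  rw [ss]; linarith

lemma norm_MM_sub {τ : ℝ} (hτ : 0 ≤ τ) (g h : Matrix (Fin 2) (Fin 2) ℂ) (a b : Fin 2) :
    ‖(hᴴ * g) a b - MM τ g h a b‖ = ss τ * (‖h 0 a‖ * ‖g 0 b‖) := by
  rw [MM_sub, norm_mul, norm_mul, norm_star, Complex.norm_real, Real.norm_of_nonneg]
  · rw [ss]; ring
  · exact ss_nonneg hτ

lemma dd_le {τ : ℝ} (hτ : 0 ≤ τ) {g h : Matrix (Fin 2) (Fin 2) ℂ} (hh : hᴴ * h = 1) :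
    dd g h ≤ ‖MM τ g h 1 0‖ + ss τ * ‖g 0 0‖ := by
  have h1 := norm_MM_sub hτ g h 1 0
  have h2 : ‖h 0 1‖ * ‖g 0 0‖ ≤ 1 * ‖g 0 0‖ :=
    mul_le_mul_of_nonneg_right (norm_le_one_of hh 0 1) (norm_nonneg _)
  have h3 : ss τ * (‖h 0 1‖ * ‖g 0 0‖) ≤ ss τ * (1 * ‖g 0 0‖) :=
    mul_le_mul_of_nonneg_left h2 (ss_nonneg hτ)
  have h4 : dd g h ≤ ‖(hᴴ * g) 1 0 - MM τ g h 1 0‖ + ‖MM τ g h 1 0‖ := by
    rw [dd]
    simpa using norm_add_le ((hᴴ * g) 1 0 - MM τ g h 1 0) (MM τ g h 1 0)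
  rw [h1] at h4
  linarith

lemma norm_h00_le {g h : Matrix (Fin 2) (Fin 2) ℂ} (hg : gᴴ * g = 1) (hh : hᴴ * h = 1) :
    ‖h 0 0‖ ≤ ‖g 0 0‖ + dd g h := by
  have hN := unitary_mul hg hh
  have e1 : h = g * (hᴴ * g)ᴴ := by
    have hg' : g * gᴴ = 1 := mul_eq_one_comm.1 hg
    rw [conjTranspose_mul, conjTranspose_conjTranspose, ← Matrix.mul_assoc, hg', Matrix.one_mul]
  have e2 : h 0 0 = g 0 0 * star ((hᴴ * g) 0 0) + g 0 1 * star ((hᴴ * g) 0 1) := by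
    conv_lhs => rw [e1]
    rw [Matrix.mul_apply, Fin.sum_univ_two, conjTranspose_apply, conjTranspose_apply]
  rw [e2]
  calc ‖g 0 0 * star ((hᴴ * g) 0 0) + g 0 1 * star ((hᴴ * g) 0 1)‖
      ≤ ‖g 0 0 * star ((hᴴ * g) 0 0)‖ + ‖g 0 1 * star ((hᴴ * g) 0 1)‖ := norm_add_le _ _
    _ = ‖g 0 0‖ * ‖(hᴴ * g) 0 0‖ + ‖g 0 1‖ * dd g h := by
        rw [norm_mul, norm_mul, norm_star, norm_star, dd_eq_01 hg hh]
    _ ≤ ‖g 0 0‖ * 1 + 1 * dd g h := by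
        gcongr
        · exact norm_le_one_of hN 0 0
        · exact dd_nonneg _ _
        · exact norm_le_one_of hg 0 1
    _ = _ := by ring

lemma norm_MM01_le {τ : ℝ} (hτ : 0 ≤ τ) {g h : Matrix (Fin 2) (Fin 2) ℂ} (hg : gᴴ * g = 1)
    (hh : hᴴ * h = 1) :
    ‖MM τ g h 0 1‖ ≤ 2 * ‖MM τ g h 1 0‖ + 3 * (ss τ * ‖g 0 0‖) := by
  have h1 := norm_MM_sub hτ g h 0 1
  have h4 : ‖MM τ g h 0 1‖ ≤ ‖(hᴴ * g) 0 1‖ + ‖(hᴴ * g) 0 1 - MM τ g h 0 1‖ := by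
    have := norm_sub_le ((hᴴ * g) 0 1) ((hᴴ * g) 0 1 - MM τ g h 0 1)
    simpa using this
  have h5 : ‖h 0 0‖ * ‖g 0 1‖ ≤ (‖g 0 0‖ + dd g h) * 1 :=
    mul_le_mul (norm_h00_le hg hh) (norm_le_one_of hg 0 1) (norm_nonneg _)
      (add_nonneg (norm_nonneg _) (dd_nonneg _ _))
  have h6 := dd_le hτ (g := g) hh
  have s0 := ss_nonneg hτ
  have s1 := ss_le_one τ
  have h7 : ss τ * (‖h 0 0‖ * ‖g 0 1‖) ≤ ss τ * ((‖g 0 0‖ + dd g h) * 1) :=
    mul_le_mul_of_nonneg_left h5 s0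
  have h8 : ss τ * dd g h ≤ 1 * dd g h := mul_le_mul_of_nonneg_right s1 (dd_nonneg _ _)
  rw [h1, dd_eq_01 hg hh] at h4
  nlinarith [norm_nonneg (g 0 0)]

lemma norm_MM11_le {τ : ℝ} (hτ : 0 ≤ τ) {g h : Matrix (Fin 2) (Fin 2) ℂ} (hg : gᴴ * g = 1)
    (hh : hᴴ * h = 1) (a b : Fin 2) : ‖MM τ g h a b‖ ≤ 1 := by
  have e : ‖((Real.exp (-τ) : ℝ) : ℂ)‖ ≤ 1 := by
    rw [Complex.norm_real, Real.norm_of_nonneg (Real.exp_pos _).le]
    exact Real.exp_le_one_iff.2 (by linarith)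
  have hc := col_norm hg b
  have hc' := col_norm hh a
  rw [MM_apply]
  calc _ ≤ ‖star (h 0 a) * ((Real.exp (-τ) : ℝ) : ℂ) * g 0 b‖ + ‖star (h 1 a) * g 1 b‖ :=
        norm_add_le _ _
    _ = ‖h 0 a‖ * ‖((Real.exp (-τ) : ℝ) : ℂ)‖ * ‖g 0 b‖ + ‖h 1 a‖ * ‖g 1 b‖ := by
        rw [norm_mul, norm_mul, norm_mul, norm_star, norm_star]
    _ ≤ ‖h 0 a‖ * 1 * ‖g 0 b‖ + ‖h 1 a‖ * ‖g 1 b‖ := by gcongr
    _ ≤ 1 := by nlinarith [sq_nonneg (‖h 0 a‖ - ‖g 0 b‖), sq_nonneg (‖h 1 a‖ - ‖g 1 b‖)]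

/-- the key decay: `|M₀₀|² ≤ 1 - s a - |M₁₀|²` -/
lemma norm_MM00_sq {τ : ℝ} (hτ : 0 ≤ τ) {g h : Matrix (Fin 2) (Fin 2) ℂ} (hg : gᴴ * g = 1)
    (hh : hᴴ * h = 1) :
    ‖MM τ g h 0 0‖ ^ 2 ≤ 1 - ss τ * ‖g 0 0‖ ^ 2 - ‖MM τ g h 1 0‖ ^ 2 := by
  have hh' : h * hᴴ = 1 := mul_eq_one_comm.1 hh
  -- the column `0` of `hᴴ T g`
  have key : (MM τ g h)ᴴ * MM τ g h = gᴴ * (dil τ)ᴴ * dil τ * g := by
    rw [MM, conjTranspose_mul, conjTranspose_mul, conjTranspose_conjTranspose]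
    calc gᴴ * ((dil τ)ᴴ * h) * (hᴴ * dil τ * g)
        = gᴴ * (dil τ)ᴴ * (h * hᴴ) * (dil τ * g) := by simp only [Matrix.mul_assoc]
      _ = _ := by rw [hh', Matrix.mul_one]; simp only [Matrix.mul_assoc]
  have k0 := congrFun (congrFun key 0) 0
  have k1 : ((MM τ g h)ᴴ * MM τ g h) 0 0 =
      ((‖MM τ g h 0 0‖ ^ 2 + ‖MM τ g h 1 0‖ ^ 2 : ℝ) : ℂ) := by
    simp only [Matrix.mul_apply, Fin.sum_univ_two, conjTranspose_apply, Complex.star_def]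
    rw [← Complex.normSq_eq_conj_mul_self, ← Complex.normSq_eq_conj_mul_self,
      Complex.normSq_eq_norm_sq, Complex.normSq_eq_norm_sq]
    push_cast; ring
  have k2 : (gᴴ * (dil τ)ᴴ * dil τ * g) 0 0 =
      ((Real.exp (-τ) ^ 2 * ‖g 0 0‖ ^ 2 + ‖g 1 0‖ ^ 2 : ℝ) : ℂ) := by
    have d2 : gᴴ * (dil τ)ᴴ * dil τ * g = (dil τ * g)ᴴ * (dil τ * g) := by
      rw [conjTranspose_mul]; simp only [Matrix.mul_assoc]
    have e0 : (dil τ * g) 0 0 = ((Real.exp (-τ) : ℝ) : ℂ) * g 0 0 := by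
      simp [dil, Matrix.diagonal_mul]
    have e1 : (dil τ * g) 1 0 = g 1 0 := by
      simp [dil, Matrix.diagonal_mul]
    rw [d2]
    simp only [Matrix.mul_apply (M := (dil τ * g)ᴴ), Fin.sum_univ_two, conjTranspose_apply,
      Complex.star_def]
    rw [← Complex.normSq_eq_conj_mul_self, ← Complex.normSq_eq_conj_mul_self,
      Complex.normSq_eq_norm_sq, Complex.normSq_eq_norm_sq, e0, e1, norm_mul, Complex.norm_real,
      Real.norm_of_nonneg (Real.exp_pos _).le]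
    push_cast; ring
  rw [k1, k2] at k0
  have k3 : ‖MM τ g h 0 0‖ ^ 2 + ‖MM τ g h 1 0‖ ^ 2 =
      Real.exp (-τ) ^ 2 * ‖g 0 0‖ ^ 2 + ‖g 1 0‖ ^ 2 := by exact_mod_cast k0
  have hc := col_norm hg 0
  have he : Real.exp (-τ) ≤ 1 := Real.exp_le_one_iff.2 (by linarith)
  have he0 := (Real.exp_pos (-τ)).le
  have : Real.exp (-τ) ^ 2 ≤ Real.exp (-τ) := by nlinarith
  rw [ss]
  nlinarith [sq_nonneg ‖g 0 0‖, mul_le_mul_of_nonneg_right this (sq_nonneg ‖g 0 0‖)]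


/-! ## decay of the low matrix elements -/

lemma pow_le_exp {Q : ℕ} {u y : ℝ} (hu : 0 ≤ u) (hu2 : u ^ 2 ≤ 1 - 2 * y) (hy0 : 0 ≤ y)
    (hy1 : y ≤ 1) (r : ℕ) (hr : r ≤ 2) :
    u ^ (Q - r) ≤ Real.exp 2 * Real.exp (-(Q * y)) := by
  have h1 : u ≤ Real.exp (-y) := by
    have h2 : u ^ 2 ≤ Real.exp (-y) ^ 2 := by
      rw [← Real.exp_nat_mul]
      have := Real.add_one_le_exp (((2 : ℕ) : ℝ) * -y)
      push_cast at this ⊢
      linarith
    exact (pow_le_pow_iff_left₀ hu (Real.exp_pos _).le two_ne_zero).1 h2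
  have h3 : u ^ (Q - r) ≤ Real.exp (-y) ^ (Q - r) := pow_le_pow_left₀ hu h1 _
  refine h3.trans ?_
  rw [← Real.exp_nat_mul, ← Real.exp_add]
  apply Real.exp_le_exp.2
  have h4 : (Q : ℝ) - 2 ≤ ((Q - r : ℕ) : ℝ) := by
    have : Q ≤ (Q - r) + 2 := by omega
    have h5 : (Q : ℝ) ≤ ((Q - r : ℕ) : ℝ) + 2 := by exact_mod_cast this
    linarith
  nlinarith

/-- abstract form of the four cases -/
lemma four_cases {Q : ℕ} (hQ : 1 ≤ Q) (M : Matrix (Fin 2) (Fin 2) ℂ) {E V : ℝ} (hE0 : 0 ≤ E)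
    (hpow : ∀ r ≤ 2, ‖M 0 0‖ ^ (Q - r) ≤ E) (h01 : Real.sqrt Q * ‖M 0 1‖ ≤ V) (h11 : ‖M 1 1‖ ≤ 1)
    (l k : Fin (Q + 1)) (hl : (l : ℕ) ≤ 1) (hk : (k : ℕ) ≤ 1) :
    ‖sp Q M l k‖ ≤ E * ((1 + Real.sqrt Q * ‖M 1 0‖) * (1 + V)) := by
  set q := Real.sqrt Q with hq
  have hq0 : 0 ≤ q := Real.sqrt_nonneg _
  have hqq : q * q = (Q : ℝ) := Real.mul_self_sqrt (Nat.cast_nonneg _)
  have hQ1 : (1 : ℝ) ≤ Q := by exact_mod_cast hQ
  have hX0 : 0 ≤ q * ‖M 1 0‖ := by positivity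
  have hV0 : 0 ≤ V := le_trans (by positivity) h01
  have hone : 1 + V * (q * ‖M 1 0‖) ≤ (1 + q * ‖M 1 0‖) * (1 + V) := by nlinarith
  have hone1 : 1 ≤ (1 + q * ‖M 1 0‖) * (1 + V) := by nlinarith [mul_nonneg hV0 hX0]
  have hone2 : V ≤ (1 + q * ‖M 1 0‖) * (1 + V) := by nlinarith [mul_nonneg hV0 hX0]
  have hone3 : q * ‖M 1 0‖ ≤ (1 + q * ‖M 1 0‖) * (1 + V) := by nlinarith [mul_nonneg hV0 hX0]
  have hle : ∀ n : ℕ, (n : ℕ) ≤ 1 → n = 0 ∨ n = 1 := by intro n hn; omega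
  rcases hle _ hl with hl' | hl' <;> rcases hle _ hk with hk' | hk'
  · rw [sp_00 Q _ l k hl' hk', norm_pow]
    have h1 := hpow 0 (by norm_num)
    simp only [Nat.sub_zero] at h1
    calc ‖M 0 0‖ ^ Q ≤ E * 1 := by rw [mul_one]; exact h1
      _ ≤ _ := mul_le_mul_of_nonneg_left hone1 hE0
  · rw [sp_01 Q _ l k hl' hk', norm_mul, norm_mul, norm_pow, Complex.norm_real,
      Real.norm_of_nonneg hq0]
    have h1 := hpow 1 (by norm_num)
    calc q * ‖M 0 0‖ ^ (Q - 1) * ‖M 0 1‖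
        = ‖M 0 0‖ ^ (Q - 1) * (q * ‖M 0 1‖) := by ring
      _ ≤ E * V := mul_le_mul h1 h01 (by positivity) hE0
      _ ≤ _ := mul_le_mul_of_nonneg_left hone2 hE0
  · rw [sp_10 Q _ l k hl' hk', norm_mul, norm_mul, norm_pow, Complex.norm_real,
      Real.norm_of_nonneg hq0]
    have h1 := hpow 1 (by norm_num)
    calc q * ‖M 0 0‖ ^ (Q - 1) * ‖M 1 0‖
        = ‖M 0 0‖ ^ (Q - 1) * (q * ‖M 1 0‖) := by ring
      _ ≤ E * (q * ‖M 1 0‖) := mul_le_mul_of_nonneg_right h1 hX0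
      _ ≤ _ := mul_le_mul_of_nonneg_left hone3 hE0
  · rw [sp_11 Q _ l k hl' hk']
    have h1 := hpow 1 (by norm_num)
    have h2 := hpow 2 le_rfl
    have h3 : ‖((Q : ℂ) - 1)‖ ≤ q * q := by
      rw [hqq]
      have : ((Q : ℂ) - 1) = (((Q : ℝ) - 1 : ℝ) : ℂ) := by push_cast; ring
      rw [this, Complex.norm_real, Real.norm_of_nonneg (by linarith)]
      linarith
    calc ‖M 0 0 ^ (Q - 1) * M 1 1 + ((Q : ℂ) - 1) * M 0 0 ^ (Q - 2) * M 0 1 * M 1 0‖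
        ≤ ‖M 0 0‖ ^ (Q - 1) * ‖M 1 1‖ +
          ‖((Q : ℂ) - 1)‖ * ‖M 0 0‖ ^ (Q - 2) * ‖M 0 1‖ * ‖M 1 0‖ := by
          refine (norm_add_le _ _).trans ?_
          rw [norm_mul, norm_mul, norm_mul, norm_mul, norm_pow, norm_pow]
      _ ≤ E * 1 + E * V * (q * ‖M 1 0‖) := by
          apply add_le_add
          · exact mul_le_mul h1 h11 (norm_nonneg _) hE0
          · calc ‖((Q : ℂ) - 1)‖ * ‖M 0 0‖ ^ (Q - 2) * ‖M 0 1‖ * ‖M 1 0‖
                ≤ (q * q) * ‖M 0 0‖ ^ (Q - 2) * ‖M 0 1‖ * ‖M 1 0‖ := by gcongr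
              _ = ‖M 0 0‖ ^ (Q - 2) * (q * ‖M 0 1‖) * (q * ‖M 1 0‖) := by ring
              _ ≤ E * V * (q * ‖M 1 0‖) := by gcongr
      _ = E * (1 + V * (q * ‖M 1 0‖)) := by ring
      _ ≤ _ := mul_le_mul_of_nonneg_left hone hE0

/-- master bound for the matrix elements between the orbitals `0, 1` -/
theorem elem_bound {Q : ℕ} (hQ : 1 ≤ Q) {τ : ℝ} (hτ : 0 ≤ τ) {g h : Matrix (Fin 2) (Fin 2) ℂ}
    (hg : gᴴ * g = 1) (hh : hᴴ * h = 1) (l k : Fin (Q + 1)) (hl : (l : ℕ) ≤ 1)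
    (hk : (k : ℕ) ≤ 1) :
    ‖sp Q (MM τ g h) l k‖ ≤ Real.exp 2 * Real.exp (-((ss τ * (Q * ‖g 0 0‖ ^ 2) +
        (Real.sqrt Q * ‖MM τ g h 1 0‖) ^ 2) / 2)) *
      ((1 + Real.sqrt Q * ‖MM τ g h 1 0‖) *
        (1 + (2 * (Real.sqrt Q * ‖MM τ g h 1 0‖) + 3 * (ss τ * (Real.sqrt Q * ‖g 0 0‖))))) := by
  have hM00 := norm_MM00_sq hτ hg hh
  have hM01 := norm_MM01_le hτ hg hh
  have hM11 := norm_MM11_le hτ hg hh 1 1
  have hx1 : ‖MM τ g h 1 0‖ ≤ 1 := norm_MM11_le hτ hg hh 1 0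
  have ha1 : ‖g 0 0‖ ≤ 1 := norm_le_one_of hg 0 0
  have hs0 : 0 ≤ ss τ := ss_nonneg hτ
  have hs1 : ss τ ≤ 1 := ss_le_one τ
  have hq0 : 0 ≤ Real.sqrt Q := Real.sqrt_nonneg _
  have hqq : Real.sqrt Q * Real.sqrt Q = (Q : ℝ) := Real.mul_self_sqrt (Nat.cast_nonneg _)
  have hx0 : 0 ≤ ‖MM τ g h 1 0‖ := norm_nonneg _
  have ha0 : 0 ≤ ‖g 0 0‖ := norm_nonneg _
  set y := (ss τ * ‖g 0 0‖ ^ 2 + ‖MM τ g h 1 0‖ ^ 2) / 2 with hy
  have hy0 : 0 ≤ y := by rw [hy]; positivity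
  have hy1 : y ≤ 1 := by
    have h0 : ‖g 0 0‖ ^ 2 ≤ 1 := pow_le_one₀ ha0 ha1
    have h1 : ss τ * ‖g 0 0‖ ^ 2 ≤ 1 * 1 := mul_le_mul hs1 h0 (sq_nonneg _) zero_le_one
    have h2 : ‖MM τ g h 1 0‖ ^ 2 ≤ 1 := pow_le_one₀ hx0 hx1
    rw [hy]; linarith
  have hu2 : ‖MM τ g h 0 0‖ ^ 2 ≤ 1 - 2 * y := by rw [hy]; linarith
  have hexp : (ss τ * (Q * ‖g 0 0‖ ^ 2) + (Real.sqrt Q * ‖MM τ g h 1 0‖) ^ 2) / 2 = Q * y := by
    rw [hy, mul_pow, sq (Real.sqrt Q), hqq]; ring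
  rw [hexp]
  refine four_cases hQ _ (by positivity) (fun r hr => pow_le_exp (norm_nonneg _) hu2 hy0 hy1 r hr)
    ?_ hM11 l k hl hk
  calc Real.sqrt Q * ‖MM τ g h 0 1‖
      ≤ Real.sqrt Q * (2 * ‖MM τ g h 1 0‖ + 3 * (ss τ * ‖g 0 0‖)) :=
        mul_le_mul_of_nonneg_left hM01 hq0
    _ = _ := by ring

/-- the constant -/
noncomputable def KK (μ : ℝ) : ℝ := Real.exp (2 + 3 / 2 * (μ + 3) ^ 2)

/-- decay with exponential weight; what is left is `exp (- s A / 4)`, `A = Q |g₀₀|²` -/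
theorem elem_decay {μ : ℝ} (hμ : 0 ≤ μ) {Q : ℕ} (hQ : 1 ≤ Q) {τ : ℝ} (hτ : 0 ≤ τ)
    {g h : Matrix (Fin 2) (Fin 2) ℂ} (hg : gᴴ * g = 1) (hh : hᴴ * h = 1) (l k : Fin (Q + 1))
    (hl : (l : ℕ) ≤ 1) (hk : (k : ℕ) ≤ 1) :
    ‖sp Q (MM τ g h) l k‖ * Real.exp (μ * (Real.sqrt Q * dd g h)) ≤
      KK μ * Real.exp (-(ss τ * (Q * ‖g 0 0‖ ^ 2) / 4)) := by
  have hb := elem_bound hQ hτ hg hh l k hl hk
  have hd := dd_le hτ (g := g) hh
  set x := ‖MM τ g h 1 0‖ with hx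
  set a := ‖g 0 0‖ with ha
  set s := ss τ with hs
  set q := Real.sqrt Q with hq
  have hq0 : 0 ≤ q := Real.sqrt_nonneg _
  have hqq : q * q = (Q : ℝ) := Real.mul_self_sqrt (Nat.cast_nonneg _)
  have hx0 : 0 ≤ x := norm_nonneg _
  have ha0 : 0 ≤ a := norm_nonneg _
  have hs0 : 0 ≤ s := ss_nonneg hτ
  have hs1 : s ≤ 1 := ss_le_one τ
  have hA : (Q : ℝ) * a ^ 2 = (q * a) ^ 2 := by rw [mul_pow, sq q, hqq]
  set X := q * x with hX
  set B := q * a with hB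
  have hX0 : 0 ≤ X := by positivity
  have hB0 : 0 ≤ B := by positivity
  rw [hA] at hb ⊢
  have h1 : 1 + X ≤ Real.exp X := by have := Real.add_one_le_exp X; linarith
  have h2 : 1 + (2 * X + 3 * (s * B)) ≤ Real.exp (2 * X + 3 * (s * B)) := by
    have := Real.add_one_le_exp (2 * X + 3 * (s * B)); linarith
  have h3 : μ * (q * dd g h) ≤ μ * (X + s * B) := by
    apply mul_le_mul_of_nonneg_left _ hμ
    rw [hX, hB]
    nlinarith
  calc ‖sp Q (MM τ g h) l k‖ * Real.exp (μ * (q * dd g h))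
      ≤ (Real.exp 2 * Real.exp (-((s * B ^ 2 + X ^ 2) / 2)) *
          (Real.exp X * Real.exp (2 * X + 3 * (s * B)))) * Real.exp (μ * (X + s * B)) := by
        apply mul_le_mul _ (Real.exp_le_exp.2 h3) (Real.exp_pos _).le (by positivity)
        refine hb.trans ?_
        apply mul_le_mul_of_nonneg_left _ (by positivity)
        exact mul_le_mul h1 h2 (by positivity) (Real.exp_pos _).le
    _ = Real.exp (2 + -((s * B ^ 2 + X ^ 2) / 2) + (X + (2 * X + 3 * (s * B))) +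
          μ * (X + s * B)) := by
        simp only [Real.exp_add]
    _ ≤ Real.exp ((2 + 3 / 2 * (μ + 3) ^ 2) + -(s * B ^ 2 / 4)) := by
        apply Real.exp_le_exp.2
        have e1 : (μ + 3) * X - X ^ 2 / 2 ≤ (μ + 3) ^ 2 / 2 := by
          nlinarith [sq_nonneg (X - (μ + 3))]
        have e2 : s * ((μ + 3) * B - B ^ 2 / 4) ≤ 1 * (μ + 3) ^ 2 := by
          have e3 : (μ + 3) * B - B ^ 2 / 4 ≤ (μ + 3) ^ 2 := by
            nlinarith [sq_nonneg (B / 2 - (μ + 3))]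
          calc s * ((μ + 3) * B - B ^ 2 / 4) ≤ s * (μ + 3) ^ 2 :=
                mul_le_mul_of_nonneg_left e3 hs0
            _ ≤ 1 * (μ + 3) ^ 2 := mul_le_mul_of_nonneg_right hs1 (sq_nonneg _)
        nlinarith
    _ = _ := by rw [Real.exp_add, KK]

end Crest.Agent.R340.Geo927
end

-- ▼ part R340/Geo2_927
section

set_option autoImplicit false

/-!
# Row 340 (O1): the radial weights as positive mixtures of dilations (helper927)
-/

namespace Crest.Agent.R340.Geo927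

open Matrix Finset MeasureTheory Crest.Agent.R340.CS809

/-- the weight `D_i^{-1} = ∏_{k<3} (i+k+1)^{-t_k}`, `i = Q - j` -/
noncomputable def Gt (t : Fin 3 → ℝ) (i : ℝ) : ℝ := ∏ k : Fin 3, (i + (k : ℕ) + 1) ^ (-(t k))

/-- `m` represents `G` as a positive mixture of the exponentials `e^{-τ i}` -/
structure Mix (m : Measure ℝ) (G : ℝ → ℝ) : Prop where
  fin : IsFiniteMeasure m
  supp : ∀ᵐ τ ∂m, 0 ≤ τ
  rep : ∀ i : ℝ, 0 ≤ i → ∫ τ, Real.exp (-(τ * i)) ∂m = G i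

lemma Mix.integrable {m : Measure ℝ} {G : ℝ → ℝ} (h : Mix m G) {i : ℝ} (hi : 0 ≤ i) :
    Integrable (fun τ => Real.exp (-(τ * i))) m := by
  have := h.fin
  refine Integrable.mono' (integrable_const (1 : ℝ)) (by fun_prop) ?_
  filter_upwards [h.supp] with τ hτ
  rw [Real.norm_of_nonneg (Real.exp_pos _).le]
  exact Real.exp_le_one_iff.2 (by nlinarith [mul_nonneg hτ hi])

lemma mix_dirac : Mix (Measure.dirac 0) (fun _ => 1) where
  fin := inferInstance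
  supp := by rw [ae_dirac_eq]; simp
  rep := by intro i _; simp

lemma mix_gamma {c t : ℝ} (hc : 0 < c) (ht : 0 < t) :
    ∃ m, Mix m (fun i => (i + c) ^ (-t)) := by
  set f : ℝ → ℝ := fun τ => τ ^ (t - 1) * Real.exp (-(c * τ)) / Real.Gamma t with hf
  have hΓ : 0 < Real.Gamma t := Real.Gamma_pos_of_pos ht
  have hf0 : ∀ τ ∈ Set.Ioi (0 : ℝ), 0 ≤ f τ := fun τ hτ => by
    have : 0 < τ := hτ
    positivity
  have hfm : Measurable f := by rw [hf]; fun_prop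
  have hint : IntegrableOn f (Set.Ioi 0) := by
    have h := integrableOn_rpow_mul_exp_neg_mul_rpow (s := t - 1) (p := 1) (b := c) (by linarith)
      one_pos hc
    have h2 : IntegrableOn (fun x : ℝ => x ^ (t - 1) * Real.exp (-c * x ^ (1 : ℝ)) / Real.Gamma t)
      (Set.Ioi 0) := Integrable.div_const h (Real.Gamma t)
    refine h2.congr_fun ?_ measurableSet_Ioi
    intro τ _
    simp [hf]
  set m : Measure ℝ := (volume.restrict (Set.Ioi 0)).withDensity (fun τ => ENNReal.ofReal (f τ))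
    with hm
  have hrep : ∀ i : ℝ, 0 ≤ i → ∫ τ, Real.exp (-(τ * i)) ∂m = (i + c) ^ (-t) := by
    intro i hi
    rw [hm, integral_withDensity_eq_integral_toReal_smul (by fun_prop)
      (Filter.Eventually.of_forall fun τ => ENNReal.ofReal_lt_top)]
    have hr : 0 < i + c := by linarith
    have h1 := Real.integral_rpow_mul_exp_neg_mul_Ioi ht hr
    have h2 : ∫ τ in Set.Ioi (0 : ℝ), (ENNReal.ofReal (f τ)).toReal • Real.exp (-(τ * i)) =
        ∫ τ in Set.Ioi (0 : ℝ), (Real.Gamma t)⁻¹ * (τ ^ (t - 1) * Real.exp (-((i + c) * τ))) := by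
      refine setIntegral_congr_fun measurableSet_Ioi ?_
      intro τ hτ
      simp only [smul_eq_mul]
      rw [ENNReal.toReal_ofReal (hf0 τ hτ), hf]
      have : Real.exp (-((i + c) * τ)) = Real.exp (-(c * τ)) * Real.exp (-(τ * i)) := by
        rw [← Real.exp_add]; congr 1; ring
      simp only [this]
      field_simp
    rw [h2, integral_const_mul, h1, one_div, Real.inv_rpow hr.le, Real.rpow_neg hr.le]
    field_simp
  refine ⟨m, ⟨?_, ?_, hrep⟩⟩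
  · rw [hm]
    exact isFiniteMeasure_withDensity_ofReal hint.2
  · rw [hm]
    refine (withDensity_absolutelyContinuous _ _).ae_le ?_
    filter_upwards [ae_restrict_mem measurableSet_Ioi] with τ hτ
    exact le_of_lt hτ

lemma mix_factor {c t : ℝ} (hc : 0 < c) (ht : 0 ≤ t) :
    ∃ m, Mix m (fun i => (i + c) ^ (-t)) := by
  rcases ht.eq_or_lt with rfl | ht
  · refine ⟨Measure.dirac 0, ?_⟩
    have := mix_dirac
    simpa using this
  · exact mix_gamma hc ht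

lemma Mix.mul {m₁ m₂ : Measure ℝ} {G₁ G₂ : ℝ → ℝ} (h₁ : Mix m₁ G₁) (h₂ : Mix m₂ G₂) :
    ∃ m, Mix m (fun i => G₁ i * G₂ i) := by
  have := h₁.fin
  have := h₂.fin
  have hmeas : Measurable fun p : ℝ × ℝ => p.1 + p.2 := by fun_prop
  refine ⟨(m₁.prod m₂).map (fun p => p.1 + p.2), ⟨?_, ?_, ?_⟩⟩
  · infer_instance
  · refine (ae_map_iff hmeas.aemeasurable measurableSet_Ici).2 ?_
    have a1 : ∀ᵐ p ∂(m₁.prod m₂), 0 ≤ p.1 :=
      Measure.quasiMeasurePreserving_fst.ae h₁.supp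
    have a2 : ∀ᵐ p ∂(m₁.prod m₂), 0 ≤ p.2 :=
      Measure.quasiMeasurePreserving_snd.ae h₂.supp
    filter_upwards [a1, a2] with p h1 h2
    exact add_nonneg h1 h2
  · intro i hi
    rw [integral_map hmeas.aemeasurable (by fun_prop), ← h₁.rep i hi, ← h₂.rep i hi,
      ← integral_prod_mul]
    refine integral_congr_ae (Filter.Eventually.of_forall fun p => ?_)
    simp only
    rw [← Real.exp_add]
    congr 1
    ring

theorem exists_mix (t : Fin 3 → ℝ) (ht : ∀ k, 0 ≤ t k) : ∃ m, Mix m (Gt t) := by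
  obtain ⟨m0, h0⟩ := mix_factor (c := ((0 : ℕ) : ℝ) + 1) (by positivity) (ht 0)
  obtain ⟨m1, h1⟩ := mix_factor (c := ((1 : ℕ) : ℝ) + 1) (by positivity) (ht 1)
  obtain ⟨m2, h2⟩ := mix_factor (c := ((2 : ℕ) : ℝ) + 1) (by positivity) (ht 2)
  obtain ⟨m01, h01⟩ := h0.mul h1
  obtain ⟨m, h⟩ := h01.mul h2
  refine ⟨m, ?_⟩
  have e : (fun i : ℝ => Gt t i) = fun i : ℝ => (i + (((0 : ℕ) : ℝ) + 1)) ^ (-(t 0)) *
      (i + (((1 : ℕ) : ℝ) + 1)) ^ (-(t 1)) * (i + (((2 : ℕ) : ℝ) + 1)) ^ (-(t 2)) := by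
    funext i
    rw [Gt, Fin.prod_univ_three]
    simp only [Fin.val_zero, Fin.val_one, Fin.val_two, ← add_assoc]
  change Mix m (fun i => Gt t i)
  rw [e]
  exact h


/-! ## bounds for the mixture -/

lemma Gt_nonneg (t : Fin 3 → ℝ) {i : ℝ} (hi : 0 ≤ i) : 0 ≤ Gt t i :=
  prod_nonneg fun k _ => Real.rpow_nonneg (by positivity) _


lemma Gt_le (t : Fin 3 → ℝ) (ht : ∀ k, 0 ≤ t k) {i : ℝ} (hi : 0 ≤ i) :
    Gt t i ≤ (1 + i) ^ (-∑ k, t k) := by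
  have h1 : (0 : ℝ) < 1 + i := by linarith
  have : (1 + i) ^ (-∑ k, t k) = ∏ k : Fin 3, (1 + i) ^ (-(t k)) := by
    rw [← Real.rpow_sum_of_pos h1, Finset.sum_neg_distrib]
  rw [this, Gt]
  refine prod_le_prod (fun k _ => Real.rpow_nonneg (by positivity) _) fun k _ => ?_
  apply Real.rpow_le_rpow_of_nonpos h1
  · have : (0 : ℝ) ≤ (k : ℕ) := Nat.cast_nonneg _
    linarith
  · have := ht k; linarith

lemma ss_ge_left {τ : ℝ} (h0 : 0 ≤ τ) (h1 : τ ≤ 1) : τ / 2 ≤ ss τ := by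
  have h2 : (1 + τ) * Real.exp (-τ) ≤ 1 := by
    have := Real.add_one_le_exp τ
    have h3 : (1 + τ) * Real.exp (-τ) ≤ Real.exp τ * Real.exp (-τ) :=
      mul_le_mul_of_nonneg_right (by linarith) (Real.exp_pos _).le
    rwa [← Real.exp_add, add_neg_cancel, Real.exp_zero] at h3
  have h4 : (1 + τ) * (1 - τ / 2) ≥ 1 := by nlinarith
  have h5 : Real.exp (-τ) ≤ 1 - τ / 2 := by
    by_contra hcon
    push Not at hcon
    nlinarith
  rw [ss]; linarith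

lemma ss_ge_right {τ : ℝ} (h1 : 1 ≤ τ) : 1 / 2 ≤ ss τ := by
  have h2 := ss_ge_left (τ := 1) zero_le_one le_rfl
  have h3 : Real.exp (-τ) ≤ Real.exp (-1) := Real.exp_le_exp.2 (by linarith)
  rw [ss] at *
  linarith

lemma exp_ss_le {τ A : ℝ} (h0 : 0 ≤ τ) (hA : 0 ≤ A) :
    Real.exp (-(ss τ * A / 4)) ≤ Real.exp (-(τ * (A / 8))) + Real.exp (-(A / 8)) := by
  rcases le_total τ 1 with h | h
  · have := ss_ge_left h0 h
    have h2 : Real.exp (-(ss τ * A / 4)) ≤ Real.exp (-(τ * (A / 8))) := by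
      apply Real.exp_le_exp.2
      nlinarith
    linarith [Real.exp_pos (-(A / 8))]
  · have := ss_ge_right h
    have h2 : Real.exp (-(ss τ * A / 4)) ≤ Real.exp (-(A / 8)) := by
      apply Real.exp_le_exp.2
      nlinarith
    linarith [Real.exp_pos (-(τ * (A / 8)))]

/-- the numerical constant of the mixture bound -/
noncomputable def KG : ℝ := 8 ^ 3 + 24 ^ 3 * Real.exp (1 / 8)

lemma KG_pos : 0 < KG := by rw [KG]; positivity

lemma weight_bound (t : Fin 3 → ℝ) (ht : ∀ k, 0 ≤ t k) (ht1 : ∀ k, t k ≤ 1) {A : ℝ} (hA : 0 ≤ A) :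
    (1 + A) ^ (∑ k, t k) * (Gt t (A / 8) + Real.exp (-(A / 8)) * Gt t 0) ≤ KG := by
  set S := ∑ k, t k with hS
  have hS0 : 0 ≤ S := sum_nonneg fun k _ => ht k
  have hS3 : S ≤ 3 := by
    rw [hS, Fin.sum_univ_three]; linarith [ht1 0, ht1 1, ht1 2]
  have hA1 : (0 : ℝ) < 1 + A := by linarith
  have h1 : (1 + A) ^ S * Gt t (A / 8) ≤ 8 ^ 3 := by
    have h2 := Gt_le t ht (i := A / 8) (by positivity)
    have h3 : (1 + A / 8) ^ (-S) ≤ ((1 + A) / 8) ^ (-S) := by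
      apply Real.rpow_le_rpow_of_nonpos (by positivity) (by linarith) (by linarith)
    have h4 : ((1 + A) / 8) ^ (-S) = (8 : ℝ) ^ S * (1 + A) ^ (-S) := by
      rw [Real.div_rpow hA1.le (by norm_num), Real.rpow_neg (by norm_num : (0 : ℝ) ≤ 8), div_inv_eq_mul,
        mul_comm]
    have h5 : (8 : ℝ) ^ S ≤ 8 ^ 3 := by
      have := Real.rpow_le_rpow_of_exponent_le (by norm_num : (1 : ℝ) ≤ 8) hS3
      have h6 : (8 : ℝ) ^ (3 : ℝ) = 8 ^ 3 := by norm_num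
      rwa [h6] at this
    calc (1 + A) ^ S * Gt t (A / 8) ≤ (1 + A) ^ S * ((8 : ℝ) ^ S * (1 + A) ^ (-S)) := by
          apply mul_le_mul_of_nonneg_left _ (Real.rpow_nonneg hA1.le _)
          exact h2.trans (h3.trans h4.le)
      _ = (8 : ℝ) ^ S * ((1 + A) ^ S * (1 + A) ^ (-S)) := by ring
      _ = (8 : ℝ) ^ S := by
          rw [← Real.rpow_add hA1]; simp
      _ ≤ 8 ^ 3 := h5
  have h2 : (1 + A) ^ S * (Real.exp (-(A / 8)) * Gt t 0) ≤ 24 ^ 3 * Real.exp (1 / 8) := by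
    have g0 : Gt t 0 ≤ 1 := by
      have := Gt_le t ht (i := 0) le_rfl
      simpa using this
    have g1 : (1 + A) ^ S ≤ (1 + A) ^ 3 := by
      have := Real.rpow_le_rpow_of_exponent_le (by linarith : (1 : ℝ) ≤ 1 + A) hS3
      have h6 : (1 + A) ^ (3 : ℝ) = (1 + A) ^ 3 := by
        have := Real.rpow_natCast (1 + A) 3
        exact_mod_cast this
      rwa [h6] at this
    have g2 : 1 + A ≤ 24 * Real.exp ((1 + A) / 24) := by
      have := Real.add_one_le_exp ((1 + A) / 24)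
      nlinarith
    have g3 : (1 + A) ^ 3 ≤ 24 ^ 3 * Real.exp ((1 + A) / 8) := by
      have := pow_le_pow_left₀ hA1.le g2 3
      rw [mul_pow, ← Real.exp_nat_mul] at this
      refine this.trans (le_of_eq ?_)
      congr 2
      push_cast
      ring
    calc (1 + A) ^ S * (Real.exp (-(A / 8)) * Gt t 0)
        ≤ (24 ^ 3 * Real.exp ((1 + A) / 8)) * (Real.exp (-(A / 8)) * 1) := by
          apply mul_le_mul (g1.trans g3) _ (mul_nonneg (Real.exp_pos _).le (Gt_nonneg t le_rfl))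
            (by positivity)
          exact mul_le_mul_of_nonneg_left g0 (Real.exp_pos _).le
      _ = 24 ^ 3 * (Real.exp ((1 + A) / 8) * Real.exp (-(A / 8))) := by ring
      _ = 24 ^ 3 * Real.exp (1 / 8) := by
          rw [← Real.exp_add]; congr 2; ring
  rw [mul_add, KG]
  linarith

/-- integrated decay -/
theorem Mix.decay {m : Measure ℝ} {t : Fin 3 → ℝ} (h : Mix m (Gt t)) (ht : ∀ k, 0 ≤ t k)
    (ht1 : ∀ k, t k ≤ 1) {A : ℝ} (hA : 0 ≤ A) :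
    Integrable (fun τ => Real.exp (-(ss τ * A / 4))) m ∧
    (1 + A) ^ (∑ k, t k) * ∫ τ, Real.exp (-(ss τ * A / 4)) ∂m ≤ KG := by
  have := h.fin
  have hA8 : 0 ≤ A / 8 := by positivity
  have i1 := h.integrable hA8
  have i0 : Integrable (fun _ : ℝ => Real.exp (-(A / 8))) m := integrable_const _
  have hmeas : Measurable fun τ => Real.exp (-(ss τ * A / 4)) := by
    unfold ss; fun_prop
  have hbd : ∀ᵐ τ ∂m, Real.exp (-(ss τ * A / 4)) ≤
      Real.exp (-(τ * (A / 8))) + Real.exp (-(A / 8)) := by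
    filter_upwards [h.supp] with τ hτ
    exact exp_ss_le hτ hA
  have hi : Integrable (fun τ => Real.exp (-(ss τ * A / 4))) m := by
    refine Integrable.mono' (i1.add i0) hmeas.aestronglyMeasurable ?_
    filter_upwards [hbd] with τ hτ
    rw [Real.norm_of_nonneg (Real.exp_pos _).le]
    exact hτ
  refine ⟨hi, ?_⟩
  have h0 : ∫ _τ : ℝ, Real.exp (-(A / 8)) ∂m = Real.exp (-(A / 8)) * Gt t 0 := by
    have := h.rep 0 le_rfl
    simp only [mul_zero, neg_zero, Real.exp_zero, integral_const, smul_eq_mul, mul_one] at this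
    rw [integral_const, smul_eq_mul, this, mul_comm]
  have h1 : ∫ τ, Real.exp (-(ss τ * A / 4)) ∂m ≤ Gt t (A / 8) + Real.exp (-(A / 8)) * Gt t 0 := by
    calc ∫ τ, Real.exp (-(ss τ * A / 4)) ∂m
        ≤ ∫ τ, (Real.exp (-(τ * (A / 8))) + Real.exp (-(A / 8))) ∂m :=
          integral_mono_ae hi (i1.add i0) hbd
      _ = _ := by rw [integral_add i1 i0, h.rep _ hA8, h0]
  exact (mul_le_mul_of_nonneg_left h1 (Real.rpow_nonneg (by linarith) _)).trans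
    (weight_bound t ht ht1 hA)

end Crest.Agent.R340.Geo927
end

-- ▼ part R340/Geo3_927

set_option autoImplicit false

/-!
# Row 340 (O1): locality of the coherent vectors in the geometry `θ` (helper927)

`uu Q g k` is the `k`-th vector of the frame at `g`, `vv t Q g k` its image under the inverse
weight, normalised.  `overlap_exp`, `overlap_poly`: all overlaps decay, uniformly in
`Q ≥ 1`, `t ∈ [0,1]^3` and `g, h`.
-/

namespace Crest.Agent.R340.Geo927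

open Matrix Finset MeasureTheory Crest.Agent.R340.CS809

/-- frame vector number `k` at `g` -/
noncomputable def uu (Q : ℕ) (g : Matrix (Fin 2) (Fin 2) ℂ) (k : Fin (Q + 1)) :
    Fin (Q + 1) → ℂ := fun j => sp Q g j k

/-- the frame vector multiplied by the inverse weight -/
noncomputable def wv (t : Fin 3 → ℝ) (Q : ℕ) (g : Matrix (Fin 2) (Fin 2) ℂ) (k : Fin (Q + 1)) :
    Fin (Q + 1) → ℂ := fun j => ((Gt t ((Q : ℝ) - (j : ℕ)) : ℝ) : ℂ) * sp Q g j k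

/-- the normalisation `(1 + i(z))^{t_0+t_1+t_2}`, `i(z) = Q |g₀₀|²` -/
noncomputable def nz (t : Fin 3 → ℝ) (Q : ℕ) (g : Matrix (Fin 2) (Fin 2) ℂ) : ℝ :=
  (1 + Q * ‖g 0 0‖ ^ 2) ^ (∑ k, t k)

/-- the normalised dilated frame vector -/
noncomputable def vv (t : Fin 3 → ℝ) (Q : ℕ) (g : Matrix (Fin 2) (Fin 2) ℂ) (k : Fin (Q + 1)) :
    Fin (Q + 1) → ℂ := fun j => ((nz t Q g : ℝ) : ℂ) * wv t Q g k j

lemma nz_pos (t : Fin 3 → ℝ) (Q : ℕ) (g : Matrix (Fin 2) (Fin 2) ℂ) : 0 < nz t Q g :=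
  Real.rpow_pos_of_pos (by positivity) _

lemma sp_MM (Q : ℕ) (τ : ℝ) (g h : Matrix (Fin 2) (Fin 2) ℂ) (l k : Fin (Q + 1)) :
    sp Q (MM τ g h) l k = ∑ j : Fin (Q + 1), star (sp Q h j l) *
      (((Real.exp (-(τ * ((Q : ℝ) - (j : ℕ)))) : ℝ) : ℂ) * sp Q g j k) := by
  rw [MM, sp_mul, sp_mul, ← sp_conjTranspose, sp_dil, Matrix.mul_assoc, Matrix.mul_apply]
  refine sum_congr rfl fun j _ => ?_
  rw [conjTranspose_apply, diagonal_mul]

theorem overlap_eq {t : Fin 3 → ℝ} {m : Measure ℝ} (hm : Mix m (Gt t)) (Q : ℕ)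
    (g h : Matrix (Fin 2) (Fin 2) ℂ) (l k : Fin (Q + 1)) :
    star (uu Q h l) ⬝ᵥ wv t Q g k = ∫ τ, sp Q (MM τ g h) l k ∂m := by
  have hj : ∀ j : Fin (Q + 1), (0 : ℝ) ≤ (Q : ℝ) - (j : ℕ) := fun j => by
    have : ((j : ℕ) : ℝ) ≤ Q := by exact_mod_cast Nat.lt_succ_iff.1 j.2
    linarith
  simp only [sp_MM]
  rw [integral_finsetSum]
  · rw [dotProduct]
    refine sum_congr rfl fun j _ => ?_
    rw [integral_const_mul, integral_mul_const]
    have e1 : ∫ τ : ℝ, ((Real.exp (-(τ * ((Q : ℝ) - (j : ℕ)))) : ℝ) : ℂ) ∂m =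
        ((Gt t ((Q : ℝ) - (j : ℕ)) : ℝ) : ℂ) := by
      rw [← hm.rep _ (hj j)]
      exact integral_ofReal
    rw [e1]
    rfl
  · intro j _
    exact (((hm.integrable (hj j)).ofReal).mul_const _).const_mul _

/-- the overlap, with an exponential weight -/
theorem overlap_exp {μ : ℝ} (hμ : 0 ≤ μ) {Q : ℕ} (hQ : 1 ≤ Q) {t : Fin 3 → ℝ}
    (ht : ∀ k, 0 ≤ t k) (ht1 : ∀ k, t k ≤ 1) {g h : Matrix (Fin 2) (Fin 2) ℂ}
    (hg : gᴴ * g = 1) (hh : hᴴ * h = 1) (l k : Fin (Q + 1)) (hl : (l : ℕ) ≤ 1)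
    (hk : (k : ℕ) ≤ 1) :
    ‖star (uu Q h l) ⬝ᵥ vv t Q g k‖ * Real.exp (μ * (Real.sqrt Q * dd g h)) ≤ KK μ * KG := by
  obtain ⟨m, hm⟩ := exists_mix t ht
  set A : ℝ := Q * ‖g 0 0‖ ^ 2 with hA
  have hA0 : 0 ≤ A := by positivity
  obtain ⟨hi, hd⟩ := hm.decay ht ht1 hA0
  set e := Real.exp (μ * (Real.sqrt Q * dd g h)) with he
  have he0 : 0 < e := Real.exp_pos _
  have h1 : ‖star (uu Q h l) ⬝ᵥ wv t Q g k‖ * e ≤
      KK μ * ∫ τ, Real.exp (-(ss τ * A / 4)) ∂m := by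
    rw [overlap_eq hm]
    have h2 : ‖∫ τ, sp Q (MM τ g h) l k ∂m‖ ≤
        ∫ τ, (KK μ * e⁻¹) * Real.exp (-(ss τ * A / 4)) ∂m := by
      apply norm_integral_le_of_norm_le (hi.const_mul _)
      filter_upwards [hm.supp] with τ hτ
      have := elem_decay hμ hQ hτ hg hh l k hl hk
      rw [← he, ← hA] at this
      rw [mul_right_comm, ← div_eq_mul_inv, le_div_iff₀ he0]
      exact this
    rw [integral_const_mul] at h2
    calc ‖∫ τ, sp Q (MM τ g h) l k ∂m‖ * e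
        ≤ ((KK μ * e⁻¹) * ∫ τ, Real.exp (-(ss τ * A / 4)) ∂m) * e :=
          mul_le_mul_of_nonneg_right h2 he0.le
      _ = (KK μ * ∫ τ, Real.exp (-(ss τ * A / 4)) ∂m) * (e⁻¹ * e) := by ring
      _ = _ := by rw [inv_mul_cancel₀ he0.ne', mul_one]
  have h3 : star (uu Q h l) ⬝ᵥ vv t Q g k =
      ((nz t Q g : ℝ) : ℂ) * (star (uu Q h l) ⬝ᵥ wv t Q g k) := by
    have : vv t Q g k = ((nz t Q g : ℝ) : ℂ) • wv t Q g k := rfl
    rw [this, dotProduct_smul, smul_eq_mul]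
  rw [h3, norm_mul, Complex.norm_real, Real.norm_of_nonneg (nz_pos t Q g).le]
  have hK : 0 ≤ KK μ := (Real.exp_pos _).le
  calc nz t Q g * ‖star (uu Q h l) ⬝ᵥ wv t Q g k‖ * e
      = nz t Q g * (‖star (uu Q h l) ⬝ᵥ wv t Q g k‖ * e) := by ring
    _ ≤ nz t Q g * (KK μ * ∫ τ, Real.exp (-(ss τ * A / 4)) ∂m) :=
        mul_le_mul_of_nonneg_left h1 (nz_pos t Q g).le
    _ = KK μ * (nz t Q g * ∫ τ, Real.exp (-(ss τ * A / 4)) ∂m) := by ring
    _ ≤ KK μ * KG := mul_le_mul_of_nonneg_left hd hK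


/-- the norm of the normalised dilated frame vector -/
theorem norm_vv_sq_le {Q : ℕ} (hQ : 1 ≤ Q) {t : Fin 3 → ℝ} (ht : ∀ k, 0 ≤ t k)
    (ht1 : ∀ k, t k ≤ 1 / 2) {g : Matrix (Fin 2) (Fin 2) ℂ} (hg : gᴴ * g = 1)
    (k : Fin (Q + 1)) (hk : (k : ℕ) ≤ 1) : ∑ j, ‖vv t Q g k j‖ ^ 2 ≤ KK 0 * KG := by
  have h2 : ∀ k, 0 ≤ 2 * t k := fun k => by have := ht k; positivity
  have h3 : ∀ k, 2 * t k ≤ 1 := fun k => by have := ht1 k; linarith
  have h1 := overlap_exp (μ := 0) le_rfl hQ (t := fun k => 2 * t k) h2 h3 hg hg k k hk hk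
  simp only [zero_mul, Real.exp_zero, mul_one] at h1
  refine le_trans (le_of_eq ?_) h1
  have hGt : ∀ i : ℝ, 0 ≤ i → Gt (fun k => 2 * t k) i = Gt t i ^ 2 := by
    intro i hi
    rw [Gt, Gt, ← prod_pow]
    refine prod_congr rfl fun k _ => ?_
    rw [← Real.rpow_natCast, ← Real.rpow_mul (by positivity)]
    congr 1
    push_cast
    ring
  have hnz : nz (fun k => 2 * t k) Q g = nz t Q g ^ 2 := by
    have hb : (0 : ℝ) ≤ 1 + Q * ‖g 0 0‖ ^ 2 := by positivity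
    rw [nz, nz, ← mul_sum]
    generalize (1 + (Q : ℝ) * ‖g 0 0‖ ^ 2) = b at hb
    rw [← Real.rpow_natCast, ← Real.rpow_mul hb]
    congr 1
    push_cast
    ring
  have hval : star (uu Q g k) ⬝ᵥ vv (fun k => 2 * t k) Q g k =
      ((∑ j, ‖vv t Q g k j‖ ^ 2 : ℝ) : ℂ) := by
    rw [dotProduct, Complex.ofReal_sum]
    refine sum_congr rfl fun j _ => ?_
    have hj : (0 : ℝ) ≤ (Q : ℝ) - (j : ℕ) := by
      have : ((j : ℕ) : ℝ) ≤ Q := by exact_mod_cast Nat.lt_succ_iff.1 j.2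
      linarith
    have e1 : ‖vv t Q g k j‖ ^ 2 =
        nz t Q g ^ 2 * (Gt t ((Q : ℝ) - (j : ℕ)) ^ 2 * ‖sp Q g j k‖ ^ 2) := by
      simp only [vv, wv]
      rw [norm_mul, norm_mul, Complex.norm_real, Complex.norm_real, mul_pow, mul_pow,
        Real.norm_eq_abs, Real.norm_eq_abs, sq_abs, sq_abs]
    have e2 : ((‖sp Q g j k‖ ^ 2 : ℝ) : ℂ) = star (sp Q g j k) * sp Q g j k := by
      rw [← Complex.normSq_eq_norm_sq, Complex.normSq_eq_conj_mul_self, Complex.star_def]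
    rw [e1, Complex.ofReal_mul, Complex.ofReal_mul, e2]
    simp only [vv, wv, uu, Pi.star_apply, hnz, hGt _ hj]
    push_cast
    ring
  rw [hval, Complex.norm_real, Real.norm_of_nonneg (sum_nonneg fun j _ => sq_nonneg _)]

/-! ## continuity in `g` -/

lemma continuous_uu (Q : ℕ) (k : Fin (Q + 1)) :
    Continuous fun g : Matrix (Fin 2) (Fin 2) ℂ => uu Q g k := by
  refine continuous_pi fun j => ?_
  exact (continuous_apply k).comp ((continuous_apply j).comp (Rot303.continuous_sp Q))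

lemma continuous_nz {t : Fin 3 → ℝ} (Q : ℕ) :
    Continuous fun g : Matrix (Fin 2) (Fin 2) ℂ => nz t Q g := by
  have h : Continuous fun g : Matrix (Fin 2) (Fin 2) ℂ => (1 + (Q : ℝ) * ‖g 0 0‖ ^ 2) := by
    have : Continuous fun g : Matrix (Fin 2) (Fin 2) ℂ => g 0 0 :=
      (continuous_apply 0).comp (continuous_apply 0)
    fun_prop
  refine h.rpow_const fun g => Or.inl ?_
  positivity

lemma continuous_vv {t : Fin 3 → ℝ} (Q : ℕ) (k : Fin (Q + 1)) :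
    Continuous fun g : Matrix (Fin 2) (Fin 2) ℂ => vv t Q g k := by
  refine continuous_pi fun j => ?_
  have h1 : Continuous fun g : Matrix (Fin 2) (Fin 2) ℂ => ((nz t Q g : ℝ) : ℂ) :=
    Complex.continuous_ofReal.comp (continuous_nz Q)
  have h2 : Continuous fun g : Matrix (Fin 2) (Fin 2) ℂ => sp Q g j k :=
    (continuous_apply k).comp ((continuous_apply j).comp (Rot303.continuous_sp Q))
  exact h1.mul (continuous_const.mul h2)

end Crest.Agent.R340.Geo927
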