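import Crest.Agent.R340.LocT4_163
import Crest.Agent.R340.GeoM_986
import Crest.Agent.R340.Rot3_303
import Crest.Agent.R340.Prof2_385

-- ▼ part R340/LocT5_163
section

/-!
# R340 (helper163), O2 part 5: `HT t Q` is a weighted sum of the ring Hamiltonians of geometry `t`

`Bp_eq_Bg : Bp Q q = Bg (nu0 Q) Q (q+1)`, `bT_eq` (expansion of `bT t Q g` in the ring annihilators of
the metric `nuT t Q`), `HT_eq_sum : HT t Q = ∑_{p<2Q} hh t Q p • star (Bg p) * Bg p`.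
-/

set_option autoImplicit false
set_option linter.unusedSectionVars false

open MeasureTheory
open scoped ENNReal Matrix

namespace Crest.Agent.R340.LocT163

open Crest.Agent.R340.Fock649 Crest.Agent.R340.LR667 Crest.Agent.R340.CS809
open Crest.Agent.R340.Avg814 Crest.Agent.R340.Rot303
open Crest.Agent.R340.Geo986 (nu0 nuT pairs bz bcoef res PosM Zs mem_pairs)
open Crest.Agent.R340.Br320 (Bp wM wM_apply)
open Crest.MathPhysics.Laughlin (pairVec pairNorm)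
open Crest.Agent.R340.PV341 (Adm)

/-! ### the round sphere -/

theorem nz_nu0_eq {Q : ℕ} (hQ : 1 ≤ Q) (q : ℕ) : Geo986.nz (nu0 Q) Q (q + 1) = pairNorm Q (q + 1) := by
  rw [Geo986.nz_nu0]
  have h1 := PV341.nrm_eq Q (q + 1)
  have h2 := Prof385.two_pairNorm_eq_mom Q q hQ
  linarith

/-- sum over all pairs of a symmetric function vanishing off `i + j = p` -/
theorem sum_sum_eq_two_pairs {M : Type*} [AddCommGroup M] [Module ℂ M] {Q p : ℕ}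
    (f : Fin (Q + 1) → Fin (Q + 1) → M) (hs : ∀ i j, f i j = f j i)
    (hd : ∀ i, f i i = 0) (h0 : ∀ i j : Fin (Q + 1), (i : ℕ) + j ≠ p → f i j = 0) :
    ∑ i, ∑ j, f i j = (2 : ℂ) • ∑ x ∈ pairs Q p, f x.1 x.2 := by
  have e1 : ∑ i, ∑ j, f i j = ∑ x : Fin (Q + 1) × Fin (Q + 1), f x.1 x.2 :=
    (Fintype.sum_prod_type' f).symm
  have hlt : ∑ x ∈ Finset.univ.filter (fun x : Fin (Q + 1) × Fin (Q + 1) => x.1 < x.2), f x.1 x.2 =
      ∑ x ∈ pairs Q p, f x.1 x.2 := by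
    symm
    refine Finset.sum_subset (fun x hx => ?_) fun x hx hx' => ?_
    · exact Finset.mem_filter.2 ⟨Finset.mem_univ _, (mem_pairs.1 hx).1⟩
    · apply h0
      intro hc
      exact hx' (mem_pairs.2 ⟨(Finset.mem_filter.1 hx).2, hc⟩)
  have hgt : ∑ x ∈ Finset.univ.filter (fun x : Fin (Q + 1) × Fin (Q + 1) => x.2 < x.1), f x.1 x.2 =
      ∑ x ∈ Finset.univ.filter (fun x : Fin (Q + 1) × Fin (Q + 1) => x.1 < x.2), f x.1 x.2 := by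
    refine Finset.sum_bij' (fun x _ => (x.2, x.1)) (fun x _ => (x.2, x.1)) ?_ ?_ ?_ ?_ ?_
    · intro x hx
      simpa using (Finset.mem_filter.1 hx).2
    · intro x hx
      simpa using (Finset.mem_filter.1 hx).2
    · intro x _; rfl
    · intro x _; rfl
    · intro x _; exact hs _ _
  have hsplit : ∀ x : Fin (Q + 1) × Fin (Q + 1), f x.1 x.2 =
      (if x.1 < x.2 then f x.1 x.2 else 0) + (if x.2 < x.1 then f x.1 x.2 else 0) := by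
    intro x
    rcases lt_trichotomy x.1 x.2 with h | h | h
    · rw [if_pos h, if_neg (lt_asymm h), add_zero]
    · rw [if_neg (by rw [h]; exact lt_irrefl _), if_neg (by rw [h]; exact lt_irrefl _), h, hd,
        add_zero]
    · rw [if_neg (lt_asymm h), if_pos h, zero_add]
  rw [e1, Finset.sum_congr rfl fun x _ => hsplit x, Finset.sum_add_distrib, ← Finset.sum_filter,
    ← Finset.sum_filter, hgt, hlt, two_smul]

theorem Bp_eq_Bg {Q : ℕ} (q : Fin (2 * Q - 1)) : Bp Q q = Geo986.Bg (nu0 Q) Q ((q : ℕ) + 1) := by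
  have hQ : 1 ≤ Q := by have := q.2; omega
  have hcc : ∀ i j : Fin (Q + 1), (c j * c i : Op (Fin (Q + 1))) = - (c i * c j) := fun i j =>
    eq_neg_of_add_eq_zero_left (c_c j i)
  have hanti : ∀ i j : Fin (Q + 1), pairVec Q q i j = - pairVec Q q j i := by
    intro i j
    unfold pairVec
    by_cases h : (i : ℕ) + j = q + 1
    · rw [if_pos h, if_pos (by omega), mul_comm (Nat.choose Q i : ℝ)]
      ring
    · rw [if_neg h, if_neg (by omega), neg_zero]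
  have hsum := sum_sum_eq_two_pairs (Q := Q) (p := (q : ℕ) + 1)
    (fun i j => (starRingEnd ℂ) (wM Q q i j) • (c j * c i : Op (Fin (Q + 1))))
    (by
      intro i j
      rw [wM_apply, wM_apply, hanti i j, hcc i j, Complex.conj_ofReal, Complex.conj_ofReal,
        Complex.ofReal_neg, neg_smul_neg])
    (by intro i; rw [c_mul_self, smul_zero])
    (by
      intro i j h
      rw [wM_apply, pairVec, if_neg h]
      simp)
  have hpn : 0 < pairNorm Q ((q : ℕ) + 1) := by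
    rw [← nz_nu0_eq hQ]
    apply Geo986.nz_pos (Geo986.posM_nu0 Q)
    have hq := q.2
    rcases le_or_gt ((q : ℕ) + 1) Q with h | h
    · exact ⟨(⟨0, by omega⟩, ⟨(q : ℕ) + 1, by omega⟩), mem_pairs.2 ⟨by
        rw [Fin.lt_def]; simp, by simp⟩⟩
    · exact ⟨(⟨(q : ℕ) + 1 - Q, by omega⟩, ⟨Q, by omega⟩), mem_pairs.2 ⟨by
        rw [Fin.lt_def]; simp only; omega, by simp only; omega⟩⟩
  rw [Bp, pa, hsum, Geo986.Bg, bz, nz_nu0_eq hQ, smul_smul, Finset.smul_sum, Finset.smul_sum]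
  refine Finset.sum_congr rfl fun x hx => ?_
  rw [smul_smul, smul_smul]
  congr 1
  have hx' := mem_pairs.1 hx
  rw [wM_apply, pairVec, if_pos hx'.2, bcoef, nu0, nu0, Complex.conj_ofReal]
  rw [Real.sqrt_mul (by norm_num : (0 : ℝ) ≤ 2), Real.sqrt_mul (Nat.cast_nonneg _)]
  have hs2 : (Real.sqrt 2 : ℝ) ≠ 0 := (Real.sqrt_pos.2 (by norm_num)).ne'
  have hsn : (Real.sqrt (pairNorm Q ((q : ℕ) + 1)) : ℝ) ≠ 0 := (Real.sqrt_pos.2 hpn).ne'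
  have h22 : (Real.sqrt 2) * (Real.sqrt 2) = 2 := Real.mul_self_sqrt (by norm_num)
  have e : (Real.sqrt 2)⁻¹ * 2 * (((x.2 : ℕ) : ℝ) - ((x.1 : ℕ) : ℝ)) *
      (Real.sqrt (Nat.choose Q x.1) * Real.sqrt (Nat.choose Q x.2)) /
        (Real.sqrt 2 * Real.sqrt (pairNorm Q ((q : ℕ) + 1))) =
      (Real.sqrt (pairNorm Q ((q : ℕ) + 1)))⁻¹ * ((((x.2 : ℕ) : ℝ) - ((x.1 : ℕ) : ℝ)) /
        ((Real.sqrt (Nat.choose Q x.1))⁻¹ * (Real.sqrt (Nat.choose Q x.2))⁻¹)) := by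
    rw [← mul_inv, div_inv_eq_mul]
    field_simp
    rw [pow_two, h22]
  have e' := congrArg (fun r : ℝ => (r : ℂ)) e
  push_cast at e' ⊢
  rw [← e']
  ring

/-! ### the expansion of `bT` -/

theorem Gt_eq_G (t : Fin 3 → ℝ) {Q j : ℕ} (hj : j ≤ Q) :
    Geo927.Gt t ((Q : ℝ) - j) = PV341.G t (Q - j) := by
  unfold Geo927.Gt PV341.G
  rw [Nat.cast_sub hj]

/-- the weight as a function on the orbitals -/
noncomputable def wG (t : Fin 3 → ℝ) (Q : ℕ) : ℕ → ℝ := fun j => PV341.G t (Q - j)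

theorem posM_wG (t : Fin 3 → ℝ) (Q : ℕ) : PosM (wG t Q) Q := Geo986.posM_G t Q

theorem nuT_mul_wG (t : Fin 3 → ℝ) (Q : ℕ) : nuT t Q * wG t Q = nu0 Q := by
  funext j
  have := (PV341.G_pos t (Q - j)).ne'
  simp only [nuT, wG, Pi.mul_apply, Pi.inv_apply]
  field_simp

theorem bz_nu0_mul_Gd (t : Fin 3 → ℝ) (Q p : ℕ) :
    bz (nu0 Q) Q p * Gd (res Q (wG t Q)) = Gd (res Q (wG t Q)) * bz (nuT t Q) Q p := by
  have h := Geo986.bz_mul_Gd (ν := nuT t Q) (posM_wG t Q) p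
  rwa [nuT_mul_wG] at h

theorem Gd_inv_mul (t : Fin 3 → ℝ) (Q : ℕ) :
    Gd (res Q (wG t Q)⁻¹) * Gd (res Q (wG t Q)) = (1 : Op (Fin (Q + 1))) := by
  rw [← Gd_mul, ← Gd_one]
  congr 1
  funext j
  have h : wG t Q j ≠ 0 := (PV341.G_pos t (Q - j)).ne'
  simp only [res, Pi.mul_apply, Pi.inv_apply, Pi.one_apply]
  rw [← Complex.ofReal_mul, inv_mul_cancel₀ h, Complex.ofReal_one]

/-- the weighted frame vector -/
noncomputable def wF (t : Fin 3 → ℝ) (Q : ℕ) (k : Fin 2) (g : U2) : L (Fin (Q + 1)) :=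
  WithLp.toLp 2 fun j => (starRingEnd ℂ) (res Q (wG t Q) j) * uF Q k g j

theorem vF_eq_smul (t : Fin 3 → ℝ) (Q : ℕ) (k : Fin 2) (g : U2) :
    vF t Q k g = ((Geo927.nz t Q g : ℝ) : ℂ) • wF t Q k g := by
  ext j
  have hj : (j : ℕ) ≤ Q := Nat.lt_succ_iff.1 j.2
  change ((Geo927.nz t Q g : ℝ) : ℂ) *
    (((Geo927.Gt t ((Q : ℝ) - (j : ℕ)) : ℝ) : ℂ) * uF Q k g j) =
    ((Geo927.nz t Q g : ℝ) : ℂ) * ((starRingEnd ℂ) (res Q (wG t Q) j) * uF Q k g j)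
  rw [Gt_eq_G t hj, res, Complex.conj_ofReal]
  rfl

theorem an_wF (t : Fin 3 → ℝ) (Q : ℕ) (k : Fin 2) (g : U2) :
    Gd (res Q (wG t Q)) * an (wF t Q k g) = an (uF Q k g) * Gd (res Q (wG t Q)) :=
  (an_mul_Gd _ _).symm

theorem mv_sp_e {Q : ℕ} (hQ : 1 ≤ Q) (k : Fin 2) (g : U2) :
    mv (sp Q (g : Matrix (Fin 2) (Fin 2) ℂ)) (e (kq hQ k)) = uF Q k g := by
  ext j
  rw [mv_apply, uF_apply hQ, Finset.sum_eq_single (kq hQ k)]
  · rw [e_apply, if_pos rfl, mul_one]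
  · intro b _ hb
    rw [e_apply, if_neg hb, mul_zero]
  · intro h; exact absurd (Finset.mem_univ _) h

/-- index zero of the pair multiplet -/
def p0 {Q : ℕ} (hQ : 1 ≤ Q) : Fin (2 * Q - 1) := ⟨0, by omega⟩

theorem an_an_eq {Q : ℕ} (hQ : 1 ≤ Q) (g : U2) : an (uF Q 1 g) * an (uF Q 0 g) =
    star (g : Matrix (Fin 2) (Fin 2) ℂ).det •
      ∑ q, star (D2 Q (g : Matrix (Fin 2) (Fin 2) ℂ) q (p0 hQ)) • Bp Q q := by
  have h1 := Bg_zero (Q := Q) hQ (U2_mul_ct g)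
  have h2 := Bg_eq (Q := Q) (U2_mul_ct g) (p0 hQ)
  have e1 : mv (sp Q (g : Matrix (Fin 2) (Fin 2) ℂ)) (e (⟨1, by omega⟩ : Fin (Q + 1))) =
      uF Q 1 g := mv_sp_e hQ 1 g
  have e0 : mv (sp Q (g : Matrix (Fin 2) (Fin 2) ℂ)) (e (0 : Fin (Q + 1))) = uF Q 0 g :=
    mv_sp_e hQ 0 g
  rw [e1, e0] at h1
  rw [← h1]
  exact h2

theorem Bg_eq_smul_bz (ν : ℕ → ℝ) (Q p : ℕ) :
    Geo986.Bg ν Q p = (((Real.sqrt (Geo986.nz ν Q p))⁻¹ : ℝ) : ℂ) • bz ν Q p := rfl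

/-- ratio of the normalisations -/
noncomputable def rho (t : Fin 3 → ℝ) (Q p : ℕ) : ℝ :=
  Real.sqrt (Geo986.nz (nuT t Q) Q p) / Real.sqrt (Geo986.nz (nu0 Q) Q p)

theorem Bg_nu0_mul_Gd (t : Fin 3 → ℝ) (Q p : ℕ) :
    Geo986.Bg (nu0 Q) Q p * Gd (res Q (wG t Q)) =
      Gd (res Q (wG t Q)) * (((rho t Q p : ℝ) : ℂ) • Geo986.Bg (nuT t Q) Q p) := by
  rw [Bg_eq_smul_bz (nu0 Q), smul_mul_assoc, bz_nu0_mul_Gd,
    Geo986.bz_eq_smul_Bg (Geo986.posM_nuT t Q), mul_smul_comm, mul_smul_comm, smul_smul]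
  congr 1
  rw [← Complex.ofReal_mul, rho]
  congr 1
  rw [div_eq_mul_inv, mul_comm]

theorem an_wF_an_wF {Q : ℕ} (hQ : 1 ≤ Q) (t : Fin 3 → ℝ) (g : U2) :
    an (wF t Q 1 g) * an (wF t Q 0 g) = star (g : Matrix (Fin 2) (Fin 2) ℂ).det •
      ∑ q, (star (D2 Q (g : Matrix (Fin 2) (Fin 2) ℂ) q (p0 hQ)) * ((rho t Q ((q : ℕ) + 1) : ℝ) : ℂ)) •
        Geo986.Bg (nuT t Q) Q ((q : ℕ) + 1) := by
  have h1 : Gd (res Q (wG t Q)) * (an (wF t Q 1 g) * an (wF t Q 0 g)) =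
      Gd (res Q (wG t Q)) * (star (g : Matrix (Fin 2) (Fin 2) ℂ).det •
      ∑ q, (star (D2 Q (g : Matrix (Fin 2) (Fin 2) ℂ) q (p0 hQ)) * ((rho t Q ((q : ℕ) + 1) : ℝ) : ℂ)) •
        Geo986.Bg (nuT t Q) Q ((q : ℕ) + 1)) := by
    rw [← mul_assoc, an_wF, mul_assoc, an_wF, ← mul_assoc, an_an_eq hQ, smul_mul_assoc,
      mul_smul_comm]
    congr 1
    rw [Finset.sum_mul, Finset.mul_sum]
    refine Finset.sum_congr rfl fun q _ => ?_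
    rw [smul_mul_assoc, Bp_eq_Bg, Bg_nu0_mul_Gd, mul_smul_comm, mul_smul_comm, smul_smul]
  have h2 := congrArg (fun A => Gd (res Q (wG t Q)⁻¹) * A) h1
  simp only [← mul_assoc, Gd_inv_mul, one_mul] at h2
  exact h2

/-- **expansion of the local pair annihilator in the ring annihilators of the metric `nuT t Q`** -/
theorem bT_eq {Q : ℕ} (hQ : 1 ≤ Q) (t : Fin 3 → ℝ) (g : U2) :
    bT t Q g = (((Geo927.nz t Q g : ℝ) : ℂ) ^ 2 * star (g : Matrix (Fin 2) (Fin 2) ℂ).det) •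
      ∑ q, (star (D2 Q (g : Matrix (Fin 2) (Fin 2) ℂ) q (p0 hQ)) * ((rho t Q ((q : ℕ) + 1) : ℝ) : ℂ)) •
        Geo986.Bg (nuT t Q) Q ((q : ℕ) + 1) := by
  rw [bT, pb, vF_eq_smul, vF_eq_smul, an_smul, an_smul, smul_mul_smul_comm, an_wF_an_wF hQ,
    Complex.conj_ofReal, smul_smul, pow_two]

theorem bT_mul_eq_zero {Q : ℕ} (hQ : 1 ≤ Q) (t : Fin 3 → ℝ) (g : U2) {ψ : Fk (Fin (Q + 1))}
    (hψ : ψ ∈ Zs (nuT t Q) Q) : bT t Q g ψ = 0 := by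
  rw [bT_eq hQ, smul_ap, sum_ap]
  have h : ∑ q : Fin (2 * Q - 1), ((star (D2 Q (g : Matrix (Fin 2) (Fin 2) ℂ) q (p0 hQ)) *
      ((rho t Q ((q : ℕ) + 1) : ℝ) : ℂ)) • Geo986.Bg (nuT t Q) Q ((q : ℕ) + 1)) ψ = 0 := by
    refine Finset.sum_eq_zero fun q _ => ?_
    rw [smul_ap, Geo986.Bg_apply, hψ, smul_zero, smul_zero]
  rw [h, smul_zero]

end Crest.Agent.R340.LocT163
end

-- ▼ part R340/LocT6_163
section

/-!
# R340 (helper163), O2 part 6: `HT t Q = ∑ hh • star Bg * Bg`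
-/

set_option autoImplicit false
set_option linter.unusedSectionVars false

open MeasureTheory
open scoped ENNReal Matrix

namespace Crest.Agent.R340.LocT163

open Crest.Agent.R340.Fock649 Crest.Agent.R340.LR667 Crest.Agent.R340.CS809
open Crest.Agent.R340.Avg814 Crest.Agent.R340.Rot303
open Crest.Agent.R340.Geo986 (nu0 nuT pairs bz bcoef res PosM Zs mem_pairs)
open Crest.Agent.R340.PV341 (Adm)

/-- the scalar kernel -/
noncomputable def Fqr (t : Fin 3 → ℝ) {Q : ℕ} (hQ : 1 ≤ Q) (q r : Fin (2 * Q - 1)) (g : U2) : ℂ :=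
  ((Geo927.nz t Q g : ℝ) : ℂ) ^ 4 * (D2 Q (g : Matrix (Fin 2) (Fin 2) ℂ) q (p0 hQ) *
    star (D2 Q (g : Matrix (Fin 2) (Fin 2) ℂ) r (p0 hQ)))

theorem continuous_nz' (t : Fin 3 → ℝ) (Q : ℕ) : Continuous fun g : U2 => Geo927.nz t Q g :=
  (Geo927.continuous_nz Q).comp continuous_subtype_val

theorem continuous_Fqr (t : Fin 3 → ℝ) {Q : ℕ} (hQ : 1 ≤ Q) (q r : Fin (2 * Q - 1)) :
    Continuous (Fqr t hQ q r) := by
  have h1 : Continuous fun g : U2 => ((Geo927.nz t Q g : ℝ) : ℂ) :=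
    Complex.continuous_ofReal.comp (continuous_nz' t Q)
  have h2 := continuous_D2_entry Q q (p0 hQ)
  have h3 : Continuous fun g : U2 => star (D2 Q (g : Matrix (Fin 2) (Fin 2) ℂ) r (p0 hQ)) :=
    continuous_star.comp (continuous_D2_entry Q r (p0 hQ))
  exact (h1.pow 4).mul (h2.mul h3)

theorem star_bT_mul_bT {Q : ℕ} (hQ : 1 ≤ Q) (t : Fin 3 → ℝ) (g : U2) :
    star (bT t Q g) * bT t Q g = ∑ q : Fin (2 * Q - 1), ∑ r : Fin (2 * Q - 1),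
      (Fqr t hQ q r g) • (((rho t Q ((q : ℕ) + 1) * rho t Q ((r : ℕ) + 1) : ℝ) : ℂ) •
        (star (Geo986.Bg (nuT t Q) Q ((q : ℕ) + 1)) * Geo986.Bg (nuT t Q) Q ((r : ℕ) + 1))) := by
  rw [bT_eq hQ, star_smul, smul_mul_smul_comm, star_sum, Finset.sum_mul_sum, Finset.smul_sum]
  refine Finset.sum_congr rfl fun q _ => ?_
  rw [Finset.smul_sum]
  refine Finset.sum_congr rfl fun r _ => ?_
  rw [star_smul, smul_mul_smul_comm, smul_smul, smul_smul]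
  congr 1
  have hd := det_mul_star (U2_mul_ct g)
  rw [Fqr]
  generalize (g : Matrix (Fin 2) (Fin 2) ℂ).det = D at hd ⊢
  generalize D2 Q (g : Matrix (Fin 2) (Fin 2) ℂ) q (p0 hQ) = a
  generalize D2 Q (g : Matrix (Fin 2) (Fin 2) ℂ) r (p0 hQ) = b
  have e1 : star (((Geo927.nz t Q g : ℝ) : ℂ) ^ 2 * star D) = ((Geo927.nz t Q g : ℝ) : ℂ) ^ 2 * D := by
    rw [star_mul', star_pow, star_star, Complex.star_def, Complex.conj_ofReal]
  have e2 : star (star a * ((rho t Q ((q : ℕ) + 1) : ℝ) : ℂ)) =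
      a * ((rho t Q ((q : ℕ) + 1) : ℝ) : ℂ) := by
    rw [star_mul', star_star, Complex.star_def, Complex.conj_ofReal]
  rw [e1, e2]
  push_cast
  linear_combination (((Geo927.nz t Q g : ℝ) : ℂ) ^ 4 * a * star b *
    ((rho t Q ((q : ℕ) + 1) : ℝ) : ℂ) * ((rho t Q ((r : ℕ) + 1) : ℝ) : ℂ)) * hd

theorem tz_mul_00 (z : Circle) (g : U2) :
    ((tz z * g : U2) : Matrix (Fin 2) (Fin 2) ℂ) 0 0 = (g : Matrix (Fin 2) (Fin 2) ℂ) 0 0 := by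
  rw [Avg814.coe_mul', coe_tz, Matrix.diagonal_mul]
  simp

theorem nz_tz_mul (t : Fin 3 → ℝ) (Q : ℕ) (z : Circle) (g : U2) :
    Geo927.nz t Q ((tz z * g : U2) : Matrix (Fin 2) (Fin 2) ℂ) = Geo927.nz t Q g := by
  unfold Geo927.nz
  rw [tz_mul_00]

theorem D2_tz_mul {Q : ℕ} (z : Circle) (g : U2) (q r : Fin (2 * Q - 1)) :
    D2 Q ((tz z * g : U2) : Matrix (Fin 2) (Fin 2) ℂ) q r =
      (z : ℂ) ^ (q : ℕ) * D2 Q (g : Matrix (Fin 2) (Fin 2) ℂ) q r := by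
  rw [Avg814.coe_mul', D2_mul, coe_tz, D2_diagonal, Matrix.diagonal_mul]
  simp

theorem integral_Fqr_ne (t : Fin 3 → ℝ) {Q : ℕ} (hQ : 1 ≤ Q) {q r : Fin (2 * Q - 1)} (h : q ≠ r) :
    ∫ g, Fqr t hQ q r g ∂(nuQ Q) = 0 := by
  obtain ⟨z, hz⟩ := exists_circle (m := (q : ℕ)) (n := (r : ℕ)) (fun e => h (Fin.ext e))
  rw [integral_nuQ]
  have h1 : ∫ g, Fqr t hQ q r g ∂hm =
      ((z : ℂ) ^ (q : ℕ) * star (z : ℂ) ^ (r : ℕ)) * ∫ g, Fqr t hQ q r g ∂hm := by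
    conv_lhs => rw [← Crest.Agent.R124.Haar.integral_mul_left' _ (tz z)]
    rw [← integral_const_mul]
    refine integral_congr_ae (Filter.Eventually.of_forall fun g => ?_)
    change Fqr t hQ q r (tz z * g) = _
    unfold Fqr
    rw [nz_tz_mul, D2_tz_mul, D2_tz_mul, star_mul', star_pow]
    ring
  have h2 : ((z : ℂ) ^ (q : ℕ) * star (z : ℂ) ^ (r : ℕ) - 1) * ∫ g, Fqr t hQ q r g ∂hm = 0 := by
    rw [sub_mul, one_mul, ← h1, sub_self]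
  rcases mul_eq_zero.1 h2 with h3 | h3
  · exact absurd (sub_eq_zero.1 h3) hz
  · rw [h3, smul_zero]

/-- radial average -/
noncomputable def EE (t : Fin 3 → ℝ) (Q p : ℕ) : ℝ :=
  ∫ g : U2, Geo927.nz t Q g ^ 4 *
    PD757.bw (2 * Q - 2) (2 * Q - 1 - p) (‖(g : Matrix (Fin 2) (Fin 2) ℂ) 0 0‖ ^ 2) ∂(nuQ Q)

theorem norm_D2_sq {Q : ℕ} (hQ : 1 ≤ Q) (q : Fin (2 * Q - 1)) (g : U2) :
    ‖D2 Q (g : Matrix (Fin 2) (Fin 2) ℂ) q (p0 hQ)‖ ^ 2 =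
      PD757.bw (2 * Q - 2) (2 * Q - 1 - ((q : ℕ) + 1)) (‖(g : Matrix (Fin 2) (Fin 2) ℂ) 0 0‖ ^ 2) := by
  have h1 : D2 Q (g : Matrix (Fin 2) (Fin 2) ℂ) q (p0 hQ) =
      sp (2 * Q - 2) (g : Matrix (Fin 2) (Fin 2) ℂ) (cst q) 0 := rfl
  have hc := ent_col0 (U2_ct_mul g)
  have h2 : 1 - ‖(g : Matrix (Fin 2) (Fin 2) ℂ) 0 0‖ ^ 2 = ‖(g : Matrix (Fin 2) (Fin 2) ℂ) 1 0‖ ^ 2 := by
    linarith
  have hq := q.2
  have h3 : 2 * Q - 1 - ((q : ℕ) + 1) = 2 * Q - 2 - (q : ℕ) := by omega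
  have h4 : 2 * Q - 2 - (2 * Q - 2 - (q : ℕ)) = (q : ℕ) := by omega
  rw [h1, sp_j_zero, PD757.bw, h2, h3, h4, Nat.choose_symm (by omega)]
  simp only [norm_mul, norm_pow, norm_sb, mul_pow, sb_sq, coe_cst]
  ring

theorem integral_Fqr_eq (t : Fin 3 → ℝ) {Q : ℕ} (hQ : 1 ≤ Q) (q : Fin (2 * Q - 1)) :
    ∫ g, Fqr t hQ q q g ∂(nuQ Q) = ((EE t Q ((q : ℕ) + 1) : ℝ) : ℂ) := by
  have h1 : ∀ g : U2, Fqr t hQ q q g = ((Geo927.nz t Q g ^ 4 *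
      PD757.bw (2 * Q - 2) (2 * Q - 1 - ((q : ℕ) + 1))
        (‖(g : Matrix (Fin 2) (Fin 2) ℂ) 0 0‖ ^ 2) : ℝ) : ℂ) := by
    intro g
    rw [← norm_D2_sq hQ, Fqr, Complex.star_def, Complex.mul_conj, Complex.normSq_eq_norm_sq]
    push_cast
    ring
  simp only [h1]
  exact integral_ofReal

/-- the weights -/
noncomputable def hh (t : Fin 3 → ℝ) (Q p : ℕ) : ℝ := rho t Q p ^ 2 * EE t Q p

theorem Bg_zero_ring (ν : ℕ → ℝ) (Q : ℕ) : Geo986.Bg ν Q 0 = 0 := by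
  have : pairs Q 0 = ∅ := by
    refine Finset.eq_empty_of_forall_notMem fun x hx => ?_
    obtain ⟨h1, h2⟩ := mem_pairs.mp hx
    have h3 : (x.1 : ℕ) < x.2 := h1
    omega
  rw [Bg_eq_smul_bz, Geo986.bz_eq_zero_of_empty this, smul_zero]

/-- **`HT` is a weighted sum of the ring terms of the metric `nuT t Q`.** -/
theorem HT_eq_sum {Q : ℕ} (hQ : 1 ≤ Q) (t : Fin 3 → ℝ) :
    HT t Q = ∑ p ∈ Finset.range (2 * Q), ((hh t Q p : ℝ) : ℂ) •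
      (star (Geo986.Bg (nuT t Q) Q p) * Geo986.Bg (nuT t Q) Q p) := by
  have hi : ∀ (q r : Fin (2 * Q - 1)) (A : Op (Fin (Q + 1))),
      Integrable (fun g => (Fqr t hQ q r g) • A) (nuQ Q) := fun q r A =>
    integrable_nuQ Q ((continuous_Fqr t hQ q r).smul continuous_const)
  rw [HT_eq]
  simp only [star_bT_mul_bT hQ t]
  rw [integral_finsetSum _ fun q _ => integrable_finsetSum _ fun r _ => hi q r _]
  have h1 : ∀ q : Fin (2 * Q - 1), ∫ g, ∑ r : Fin (2 * Q - 1), (Fqr t hQ q r g) •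
      (((rho t Q ((q : ℕ) + 1) * rho t Q ((r : ℕ) + 1) : ℝ) : ℂ) •
        (star (Geo986.Bg (nuT t Q) Q ((q : ℕ) + 1)) * Geo986.Bg (nuT t Q) Q ((r : ℕ) + 1)))
        ∂(nuQ Q) = ((hh t Q ((q : ℕ) + 1) : ℝ) : ℂ) •
      (star (Geo986.Bg (nuT t Q) Q ((q : ℕ) + 1)) * Geo986.Bg (nuT t Q) Q ((q : ℕ) + 1)) := by
    intro q
    rw [integral_finsetSum _ fun r _ => hi q r _, Finset.sum_eq_single q]
    · rw [integral_smul_const, integral_Fqr_eq, smul_smul, ← Complex.ofReal_mul, hh]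
      congr 2
      ring
    · intro r _ hr
      rw [integral_smul_const, integral_Fqr_ne t hQ hr.symm, zero_smul]
    · intro h; exact absurd (Finset.mem_univ _) h
  rw [Finset.sum_congr rfl fun q _ => h1 q]
  have h2 : 2 * Q = (2 * Q - 1) + 1 := by omega
  rw [h2, Finset.sum_range_succ', Bg_zero_ring, mul_zero, smul_zero, add_zero,
    Finset.sum_range]
  rfl

end Crest.Agent.R340.LocT163
end

-- ▼ part R340/LocT7_163
section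

/-!
# R340 (helper163), O2 part 7: the weights `hh t Q p` are bounded above and below
-/

set_option autoImplicit false
set_option linter.unusedSectionVars false

open MeasureTheory
open scoped ENNReal Matrix

namespace Crest.Agent.R340.LocT163

open Crest.Agent.R340.Fock649 Crest.Agent.R340.LR667 Crest.Agent.R340.CS809
open Crest.Agent.R340.Avg814 Crest.Agent.R340.Rot303
open Crest.Agent.R340.Geo986 (nu0 nuT pairs bz bcoef res PosM Zs mem_pairs)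
open Crest.Agent.R340.PV341 (Adm G Gf half nrm aa xx beta dd)

/-! ### the radial average -/

theorem bw_compl {Q j : ℕ} (hj : j ≤ Q) (t : ℝ) : PD757.bw Q j (1 - t) = PD757.bw Q (Q - j) t := by
  unfold PD757.bw
  rw [Nat.choose_symm hj, sub_sub_cancel, Nat.sub_sub_self hj]
  ring

theorem tau_compl {Z : Type*} [MeasurableSpace Z] {μ : Measure Z} {τ : Z → ℝ} (h : PD757.Tau μ τ) :
    PD757.Tau μ (fun z => 1 - τ z) where
  fin := h.fin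
  meas := measurable_const.sub h.meas
  nonneg z := by have := h.le_one z; linarith
  le_one z := by have := h.nonneg z; linarith
  mom Q j hj := by
    simp only [bw_compl hj]
    exact h.mom Q (Q - j) (Nat.sub_le _ _)

/-- `|g₀₀|²` -/
noncomputable def t0 (g : U2) : ℝ := ‖(g : Matrix (Fin 2) (Fin 2) ℂ) 0 0‖ ^ 2

theorem tau_t0 : PD757.Tau hm t0 := by
  have h := tau_compl (tau_tw 1)
  have e : (fun z : U2 => 1 - tw 1 z) = t0 := by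
    funext z
    rw [tw, ov, t0, sub_sub_cancel]
    simp
  rwa [e] at h

section moments

variable {n j Q : ℕ}

theorem one_add_le (hnQ : (Q : ℝ) ≤ n + 1) {τ : ℝ} (h0 : 0 ≤ τ) (h1 : τ ≤ 1) :
    1 + Q * τ ≤ 2 * (1 + n * τ) := by
  have : (Q : ℝ) * τ ≤ (n + 1) * τ := mul_le_mul_of_nonneg_right hnQ h0
  nlinarith [mul_nonneg (Nat.cast_nonneg (α := ℝ) n) h0]

theorem le_two_one_add (hnQ : (n : ℝ) ≤ 2 * Q) {τ : ℝ} (h0 : 0 ≤ τ) :
    1 + n * τ ≤ 2 * (1 + Q * τ) := by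
  have : (n : ℝ) * τ ≤ (2 * Q) * τ := mul_le_mul_of_nonneg_right hnQ h0
  linarith

/-- pointwise upper bound for powers -/
theorem rpow_le_one_add {y s : ℝ} (hy : 0 < y) (hs0 : 0 ≤ s) (hs : s ≤ 6) : y ^ s ≤ 1 + y ^ 6 := by
  rcases le_or_gt y 1 with h | h
  · have := Real.rpow_le_one hy.le h hs0
    have : 0 ≤ y ^ 6 := by positivity
    linarith
  · have h1 : y ^ s ≤ y ^ (6 : ℝ) := Real.rpow_le_rpow_of_exponent_le h.le hs
    have h2 : y ^ (6 : ℝ) = y ^ 6 := by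
      rw [show (6 : ℝ) = ((6 : ℕ) : ℝ) by norm_num, Real.rpow_natCast]
    rw [h2] at h1
    linarith

/-- pointwise lower bound for powers -/
theorem le_rpow {y s M : ℝ} (hy : 0 < y) (hs0 : 0 ≤ s) (hs : s ≤ 6) (hM : 1 ≤ M) :
    (M ^ 6)⁻¹ * (1 - (M * y)⁻¹) ≤ y ^ s := by
  have hM0 : 0 < M := by linarith
  rcases le_or_gt (M * y) 1 with h | h
  · have h1 : 1 ≤ (M * y)⁻¹ := one_le_inv₀ (by positivity) |>.2 h
    have h2 : (M ^ 6)⁻¹ * (1 - (M * y)⁻¹) ≤ 0 :=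
      mul_nonpos_of_nonneg_of_nonpos (by positivity) (by linarith)
    exact h2.trans (Real.rpow_nonneg hy.le s)
  · have h1 : (M ^ 6)⁻¹ * (1 - (M * y)⁻¹) ≤ (M ^ 6)⁻¹ := by
      have : 0 ≤ (M * y)⁻¹ := by positivity
      have h3 : 0 ≤ (M ^ 6)⁻¹ := by positivity
      nlinarith
    refine h1.trans ?_
    have h2 : M⁻¹ ≤ y := by
      rw [inv_le_iff_one_le_mul₀ hM0, mul_comm]; exact h.le
    have h3 : (M⁻¹) ^ s ≤ y ^ s := Real.rpow_le_rpow (by positivity) h2 hs0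
    refine le_trans ?_ h3
    have h4 : (M⁻¹) ^ (6 : ℝ) ≤ (M⁻¹) ^ s :=
      Real.rpow_le_rpow_of_exponent_ge (by positivity) (inv_le_one_of_one_le₀ hM) hs
    have h5 : (M⁻¹) ^ (6 : ℝ) = (M ^ 6)⁻¹ := by
      rw [show (6 : ℝ) = ((6 : ℕ) : ℝ) by norm_num, Real.rpow_natCast, inv_pow]
    rwa [h5] at h4

end moments

/-- the exponent -/
noncomputable def sE (t : Fin 3 → ℝ) : ℝ := 4 * ∑ k, t k

theorem sE_nonneg {t : Fin 3 → ℝ} (ht : Adm t) : 0 ≤ sE t := by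
  unfold sE
  have : 0 ≤ ∑ k, t k := Finset.sum_nonneg fun k _ => (ht k).1
  linarith

theorem sE_le {t : Fin 3 → ℝ} (ht : Adm t) : sE t ≤ 6 := by
  unfold sE
  rw [Fin.sum_univ_three]
  have h0 := (ht 0).2
  have h1 := (ht 1).2
  have h2 := (ht 2).2
  linarith

theorem nz_pow_four (t : Fin 3 → ℝ) (Q : ℕ) (g : U2) :
    Geo927.nz t Q g ^ 4 = (1 + Q * t0 g) ^ sE t := by
  have hb : (0 : ℝ) ≤ 1 + Q * t0 g := by unfold t0; positivity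
  unfold Geo927.nz sE
  change ((1 + Q * t0 g) ^ (∑ k, t k)) ^ 4 = _
  rw [← Real.rpow_natCast, ← Real.rpow_mul hb]
  congr 1
  push_cast
  ring

theorem EE_eq (t : Fin 3 → ℝ) (Q p : ℕ) : EE t Q p = ((2 * Q - 1 : ℕ) : ℝ) *
    ∫ g : U2, (1 + Q * t0 g) ^ sE t * PD757.bw (2 * Q - 2) (2 * Q - 1 - p) (t0 g) ∂hm := by
  rw [EE, integral_nuQ, smul_eq_mul]
  simp only [nz_pow_four]
  rfl

theorem contOn_rpow (Q : ℕ) (s : ℝ) : ContinuousOn (fun t : ℝ => (1 + (Q : ℝ) * t) ^ s)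
    (Set.Icc 0 1) := by
  apply ContinuousOn.rpow_const (by fun_prop)
  intro t ht
  left
  have : 0 ≤ (Q : ℝ) * t := mul_nonneg (Nat.cast_nonneg _) ht.1
  positivity

theorem EE_upper {t : Fin 3 → ℝ} (ht : Adm t) {Q p : ℕ} (hp : 1 ≤ p) (hp2 : p ≤ 2 * Q - 1) :
    EE t Q p ≤ (1 + 2 ^ 48) * ((2 * Q - p : ℕ) : ℝ) ^ sE t := by
  have hQ : 1 ≤ Q := by omega
  obtain ⟨n, hn⟩ : ∃ n, n = 2 * Q - 2 := ⟨_, rfl⟩
  obtain ⟨j, hj⟩ : ∃ j, j = 2 * Q - 1 - p := ⟨_, rfl⟩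
  have hjn : j ≤ n := by omega
  have hα : ((2 * Q - p : ℕ) : ℝ) = 1 + j := by
    have : 2 * Q - p = 1 + j := by omega
    rw [this]; push_cast; rfl
  have hn1 : ((2 * Q - 1 : ℕ) : ℝ) = n + 1 := by
    have : 2 * Q - 1 = n + 1 := by omega
    rw [this]; push_cast; rfl
  have hQn : (Q : ℝ) ≤ n + 1 := by
    have : Q ≤ n + 1 := by omega
    exact_mod_cast this
  rw [EE_eq, ← hn, ← hj, hα, hn1]
  set s := sE t with hs
  have hs0 := sE_nonneg ht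
  have hs6 := sE_le ht
  rw [← hs] at hs0 hs6
  set α : ℝ := 1 + j with hαd
  have hα0 : 0 < α := by positivity
  have hτ := tau_t0
  have hK := hτ.K3up 6 hjn
  have hmom := hτ.mom n j hjn
  unfold PD757.Tau.bp at hK
  have hpt : ∀ g : U2, (1 + Q * t0 g) ^ s * PD757.bw n j (t0 g) ≤
      α ^ s * PD757.bw n j (t0 g) + (α ^ s * (64 * (α ^ 6)⁻¹)) *
        (PD757.bw n j (t0 g) * (1 + (n : ℝ) * t0 g) ^ 6) := by
    intro g
    have h0 := hτ.nonneg g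
    have h1 := hτ.le_one g
    have hb := PD757.bw_nonneg n j h0 h1
    have hy0 : 0 < (1 + Q * t0 g) / α := by positivity
    have h2 := rpow_le_one_add hy0 hs0 hs6
    have h3 : ((1 + Q * t0 g) / α) ^ s = (1 + Q * t0 g) ^ s / α ^ s :=
      Real.div_rpow (by positivity) hα0.le s
    have hαs : 0 < α ^ s := Real.rpow_pos_of_pos hα0 s
    rw [h3, div_le_iff₀ hαs] at h2
    have h4 : ((1 + Q * t0 g) / α) ^ 6 ≤ 64 * (α ^ 6)⁻¹ * (1 + (n : ℝ) * t0 g) ^ 6 := by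
      rw [div_pow, div_eq_mul_inv]
      have h5 : (1 + (Q : ℝ) * t0 g) ^ 6 ≤ (2 * (1 + (n : ℝ) * t0 g)) ^ 6 := by
        have := one_add_le hQn h0 h1
        gcongr
      have h6 : (2 * (1 + (n : ℝ) * t0 g)) ^ 6 = 64 * (1 + (n : ℝ) * t0 g) ^ 6 := by
        rw [mul_pow]; norm_num
      rw [h6] at h5
      calc (1 + (Q : ℝ) * t0 g) ^ 6 * (α ^ 6)⁻¹ ≤ 64 * (1 + (n : ℝ) * t0 g) ^ 6 * (α ^ 6)⁻¹ := by
            gcongr
        _ = _ := by ring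
    calc (1 + Q * t0 g) ^ s * PD757.bw n j (t0 g)
        ≤ ((1 + ((1 + Q * t0 g) / α) ^ 6) * α ^ s) * PD757.bw n j (t0 g) :=
          mul_le_mul_of_nonneg_right h2 hb
      _ ≤ ((1 + 64 * (α ^ 6)⁻¹ * (1 + (n : ℝ) * t0 g) ^ 6) * α ^ s) * PD757.bw n j (t0 g) := by
          gcongr
      _ = _ := by ring
  have i1 : Integrable (fun g => (1 + Q * t0 g) ^ s * PD757.bw n j (t0 g)) hm :=
    hτ.intble (f := fun t => (1 + (Q : ℝ) * t) ^ s * PD757.bw n j t)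
      ((contOn_rpow Q s).mul (PD757.continuous_bw n j).continuousOn)
  have i2 : Integrable (fun g => PD757.bw n j (t0 g)) hm := hτ.intble_bw n j
  have i3 := hτ.bp_intble 6 n j
  have h7 : ∫ g, (1 + Q * t0 g) ^ s * PD757.bw n j (t0 g) ∂hm ≤
      ∫ g, (α ^ s * PD757.bw n j (t0 g) + (α ^ s * (64 * (α ^ 6)⁻¹)) *
        (PD757.bw n j (t0 g) * (1 + (n : ℝ) * t0 g) ^ 6)) ∂hm :=
    integral_mono i1 ((i2.const_mul _).add (i3.const_mul _)) hpt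
  rw [integral_add (i2.const_mul _) (i3.const_mul _), integral_const_mul, integral_const_mul,
    hmom] at h7
  generalize (∫ g, (1 + Q * t0 g) ^ s * PD757.bw n j (t0 g) ∂hm) = I1 at h7 ⊢
  generalize (∫ g, PD757.bw n j (t0 g) * (1 + (n : ℝ) * t0 g) ^ 6 ∂hm) = I2 at h7 hK
  have hn0 : (0 : ℝ) < (n : ℝ) + 1 := by positivity
  have hαs : 0 < α ^ s := Real.rpow_pos_of_pos hα0 s
  calc ((n : ℝ) + 1) * I1 ≤ ((n : ℝ) + 1) * (α ^ s * (1 / ((n : ℝ) + 1)) +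
        α ^ s * (64 * (α ^ 6)⁻¹) * I2) := by gcongr
    _ = α ^ s + α ^ s * (64 * (α ^ 6)⁻¹) * (((n : ℝ) + 1) * I2) := by
        field_simp
    _ ≤ α ^ s + α ^ s * (64 * (α ^ 6)⁻¹) * (2 ^ (6 * (6 + 1)) * α ^ 6) := by gcongr
    _ = (1 + 2 ^ 48) * α ^ s := by
        have : α ^ 6 ≠ 0 := by positivity
        field_simp
        norm_num

theorem EE_lower {t : Fin 3 → ℝ} (ht : Adm t) {Q p : ℕ} (hp : 1 ≤ p) (hp2 : p ≤ 2 * Q - 1) :
    (2 ^ 37)⁻¹ * ((2 * Q - p : ℕ) : ℝ) ^ sE t ≤ EE t Q p := by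
  have hQ : 1 ≤ Q := by omega
  obtain ⟨n, hn⟩ : ∃ n, n = 2 * Q - 2 := ⟨_, rfl⟩
  obtain ⟨j, hj⟩ : ∃ j, j = 2 * Q - 1 - p := ⟨_, rfl⟩
  have hjn : j ≤ n := by omega
  have hα : ((2 * Q - p : ℕ) : ℝ) = 1 + j := by
    have : 2 * Q - p = 1 + j := by omega
    rw [this]; push_cast; rfl
  have hn1 : ((2 * Q - 1 : ℕ) : ℝ) = n + 1 := by
    have : 2 * Q - 1 = n + 1 := by omega
    rw [this]; push_cast; rfl
  have hnQ : (n : ℝ) ≤ 2 * Q := by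
    have : n ≤ 2 * Q := by omega
    exact_mod_cast this
  rw [EE_eq, ← hn, ← hj, hα, hn1]
  set s := sE t with hs
  have hs0 := sE_nonneg ht
  have hs6 := sE_le ht
  rw [← hs] at hs0 hs6
  set α : ℝ := 1 + j with hαd
  have hα0 : 0 < α := by positivity
  have hαs : 0 < α ^ s := Real.rpow_pos_of_pos hα0 s
  have hτ := tau_t0
  have hK := hτ.K3 1 hjn
  have hmom := hτ.mom n j hjn
  unfold PD757.Tau.bm at hK
  have hpt : ∀ g : U2, ((64 : ℝ) ^ 6)⁻¹ * α ^ s * PD757.bw n j (t0 g) -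
      (((64 : ℝ) ^ 6)⁻¹ * α ^ s * (32⁻¹ * α)) * (PD757.bw n j (t0 g) *
        ((1 + (n : ℝ) * t0 g) ^ 1)⁻¹) ≤ (1 + Q * t0 g) ^ s * PD757.bw n j (t0 g) := by
    intro g
    have h0 := hτ.nonneg g
    have h1 := hτ.le_one g
    have hb := PD757.bw_nonneg n j h0 h1
    have hy0 : 0 < (1 + Q * t0 g) / α := by positivity
    have h2 := le_rpow (M := 64) hy0 hs0 hs6 (by norm_num)
    have h3 : ((1 + Q * t0 g) / α) ^ s = (1 + Q * t0 g) ^ s / α ^ s :=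
      Real.div_rpow (by positivity) hα0.le s
    rw [h3, le_div_iff₀ hαs] at h2
    have h4 : (64 * ((1 + Q * t0 g) / α))⁻¹ ≤ 32⁻¹ * α * ((1 + (n : ℝ) * t0 g) ^ 1)⁻¹ := by
      have h5 := le_two_one_add hnQ h0
      have h6 : 0 < 1 + (Q : ℝ) * t0 g := by positivity
      have h7 : 0 < 1 + (n : ℝ) * t0 g := by positivity
      rw [pow_one]
      calc (64 * ((1 + (Q : ℝ) * t0 g) / α))⁻¹ = 32⁻¹ * α * (2 * (1 + (Q : ℝ) * t0 g))⁻¹ := by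
            field_simp
            norm_num
        _ ≤ 32⁻¹ * α * (1 + (n : ℝ) * t0 g)⁻¹ := by gcongr
    calc ((64 : ℝ) ^ 6)⁻¹ * α ^ s * PD757.bw n j (t0 g) -
        (((64 : ℝ) ^ 6)⁻¹ * α ^ s * (32⁻¹ * α)) * (PD757.bw n j (t0 g) *
        ((1 + (n : ℝ) * t0 g) ^ 1)⁻¹)
        = ((64 : ℝ) ^ 6)⁻¹ * (1 - 32⁻¹ * α * ((1 + (n : ℝ) * t0 g) ^ 1)⁻¹) * α ^ s *
          PD757.bw n j (t0 g) := by ring
      _ ≤ ((64 : ℝ) ^ 6)⁻¹ * (1 - (64 * ((1 + Q * t0 g) / α))⁻¹) * α ^ s *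
          PD757.bw n j (t0 g) := by gcongr
      _ ≤ (1 + Q * t0 g) ^ s * PD757.bw n j (t0 g) := mul_le_mul_of_nonneg_right h2 hb
  have i1 : Integrable (fun g => (1 + Q * t0 g) ^ s * PD757.bw n j (t0 g)) hm :=
    hτ.intble (f := fun t => (1 + (Q : ℝ) * t) ^ s * PD757.bw n j t)
      ((contOn_rpow Q s).mul (PD757.continuous_bw n j).continuousOn)
  have i2 : Integrable (fun g => PD757.bw n j (t0 g)) hm := hτ.intble_bw n j
  have i3 := hτ.bm_intble 1 n j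
  have h7 : ∫ g, (((64 : ℝ) ^ 6)⁻¹ * α ^ s * PD757.bw n j (t0 g) -
      (((64 : ℝ) ^ 6)⁻¹ * α ^ s * (32⁻¹ * α)) * (PD757.bw n j (t0 g) *
        ((1 + (n : ℝ) * t0 g) ^ 1)⁻¹)) ∂hm ≤
      ∫ g, (1 + Q * t0 g) ^ s * PD757.bw n j (t0 g) ∂hm :=
    integral_mono ((i2.const_mul _).sub (i3.const_mul _)) i1 hpt
  rw [integral_sub (i2.const_mul _) (i3.const_mul _), integral_const_mul, integral_const_mul,
    hmom] at h7
  generalize (∫ g, (1 + Q * t0 g) ^ s * PD757.bw n j (t0 g) ∂hm) = I1 at h7 ⊢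
  generalize (∫ g, PD757.bw n j (t0 g) * ((1 + (n : ℝ) * t0 g) ^ 1)⁻¹ ∂hm) = I2 at h7 hK
  have hn0 : (0 : ℝ) < (n : ℝ) + 1 := by positivity
  calc (2 ^ 37)⁻¹ * α ^ s = ((64 : ℝ) ^ 6)⁻¹ * α ^ s -
        ((64 : ℝ) ^ 6)⁻¹ * α ^ s * (32⁻¹ * α) * (2 ^ (1 * (1 + 3)) / α ^ 1) := by
        field_simp
        norm_num
    _ ≤ ((64 : ℝ) ^ 6)⁻¹ * α ^ s -
        ((64 : ℝ) ^ 6)⁻¹ * α ^ s * (32⁻¹ * α) * (((n : ℝ) + 1) * I2) := by
        gcongr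
    _ = ((n : ℝ) + 1) * (((64 : ℝ) ^ 6)⁻¹ * α ^ s * (1 / ((n : ℝ) + 1)) -
        ((64 : ℝ) ^ 6)⁻¹ * α ^ s * (32⁻¹ * α) * I2) := by
        field_simp
    _ ≤ ((n : ℝ) + 1) * I1 := by gcongr

end Crest.Agent.R340.LocT163
end

-- ▼ part R340/LocT8_163

/-!
# R340 (helper163), O2 part 8: `hh_bounds : 0 < c ≤ hh t Q p ≤ C`
-/

set_option autoImplicit false
set_option linter.unusedSectionVars false

open MeasureTheory
open scoped ENNReal Matrix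

namespace Crest.Agent.R340.LocT163

open Crest.Agent.R340.Fock649 Crest.Agent.R340.LR667 Crest.Agent.R340.CS809
open Crest.Agent.R340.Avg814 Crest.Agent.R340.Rot303
open Crest.Agent.R340.Geo986 (nu0 nuT pairs bz bcoef res PosM Zs mem_pairs)
open Crest.Agent.R340.PV341 (Adm G Gf half nrm aa xx beta dd mem_half)

theorem bcoef_nuT (t : Fin 3 → ℝ) (Q i j : ℕ) :
    bcoef (nuT t Q) i j = bcoef (nu0 Q) i j * (G t (Q - i) * G t (Q - j)) := by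
  have h1 := (PV341.G_pos t (Q - i)).ne'
  have h2 := (PV341.G_pos t (Q - j)).ne'
  unfold bcoef nuT
  simp only [Pi.mul_apply, Pi.inv_apply]
  rw [div_mul_eq_mul_div, mul_mul_mul_comm, ← mul_inv, ← div_div, div_inv_eq_mul,
    div_mul_eq_mul_div]

theorem nz_nuT (t : Fin 3 → ℝ) (Q p : ℕ) : Geo986.nz (nuT t Q) Q p =
    ∑ i ∈ half Q p, aa Q p i * xx p i ^ 2 * (G t (Q - i) * G t (Q - (p - i))) ^ 2 := by
  unfold Geo986.nz
  rw [Geo986.sum_pairs Q p (fun i j => bcoef (nuT t Q) i j ^ 2)]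
  refine Finset.sum_congr rfl fun i hi => ?_
  rw [bcoef_nuT, Geo986.bcoef_nu0 hi, mul_pow, mul_pow, sq_abs,
    Real.sq_sqrt (PV341.aa_nonneg _ _ _)]
  ring

theorem Gf_zero (t : Fin 3 → ℝ) (i : ℕ) : Gf t 0 i = G t i := by
  unfold Gf
  rw [if_pos (Nat.zero_le i)]

/-- the reference scalar -/
noncomputable def SS0 (t : Fin 3 → ℝ) (P : ℕ) : ℝ := G t (P / 2) * G t (P - P / 2)

theorem SS0_eq (t : Fin 3 → ℝ) (P : ℕ) : PV341.sp t 0 P = SS0 t P := by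
  rw [PV341.sp, Gf_zero, Gf_zero, SS0]

theorem SS0_pos (t : Fin 3 → ℝ) (P : ℕ) : 0 < SS0 t P := mul_pos (PV341.G_pos _ _) (PV341.G_pos _ _)

theorem half_nonempty {Q p : ℕ} (hp : 1 ≤ p) (hp2 : p ≤ 2 * Q - 1) : (half Q p).Nonempty := by
  rcases le_or_gt p Q with h | h
  · exact ⟨0, mem_half.2 ⟨by omega, by omega⟩⟩
  · exact ⟨p - Q, mem_half.2 ⟨by omega, by omega⟩⟩

theorem nrm_pos' {Q p : ℕ} (hp : 1 ≤ p) (hp2 : p ≤ 2 * Q - 1) : 0 < nrm Q p := by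
  obtain ⟨i, hi⟩ := half_nonempty hp hp2
  exact PV341.nrm_pos hi

theorem ratio_ge {t : Fin 3 → ℝ} (ht : Adm t) {r s : ℕ} (hrs : r ≤ s) :
    SS0 t (r + s) ≤ G t r * G t s := by
  have h1 := PV341.ratio_eq t 0 r s
  have h2 := (PV341.ratio_exp ht 0 r s hrs).1
  rw [Gf_zero, Gf_zero, SS0_eq] at h1
  have h3 : 1 ≤ G t r * G t s / SS0 t (r + s) := by
    rw [h1]
    simp only [Gf_zero] at h2 ⊢
    exact Real.one_le_exp h2
  rwa [le_div_iff₀ (SS0_pos t _), one_mul] at h3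

theorem xx_eq {Q p i : ℕ} (hi : i ∈ half Q p) :
    (((Q - i : ℕ) : ℝ)) - ((Q - (p - i) : ℕ) : ℝ) = xx p i := by
  have h := mem_half.1 hi
  have h1 : i ≤ Q := by omega
  have h2 : i ≤ p := by omega
  rw [Nat.cast_sub h1, Nat.cast_sub h.2, Nat.cast_sub h2, xx]
  ring

theorem rho_sq {t : Fin 3 → ℝ} {Q p : ℕ} : rho t Q p ^ 2 =
    Geo986.nz (nuT t Q) Q p / nrm Q p := by
  rw [rho, div_pow, Real.sq_sqrt (Geo986.nz_nonneg _ _ _), Real.sq_sqrt (Geo986.nz_nonneg _ _ _),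
    Geo986.nz_nu0]

theorem le_rho_sq {t : Fin 3 → ℝ} (ht : Adm t) {Q p : ℕ} (hp : 1 ≤ p) (hp2 : p ≤ 2 * Q - 1) :
    SS0 t (2 * Q - p) ^ 2 ≤ rho t Q p ^ 2 := by
  rw [rho_sq, le_div_iff₀ (nrm_pos' hp hp2), nz_nuT, nrm, Finset.mul_sum]
  refine Finset.sum_le_sum fun i hi => ?_
  have h := mem_half.1 hi
  have e : Q - (p - i) + (Q - i) = 2 * Q - p := by omega
  have h1 := ratio_ge ht (r := Q - (p - i)) (s := Q - i) (by omega)
  rw [e, mul_comm (G t (Q - (p - i)))] at h1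
  have h2 := SS0_pos t (2 * Q - p)
  have h3 : SS0 t (2 * Q - p) ^ 2 ≤ (G t (Q - i) * G t (Q - (p - i))) ^ 2 := by gcongr
  have h4 : 0 ≤ aa Q p i * xx p i ^ 2 := mul_nonneg (PV341.aa_nonneg _ _ _) (sq_nonneg _)
  rw [mul_comm]
  exact mul_le_mul_of_nonneg_left h3 h4

theorem rho_sq_le : ∃ C : ℝ, 1 ≤ C ∧ ∀ (t : Fin 3 → ℝ), Adm t → ∀ (Q p : ℕ), 1 ≤ p →
    p ≤ 2 * Q - 1 → rho t Q p ^ 2 ≤ C * SS0 t (2 * Q - p) ^ 2 := by
  obtain ⟨C0, hC0, hr⟩ := PV341.ratio_bound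
  obtain ⟨C2, hC2, h2⟩ := PV341.beta_mom 2
  obtain ⟨C8, hC8, h8⟩ := PV341.beta_mom 8
  have hc2 := mul_nonneg (sq_nonneg C0) hC2
  have hc8 := mul_nonneg (sq_nonneg C0) hC8
  refine ⟨3 * (1 + C0 ^ 2 * C2 + C0 ^ 2 * C8), by linarith, ?_⟩
  intro t ht Q p hp hp2
  have hn := nrm_pos' hp hp2
  have hP1 : 1 ≤ 2 * Q - p := by omega
  have hP1' : (1 : ℝ) ≤ ((2 * Q - p : ℕ) : ℝ) := by exact_mod_cast hP1
  set P : ℝ := ((2 * Q - p : ℕ) : ℝ) with hP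
  set S := SS0 t (2 * Q - p) with hS
  have hS0 : 0 < S := SS0_pos t _
  have hdd : (dd Q p : ℝ) ≤ P := by
    rw [hP]
    have : dd Q p ≤ 2 * Q - p := min_le_right _ _
    exact_mod_cast this
  have hdd0 : (0 : ℝ) ≤ dd Q p := Nat.cast_nonneg _
  have hb2 := h2 Q p
  have hb8 := h8 Q p
  have hpt : ∀ i ∈ half Q p, aa Q p i * xx p i ^ 2 * (G t (Q - i) * G t (Q - (p - i))) ^ 2 ≤
      S ^ 2 * (3 * (aa Q p i * xx p i ^ 2) +
        nrm Q p * (3 * C0 ^ 2 / P ^ 4) * (beta Q p i ^ 2 * xx p i ^ (2 * 2)) +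
        nrm Q p * (3 * C0 ^ 2 / P ^ 10) * (beta Q p i ^ 2 * xx p i ^ (2 * 8))) := by
    intro i hi
    have h := mem_half.1 hi
    have e : Q - (p - i) + (Q - i) = 2 * Q - p := by omega
    have h1 := (hr t ht 0 (Q - (p - i)) (Q - i) (by omega) (by omega)).1
    rw [Gf_zero, Gf_zero, SS0_eq, e, xx_eq hi, ← hP, ← hS] at h1
    have h3 : G t (Q - (p - i)) * G t (Q - i) / S ≤
        1 + C0 * (xx p i ^ 2 / P ^ 2 + xx p i ^ 8 / P ^ 5) := by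
      have := le_abs_self (G t (Q - (p - i)) * G t (Q - i) / S - 1)
      linarith
    have h4 : 0 ≤ G t (Q - (p - i)) * G t (Q - i) / S :=
      div_nonneg (mul_nonneg (PV341.G_pos _ _).le (PV341.G_pos _ _).le) hS0.le
    have h5 : (G t (Q - (p - i)) * G t (Q - i) / S) ^ 2 ≤
        3 * (1 + C0 ^ 2 * (xx p i ^ 2 / P ^ 2) ^ 2 + C0 ^ 2 * (xx p i ^ 8 / P ^ 5) ^ 2) := by
      refine (pow_le_pow_left₀ h4 h3 2).trans ?_
      nlinarith [sq_nonneg (1 - C0 * (xx p i ^ 2 / P ^ 2)),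
        sq_nonneg (1 - C0 * (xx p i ^ 8 / P ^ 5)),
        sq_nonneg (C0 * (xx p i ^ 2 / P ^ 2) - C0 * (xx p i ^ 8 / P ^ 5))]
    have h6 : (G t (Q - i) * G t (Q - (p - i))) ^ 2 ≤ S ^ 2 *
        (3 * (1 + C0 ^ 2 * (xx p i ^ 2 / P ^ 2) ^ 2 + C0 ^ 2 * (xx p i ^ 8 / P ^ 5) ^ 2)) := by
      rw [div_pow, div_le_iff₀ (by positivity)] at h5
      rw [mul_comm (G t (Q - i))]
      linarith
    have h7 : 0 ≤ aa Q p i * xx p i ^ 2 := mul_nonneg (PV341.aa_nonneg _ _ _) (sq_nonneg _)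
    refine (mul_le_mul_of_nonneg_left h6 h7).trans (le_of_eq ?_)
    have hbs := PV341.beta_sq hi
    have hbs' : beta Q p i ^ 2 * nrm Q p = aa Q p i * xx p i ^ 2 := by
      rw [hbs]; field_simp
    rw [← hbs']
    field_simp
  rw [rho_sq, div_le_iff₀ hn, nz_nuT]
  calc ∑ i ∈ half Q p, aa Q p i * xx p i ^ 2 * (G t (Q - i) * G t (Q - (p - i))) ^ 2
      ≤ ∑ i ∈ half Q p, S ^ 2 * (3 * (aa Q p i * xx p i ^ 2) +
        nrm Q p * (3 * C0 ^ 2 / P ^ 4) * (beta Q p i ^ 2 * xx p i ^ (2 * 2)) +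
        nrm Q p * (3 * C0 ^ 2 / P ^ 10) * (beta Q p i ^ 2 * xx p i ^ (2 * 8))) :=
        Finset.sum_le_sum hpt
    _ = S ^ 2 * (3 * nrm Q p +
        nrm Q p * (3 * C0 ^ 2 / P ^ 4) * ∑ i ∈ half Q p, beta Q p i ^ 2 * xx p i ^ (2 * 2) +
        nrm Q p * (3 * C0 ^ 2 / P ^ 10) * ∑ i ∈ half Q p, beta Q p i ^ 2 * xx p i ^ (2 * 8)) := by
        rw [← Finset.mul_sum, Finset.sum_add_distrib, Finset.sum_add_distrib, ← Finset.mul_sum,
          ← Finset.mul_sum, ← Finset.mul_sum, nrm]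
    _ ≤ S ^ 2 * (3 * nrm Q p +
        nrm Q p * (3 * C0 ^ 2 / P ^ 4) * (C2 * P ^ 2) +
        nrm Q p * (3 * C0 ^ 2 / P ^ 10) * (C8 * P ^ 8)) := by
        have k2 : ∑ i ∈ half Q p, beta Q p i ^ 2 * xx p i ^ (2 * 2) ≤ C2 * P ^ 2 :=
          hb2.trans (by gcongr)
        have k8 : ∑ i ∈ half Q p, beta Q p i ^ 2 * xx p i ^ (2 * 8) ≤ C8 * P ^ 8 :=
          hb8.trans (by gcongr)
        gcongr
    _ ≤ S ^ 2 * (3 * nrm Q p + nrm Q p * (3 * C0 ^ 2) * C2 + nrm Q p * (3 * C0 ^ 2) * C8) := by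
        have k1 : 3 * C0 ^ 2 / P ^ 4 * (C2 * P ^ 2) ≤ 3 * C0 ^ 2 * C2 := by
          rw [div_mul_eq_mul_div, div_le_iff₀ (by positivity)]
          have : P ^ 2 ≤ P ^ 4 := pow_le_pow_right₀ hP1' (by norm_num)
          calc 3 * C0 ^ 2 * (C2 * P ^ 2) = 3 * C0 ^ 2 * C2 * P ^ 2 := by ring
            _ ≤ 3 * C0 ^ 2 * C2 * P ^ 4 := by gcongr
        have k3 : 3 * C0 ^ 2 / P ^ 10 * (C8 * P ^ 8) ≤ 3 * C0 ^ 2 * C8 := by
          rw [div_mul_eq_mul_div, div_le_iff₀ (by positivity)]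
          have : P ^ 8 ≤ P ^ 10 := pow_le_pow_right₀ hP1' (by norm_num)
          calc 3 * C0 ^ 2 * (C8 * P ^ 8) = 3 * C0 ^ 2 * C8 * P ^ 8 := by ring
            _ ≤ 3 * C0 ^ 2 * C8 * P ^ 10 := by gcongr
        have l1 := mul_le_mul_of_nonneg_left k1 hn.le
        have l3 := mul_le_mul_of_nonneg_left k3 hn.le
        gcongr S ^ 2 * ?_
        linarith
    _ = 3 * (1 + C0 ^ 2 * C2 + C0 ^ 2 * C8) * S ^ 2 * nrm Q p := by ring

/-! ### the reference scalar -/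

theorem rpow_neg_le_of_le {a b t : ℝ} (ha : 0 < a) (hab : a ≤ b) (ht : 0 ≤ t) :
    b ^ (-t) ≤ a ^ (-t) := Real.rpow_le_rpow_of_nonpos ha hab (by linarith)

theorem prod_rpow_neg (t : Fin 3 → ℝ) {a : ℝ} (ha : 0 < a) :
    ∏ k : Fin 3, a ^ (-(t k)) = a ^ (-∑ k, t k) := by
  rw [← Real.rpow_sum_of_pos ha, Finset.sum_neg_distrib]

theorem G_le_of {t : Fin 3 → ℝ} (ht : Adm t) {i : ℕ} {a : ℝ} (ha : 0 < a)
    (h : a ≤ (i : ℝ) + 1) : G t i ≤ a ^ (-∑ k, t k) := by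
  rw [← prod_rpow_neg t ha, G]
  refine Finset.prod_le_prod (fun k _ => by positivity) fun k _ => ?_
  exact rpow_neg_le_of_le ha (by have : (0 : ℝ) ≤ (k : ℕ) := Nat.cast_nonneg _; linarith) (ht k).1

theorem le_G_of {t : Fin 3 → ℝ} (ht : Adm t) {i : ℕ} {a : ℝ}
    (h : (i : ℝ) + 3 ≤ a) : a ^ (-∑ k, t k) ≤ G t i := by
  have ha : 0 < a := by have : (0 : ℝ) ≤ i := Nat.cast_nonneg _; linarith
  rw [← prod_rpow_neg t ha, G]
  refine Finset.prod_le_prod (fun k _ => by positivity) fun k _ => ?_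
  have hk : (((k : ℕ)) : ℝ) ≤ 2 := by exact_mod_cast Nat.lt_succ_iff.1 k.2
  exact rpow_neg_le_of_le (by positivity) (by linarith) (ht k).1

theorem SS0_sq_mul_le {t : Fin 3 → ℝ} (ht : Adm t) {P : ℕ} (hP : 1 ≤ P) :
    SS0 t P ^ 2 * (P : ℝ) ^ sE t ≤ 64 := by
  have hP' : (1 : ℝ) ≤ P := by exact_mod_cast hP
  have ha : (0 : ℝ) < (P : ℝ) / 2 := by positivity
  have h1 : (P : ℝ) / 2 ≤ ((P / 2 : ℕ) : ℝ) + 1 := by
    have : P ≤ 2 * (P / 2 + 1) := by omega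
    have h : (P : ℝ) ≤ 2 * (((P / 2 : ℕ) : ℝ) + 1) := by exact_mod_cast this
    linarith
  have h2 : (P : ℝ) / 2 ≤ ((P - P / 2 : ℕ) : ℝ) + 1 := by
    have : P ≤ 2 * (P - P / 2 + 1) := by omega
    have h : (P : ℝ) ≤ 2 * (((P - P / 2 : ℕ) : ℝ) + 1) := by exact_mod_cast this
    linarith
  have g1 := G_le_of ht ha h1
  have g2 := G_le_of ht ha h2
  have k1 := (PV341.G_pos t (P / 2)).le
  have k2 := (PV341.G_pos t (P - P / 2)).le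
  have hx : 0 < ((P : ℝ) / 2) ^ (-∑ k, t k) := Real.rpow_pos_of_pos ha _
  have h3 : SS0 t P ^ 2 ≤ (((P : ℝ) / 2) ^ (-∑ k, t k)) ^ 4 := by
    unfold SS0
    calc (G t (P / 2) * G t (P - P / 2)) ^ 2 ≤ (((P : ℝ) / 2) ^ (-∑ k, t k) *
          ((P : ℝ) / 2) ^ (-∑ k, t k)) ^ 2 := by gcongr
      _ = _ := by ring
  have h4 : (((P : ℝ) / 2) ^ (-∑ k, t k)) ^ 4 = 2 ^ sE t * ((P : ℝ) ^ sE t)⁻¹ := by
    rw [← Real.rpow_natCast, ← Real.rpow_mul ha.le, Real.div_rpow (by positivity) (by norm_num)]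
    have e : -(∑ k, t k) * ((4 : ℕ) : ℝ) = - sE t := by unfold sE; push_cast; ring
    rw [e, Real.rpow_neg (by positivity), Real.rpow_neg (by norm_num), div_inv_eq_mul, mul_comm]
  have hPs : 0 < (P : ℝ) ^ sE t := Real.rpow_pos_of_pos (by linarith) _
  have h5 : (2 : ℝ) ^ sE t ≤ 64 := by
    have := Real.rpow_le_rpow_of_exponent_le (x := 2) (by norm_num) (sE_le ht)
    refine this.trans (le_of_eq ?_)
    rw [show (6 : ℝ) = ((6 : ℕ) : ℝ) by norm_num, Real.rpow_natCast]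
    norm_num
  calc SS0 t P ^ 2 * (P : ℝ) ^ sE t ≤ 2 ^ sE t * ((P : ℝ) ^ sE t)⁻¹ * (P : ℝ) ^ sE t := by
        rw [← h4]; gcongr
    _ = 2 ^ sE t := by rw [mul_assoc, inv_mul_cancel₀ hPs.ne', mul_one]
    _ ≤ 64 := h5

theorem le_SS0_sq_mul {t : Fin 3 → ℝ} (ht : Adm t) {P : ℕ} (hP : 1 ≤ P) :
    (2 ^ 12)⁻¹ ≤ SS0 t P ^ 2 * (P : ℝ) ^ sE t := by
  have hP' : (1 : ℝ) ≤ P := by exact_mod_cast hP
  have ha : (0 : ℝ) < 4 * (P : ℝ) := by positivity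
  have h1 : ((P / 2 : ℕ) : ℝ) + 3 ≤ 4 * (P : ℝ) := by
    have : P / 2 + 3 ≤ 4 * P := by omega
    exact_mod_cast this
  have h2 : ((P - P / 2 : ℕ) : ℝ) + 3 ≤ 4 * (P : ℝ) := by
    have : P - P / 2 + 3 ≤ 4 * P := by omega
    exact_mod_cast this
  have g1 := le_G_of ht h1
  have g2 := le_G_of ht h2
  have hx : 0 < (4 * (P : ℝ)) ^ (-∑ k, t k) := Real.rpow_pos_of_pos ha _
  have k1 := (PV341.G_pos t (P / 2)).le
  have h3 : ((4 * (P : ℝ)) ^ (-∑ k, t k)) ^ 4 ≤ SS0 t P ^ 2 := by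
    unfold SS0
    calc ((4 * (P : ℝ)) ^ (-∑ k, t k)) ^ 4 = ((4 * (P : ℝ)) ^ (-∑ k, t k) *
          (4 * (P : ℝ)) ^ (-∑ k, t k)) ^ 2 := by ring
      _ ≤ _ := by gcongr
  have h4 : ((4 * (P : ℝ)) ^ (-∑ k, t k)) ^ 4 = (4 ^ sE t)⁻¹ * ((P : ℝ) ^ sE t)⁻¹ := by
    rw [← Real.rpow_natCast, ← Real.rpow_mul ha.le, Real.mul_rpow (by norm_num) (by positivity)]
    have e : -(∑ k, t k) * ((4 : ℕ) : ℝ) = - sE t := by unfold sE; push_cast; ring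
    rw [e, Real.rpow_neg (by norm_num), Real.rpow_neg (by positivity)]
  have hPs : 0 < (P : ℝ) ^ sE t := Real.rpow_pos_of_pos (by linarith) _
  have h5 : (4 : ℝ) ^ sE t ≤ 2 ^ 12 := by
    have := Real.rpow_le_rpow_of_exponent_le (x := 4) (by norm_num) (sE_le ht)
    refine this.trans (le_of_eq ?_)
    rw [show (6 : ℝ) = ((6 : ℕ) : ℝ) by norm_num, Real.rpow_natCast]
    norm_num
  have h6 : 0 < (4 : ℝ) ^ sE t := Real.rpow_pos_of_pos (by norm_num) _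
  calc (2 ^ 12)⁻¹ ≤ ((4 : ℝ) ^ sE t)⁻¹ := by gcongr
    _ = (4 ^ sE t)⁻¹ * ((P : ℝ) ^ sE t)⁻¹ * (P : ℝ) ^ sE t := by
        rw [mul_assoc, inv_mul_cancel₀ hPs.ne', mul_one]
    _ ≤ SS0 t P ^ 2 * (P : ℝ) ^ sE t := by
        rw [← h4]; gcongr

/-- **uniform bounds for the weights** -/
theorem hh_bounds : ∃ c C : ℝ, 0 < c ∧ c ≤ C ∧ ∀ (t : Fin 3 → ℝ), Adm t → ∀ (Q p : ℕ), 1 ≤ p →
    p ≤ 2 * Q - 1 → c ≤ hh t Q p ∧ hh t Q p ≤ C := by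
  obtain ⟨C0, hC0, hr⟩ := rho_sq_le
  refine ⟨(2 ^ 37)⁻¹ * (2 ^ 12)⁻¹, C0 * 64 * (1 + 2 ^ 48), by positivity, ?_, ?_⟩
  · norm_num
    linarith
  intro t ht Q p hp hp2
  have hP1 : 1 ≤ 2 * Q - p := by omega
  have e1 := EE_lower ht hp hp2
  have e2 := EE_upper ht hp hp2
  have r1 := le_rho_sq ht hp hp2
  have r2 := hr t ht Q p hp hp2
  have s1 := SS0_sq_mul_le ht hP1
  have s2 := le_SS0_sq_mul ht hP1
  have hPs : 0 < ((2 * Q - p : ℕ) : ℝ) ^ sE t :=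
    Real.rpow_pos_of_pos (by exact_mod_cast hP1) _
  have hE0 : 0 ≤ EE t Q p := le_trans (by positivity) e1
  unfold hh
  constructor
  · calc (2 ^ 37)⁻¹ * (2 ^ 12)⁻¹ ≤ (2 ^ 37)⁻¹ * (SS0 t (2 * Q - p) ^ 2 *
          ((2 * Q - p : ℕ) : ℝ) ^ sE t) := by gcongr
      _ = SS0 t (2 * Q - p) ^ 2 * ((2 ^ 37)⁻¹ * ((2 * Q - p : ℕ) : ℝ) ^ sE t) := by ring
      _ ≤ rho t Q p ^ 2 * EE t Q p := by gcongr
  · calc rho t Q p ^ 2 * EE t Q p ≤ (C0 * SS0 t (2 * Q - p) ^ 2) *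
          ((1 + 2 ^ 48) * ((2 * Q - p : ℕ) : ℝ) ^ sE t) := by gcongr
      _ = C0 * (SS0 t (2 * Q - p) ^ 2 * ((2 * Q - p : ℕ) : ℝ) ^ sE t) * (1 + 2 ^ 48) := by ring
      _ ≤ C0 * 64 * (1 + 2 ^ 48) := by gcongr

end Crest.Agent.R340.LocT163
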