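import Crest.Agent.R340.PD4_757
import Crest.Agent.R340.FI1_331
import Crest.Agent.R340.FiltQL_867

/-!
# R340 (helper757): `FarB`, `NearB` of `Filt867` in the group frame

`far_B R Q k`  : `FarB R (fb Q) (uf Q) (dQ Q) (k+5) (4 Kn (k+3))`,
`near_B R Q m` : `NearB R (fb Q) (uf Q) (dQ Q) m (2 Ks m)`, for any CAR representation `R`.
-/

set_option autoImplicit false
set_option linter.unusedSectionVars false

namespace Crest.Agent.R340.PD757

open Finset MeasureTheory Matrix Crest.Agent.R340.QL331 Crest.Agent.R340.CS809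
  Crest.Agent.R340.Fock649 Crest.Agent.R340.Avg814 Crest.Agent.R340.Rot303
  Crest.Agent.R340.DC867 Crest.Agent.R340.Filt867 Crest.Agent.R340.FI331

section gen

variable {A V Z : Type*} [CStarAlgebra A] [NormedAddCommGroup V] [InnerProductSpace ℂ V]

/-- `br` is the Lie bracket -/
theorem br_eq_lie (x y : A) : br x y = ⁅x, y⁆ := rfl

theorem cs_le_of_gen (R : Car A V) (u : Fin 2 → Z → V) {y : A} {g : Z → ℝ} (k : Fin 2) (z : Z)
    (h : ∀ k z, ‖⁅y, gen R u k z⁆‖ ≤ g z) : R.cs y (u k z) ≤ 2 * g z := by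
  have h1 := h (k, false) z
  have h2 := h (k, true) z
  rw [gen_false] at h1
  rw [gen_true] at h2
  unfold Car.cs
  rw [br_eq_lie, br_eq_lie]
  linarith


variable [CompleteSpace V] [MeasurableSpace Z] {μ : Measure Z} {Q : ℕ}
  {b : Z → OrthonormalBasis (Fin (Q + 1)) ℂ V} {τ D : Z → Z → ℝ}

/-- `FarB` for a frame -/
theorem Frm.farB (F : Frm μ Q b τ D) (R : Car A V) {u : Fin 2 → Z → V}
    (hu : ∀ z, u 0 z = b z 0) (k : ℕ) : FarB R b u D (k + 5) (4 * Kn (k + 3)) := by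
  intro y w K hK hy l
  have hcs : ∀ z, R.cs y (b z 0) ≤ (2 * K) * ((1 + D z w)⁻¹) ^ ((k + 3) + 2) := by
    intro z
    have h1 := cs_le_of_gen R u 0 z hy
    rw [hu] at h1
    refine h1.trans (le_of_eq ?_)
    rw [inv_pow]
    ring
  have h1 : ∀ j ∈ farS (Q + 1) (4 ^ l), R.cs y (b w j) ≤
      (Kn (k + 3) * (2 * K)) * ((sj (j:ℕ))⁻¹) ^ (k + 3) := fun j _ =>
    F.cs_near R (by positivity) (k + 3) hcs j
  refine (sum_le_sum h1).trans ?_
  rw [← mul_sum]
  have h2 := sum_far_pow (Q + 1) l k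
  have h3 := Kn_pos (k + 3)
  have e : k + 5 - 4 = k + 1 := by omega
  rw [e]
  calc _ ≤ Kn (k + 3) * (2 * K) * (2 * (((2:ℝ) ^ l)⁻¹) ^ (k + 1)) := by gcongr
    _ = _ := by
        rw [inv_pow, ← pow_mul, mul_comm l (k + 1)]
        ring

/-- `NearB` for a frame -/
theorem Frm.nearB (F : Frm μ Q b τ D) (R : Car A V) {u : Fin 2 → Z → V}
    (hu : ∀ z, u 0 z = b z 0) (m : ℕ) : NearB R b u D m (2 * Ks m) := by
  intro X x K hK hX w l
  have hcs : ∀ z, R.cs X (b z 0) ≤ (2 * K) * ((1 + D z x)⁻¹) ^ m := by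
    intro z
    have h1 := cs_le_of_gen R u 0 z hX
    rw [hu] at h1
    refine h1.trans (le_of_eq ?_)
    rw [inv_pow]
    ring
  refine (F.sum_near_le R (by positivity) m hcs w l).trans (le_of_eq ?_)
  rw [inv_pow, ← pow_mul, mul_comm l (m + 4)]
  ring

end gen

/-- the two frames agree -/
theorem fb_eq_ub (Q : ℕ) : fb Q = ub Q := by
  funext g
  refine DFunLike.coe_injective ?_
  funext j
  rw [fb_apply, ub_apply]
  ext i
  rw [vec_apply, uk_apply]

theorem frm_fb (Q : ℕ) : Frm hm Q (fb Q) tq (dQ Q) := by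
  rw [fb_eq_ub]; exact frm Q

theorem uf_zero (Q : ℕ) (g : U2) : uf Q 0 g = fb Q g 0 := by
  rw [uf_eq]
  congr 1

variable {A : Type*} [CStarAlgebra A]

/-- `FarB` in the group frame (`M = k + 5`) -/
theorem far_B {Q : ℕ} (R : Car A (L (Fin (Q + 1)))) (k : ℕ) :
    FarB R (fb Q) (uf Q) (dQ Q) (k + 5) (4 * Kn (k + 3)) :=
  (frm_fb Q).farB R (uf_zero Q) k

/-- `NearB` in the group frame -/
theorem near_B {Q : ℕ} (R : Car A (L (Fin (Q + 1)))) (m : ℕ) :
    NearB R (fb Q) (uf Q) (dQ Q) m (2 * Ks m) :=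
  (frm_fb Q).nearB R (uf_zero Q) m

/-- the pair of exponents of `Filt867.tau_profile_frame` -/
theorem far_B' {Q : ℕ} (R : Car A (L (Fin (Q + 1)))) (m : ℕ) :
    FarB R (fb Q) (uf Q) (dQ Q) (m + 9) (4 * Kn (m + 7)) := far_B R (m + 4)

end Crest.Agent.R340.PD757
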