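import Mathlib
import Crest.Agent.R340.Tz3_877
import Crest.Agent.R340.LR5_667
import Crest.Agent.R340.FI1_331
import Crest.Agent.R340.Avg2_814
import Crest.Agent.R340.PathStep2_880
import Crest.Agent.R340.Scal_725
import Mathlib.MeasureTheory.Integral.IntervalIntegral.IntegrationByParts
import Mathlib.Analysis.Calculus.ParametricIntegral
import Mathlib.MeasureTheory.Integral.IntegralEqImproper
import Mathlib.MeasureTheory.Integral.Gamma
import Mathlib.Analysis.SpecialFunctions.Gamma.Basic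
import Mathlib.MeasureTheory.Integral.Prod
import Mathlib.Analysis.SpecialFunctions.Gaussian.GaussianIntegral

-- ▼ part R340/Tz1_877
section

/-!
# Row 340, block O10: linearisation moments of coherent vectors (helper877)

Core estimate: matrix elements of `(i - m)² x^i` between coherent vectors.
`g0 g1`, `h0 h1` are the spinors (first columns of unitary matrices `g`, `h`),
`i` = number of `0`-factors (`i = Q - j`), `m = Q ‖g0‖²` its mean in the coherent state of `g`,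
`dd = ‖g0 h1 - g1 h0‖` the chordal distance (half of the chord).
-/

set_option autoImplicit false

namespace Crest.Agent.R340.Tz877

open Finset Complex

/-! ## binomial sums -/

section binom

variable {R : Type*} [CommRing R]

theorem sum_choose (Q : ℕ) (a b : R) :
    ∑ i ∈ range (Q + 1), (Q.choose i : R) * b ^ i * a ^ (Q - i) = (a + b) ^ Q := by
  rw [add_comm a b, add_pow]
  exact sum_congr rfl fun i _ => by ring

theorem sum_choose_one (Q : ℕ) (a b : R) :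
    ∑ i ∈ range (Q + 2), ((Q + 1).choose i : R) * b ^ i * a ^ (Q + 1 - i) * (i : R) =
      (Q + 1 : ℕ) * b * (a + b) ^ Q := by
  rw [sum_range_succ', ← sum_choose Q a b, mul_sum]
  simp only [Nat.cast_zero, mul_zero, add_zero]
  refine sum_congr rfl fun i hi => ?_
  have h1 : (((Q + 1).choose (i + 1) : ℕ) : R) * ((i + 1 : ℕ) : R) = ((Q + 1 : ℕ) : R) * (Q.choose i : R) := by
    rw [← Nat.cast_mul, ← Nat.cast_mul, Nat.add_one_mul_choose_eq Q i]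
  have h2 : Q + 1 - (i + 1) = Q - i := by omega
  rw [h2]
  calc (((Q + 1).choose (i + 1) : ℕ) : R) * b ^ (i + 1) * a ^ (Q - i) * ((i + 1 : ℕ) : R)
      = ((((Q + 1).choose (i + 1) : ℕ) : R) * ((i + 1 : ℕ) : R)) * b ^ (i + 1) * a ^ (Q - i) := by ring
    _ = _ := by rw [h1]; ring

theorem sum_choose_two (Q : ℕ) (a b : R) :
    ∑ i ∈ range (Q + 3), ((Q + 2).choose i : R) * b ^ i * a ^ (Q + 2 - i) * ((i : R) * ((i : R) - 1)) =
      (Q + 2 : ℕ) * (Q + 1 : ℕ) * b ^ 2 * (a + b) ^ Q := by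
  have key := sum_choose_one Q a b
  rw [sum_range_succ']
  simp only [Nat.cast_zero, mul_zero, zero_mul, add_zero]
  have e : ((Q + 2 : ℕ) : R) * (Q + 1 : ℕ) * b ^ 2 * (a + b) ^ Q =
      ((Q + 2 : ℕ) : R) * b * ((Q + 1 : ℕ) * b * (a + b) ^ Q) := by ring
  rw [e, ← key, mul_sum]
  refine sum_congr rfl fun i hi => ?_
  have h1 : (((Q + 2).choose (i + 1) : ℕ) : R) * ((i + 1 : ℕ) : R) =
      ((Q + 2 : ℕ) : R) * ((Q + 1).choose i : R) := by
    rw [← Nat.cast_mul, ← Nat.cast_mul, Nat.add_one_mul_choose_eq (Q + 1) i]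
  have h2 : Q + 2 - (i + 1) = Q + 1 - i := by omega
  rw [h2]
  have h3 : ((i + 1 : ℕ) : R) - 1 = (i : R) := by push_cast; ring
  rw [h3]
  calc (((Q + 2).choose (i + 1) : ℕ) : R) * b ^ (i + 1) * a ^ (Q + 1 - i) * (((i + 1 : ℕ) : R) * (i : R))
      = ((((Q + 2).choose (i + 1) : ℕ) : R) * ((i + 1 : ℕ) : R)) * b ^ (i + 1) * a ^ (Q + 1 - i) * (i : R) := by
        ring
    _ = _ := by rw [h1]; ring

/-- `∑ C(Q,i) b^i a^(Q-i) (i-m)² = (a+b)^(Q-2) ((m (a+b) - Q b)² + Q a b)` -/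
theorem sum_choose_sq (Q : ℕ) (a b m : R) :
    ∑ i ∈ range (Q + 3), ((Q + 2).choose i : R) * b ^ i * a ^ (Q + 2 - i) * ((i : R) - m) ^ 2 =
      (a + b) ^ Q * ((m * (a + b) - (Q + 2 : ℕ) * b) ^ 2 + (Q + 2 : ℕ) * a * b) := by
  have h0 := sum_choose (Q + 2) a b
  have h1 := sum_choose_one (Q + 1) a b
  have h2 := sum_choose_two Q a b
  have e : ∀ i : ℕ, ((Q + 2).choose i : R) * b ^ i * a ^ (Q + 2 - i) * ((i : R) - m) ^ 2 =
      ((Q + 2).choose i : R) * b ^ i * a ^ (Q + 2 - i) * ((i : R) * ((i : R) - 1)) +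
      (1 - 2 * m) * (((Q + 2).choose i : R) * b ^ i * a ^ (Q + 2 - i) * (i : R)) +
      m ^ 2 * (((Q + 2).choose i : R) * b ^ i * a ^ (Q + 2 - i)) := fun i => by ring
  simp only [e, sum_add_distrib, ← mul_sum]
  rw [h2]
  have h1' : ∑ i ∈ range (Q + 3), ((Q + 2).choose i : R) * b ^ i * a ^ (Q + 2 - i) * (i : R) =
      ((Q + 2 : ℕ) : R) * b * (a + b) ^ (Q + 1) := h1
  have h0' : ∑ i ∈ range (Q + 3), ((Q + 2).choose i : R) * b ^ i * a ^ (Q + 2 - i) =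
      (a + b) ^ (Q + 2) := h0
  rw [h1', h0']
  push_cast
  ring

end binom

/-! ## the core estimate -/

section core

variable (g0 g1 h0 h1 : ℂ)

/-- `M00 = ⟨h, diag(x,1) g⟩` -/
noncomputable def ov (x : ℝ) : ℂ := (starRingEnd ℂ) h1 * g1 + (starRingEnd ℂ) h0 * g0 * x

noncomputable def o10 (x : ℝ) : ℂ := h0 * g1 - x * (h1 * g0)

noncomputable def o01 (x : ℝ) : ℂ := g0 * h1 - x * (g1 * h0)

/-- chordal distance -/
noncomputable def dd : ℝ := ‖g0 * h1 - g1 * h0‖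

variable {g0 g1 h0 h1}

theorem normSq_ov_add (x : ℝ) (hh : ‖h0‖ ^ 2 + ‖h1‖ ^ 2 = 1) :
    ‖ov g0 g1 h0 h1 x‖ ^ 2 + ‖o10 g0 g1 h0 h1 x‖ ^ 2 = ‖g1‖ ^ 2 + x ^ 2 * ‖g0‖ ^ 2 := by
  have e : ∀ z : ℂ, ‖z‖ ^ 2 = z.re ^ 2 + z.im ^ 2 := fun z => by
    rw [← Complex.normSq_eq_norm_sq, Complex.normSq_apply]; ring
  simp only [e] at hh ⊢
  simp only [ov, o10, Complex.add_re, Complex.add_im, Complex.sub_re, Complex.sub_im,
    Complex.mul_re, Complex.mul_im, Complex.conj_re, Complex.conj_im, Complex.ofReal_re,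
    Complex.ofReal_im]
  linear_combination (g1.re ^ 2 + g1.im ^ 2 + x ^ 2 * (g0.re ^ 2 + g0.im ^ 2)) * hh

theorem norm_ov_sq_le {x : ℝ} (hx0 : 0 ≤ x) (hx1 : x ≤ 1) (hg : ‖g0‖ ^ 2 + ‖g1‖ ^ 2 = 1)
    (hh : ‖h0‖ ^ 2 + ‖h1‖ ^ 2 = 1) :
    ‖ov g0 g1 h0 h1 x‖ ^ 2 ≤
      Real.exp (-((1 - x) * ‖g0‖ ^ 2 + ‖o10 g0 g1 h0 h1 x‖ ^ 2)) := by
  have h := normSq_ov_add (g0 := g0) (g1 := g1) x hh
  have h1 : ‖ov g0 g1 h0 h1 x‖ ^ 2 ≤ -((1 - x) * ‖g0‖ ^ 2 + ‖o10 g0 g1 h0 h1 x‖ ^ 2) + 1 := by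
    nlinarith [mul_nonneg (mul_nonneg hx0 (sub_nonneg.2 hx1)) (sq_nonneg ‖g0‖)]
  exact h1.trans (Real.add_one_le_exp _)

/-- `‖ov‖^n ≤ exp(-(n/2)((1-x)‖g0‖² + ‖o10‖²))` -/
theorem norm_ov_pow_le {x : ℝ} (hx0 : 0 ≤ x) (hx1 : x ≤ 1) (hg : ‖g0‖ ^ 2 + ‖g1‖ ^ 2 = 1)
    (hh : ‖h0‖ ^ 2 + ‖h1‖ ^ 2 = 1) (n : ℕ) :
    ‖ov g0 g1 h0 h1 x‖ ^ n ≤
      Real.exp (-((n : ℝ) / 2 * ((1 - x) * ‖g0‖ ^ 2 + ‖o10 g0 g1 h0 h1 x‖ ^ 2))) := by
  have h := norm_ov_sq_le hx0 hx1 hg hh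
  have h2 : ‖ov g0 g1 h0 h1 x‖ ≤
      Real.exp (-((1 - x) * ‖g0‖ ^ 2 + ‖o10 g0 g1 h0 h1 x‖ ^ 2) / 2) := by
    have h3 : (Real.exp (-((1 - x) * ‖g0‖ ^ 2 + ‖o10 g0 g1 h0 h1 x‖ ^ 2) / 2)) ^ 2 =
        Real.exp (-((1 - x) * ‖g0‖ ^ 2 + ‖o10 g0 g1 h0 h1 x‖ ^ 2)) := by
      rw [← Real.exp_nat_mul]; congr 1; push_cast; ring
    rw [← h3] at h
    exact le_of_sq_le_sq h (Real.exp_pos _).le
  calc ‖ov g0 g1 h0 h1 x‖ ^ n
      ≤ (Real.exp (-((1 - x) * ‖g0‖ ^ 2 + ‖o10 g0 g1 h0 h1 x‖ ^ 2) / 2)) ^ n :=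
        pow_le_pow_left₀ (norm_nonneg _) h2 n
    _ = _ := by rw [← Real.exp_nat_mul]; congr 1; ring

/-- `m M00 - Q b x = Q g0 g1 conj(o01)` with `m = Q ‖g0‖²` -/
theorem lin_identity (x : ℝ) (hg : ‖g0‖ ^ 2 + ‖g1‖ ^ 2 = 1) (Q : ℂ) :
    Q * (‖g0‖ ^ 2 : ℝ) * ov g0 g1 h0 h1 x - Q * ((starRingEnd ℂ) h0 * g0 * x) =
      Q * (g0 * g1 * (starRingEnd ℂ) (o01 g0 g1 h0 h1 x)) := by
  have e0 : ((‖g0‖ ^ 2 : ℝ) : ℂ) = g0 * (starRingEnd ℂ) g0 := by
    rw [Complex.mul_conj, Complex.normSq_eq_norm_sq]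
  have e1 : ((‖g1‖ ^ 2 : ℝ) : ℂ) = g1 * (starRingEnd ℂ) g1 := by
    rw [Complex.mul_conj, Complex.normSq_eq_norm_sq]
  have hg' : g0 * (starRingEnd ℂ) g0 + g1 * (starRingEnd ℂ) g1 = 1 := by
    rw [← e0, ← e1, ← Complex.ofReal_add, hg, Complex.ofReal_one]
  rw [e0]
  simp only [ov, o01, map_sub, map_mul, Complex.conj_ofReal]
  linear_combination (Q * ((starRingEnd ℂ) h0 * g0 * x)) * hg'

theorem norm_le_one_left (hg : ‖g0‖ ^ 2 + ‖g1‖ ^ 2 = 1) : ‖g0‖ ≤ 1 := by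
  nlinarith [norm_nonneg g0, sq_nonneg ‖g1‖, norm_nonneg g1]

theorem norm_le_one_right (hg : ‖g0‖ ^ 2 + ‖g1‖ ^ 2 = 1) : ‖g1‖ ≤ 1 := by
  nlinarith [norm_nonneg g1, sq_nonneg ‖g0‖, norm_nonneg g0]

theorem inner_le_one (hg : ‖g0‖ ^ 2 + ‖g1‖ ^ 2 = 1) (hh : ‖h0‖ ^ 2 + ‖h1‖ ^ 2 = 1) :
    ‖(starRingEnd ℂ) g0 * h0 + (starRingEnd ℂ) g1 * h1‖ ≤ 1 := by
  have h := normSq_ov_add (g0 := h0) (g1 := h1) (h0 := g0) (h1 := g1) 1 hg
  have e : ov h0 h1 g0 g1 1 = (starRingEnd ℂ) g0 * h0 + (starRingEnd ℂ) g1 * h1 := by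
    simp [ov]; ring
  rw [e] at h
  have h2 : ‖(starRingEnd ℂ) g0 * h0 + (starRingEnd ℂ) g1 * h1‖ ^ 2 ≤ 1 := by
    nlinarith [sq_nonneg ‖o10 h0 h1 g0 g1 1‖]
  nlinarith [norm_nonneg ((starRingEnd ℂ) g0 * h0 + (starRingEnd ℂ) g1 * h1)]

/-- `‖h0‖ ≤ ‖g0‖ + dd` -/
theorem norm_h0_le (hg : ‖g0‖ ^ 2 + ‖g1‖ ^ 2 = 1) (hh : ‖h0‖ ^ 2 + ‖h1‖ ^ 2 = 1) :
    ‖h0‖ ≤ ‖g0‖ + dd g0 g1 h0 h1 := by
  have e0 : ((‖g0‖ ^ 2 : ℝ) : ℂ) = g0 * (starRingEnd ℂ) g0 := by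
    rw [Complex.mul_conj, Complex.normSq_eq_norm_sq]
  have e1 : ((‖g1‖ ^ 2 : ℝ) : ℂ) = g1 * (starRingEnd ℂ) g1 := by
    rw [Complex.mul_conj, Complex.normSq_eq_norm_sq]
  have hg' : g0 * (starRingEnd ℂ) g0 + g1 * (starRingEnd ℂ) g1 = 1 := by
    rw [← e0, ← e1, ← Complex.ofReal_add, hg, Complex.ofReal_one]
  have e : h0 = ((starRingEnd ℂ) g0 * h0 + (starRingEnd ℂ) g1 * h1) * g0 -
      (g0 * h1 - g1 * h0) * (starRingEnd ℂ) g1 := by
    linear_combination (-h0) * hg'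
  calc ‖h0‖ = ‖((starRingEnd ℂ) g0 * h0 + (starRingEnd ℂ) g1 * h1) * g0 -
      (g0 * h1 - g1 * h0) * (starRingEnd ℂ) g1‖ := by rw [← e]
    _ ≤ ‖((starRingEnd ℂ) g0 * h0 + (starRingEnd ℂ) g1 * h1) * g0‖ +
        ‖(g0 * h1 - g1 * h0) * (starRingEnd ℂ) g1‖ := norm_sub_le _ _
    _ ≤ 1 * ‖g0‖ + dd g0 g1 h0 h1 * 1 := by
        rw [norm_mul, norm_mul, RCLike.norm_conj]
        exact add_le_add (mul_le_mul_of_nonneg_right (inner_le_one hg hh) (norm_nonneg _))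
          (mul_le_mul_of_nonneg_left (norm_le_one_right hg) (norm_nonneg _))
    _ = _ := by ring

/-- `‖h1‖ ≤ ‖g1‖ + dd` -/
theorem norm_h1_le (hg : ‖g0‖ ^ 2 + ‖g1‖ ^ 2 = 1) (hh : ‖h0‖ ^ 2 + ‖h1‖ ^ 2 = 1) :
    ‖h1‖ ≤ ‖g1‖ + dd g0 g1 h0 h1 := by
  have h := norm_h0_le (g0 := g1) (g1 := g0) (h0 := h1) (h1 := h0) (by linarith) (by linarith)
  have e : dd g1 g0 h1 h0 = dd g0 g1 h0 h1 := by
    unfold dd
    rw [← norm_neg]
    congr 1
    ring
  rwa [e] at h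

theorem norm_o01_le {x : ℝ} (hx1 : x ≤ 1) (hg : ‖g0‖ ^ 2 + ‖g1‖ ^ 2 = 1) :
    ‖o01 g0 g1 h0 h1 x‖ ≤ dd g0 g1 h0 h1 + (1 - x) * ‖h0‖ := by
  have e : o01 g0 g1 h0 h1 x = (g0 * h1 - g1 * h0) + ((1 - x : ℝ) : ℂ) * (g1 * h0) := by
    simp only [o01]; push_cast; ring
  rw [e]
  calc ‖(g0 * h1 - g1 * h0) + ((1 - x : ℝ) : ℂ) * (g1 * h0)‖
      ≤ ‖g0 * h1 - g1 * h0‖ + ‖((1 - x : ℝ) : ℂ) * (g1 * h0)‖ := norm_add_le _ _
    _ ≤ dd g0 g1 h0 h1 + (1 - x) * (1 * ‖h0‖) := by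
        rw [norm_mul, norm_mul, Complex.norm_real, Real.norm_of_nonneg (sub_nonneg.2 hx1)]
        exact add_le_add le_rfl (mul_le_mul_of_nonneg_left
          (mul_le_mul_of_nonneg_right (norm_le_one_right hg) (norm_nonneg _))
          (sub_nonneg.2 hx1))
    _ = _ := by ring

theorem dd_le {x : ℝ} (hx1 : x ≤ 1) (hh : ‖h0‖ ^ 2 + ‖h1‖ ^ 2 = 1) :
    dd g0 g1 h0 h1 ≤ ‖o10 g0 g1 h0 h1 x‖ + (1 - x) * ‖g0‖ := by
  have e : g0 * h1 - g1 * h0 = -(o10 g0 g1 h0 h1 x) + ((1 - x : ℝ) : ℂ) * (h1 * g0) := by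
    simp only [o10]; push_cast; ring
  rw [dd, e]
  calc ‖-(o10 g0 g1 h0 h1 x) + ((1 - x : ℝ) : ℂ) * (h1 * g0)‖
      ≤ ‖-(o10 g0 g1 h0 h1 x)‖ + ‖((1 - x : ℝ) : ℂ) * (h1 * g0)‖ := norm_add_le _ _
    _ ≤ ‖o10 g0 g1 h0 h1 x‖ + (1 - x) * (1 * ‖g0‖) := by
        rw [norm_neg, norm_mul, norm_mul, Complex.norm_real,
          Real.norm_of_nonneg (sub_nonneg.2 hx1)]
        exact add_le_add le_rfl (mul_le_mul_of_nonneg_left
          (mul_le_mul_of_nonneg_right (norm_le_one_right hh) (norm_nonneg _))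
          (sub_nonneg.2 hx1))
    _ = _ := by ring

/-- the matrix element `⟨u₀(h), (i-m)² x^i u₀(g)⟩` -/
noncomputable def me2 (g0 g1 h0 h1 : ℂ) (Q : ℕ) (x : ℝ) : ℂ :=
  ∑ i ∈ range (Q + 1), (Q.choose i : ℂ) * ((starRingEnd ℂ) h0 * g0 * x) ^ i *
    ((starRingEnd ℂ) h1 * g1) ^ (Q - i) * ((i : ℂ) - ((Q * ‖g0‖ ^ 2 : ℝ) : ℂ)) ^ 2

theorem norm_me2_le {x : ℝ} (hx0 : 0 ≤ x) (hx1 : x ≤ 1) (hg : ‖g0‖ ^ 2 + ‖g1‖ ^ 2 = 1)
    (hh : ‖h0‖ ^ 2 + ‖h1‖ ^ 2 = 1) {Q : ℕ} (hQ : 3 ≤ Q) {r : ℝ}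
    (hr : r = Real.sqrt Q * ‖o10 g0 g1 h0 h1 x‖ + Real.sqrt Q * (1 - x) * ‖g0‖) :
    ‖me2 g0 g1 h0 h1 Q x‖ ≤ 10 * (1 + Q * ‖g0‖ ^ 2 * ‖g1‖ ^ 2) * (1 + r) ^ 2 *
      Real.exp (-(1 - x) * (Q * ‖g0‖ ^ 2) / 12) * Real.exp (- r ^ 2 / 24) ∧
      Real.sqrt Q * dd g0 g1 h0 h1 ≤ r := by
  obtain ⟨q, rfl⟩ : ∃ q, Q = q + 2 := ⟨Q - 2, by omega⟩
  have hq : 1 ≤ q := by omega
  set s : ℝ := Real.sqrt ((q + 2 : ℕ) : ℝ) with hs
  have hs0 : 0 ≤ s := Real.sqrt_nonneg _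
  have hs2 : s ^ 2 = ((q + 2 : ℕ) : ℝ) := Real.sq_sqrt (by positivity)
  set m : ℝ := ((q + 2 : ℕ) : ℝ) * ‖g0‖ ^ 2 with hm
  have hm0 : 0 ≤ m := by positivity
  set D := dd g0 g1 h0 h1 with hD
  have hD0 : 0 ≤ D := norm_nonneg _
  set y := s * ‖o10 g0 g1 h0 h1 x‖ with hy
  set w := s * (1 - x) * ‖g0‖ with hw
  have h1x : 0 ≤ 1 - x := sub_nonneg.2 hx1
  have hy0 : 0 ≤ y := by positivity
  have hw0 : 0 ≤ w := by positivity
  have hr0 : 0 ≤ r := by rw [hr]; positivity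
  -- distance
  have hdist : s * D ≤ r := by
    rw [hr]
    have := mul_le_mul_of_nonneg_left (dd_le (g0 := g0) (g1 := g1) hx1 hh) hs0
    calc s * D ≤ s * (‖o10 g0 g1 h0 h1 x‖ + (1 - x) * ‖g0‖) := this
      _ = y + w := by rw [hy, hw]; ring
  refine ⟨?_, hdist⟩
  -- rewrite the sum
  have e : me2 g0 g1 h0 h1 (q + 2) x = ov g0 g1 h0 h1 x ^ q *
      (((m : ℂ) * ov g0 g1 h0 h1 x - (q + 2 : ℕ) * ((starRingEnd ℂ) h0 * g0 * x)) ^ 2 +
        (q + 2 : ℕ) * ((starRingEnd ℂ) h1 * g1) * ((starRingEnd ℂ) h0 * g0 * x)) := by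
    rw [me2, sum_choose_sq q ((starRingEnd ℂ) h1 * g1) ((starRingEnd ℂ) h0 * g0 * x) (m : ℂ)]
    rfl
  have e2 : (m : ℂ) * ov g0 g1 h0 h1 x - (q + 2 : ℕ) * ((starRingEnd ℂ) h0 * g0 * x) =
      ((q + 2 : ℕ) : ℂ) * (g0 * g1 * (starRingEnd ℂ) (o01 g0 g1 h0 h1 x)) := by
    rw [← lin_identity (h0 := h0) (h1 := h1) x hg, hm]
    push_cast
    ring
  have hsq : Real.sqrt m = s * ‖g0‖ := by
    rw [hm, Real.sqrt_mul (by positivity), Real.sqrt_sq (norm_nonneg _)]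
  have hm2 : m = (s * ‖g0‖) ^ 2 := by rw [mul_pow, hs2]
  have hg01 := norm_le_one_left hg
  have hg11 := norm_le_one_right hg
  have hh11 := norm_le_one_right hh
  have hh0 := norm_h0_le hg hh
  -- first term
  have ho : s * ‖o01 g0 g1 h0 h1 x‖ ≤ 3 * r := by
    have ho1 := norm_o01_le (h0 := h0) (h1 := h1) hx1 hg
    have h2 : ‖o01 g0 g1 h0 h1 x‖ ≤ D + (1 - x) * (‖g0‖ + D) :=
      ho1.trans (by gcongr)
    have h3 : s * ‖o01 g0 g1 h0 h1 x‖ ≤ s * (D + (1 - x) * (‖g0‖ + D)) :=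
      mul_le_mul_of_nonneg_left h2 hs0
    have h4 : s * (D + (1 - x) * (‖g0‖ + D)) = s * D + w + (1 - x) * (s * D) := by
      rw [hw]; ring
    have h5 : (1 - x) * (s * D) ≤ 1 * (s * D) := by
      apply mul_le_mul_of_nonneg_right _ (by positivity); linarith
    have h6 : w ≤ r := by rw [hr]; linarith
    linarith
  set σ := s * ‖g0‖ * ‖g1‖ with hσ
  have hσ0 : 0 ≤ σ := by positivity
  have hσ2 : σ ^ 2 = ((q + 2 : ℕ) : ℝ) * ‖g0‖ ^ 2 * ‖g1‖ ^ 2 := by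
    rw [hσ, mul_pow, mul_pow, hs2]
  have hA : ‖(m : ℂ) * ov g0 g1 h0 h1 x - (q + 2 : ℕ) * ((starRingEnd ℂ) h0 * g0 * x)‖ ≤
      σ * (3 * r) := by
    rw [e2, norm_mul, norm_mul, norm_mul, RCLike.norm_conj, Complex.norm_natCast]
    calc ((q + 2 : ℕ) : ℝ) * (‖g0‖ * ‖g1‖ * ‖o01 g0 g1 h0 h1 x‖)
        = (s * ‖g0‖ * ‖g1‖) * (s * ‖o01 g0 g1 h0 h1 x‖) := by rw [← hs2]; ring
      _ ≤ (s * ‖g0‖ * ‖g1‖) * (3 * r) := by gcongr
      _ = _ := by rw [hσ]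
  have hB : ‖((q + 2 : ℕ) : ℂ) * ((starRingEnd ℂ) h1 * g1) * ((starRingEnd ℂ) h0 * g0 * x)‖ ≤
      σ * (σ + 2 * r) := by
    rw [norm_mul, norm_mul, norm_mul, norm_mul, norm_mul, RCLike.norm_conj, RCLike.norm_conj,
      Complex.norm_natCast, Complex.norm_real, Real.norm_of_nonneg hx0]
    have hh1' := norm_h1_le hg hh
    have hsh : s * (‖h0‖ * ‖h1‖) ≤ σ + 2 * r := by
      have k1 : ‖h0‖ * ‖h1‖ ≤ ‖g0‖ * ‖g1‖ + 2 * D := by
        calc ‖h0‖ * ‖h1‖ ≤ (‖g0‖ + D) * ‖h1‖ := by gcongr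
          _ = ‖g0‖ * ‖h1‖ + D * ‖h1‖ := by ring
          _ ≤ ‖g0‖ * (‖g1‖ + D) + D * 1 := by gcongr
          _ = ‖g0‖ * ‖g1‖ + ‖g0‖ * D + D := by ring
          _ ≤ ‖g0‖ * ‖g1‖ + 1 * D + D := by gcongr
          _ = _ := by ring
      calc s * (‖h0‖ * ‖h1‖) ≤ s * (‖g0‖ * ‖g1‖ + 2 * D) := by gcongr
        _ = σ + 2 * (s * D) := by rw [hσ]; ring
        _ ≤ σ + 2 * r := by linarith
    calc ((q + 2 : ℕ) : ℝ) * (‖h1‖ * ‖g1‖) * (‖h0‖ * ‖g0‖ * x)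
        = σ * (s * (‖h0‖ * ‖h1‖)) * x := by rw [← hs2, hσ]; ring
      _ ≤ σ * (σ + 2 * r) * 1 := by gcongr
      _ = _ := by ring
  have hpoly : (σ * (3 * r)) ^ 2 + σ * (σ + 2 * r) ≤
      10 * (1 + ((q + 2 : ℕ) : ℝ) * ‖g0‖ ^ 2 * ‖g1‖ ^ 2) * (1 + r) ^ 2 := by
    rw [← hσ2]
    have k1 : 2 * σ * r ≤ (1 + σ ^ 2) * r := by
      apply mul_le_mul_of_nonneg_right _ hr0
      nlinarith [sq_nonneg (σ - 1)]
    nlinarith [mul_nonneg (sq_nonneg σ) hr0, mul_nonneg (sq_nonneg σ) (sq_nonneg r),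
      sq_nonneg r, sq_nonneg σ]
  have hexp : ‖ov g0 g1 h0 h1 x‖ ^ q ≤
      Real.exp (-(1 - x) * m / 12) * Real.exp (- r ^ 2 / 24) := by
    refine (norm_ov_pow_le hx0 hx1 hg hh q).trans ?_
    rw [← Real.exp_add]
    apply Real.exp_le_exp.2
    have hqr : ((q + 2 : ℕ) : ℝ) / 6 ≤ (q : ℝ) / 2 := by
      have : (1 : ℝ) ≤ q := by exact_mod_cast hq
      push_cast; linarith
    have hX : 0 ≤ (1 - x) * ‖g0‖ ^ 2 + ‖o10 g0 g1 h0 h1 x‖ ^ 2 := by positivity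
    have k1 : ((q + 2 : ℕ) : ℝ) / 6 * ((1 - x) * ‖g0‖ ^ 2 + ‖o10 g0 g1 h0 h1 x‖ ^ 2) ≤
        (q : ℝ) / 2 * ((1 - x) * ‖g0‖ ^ 2 + ‖o10 g0 g1 h0 h1 x‖ ^ 2) :=
      mul_le_mul_of_nonneg_right hqr hX
    have k2 : ((q + 2 : ℕ) : ℝ) / 6 * ((1 - x) * ‖g0‖ ^ 2 + ‖o10 g0 g1 h0 h1 x‖ ^ 2) =
        (1 - x) * m / 6 + y ^ 2 / 6 := by
      rw [hy, mul_pow, hs2, hm]; ring
    have k3 : w ^ 2 ≤ (1 - x) * m := by
      rw [hw, hm, ← hs2]
      have : (s * (1 - x) * ‖g0‖) ^ 2 = (1 - x) * ((1 - x) * (s ^ 2 * ‖g0‖ ^ 2)) := by ring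
      rw [this]
      apply mul_le_mul_of_nonneg_left _ h1x
      have k5 : (1 - x) * (s ^ 2 * ‖g0‖ ^ 2) ≤ 1 * (s ^ 2 * ‖g0‖ ^ 2) := by
        apply mul_le_mul_of_nonneg_right _ (by positivity); linarith
      linarith
    have k4 : r ^ 2 ≤ 2 * (w ^ 2 + y ^ 2) := by
      rw [hr]; nlinarith only [sq_nonneg (y - w)]
    rw [k2] at k1
    have k6 := sq_nonneg y
    linarith only [k1, k3, k4, k6]
  rw [e, norm_mul, norm_pow]
  calc ‖ov g0 g1 h0 h1 x‖ ^ q * ‖((m : ℂ) * ov g0 g1 h0 h1 x -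
        (q + 2 : ℕ) * ((starRingEnd ℂ) h0 * g0 * x)) ^ 2 +
        (q + 2 : ℕ) * ((starRingEnd ℂ) h1 * g1) * ((starRingEnd ℂ) h0 * g0 * x)‖
      ≤ (Real.exp (-(1 - x) * m / 12) * Real.exp (- r ^ 2 / 24)) *
        (10 * (1 + ((q + 2 : ℕ) : ℝ) * ‖g0‖ ^ 2 * ‖g1‖ ^ 2) * (1 + r) ^ 2) := by
        gcongr
        refine (norm_add_le _ _).trans ?_
        rw [norm_pow]
        refine le_trans ?_ hpoly
        gcongr
    _ = _ := by ring

end core

end Crest.Agent.R340.Tz877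
end

-- ▼ part R340/Tz2_877
section

/-!
# Row 340, block O10: integrated linearisation estimate (helper877)

`lin_est`: if `G i = α + β (i-m) ± (i-m)² ∫₀¹ (1-θ) K(m+θ(i-m)) dθ` with `K y = ∫ e^{-s y} dμ(s)`
completely monotone then the matrix elements of `G - lin` between coherent vectors are
`≤ C (1+m) (K(m/24) + e^{-m/24} K 0) (1+√Q dd)^{-p}`.
-/

set_option autoImplicit false

namespace Crest.Agent.R340.Tz877

open Finset Complex MeasureTheory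

/-- Gaussian beats polynomials -/
theorem exists_gauss (p : ℕ) : ∃ C : ℝ, 0 < C ∧ ∀ r : ℝ, 0 ≤ r →
    (1 + r) ^ p * Real.exp (- r ^ 2 / 24) ≤ C := by
  -- (1+r)^p ≤ p! exp(1+r), and 1 + r - r²/24 ≤ 7
  refine ⟨p.factorial * Real.exp 7, by positivity, fun r hr => ?_⟩
  have h1 : (1 + r) ^ p / p.factorial ≤ Real.exp (1 + r) :=
    Real.pow_div_factorial_le_exp (1 + r) (by linarith) p
  have h2 : (1 + r) ^ p ≤ p.factorial * Real.exp (1 + r) := by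
    rw [div_le_iff₀ (by positivity)] at h1
    linarith
  calc (1 + r) ^ p * Real.exp (- r ^ 2 / 24)
      ≤ (p.factorial * Real.exp (1 + r)) * Real.exp (- r ^ 2 / 24) := by gcongr
    _ = p.factorial * Real.exp (1 + r + - r ^ 2 / 24) := by rw [mul_assoc, ← Real.exp_add]
    _ ≤ p.factorial * Real.exp 7 := by
        gcongr
        nlinarith [sq_nonneg (r - 12)]

/-- the pointwise core estimate with the constant `C_p` -/
theorem exists_me2 (p : ℕ) : ∃ C : ℝ, 0 < C ∧ ∀ (g0 g1 h0 h1 : ℂ),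
    ‖g0‖ ^ 2 + ‖g1‖ ^ 2 = 1 → ‖h0‖ ^ 2 + ‖h1‖ ^ 2 = 1 → ∀ Q : ℕ, 3 ≤ Q → ∀ x : ℝ,
    0 ≤ x → x ≤ 1 →
    (1 + Real.sqrt Q * dd g0 g1 h0 h1) ^ p * ‖me2 g0 g1 h0 h1 Q x‖ ≤
      C * (1 + Q * ‖g0‖ ^ 2 * ‖g1‖ ^ 2) * Real.exp (-(1 - x) * (Q * ‖g0‖ ^ 2) / 12) := by
  obtain ⟨C, hC, hC'⟩ := exists_gauss (p + 2)
  refine ⟨10 * C, by positivity, ?_⟩
  intro g0 g1 h0 h1 hg hh Q hQ x hx0 hx1
  set r := Real.sqrt Q * ‖o10 g0 g1 h0 h1 x‖ + Real.sqrt Q * (1 - x) * ‖g0‖ with hr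
  have h1x : 0 ≤ 1 - x := sub_nonneg.2 hx1
  have hr0 : 0 ≤ r := by rw [hr]; positivity
  obtain ⟨hb, hd⟩ := norm_me2_le hx0 hx1 hg hh hQ hr
  have hD0 : 0 ≤ dd g0 g1 h0 h1 := norm_nonneg _
  calc (1 + Real.sqrt Q * dd g0 g1 h0 h1) ^ p * ‖me2 g0 g1 h0 h1 Q x‖
      ≤ (1 + r) ^ p * (10 * (1 + Q * ‖g0‖ ^ 2 * ‖g1‖ ^ 2) * (1 + r) ^ 2 *
        Real.exp (-(1 - x) * (Q * ‖g0‖ ^ 2) / 12) * Real.exp (- r ^ 2 / 24)) := by
        gcongr
    _ = (10 * (1 + Q * ‖g0‖ ^ 2 * ‖g1‖ ^ 2) * Real.exp (-(1 - x) * (Q * ‖g0‖ ^ 2) / 12)) *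
        ((1 + r) ^ (p + 2) * Real.exp (- r ^ 2 / 24)) := by ring
    _ ≤ (10 * (1 + Q * ‖g0‖ ^ 2 * ‖g1‖ ^ 2) * Real.exp (-(1 - x) * (Q * ‖g0‖ ^ 2) / 12)) * C := by
        gcongr
        exact hC' r hr0
    _ = _ := by ring

/-- exponent bookkeeping -/
theorem exp_split {s θ m : ℝ} (hs : 0 ≤ s) (hθ0 : 0 ≤ θ) (hθ1 : θ ≤ 1) (hm : 0 ≤ m) :
    Real.exp (-s * ((1 - θ) * m)) * Real.exp (-(1 - Real.exp (-s * θ)) * m / 12) ≤
      Real.exp (-s * (m / 24)) + Real.exp (-m / 24) := by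
  rw [← Real.exp_add]
  have hu : 0 ≤ s * θ := mul_nonneg hs hθ0
  rcases le_total (s * θ) 1 with h | h
  · -- 1 - e^{-u} ≥ u/2
    have h1 : Real.exp (-s * θ) ≤ 1 - s * θ / 2 := by
      have h2 : (1 - s * θ / 2) * Real.exp (s * θ) ≥ 1 := by
        have h3 := Real.add_one_le_exp (s * θ)
        nlinarith
      have h4 : Real.exp (-s * θ) = (Real.exp (s * θ))⁻¹ := by
        rw [← Real.exp_neg]; congr 1; ring
      rw [h4]
      rw [inv_le_iff_one_le_mul₀ (Real.exp_pos _)]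
      exact h2
    refine le_add_of_le_of_nonneg (Real.exp_le_exp.2 ?_) (Real.exp_pos _).le
    have h5 : s * θ / 2 * m ≤ (1 - Real.exp (-s * θ)) * m :=
      mul_le_mul_of_nonneg_right (by linarith) hm
    have h6 : 0 ≤ s * (1 - θ) * m :=
      mul_nonneg (mul_nonneg hs (sub_nonneg.2 hθ1)) hm
    nlinarith
  · have h1 : Real.exp (-s * θ) ≤ 1 / 2 := by
      have h2 : (2 : ℝ) ≤ Real.exp (s * θ) := by
        have := Real.add_one_le_exp (s * θ)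
        linarith
      have h4 : Real.exp (-s * θ) = (Real.exp (s * θ))⁻¹ := by
        rw [← Real.exp_neg]; congr 1; ring
      rw [h4, one_div]
      exact inv_anti₀ (by norm_num) h2
    refine le_add_of_nonneg_of_le (Real.exp_pos _).le (Real.exp_le_exp.2 ?_)
    have h5 : 1 / 2 * m ≤ (1 - Real.exp (-s * θ)) * m :=
      mul_le_mul_of_nonneg_right (by linarith) hm
    have h6 : 0 ≤ s * ((1 - θ) * m) :=
      mul_nonneg hs (mul_nonneg (sub_nonneg.2 hθ1) hm)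
    linarith

section mix

variable {Ω : Type*} [MeasurableSpace Ω] (μ : Measure Ω) [IsFiniteMeasure μ] (s : Ω → ℝ)

/-- the Laplace transform -/
noncomputable def Kf (y : ℝ) : ℝ := ∫ ω, Real.exp (-s ω * y) ∂μ

variable {μ s}

theorem integrable_exp (hs : Measurable s) (hs0 : ∀ ω, 0 ≤ s ω) {y : ℝ} (hy : 0 ≤ y) :
    Integrable (fun ω => Real.exp (-s ω * y)) μ := by
  refine Integrable.of_bound (C := 1) ?_ ?_
  · exact ((hs.neg.mul_const y).exp).aestronglyMeasurable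
  · refine Filter.Eventually.of_forall fun ω => ?_
    rw [Real.norm_of_nonneg (Real.exp_pos _).le]
    apply Real.exp_le_one_iff.2
    have := mul_nonneg (hs0 ω) hy
    linarith

omit [IsFiniteMeasure μ] in
theorem Kf_nonneg (y : ℝ) : 0 ≤ Kf μ s y := integral_nonneg fun _ => (Real.exp_pos _).le

/-- the `θ`-slice of the linearisation error -/
theorem slice {g0 g1 h0 h1 : ℂ} (hg : ‖g0‖ ^ 2 + ‖g1‖ ^ 2 = 1) {Q : ℕ}
    (hs : Measurable s) (hs0 : ∀ ω, 0 ≤ s ω) {θ : ℝ} (hθ0 : 0 ≤ θ) (hθ1 : θ ≤ 1) :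
    ∑ i ∈ range (Q + 1), (Q.choose i : ℂ) * ((starRingEnd ℂ) h0 * g0) ^ i *
      ((starRingEnd ℂ) h1 * g1) ^ (Q - i) * (((i : ℝ) - Q * ‖g0‖ ^ 2 : ℝ) : ℂ) ^ 2 *
        (Kf μ s (Q * ‖g0‖ ^ 2 + θ * (i - Q * ‖g0‖ ^ 2)) : ℂ) =
    ∫ ω, (Real.exp (-s ω * ((1 - θ) * (Q * ‖g0‖ ^ 2))) : ℂ) *
      me2 g0 g1 h0 h1 Q (Real.exp (-s ω * θ)) ∂μ := by
  set m : ℝ := Q * ‖g0‖ ^ 2 with hm
  have hm0 : 0 ≤ m := by positivity
  have hy : ∀ i : ℕ, 0 ≤ m + θ * ((i : ℝ) - m) := fun i => by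
    have : m + θ * ((i : ℝ) - m) = (1 - θ) * m + θ * i := by ring
    rw [this]
    have := sub_nonneg.2 hθ1
    positivity
  have e1 : ∀ ω, (Real.exp (-s ω * ((1 - θ) * m)) : ℂ) *
      me2 g0 g1 h0 h1 Q (Real.exp (-s ω * θ)) =
      ∑ i ∈ range (Q + 1), (Q.choose i : ℂ) * ((starRingEnd ℂ) h0 * g0) ^ i *
      ((starRingEnd ℂ) h1 * g1) ^ (Q - i) * (((i : ℝ) - m : ℝ) : ℂ) ^ 2 *
        ((Real.exp (-s ω * (m + θ * (i - m))) : ℝ) : ℂ) := by
    intro ω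
    rw [me2, mul_sum]
    refine sum_congr rfl fun i hi => ?_
    have e2 : ((Real.exp (-s ω * (m + θ * (i - m))) : ℝ) : ℂ) =
        (Real.exp (-s ω * ((1 - θ) * m)) : ℂ) * ((Real.exp (-s ω * θ) : ℝ) : ℂ) ^ i := by
      rw [← Complex.ofReal_pow, ← Complex.ofReal_mul, ← Real.exp_nat_mul, ← Real.exp_add]
      congr 2
      ring
    have e3 : (i : ℂ) - ((Q * ‖g0‖ ^ 2 : ℝ) : ℂ) = (((i : ℝ) - m : ℝ) : ℂ) := by
      rw [hm]; push_cast; ring
    rw [e2, e3, mul_pow]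
    ring
  simp only [e1]
  rw [integral_finsetSum]
  · refine sum_congr rfl fun i hi => ?_
    rw [integral_const_mul]
    congr 1
    rw [Kf, integral_complex_ofReal]
  · intro i hi
    exact (integrable_exp hs hs0 (hy i)).ofReal.const_mul _

variable (μ s)

/-- **linearisation estimate** -/
theorem exists_lin_est (p : ℕ) : ∃ C : ℝ, 0 < C ∧
    ∀ {Ω : Type} [MeasurableSpace Ω] (μ : Measure Ω) [IsFiniteMeasure μ] (s : Ω → ℝ),
    Measurable s → (∀ ω, 0 ≤ s ω) → ∀ (g0 g1 h0 h1 : ℂ),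
    ‖g0‖ ^ 2 + ‖g1‖ ^ 2 = 1 → ‖h0‖ ^ 2 + ‖h1‖ ^ 2 = 1 → ∀ Q : ℕ, 3 ≤ Q →
    ∀ (G : ℕ → ℝ) (α β ε : ℝ), |ε| ≤ 1 →
    (∀ i ≤ Q, IntervalIntegrable (fun θ : ℝ => (1 - θ) *
      Kf μ s (Q * ‖g0‖ ^ 2 + θ * (i - Q * ‖g0‖ ^ 2))) volume 0 1) →
    (∀ i ≤ Q, G i = α + β * (i - Q * ‖g0‖ ^ 2) + ε * ((i - Q * ‖g0‖ ^ 2) ^ 2 *
      ∫ θ in (0:ℝ)..1, (1 - θ) * Kf μ s (Q * ‖g0‖ ^ 2 + θ * (i - Q * ‖g0‖ ^ 2)))) →
    (1 + Real.sqrt Q * dd g0 g1 h0 h1) ^ p *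
      ‖∑ i ∈ range (Q + 1), (Q.choose i : ℂ) * ((starRingEnd ℂ) h0 * g0) ^ i *
      ((starRingEnd ℂ) h1 * g1) ^ (Q - i) * ((G i - α - β * (i - Q * ‖g0‖ ^ 2) : ℝ) : ℂ)‖ ≤
      C * (1 + Q * ‖g0‖ ^ 2 * ‖g1‖ ^ 2) * (Kf μ s (Q * ‖g0‖ ^ 2 / 24) +
        Real.exp (-(Q * ‖g0‖ ^ 2) / 24) * Kf μ s 0) := by
  obtain ⟨C, hC, hC'⟩ := exists_me2 p
  refine ⟨C, hC, ?_⟩
  intro Ω _ μ _ s hs hs0 g0 g1 h0 h1 hg hh Q hQ G α β ε hε hint hG
  set m : ℝ := Q * ‖g0‖ ^ 2 with hm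
  have hm0 : 0 ≤ m := by positivity
  set V : ℝ := m * ‖g1‖ ^ 2 with hV
  have hV0 : 0 ≤ V := by positivity
  set W : ℝ := (1 + Real.sqrt Q * dd g0 g1 h0 h1) ^ p with hW
  have hD0 : 0 ≤ dd g0 g1 h0 h1 := norm_nonneg _
  have hW0 : 0 < W := by positivity
  -- rewrite the sum as an interval integral
  have e1 : ∑ i ∈ range (Q + 1), (Q.choose i : ℂ) * ((starRingEnd ℂ) h0 * g0) ^ i *
      ((starRingEnd ℂ) h1 * g1) ^ (Q - i) * ((G i - α - β * (i - m) : ℝ) : ℂ) =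
      (ε : ℂ) * ∫ θ in (0:ℝ)..1, ((1 - θ : ℝ) : ℂ) *
        ∑ i ∈ range (Q + 1), (Q.choose i : ℂ) * ((starRingEnd ℂ) h0 * g0) ^ i *
      ((starRingEnd ℂ) h1 * g1) ^ (Q - i) * (((i : ℝ) - m : ℝ) : ℂ) ^ 2 *
        (Kf μ s (m + θ * (i - m)) : ℂ) := by
    have e2 : ∀ θ : ℝ, ((1 - θ : ℝ) : ℂ) *
        ∑ i ∈ range (Q + 1), (Q.choose i : ℂ) * ((starRingEnd ℂ) h0 * g0) ^ i *
      ((starRingEnd ℂ) h1 * g1) ^ (Q - i) * (((i : ℝ) - m : ℝ) : ℂ) ^ 2 *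
        (Kf μ s (m + θ * (i - m)) : ℂ) =
        ∑ i ∈ range (Q + 1), ((Q.choose i : ℂ) * ((starRingEnd ℂ) h0 * g0) ^ i *
      ((starRingEnd ℂ) h1 * g1) ^ (Q - i) * (((i : ℝ) - m : ℝ) : ℂ) ^ 2) *
        (((1 - θ) * Kf μ s (m + θ * (i - m)) : ℝ) : ℂ) := by
      intro θ
      rw [mul_sum]
      refine sum_congr rfl fun i _ => ?_
      push_cast
      ring
    simp only [e2]
    rw [intervalIntegral.integral_finsetSum, mul_sum]
    · refine sum_congr rfl fun i hi => ?_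
      rw [intervalIntegral.integral_const_mul, intervalIntegral.integral_ofReal]
      have hi' : i ≤ Q := Nat.lt_succ_iff.1 (mem_range.1 hi)
      rw [hG i hi']
      push_cast
      ring
    · intro i hi
      have hi' : i ≤ Q := Nat.lt_succ_iff.1 (mem_range.1 hi)
      exact IntervalIntegrable.const_mul ⟨(hint i hi').1.ofReal, (hint i hi').2.ofReal⟩ _
  rw [e1, norm_mul]
  have hB0 : 0 ≤ C * (1 + V) * (Kf μ s (m / 24) + Real.exp (-m / 24) * Kf μ s 0) := by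
    have := Kf_nonneg (μ := μ) (s := s) (m / 24)
    have := Kf_nonneg (μ := μ) (s := s) 0
    positivity
  have hslice : ∀ θ ∈ Set.uIoc (0:ℝ) 1, ‖((1 - θ : ℝ) : ℂ) *
        ∑ i ∈ range (Q + 1), (Q.choose i : ℂ) * ((starRingEnd ℂ) h0 * g0) ^ i *
      ((starRingEnd ℂ) h1 * g1) ^ (Q - i) * (((i : ℝ) - m : ℝ) : ℂ) ^ 2 *
        (Kf μ s (m + θ * (i - m)) : ℂ)‖ ≤
        W⁻¹ * (C * (1 + V) * (Kf μ s (m / 24) + Real.exp (-m / 24) * Kf μ s 0)) := by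
    intro θ hθ
    rw [Set.uIoc_of_le zero_le_one] at hθ
    have hθ0 : 0 ≤ θ := hθ.1.le
    have hθ1 : θ ≤ 1 := hθ.2
    rw [slice hg hs hs0 hθ0 hθ1, norm_mul, Complex.norm_real,
      Real.norm_of_nonneg (sub_nonneg.2 hθ1)]
    have hb : ‖∫ ω, (Real.exp (-s ω * ((1 - θ) * m)) : ℂ) *
      me2 g0 g1 h0 h1 Q (Real.exp (-s ω * θ)) ∂μ‖ ≤
      ∫ ω, W⁻¹ * (C * (1 + V)) * (Real.exp (-s ω * (m / 24)) +
        Real.exp (-m / 24) * Real.exp (-s ω * 0)) ∂μ := by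
      refine norm_integral_le_of_norm_le ?_ (Filter.Eventually.of_forall fun ω => ?_)
      · refine Integrable.const_mul ?_ _
        exact (integrable_exp hs hs0 (by positivity)).add
          ((integrable_exp hs hs0 le_rfl).const_mul _)
      · rw [norm_mul, Complex.norm_real, Real.norm_of_nonneg (Real.exp_pos _).le]
        have hx0 : 0 ≤ Real.exp (-s ω * θ) := (Real.exp_pos _).le
        have hx1 : Real.exp (-s ω * θ) ≤ 1 := by
          apply Real.exp_le_one_iff.2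
          have := mul_nonneg (hs0 ω) hθ0
          linarith
        have hcore := hC' g0 g1 h0 h1 hg hh Q hQ _ hx0 hx1
        have h2 : ‖me2 g0 g1 h0 h1 Q (Real.exp (-s ω * θ))‖ ≤ W⁻¹ * (C * (1 + V) *
            Real.exp (-(1 - Real.exp (-s ω * θ)) * m / 12)) := by
          rw [le_inv_mul_iff₀ hW0]
          exact hcore
        have h3 := exp_split (hs0 ω) hθ0 hθ1 hm0
        calc Real.exp (-s ω * ((1 - θ) * m)) * ‖me2 g0 g1 h0 h1 Q (Real.exp (-s ω * θ))‖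
            ≤ Real.exp (-s ω * ((1 - θ) * m)) * (W⁻¹ * (C * (1 + V) *
            Real.exp (-(1 - Real.exp (-s ω * θ)) * m / 12))) := by gcongr
          _ = W⁻¹ * (C * (1 + V)) * (Real.exp (-s ω * ((1 - θ) * m)) *
              Real.exp (-(1 - Real.exp (-s ω * θ)) * m / 12)) := by ring
          _ ≤ W⁻¹ * (C * (1 + V)) * (Real.exp (-s ω * (m / 24)) + Real.exp (-m / 24)) := by
              gcongr
          _ = _ := by simp
    have e4 : ∫ ω, W⁻¹ * (C * (1 + V)) * (Real.exp (-s ω * (m / 24)) +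
        Real.exp (-m / 24) * Real.exp (-s ω * 0)) ∂μ =
        W⁻¹ * (C * (1 + V) * (Kf μ s (m / 24) + Real.exp (-m / 24) * Kf μ s 0)) := by
      rw [integral_const_mul, integral_add (integrable_exp hs hs0 (by positivity))
        ((integrable_exp hs hs0 le_rfl).const_mul _), integral_const_mul]
      simp only [Kf]
      ring
    rw [e4] at hb
    calc (1 - θ) * ‖∫ ω, (Real.exp (-s ω * ((1 - θ) * m)) : ℂ) *
      me2 g0 g1 h0 h1 Q (Real.exp (-s ω * θ)) ∂μ‖ ≤ 1 * (W⁻¹ * (C * (1 + V) *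
        (Kf μ s (m / 24) + Real.exp (-m / 24) * Kf μ s 0))) := by
          apply mul_le_mul (by linarith) hb (norm_nonneg _) zero_le_one
      _ = _ := one_mul _
  have hI := intervalIntegral.norm_integral_le_of_norm_le_const hslice
  simp only [sub_zero, abs_one, mul_one] at hI
  have hεn : ‖(ε : ℂ)‖ ≤ 1 := by rw [Complex.norm_real]; exact hε
  calc W * (‖(ε : ℂ)‖ * ‖∫ θ in (0:ℝ)..1, ((1 - θ : ℝ) : ℂ) *
        ∑ i ∈ range (Q + 1), (Q.choose i : ℂ) * ((starRingEnd ℂ) h0 * g0) ^ i *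
      ((starRingEnd ℂ) h1 * g1) ^ (Q - i) * (((i : ℝ) - m : ℝ) : ℂ) ^ 2 *
        (Kf μ s (m + θ * (i - m)) : ℂ)‖)
      ≤ W * (1 * (W⁻¹ * (C * (1 + V) * (Kf μ s (m / 24) + Real.exp (-m / 24) * Kf μ s 0)))) := by
        apply mul_le_mul_of_nonneg_left _ hW0.le
        exact mul_le_mul hεn hI (norm_nonneg _) zero_le_one
    _ = _ := by
        rw [one_mul, ← mul_assoc, mul_inv_cancel₀ hW0.ne', one_mul]

end mix

end Crest.Agent.R340.Tz877
end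

-- ▼ part R340/Tz5_877
section

/-!
# Row 340, block O10: kernel bounds of linearised radial functions about another centre (helper877)

`LinD Q G α β K C CL` : linearisation data of a radial function; `kb_exists`: matrix elements of
`G - α_z - β_z (i - m_z)` between coherent vectors `g, h`: growth `(1+D(z,g))^12`, decay
`(1+D(g,h))^{-M}`, size `(1+V_z) K(m_z)`.
-/

set_option autoImplicit false

namespace Crest.Agent.R340.Tz877

open Finset Complex MeasureTheory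

section basic

variable {g0 g1 h0 h1 z0 z1 : ℂ}

/-- matrix element between coherent vectors -/
noncomputable def ME (g0 g1 h0 h1 : ℂ) (Q : ℕ) (G : ℕ → ℝ) : ℂ :=
  ∑ i ∈ range (Q + 1), (Q.choose i : ℂ) * ((starRingEnd ℂ) h0 * g0) ^ i *
      ((starRingEnd ℂ) h1 * g1) ^ (Q - i) * ((G i : ℝ) : ℂ)

theorem ME_add (Q : ℕ) (G F : ℕ → ℝ) : ME g0 g1 h0 h1 Q (fun i => G i + F i) =
    ME g0 g1 h0 h1 Q G + ME g0 g1 h0 h1 Q F := by
  unfold ME
  rw [← sum_add_distrib]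
  refine sum_congr rfl fun i _ => ?_
  push_cast
  ring

theorem ME_smul (Q : ℕ) (c : ℝ) (G : ℕ → ℝ) : ME g0 g1 h0 h1 Q (fun i => c * G i) =
    (c : ℂ) * ME g0 g1 h0 h1 Q G := by
  unfold ME
  rw [mul_sum]
  refine sum_congr rfl fun i _ => ?_
  push_cast
  ring

theorem ME_congr {Q : ℕ} {G F : ℕ → ℝ} (h : ∀ i ≤ Q, G i = F i) :
    ME g0 g1 h0 h1 Q G = ME g0 g1 h0 h1 Q F := by
  unfold ME
  refine sum_congr rfl fun i hi => ?_
  rw [h i (Nat.lt_succ_iff.1 (mem_range.1 hi))]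

theorem ME_one (Q : ℕ) : ME g0 g1 h0 h1 Q (fun _ => 1) = ov g0 g1 h0 h1 1 ^ Q := by
  unfold ME ov
  rw [← sum_choose]
  refine sum_congr rfl fun i _ => ?_
  push_cast
  ring

theorem ME_lin (Q : ℕ) (hg : ‖g0‖ ^ 2 + ‖g1‖ ^ 2 = 1) :
    ME g0 g1 h0 h1 (Q + 1) (fun i => (i : ℝ) - (Q + 1 : ℕ) * ‖g0‖ ^ 2) =
      -(ov g0 g1 h0 h1 1 ^ Q * (((Q + 1 : ℕ) : ℂ) *
        (g0 * g1 * (starRingEnd ℂ) (o01 g0 g1 h0 h1 1)))) := by
  have h1' := sum_choose_one Q ((starRingEnd ℂ) h1 * g1) ((starRingEnd ℂ) h0 * g0)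
  have h0' := sum_choose (Q + 1) ((starRingEnd ℂ) h1 * g1) ((starRingEnd ℂ) h0 * g0)
  have hl := lin_identity (h0 := h0) (h1 := h1) 1 hg ((Q + 1 : ℕ) : ℂ)
  have hov : ov g0 g1 h0 h1 1 = (starRingEnd ℂ) h1 * g1 + (starRingEnd ℂ) h0 * g0 := by
    unfold ov; push_cast; ring
  have e1 : ME g0 g1 h0 h1 (Q + 1) (fun i => (i : ℝ) - (Q + 1 : ℕ) * ‖g0‖ ^ 2) =
      (∑ i ∈ range (Q + 2), ((Q + 1).choose i : ℂ) * ((starRingEnd ℂ) h0 * g0) ^ i *
        ((starRingEnd ℂ) h1 * g1) ^ (Q + 1 - i) * (i : ℂ)) -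
      (((Q + 1 : ℕ) : ℂ) * (‖g0‖ ^ 2 : ℝ)) *
      ∑ i ∈ range (Q + 1 + 1), ((Q + 1).choose i : ℂ) * ((starRingEnd ℂ) h0 * g0) ^ i *
        ((starRingEnd ℂ) h1 * g1) ^ (Q + 1 - i) := by
    unfold ME
    rw [mul_sum, ← sum_sub_distrib]
    refine sum_congr rfl fun i _ => ?_
    push_cast
    ring
  rw [e1, h1', h0', ← hl, hov]
  push_cast
  ring

theorem norm_ov_one_pow_le (hg : ‖g0‖ ^ 2 + ‖g1‖ ^ 2 = 1) (hh : ‖h0‖ ^ 2 + ‖h1‖ ^ 2 = 1) (n : ℕ) :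
    ‖ov g0 g1 h0 h1 1‖ ^ n ≤ Real.exp (-((n : ℝ) / 2 * dd g0 g1 h0 h1 ^ 2)) := by
  have h := norm_ov_pow_le (g0 := g0) (g1 := g1) (h0 := h0) (h1 := h1) zero_le_one le_rfl hg hh n
  refine h.trans (le_of_eq ?_)
  congr 3
  have e : ‖o10 g0 g1 h0 h1 1‖ = dd g0 g1 h0 h1 := by
    unfold o10 dd
    rw [← norm_neg]
    congr 1
    push_cast
    ring
  rw [e]
  ring

theorem dd_nonneg : 0 ≤ dd g0 g1 h0 h1 := norm_nonneg _

theorem dd_le_one (hg : ‖g0‖ ^ 2 + ‖g1‖ ^ 2 = 1) (hh : ‖h0‖ ^ 2 + ‖h1‖ ^ 2 = 1) :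
    dd g0 g1 h0 h1 ≤ 1 := by
  have h := normSq_ov_add (g0 := g0) (g1 := g1) 1 hh
  have e : ‖o10 g0 g1 h0 h1 1‖ = dd g0 g1 h0 h1 := by
    unfold o10 dd
    rw [← norm_neg]
    congr 1
    push_cast
    ring
  rw [e] at h
  nlinarith [sq_nonneg ‖ov g0 g1 h0 h1 1‖, dd_nonneg (g0 := g0) (g1 := g1) (h0 := h0) (h1 := h1)]

theorem exists_basic (M : ℕ) : ∃ C : ℝ, 0 < C ∧ ∀ (g0 g1 h0 h1 : ℂ),
    ‖g0‖ ^ 2 + ‖g1‖ ^ 2 = 1 → ‖h0‖ ^ 2 + ‖h1‖ ^ 2 = 1 → ∀ Q : ℕ,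
    (1 + Real.sqrt Q * dd g0 g1 h0 h1) ^ M * ‖ME g0 g1 h0 h1 Q (fun _ => 1)‖ ≤ C ∧
    (1 + Real.sqrt Q * dd g0 g1 h0 h1) ^ M *
      ‖ME g0 g1 h0 h1 Q (fun i => (i : ℝ) - Q * ‖g0‖ ^ 2)‖ ≤
        C * Real.sqrt (Q * ‖g0‖ ^ 2 * ‖g1‖ ^ 2) := by
  obtain ⟨C, hC, hC'⟩ := exists_gauss (M + 1)
  refine ⟨C * 2 , by positivity, ?_⟩
  intro g0 g1 h0 h1 hg hh Q
  set D := Real.sqrt Q * dd g0 g1 h0 h1 with hD
  have hD0 : 0 ≤ D := mul_nonneg (Real.sqrt_nonneg _) dd_nonneg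
  have hD2 : D ^ 2 = Q * dd g0 g1 h0 h1 ^ 2 := by
    rw [hD, mul_pow, Real.sq_sqrt (Nat.cast_nonneg _)]
  have hG := hC' D hD0
  constructor
  · rw [ME_one, norm_pow]
    have k1 := norm_ov_one_pow_le hg hh Q
    calc (1 + D) ^ M * ‖ov g0 g1 h0 h1 1‖ ^ Q
        ≤ (1 + D) ^ (M + 1) * Real.exp (-D ^ 2 / 24) := by
          gcongr ?_ * ?_
          · exact pow_le_pow_right₀ (by linarith) (Nat.le_succ M)
          · refine k1.trans (Real.exp_le_exp.2 ?_)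
            rw [hD2]
            nlinarith [mul_nonneg (Nat.cast_nonneg Q : (0:ℝ) ≤ Q) (sq_nonneg (dd g0 g1 h0 h1))]
      _ ≤ C := hG
      _ ≤ C * 2 := by linarith
  · rcases Nat.eq_zero_or_pos Q with hQ | hQ
    · subst hQ
      have e : ME g0 g1 h0 h1 0 (fun i => (i : ℝ) - (0 : ℕ) * ‖g0‖ ^ 2) = 0 := by
        simp [ME]
      rw [e, norm_zero, mul_zero]
      positivity
    · obtain ⟨q, rfl⟩ : ∃ q, Q = q + 1 := ⟨Q - 1, by omega⟩
      rw [ME_lin q hg, norm_neg, norm_mul, norm_pow, norm_mul, norm_mul, norm_mul,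
        RCLike.norm_conj, Complex.norm_natCast]
      have e1 : ‖o01 g0 g1 h0 h1 1‖ = dd g0 g1 h0 h1 := by
        unfold o01 dd
        congr 1
        push_cast
        ring
      rw [e1]
      set s := Real.sqrt ((q + 1 : ℕ) : ℝ) with hs
      have hs0 : 0 ≤ s := Real.sqrt_nonneg _
      have hs2 : s ^ 2 = ((q + 1 : ℕ) : ℝ) := Real.sq_sqrt (by positivity)
      have e2 : Real.sqrt (((q + 1 : ℕ) : ℝ) * ‖g0‖ ^ 2 * ‖g1‖ ^ 2) = s * ‖g0‖ * ‖g1‖ := by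
        rw [Real.sqrt_mul (by positivity), Real.sqrt_mul (by positivity),
          Real.sqrt_sq (norm_nonneg _), Real.sqrt_sq (norm_nonneg _)]
      rw [e2]
      have k1 : ‖ov g0 g1 h0 h1 1‖ ^ q ≤ 2 * Real.exp (-D ^ 2 / 24) := by
        refine (norm_ov_one_pow_le hg hh q).trans ?_
        -- q/2 dd² ≥ D²/24 - log 2
        have hdd := dd_le_one hg hh
        have hd0 := dd_nonneg (g0 := g0) (g1 := g1) (h0 := h0) (h1 := h1)
        have hdd2 : dd g0 g1 h0 h1 ^ 2 ≤ 1 := pow_le_one₀ hd0 hdd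
        have e3 : -((q : ℝ) / 2 * dd g0 g1 h0 h1 ^ 2) ≤ 1 / 24 + -D ^ 2 / 24 := by
          rw [hD2]
          push_cast
          nlinarith [mul_nonneg (Nat.cast_nonneg q : (0:ℝ) ≤ q) (sq_nonneg (dd g0 g1 h0 h1))]
        refine (Real.exp_le_exp.2 e3).trans ?_
        rw [Real.exp_add]
        gcongr
        have h5 := Real.exp_bound_div_one_sub_of_interval (x := 1 / 24) (by norm_num) (by norm_num)
        refine h5.trans ?_
        norm_num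
      calc (1 + D) ^ M * (‖ov g0 g1 h0 h1 1‖ ^ q * (((q + 1 : ℕ) : ℝ) *
            (‖g0‖ * ‖g1‖ * dd g0 g1 h0 h1)))
          = (1 + D) ^ M * ‖ov g0 g1 h0 h1 1‖ ^ q * D * (s * ‖g0‖ * ‖g1‖) := by
            rw [← hs2, hD]; ring
        _ ≤ (1 + D) ^ M * (2 * Real.exp (-D ^ 2 / 24)) * (1 + D) * (s * ‖g0‖ * ‖g1‖) := by
            gcongr
            linarith
        _ = ((1 + D) ^ (M + 1) * Real.exp (-D ^ 2 / 24)) * 2 * (s * ‖g0‖ * ‖g1‖) := by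
            rw [pow_succ]; ring
        _ ≤ C * 2 * (s * ‖g0‖ * ‖g1‖) := by gcongr

/-- the constant of `exists_basic` -/
noncomputable def cG (M : ℕ) : ℝ := Classical.choose (exists_basic M)

theorem cG_pos (M : ℕ) : 0 < cG M := (Classical.choose_spec (exists_basic M)).1

theorem cG_spec (M : ℕ) (hg : ‖g0‖ ^ 2 + ‖g1‖ ^ 2 = 1) (hh : ‖h0‖ ^ 2 + ‖h1‖ ^ 2 = 1) (Q : ℕ) :
    (1 + Real.sqrt Q * dd g0 g1 h0 h1) ^ M * ‖ME g0 g1 h0 h1 Q (fun _ => 1)‖ ≤ cG M ∧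
    (1 + Real.sqrt Q * dd g0 g1 h0 h1) ^ M *
      ‖ME g0 g1 h0 h1 Q (fun i => (i : ℝ) - Q * ‖g0‖ ^ 2)‖ ≤
        cG M * Real.sqrt (Q * ‖g0‖ ^ 2 * ‖g1‖ ^ 2) :=
  (Classical.choose_spec (exists_basic M)).2 g0 g1 h0 h1 hg hh Q

end basic

section geom

variable {g0 g1 z0 z1 : ℂ}

theorem dd_comm (g0 g1 h0 h1 : ℂ) : dd g0 g1 h0 h1 = dd h0 h1 g0 g1 := by
  unfold dd
  rw [← norm_neg]
  congr 1
  ring

/-- `√m_z ≤ √m_g + D` in squared form -/
theorem mean_le (hg : ‖g0‖ ^ 2 + ‖g1‖ ^ 2 = 1) (hz : ‖z0‖ ^ 2 + ‖z1‖ ^ 2 = 1) (Q : ℕ) :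
    Q * ‖z0‖ ^ 2 ≤ 2 * (Q * ‖g0‖ ^ 2) + 2 * (Real.sqrt Q * dd z0 z1 g0 g1) ^ 2 := by
  have h := norm_h0_le (g0 := g0) (g1 := g1) (h0 := z0) (h1 := z1) hg hz
  rw [dd_comm] at h
  rw [mul_pow, Real.sq_sqrt (Nat.cast_nonneg _)]
  have h2 : ‖z0‖ ^ 2 ≤ 2 * ‖g0‖ ^ 2 + 2 * dd z0 z1 g0 g1 ^ 2 := by
    have h3 : ‖z0‖ ^ 2 ≤ (‖g0‖ + dd z0 z1 g0 g1) ^ 2 := pow_le_pow_left₀ (norm_nonneg _) h 2
    nlinarith [sq_nonneg (‖g0‖ - dd z0 z1 g0 g1)]
  have hQ : (0 : ℝ) ≤ Q := Nat.cast_nonneg Q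
  nlinarith [mul_le_mul_of_nonneg_left h2 hQ]

/-- `√V_g ≤ √V_z + 3 D` -/
theorem sqrtV_le (hg : ‖g0‖ ^ 2 + ‖g1‖ ^ 2 = 1) (hz : ‖z0‖ ^ 2 + ‖z1‖ ^ 2 = 1) (Q : ℕ) :
    Real.sqrt (Q * ‖g0‖ ^ 2 * ‖g1‖ ^ 2) ≤
      Real.sqrt (Q * ‖z0‖ ^ 2 * ‖z1‖ ^ 2) + 3 * (Real.sqrt Q * dd z0 z1 g0 g1) := by
  have e : ∀ a b : ℂ, Real.sqrt (Q * ‖a‖ ^ 2 * ‖b‖ ^ 2) = Real.sqrt Q * (‖a‖ * ‖b‖) := by
    intro a b
    rw [Real.sqrt_mul (by positivity), Real.sqrt_mul (by positivity),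
      Real.sqrt_sq (norm_nonneg _), Real.sqrt_sq (norm_nonneg _)]
    ring
  rw [e, e]
  have h0 := norm_h0_le (g0 := z0) (g1 := z1) (h0 := g0) (h1 := g1) hz hg
  have h1 := norm_h1_le (g0 := z0) (g1 := z1) (h0 := g0) (h1 := g1) hz hg
  have hz0 := norm_le_one_left hz
  have hz1 := norm_le_one_right hz
  have hg1 := norm_le_one_right hg
  have hd := dd_nonneg (g0 := z0) (g1 := z1) (h0 := g0) (h1 := g1)
  have h2 : ‖g0‖ * ‖g1‖ ≤ ‖z0‖ * ‖z1‖ + 3 * dd z0 z1 g0 g1 := by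
    calc ‖g0‖ * ‖g1‖ ≤ (‖z0‖ + dd z0 z1 g0 g1) * ‖g1‖ := by gcongr
      _ = ‖z0‖ * ‖g1‖ + dd z0 z1 g0 g1 * ‖g1‖ := by ring
      _ ≤ ‖z0‖ * (‖z1‖ + dd z0 z1 g0 g1) + dd z0 z1 g0 g1 * 1 := by gcongr
      _ = ‖z0‖ * ‖z1‖ + ‖z0‖ * dd z0 z1 g0 g1 + dd z0 z1 g0 g1 := by ring
      _ ≤ ‖z0‖ * ‖z1‖ + 1 * dd z0 z1 g0 g1 + dd z0 z1 g0 g1 := by gcongr
      _ ≤ _ := by linarith
  calc Real.sqrt Q * (‖g0‖ * ‖g1‖) ≤ Real.sqrt Q * (‖z0‖ * ‖z1‖ + 3 * dd z0 z1 g0 g1) := by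
        gcongr
    _ = _ := by ring

/-- `|m_g - m_z| ≤ 3 (1+√V_z) (1+D)²` -/
theorem abs_mean_sub_le (hg : ‖g0‖ ^ 2 + ‖g1‖ ^ 2 = 1) (hz : ‖z0‖ ^ 2 + ‖z1‖ ^ 2 = 1) (Q : ℕ) :
    |Q * ‖g0‖ ^ 2 - Q * ‖z0‖ ^ 2| ≤
      3 * (1 + Real.sqrt (Q * ‖z0‖ ^ 2 * ‖z1‖ ^ 2)) * (1 + Real.sqrt Q * dd z0 z1 g0 g1) ^ 2 := by
  set s := Real.sqrt Q with hs
  have hs0 : 0 ≤ s := Real.sqrt_nonneg _
  have hs2 : s ^ 2 = Q := Real.sq_sqrt (Nat.cast_nonneg _)
  set D := dd z0 z1 g0 g1 with hD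
  have hd : 0 ≤ D := dd_nonneg
  have e : Real.sqrt (Q * ‖z0‖ ^ 2 * ‖z1‖ ^ 2) = s * (‖z0‖ * ‖z1‖) := by
    rw [Real.sqrt_mul (by positivity), Real.sqrt_mul (by positivity),
      Real.sqrt_sq (norm_nonneg _), Real.sqrt_sq (norm_nonneg _)]
    ring
  rw [e]
  have a0 := norm_h0_le (g0 := z0) (g1 := z1) (h0 := g0) (h1 := g1) hz hg
  have a1 := norm_h1_le (g0 := z0) (g1 := z1) (h0 := g0) (h1 := g1) hz hg
  have b0 := norm_h0_le (g0 := g0) (g1 := g1) (h0 := z0) (h1 := z1) hg hz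
  have b1 := norm_h1_le (g0 := g0) (g1 := g1) (h0 := z0) (h1 := z1) hg hz
  rw [dd_comm g0 g1 z0 z1] at b0 b1
  rw [← hD] at a0 a1 b0 b1
  have n0 := norm_nonneg z0
  have n1 := norm_nonneg z1
  have m0 := norm_nonneg g0
  have m1 := norm_nonneg g1
  -- two bounds
  have k0 : |‖g0‖ ^ 2 - ‖z0‖ ^ 2| ≤ D * (2 * ‖z0‖ + D) := by
    have c1 : |‖g0‖ - ‖z0‖| ≤ D := abs_sub_le_iff.2 ⟨by linarith, by linarith⟩
    have c2 : ‖g0‖ ^ 2 - ‖z0‖ ^ 2 = (‖g0‖ - ‖z0‖) * (‖g0‖ + ‖z0‖) := by ring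
    rw [c2, abs_mul, abs_of_nonneg (by linarith : 0 ≤ ‖g0‖ + ‖z0‖)]
    have c3 : ‖g0‖ + ‖z0‖ ≤ 2 * ‖z0‖ + D := by linarith
    exact mul_le_mul c1 c3 (by linarith) hd
  have k1 : |‖g0‖ ^ 2 - ‖z0‖ ^ 2| ≤ D * (2 * ‖z1‖ + D) := by
    have c1 : |‖g1‖ - ‖z1‖| ≤ D := abs_sub_le_iff.2 ⟨by linarith, by linarith⟩
    have c2 : ‖g0‖ ^ 2 - ‖z0‖ ^ 2 = -((‖g1‖ - ‖z1‖) * (‖g1‖ + ‖z1‖)) := by
      have : ‖g0‖ ^ 2 - ‖z0‖ ^ 2 = ‖z1‖ ^ 2 - ‖g1‖ ^ 2 := by linarith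
      rw [this]; ring
    rw [c2, abs_neg, abs_mul, abs_of_nonneg (by linarith : 0 ≤ ‖g1‖ + ‖z1‖)]
    have c3 : ‖g1‖ + ‖z1‖ ≤ 2 * ‖z1‖ + D := by linarith
    exact mul_le_mul c1 c3 (by linarith) hd
  -- min(‖z0‖,‖z1‖) ≤ (3/2) ‖z0‖‖z1‖
  have k2 : |‖g0‖ ^ 2 - ‖z0‖ ^ 2| ≤ D * (3 * (‖z0‖ * ‖z1‖) + D) := by
    rcases le_total ‖z0‖ ‖z1‖ with h | h
    · have c1 : (2 : ℝ) / 3 ≤ ‖z1‖ := by
        by_contra hc
        push Not at hc
        nlinarith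
      refine k0.trans (mul_le_mul_of_nonneg_left ?_ hd)
      nlinarith
    · have c1 : (2 : ℝ) / 3 ≤ ‖z0‖ := by
        by_contra hc
        push Not at hc
        nlinarith
      refine k1.trans (mul_le_mul_of_nonneg_left ?_ hd)
      nlinarith
  have hQ : |(Q : ℝ) * ‖g0‖ ^ 2 - Q * ‖z0‖ ^ 2| = s ^ 2 * |‖g0‖ ^ 2 - ‖z0‖ ^ 2| := by
    rw [hs2, ← mul_sub, abs_mul, Nat.abs_cast]
  rw [hQ]
  have hsD : 0 ≤ s * D := by positivity
  have hv : 0 ≤ s * (‖z0‖ * ‖z1‖) := by positivity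
  calc s ^ 2 * |‖g0‖ ^ 2 - ‖z0‖ ^ 2| ≤ s ^ 2 * (D * (3 * (‖z0‖ * ‖z1‖) + D)) := by gcongr
    _ = (s * D) * (3 * (s * (‖z0‖ * ‖z1‖)) + s * D) := by ring
    _ ≤ _ := by
        nlinarith [mul_nonneg hsD hv, mul_nonneg hsD hsD, mul_nonneg (mul_nonneg hsD hsD) hv]

end geom

/-- linearisation data of a radial function -/
structure LinD (Q : ℕ) (G : ℕ → ℝ) (α β K : ℝ → ℝ) (C : ℕ → ℝ) (CL : ℝ) : Prop where
  C_nonneg : ∀ p, 0 ≤ C p
  CL_nonneg : 0 ≤ CL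
  K_nonneg : ∀ m, 0 ≤ m → 0 ≤ K m
  rem : ∀ (p : ℕ) (g0 g1 h0 h1 : ℂ), ‖g0‖ ^ 2 + ‖g1‖ ^ 2 = 1 → ‖h0‖ ^ 2 + ‖h1‖ ^ 2 = 1 →
    (1 + Real.sqrt Q * dd g0 g1 h0 h1) ^ p * ‖ME g0 g1 h0 h1 Q (fun i =>
      G i - α (Q * ‖g0‖ ^ 2) - β (Q * ‖g0‖ ^ 2) * (i - Q * ‖g0‖ ^ 2))‖ ≤
      C p * (1 + Q * ‖g0‖ ^ 2 * ‖g1‖ ^ 2) * K (Q * ‖g0‖ ^ 2)
  l0 : ∀ m m', 0 ≤ m → 0 ≤ m' → |α m' - α m - β m * (m' - m)| ≤ CL * (m' - m) ^ 2 * (K m + K m')
  l1 : ∀ m m', 0 ≤ m → 0 ≤ m' → |β m' - β m| ≤ CL * |m' - m| * (K m + K m')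
  grow : ∀ m m' D, 0 ≤ m → 0 ≤ m' → 0 ≤ D → m ≤ 2 * m' + 2 * D ^ 2 →
    K m' ≤ 16 * (1 + D) ^ 8 * K m

set_option maxHeartbeats 1000000 in
/-- **kernel bounds about another centre** -/
theorem kb_exists (C : ℕ → ℝ) (CL : ℝ) (M : ℕ) : ∃ C' : ℝ, (∀ p, 0 ≤ C p) → 0 ≤ CL → 0 ≤ C' ∧
    ∀ (Q : ℕ) (G : ℕ → ℝ) (α β K : ℝ → ℝ), LinD Q G α β K C CL →
    ∀ (z0 z1 g0 g1 h0 h1 : ℂ), ‖z0‖ ^ 2 + ‖z1‖ ^ 2 = 1 → ‖g0‖ ^ 2 + ‖g1‖ ^ 2 = 1 →
    ‖h0‖ ^ 2 + ‖h1‖ ^ 2 = 1 →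
    (1 + Real.sqrt Q * dd g0 g1 h0 h1) ^ M * ‖ME g0 g1 h0 h1 Q (fun i =>
      G i - α (Q * ‖z0‖ ^ 2) - β (Q * ‖z0‖ ^ 2) * (i - Q * ‖z0‖ ^ 2))‖ ≤
      C' * ((1 + Q * ‖z0‖ ^ 2 * ‖z1‖ ^ 2) * K (Q * ‖z0‖ ^ 2)) *
        (1 + Real.sqrt Q * dd z0 z1 g0 g1) ^ 12 := by
  refine ⟨288 * C M + 612 * CL * cG M, fun hC0 hCL0 => ⟨by
    have := cG_pos M; have := hC0 M; positivity, ?_⟩⟩
  intro Q G α β K hL z0 z1 g0 g1 h0 h1 hz hg hh
  set mz : ℝ := Q * ‖z0‖ ^ 2 with hmz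
  set mg : ℝ := Q * ‖g0‖ ^ 2 with hmg
  have hmz0 : 0 ≤ mz := by positivity
  have hmg0 : 0 ≤ mg := by positivity
  set W : ℝ := (1 + Real.sqrt Q * dd g0 g1 h0 h1) ^ M with hW
  have hdd : 0 ≤ dd g0 g1 h0 h1 := dd_nonneg
  have hW0 : 0 ≤ W := by positivity
  set D : ℝ := Real.sqrt Q * dd z0 z1 g0 g1 with hD
  have hD0 : 0 ≤ D := mul_nonneg (Real.sqrt_nonneg _) dd_nonneg
  set Vz : ℝ := mz * ‖z1‖ ^ 2 with hVz
  have hVz0 : 0 ≤ Vz := by positivity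
  set Vg : ℝ := mg * ‖g1‖ ^ 2 with hVg
  have hVg0 : 0 ≤ Vg := by positivity
  have hKz := hL.K_nonneg mz hmz0
  have hKg := hL.K_nonneg mg hmg0
  set σ : ℝ := Real.sqrt Vz with hσ
  have hσ0 : 0 ≤ σ := Real.sqrt_nonneg _
  have hσ2 : σ ^ 2 = Vz := Real.sq_sqrt hVz0
  have hcG := cG_pos M
  obtain ⟨hb1, hb2⟩ := cG_spec M hg hh Q
  have hgrow : K mg ≤ 16 * (1 + D) ^ 8 * K mz :=
    hL.grow mz mg D hmz0 hmg0 hD0 (mean_le hg hz Q)
  have hVle : Real.sqrt Vg ≤ σ + 3 * D := sqrtV_le hg hz Q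
  have hVg1 : 1 + Vg ≤ 18 * (1 + Vz) * (1 + D) ^ 2 := by
    have h1 : Vg = Real.sqrt Vg ^ 2 := (Real.sq_sqrt hVg0).symm
    have h2 : Real.sqrt Vg ^ 2 ≤ (σ + 3 * D) ^ 2 := pow_le_pow_left₀ (Real.sqrt_nonneg _) hVle 2
    have h3 : (σ + 3 * D) ^ 2 ≤ 2 * σ ^ 2 + 18 * D ^ 2 := by nlinarith only [sq_nonneg (σ - 3 * D)]
    have h4 : 1 + D ^ 2 ≤ (1 + D) ^ 2 := by nlinarith only [hD0]
    have h5 : 18 * (1 + σ ^ 2) * (1 + D ^ 2) ≤ 18 * (1 + σ ^ 2) * (1 + D) ^ 2 := by gcongr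
    have h6 : 0 ≤ σ ^ 2 * D ^ 2 := by positivity
    rw [h1, ← hσ2]
    nlinarith only [h2, h3, h5, h6, sq_nonneg σ]
  have hm : |mg - mz| ≤ 3 * (1 + σ) * (1 + D) ^ 2 := abs_mean_sub_le hg hz Q
  have h1D : 1 ≤ 1 + D := by linarith
  have hp : ∀ k, k ≤ 12 → (1 + D) ^ k ≤ (1 + D) ^ 12 := fun k hk => pow_le_pow_right₀ h1D hk
  have hKs : K mz + K mg ≤ 17 * (1 + D) ^ 8 * K mz := by
    have h1 : (1 : ℝ) ≤ (1 + D) ^ 8 := one_le_pow₀ h1D
    nlinarith [mul_le_mul_of_nonneg_right h1 hKz]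
  have hσ1 : (1 + σ) ^ 2 ≤ 2 * (1 + Vz) := by
    rw [← hσ2]; nlinarith [sq_nonneg (σ - 1)]
  -- decomposition
  have e : ME g0 g1 h0 h1 Q (fun i => G i - α mz - β mz * (i - mz)) =
      ME g0 g1 h0 h1 Q (fun i => G i - α mg - β mg * (i - mg)) +
      (((α mg - α mz - β mz * (mg - mz) : ℝ) : ℂ) * ME g0 g1 h0 h1 Q (fun _ => 1) +
      ((β mg - β mz : ℝ) : ℂ) * ME g0 g1 h0 h1 Q (fun i => (i : ℝ) - mg)) := by
    rw [← ME_smul, ← ME_smul, ← ME_add, ← ME_add]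
    refine ME_congr fun i _ => ?_
    ring
  rw [e]
  have t1 : W * ‖ME g0 g1 h0 h1 Q (fun i => G i - α mg - β mg * (i - mg))‖ ≤
      288 * C M * ((1 + Vz) * K mz) * (1 + D) ^ 12 := by
    refine (hL.rem M g0 g1 h0 h1 hg hh).trans ?_
    have hCM := hC0 M
    calc C M * (1 + Vg) * K mg ≤ C M * (18 * (1 + Vz) * (1 + D) ^ 2) *
          (16 * (1 + D) ^ 8 * K mz) := by gcongr
      _ = 288 * C M * ((1 + Vz) * K mz) * (1 + D) ^ 10 := by ring
      _ ≤ 288 * C M * ((1 + Vz) * K mz) * (1 + D) ^ 12 :=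
          mul_le_mul_of_nonneg_left (hp 10 (by norm_num)) (by positivity)
  have t2 : W * ‖((α mg - α mz - β mz * (mg - mz) : ℝ) : ℂ) * ME g0 g1 h0 h1 Q (fun _ => 1)‖ ≤
      306 * CL * cG M * ((1 + Vz) * K mz) * (1 + D) ^ 12 := by
    rw [norm_mul, Complex.norm_real, Real.norm_eq_abs]
    have k0 := hL.l0 mz mg hmz0 hmg0
    have h2 : (mg - mz) ^ 2 ≤ 18 * (1 + Vz) * (1 + D) ^ 4 := by
      rw [← sq_abs]
      calc |mg - mz| ^ 2 ≤ (3 * (1 + σ) * (1 + D) ^ 2) ^ 2 :=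
            pow_le_pow_left₀ (abs_nonneg _) hm 2
        _ = 9 * (1 + σ) ^ 2 * (1 + D) ^ 4 := by ring
        _ ≤ 9 * (2 * (1 + Vz)) * (1 + D) ^ 4 := by gcongr
        _ = _ := by ring
    have hME := norm_nonneg (ME g0 g1 h0 h1 Q (fun _ => 1))
    calc W * (|α mg - α mz - β mz * (mg - mz)| * ‖ME g0 g1 h0 h1 Q (fun _ => 1)‖)
        = |α mg - α mz - β mz * (mg - mz)| * (W * ‖ME g0 g1 h0 h1 Q (fun _ => 1)‖) := by ring
      _ ≤ (CL * (mg - mz) ^ 2 * (K mz + K mg)) * cG M := by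
          gcongr
      _ ≤ (CL * (18 * (1 + Vz) * (1 + D) ^ 4) * (17 * (1 + D) ^ 8 * K mz)) * cG M := by
          gcongr
      _ = _ := by ring
  have t3 : W * ‖((β mg - β mz : ℝ) : ℂ) * ME g0 g1 h0 h1 Q (fun i => (i : ℝ) - mg)‖ ≤
      306 * CL * cG M * ((1 + Vz) * K mz) * (1 + D) ^ 12 := by
    rw [norm_mul, Complex.norm_real, Real.norm_eq_abs]
    have k0 := hL.l1 mz mg hmz0 hmg0
    have h3 : (1 + σ) * (σ + 3 * D) ≤ 6 * (1 + Vz) * (1 + D) := by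
      calc (1 + σ) * (σ + 3 * D) ≤ (1 + σ) * (3 * (1 + σ) * (1 + D)) := by
            apply mul_le_mul_of_nonneg_left _ (by positivity)
            nlinarith [mul_nonneg hσ0 hD0]
        _ = 3 * (1 + σ) ^ 2 * (1 + D) := by ring
        _ ≤ 3 * (2 * (1 + Vz)) * (1 + D) := by gcongr
        _ = _ := by ring
    calc W * (|β mg - β mz| * ‖ME g0 g1 h0 h1 Q (fun i => (i : ℝ) - mg)‖)
        = |β mg - β mz| * (W * ‖ME g0 g1 h0 h1 Q (fun i => (i : ℝ) - mg)‖) := by ring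
      _ ≤ (CL * |mg - mz| * (K mz + K mg)) * (cG M * Real.sqrt Vg) := by
          gcongr
      _ ≤ (CL * (3 * (1 + σ) * (1 + D) ^ 2) * (17 * (1 + D) ^ 8 * K mz)) *
          (cG M * (σ + 3 * D)) := by
          gcongr
      _ = 51 * CL * cG M * K mz * (1 + D) ^ 10 * ((1 + σ) * (σ + 3 * D)) := by ring
      _ ≤ 51 * CL * cG M * K mz * (1 + D) ^ 10 * (6 * (1 + Vz) * (1 + D)) := by
          gcongr
      _ = 306 * CL * cG M * ((1 + Vz) * K mz) * (1 + D) ^ 11 := by ring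
      _ ≤ 306 * CL * cG M * ((1 + Vz) * K mz) * (1 + D) ^ 12 :=
          mul_le_mul_of_nonneg_left (hp 11 (by norm_num)) (by positivity)
  calc W * ‖ME g0 g1 h0 h1 Q (fun i => G i - α mg - β mg * (i - mg)) +
      (((α mg - α mz - β mz * (mg - mz) : ℝ) : ℂ) * ME g0 g1 h0 h1 Q (fun _ => 1) +
      ((β mg - β mz : ℝ) : ℂ) * ME g0 g1 h0 h1 Q (fun i => (i : ℝ) - mg))‖
      ≤ W * (‖ME g0 g1 h0 h1 Q (fun i => G i - α mg - β mg * (i - mg))‖ +
        (‖((α mg - α mz - β mz * (mg - mz) : ℝ) : ℂ) * ME g0 g1 h0 h1 Q (fun _ => 1)‖ +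
        ‖((β mg - β mz : ℝ) : ℂ) * ME g0 g1 h0 h1 Q (fun i => (i : ℝ) - mg)‖)) := by
        gcongr
        exact (norm_add_le _ _).trans (add_le_add le_rfl (norm_add_le _ _))
    _ ≤ _ := by
        rw [mul_add, mul_add]
        refine (add_le_add t1 (add_le_add t2 t3)).trans (le_of_eq ?_)
        ring

end Crest.Agent.R340.Tz877
end

-- ▼ part R340/Tz6_877
section

/-!
# Row 340, block O10: linearisation data of the logarithm (helper877)
-/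

set_option autoImplicit false

namespace Crest.Agent.R340.Tz877

open Finset Complex MeasureTheory

section small

variable {g0 g1 h0 h1 : ℂ}

theorem abs_inner_le_one (hg : ‖g0‖ ^ 2 + ‖g1‖ ^ 2 = 1) (hh : ‖h0‖ ^ 2 + ‖h1‖ ^ 2 = 1) :
    ‖h0‖ * ‖g0‖ + ‖h1‖ * ‖g1‖ ≤ 1 := by
  nlinarith [sq_nonneg (‖h0‖ - ‖g0‖), sq_nonneg (‖h1‖ - ‖g1‖)]

/-- trivial bound of matrix elements -/
theorem norm_ME_le (hg : ‖g0‖ ^ 2 + ‖g1‖ ^ 2 = 1) (hh : ‖h0‖ ^ 2 + ‖h1‖ ^ 2 = 1) {Q : ℕ}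
    {F : ℕ → ℝ} {B : ℝ} (hB : 0 ≤ B) (hF : ∀ i ≤ Q, |F i| ≤ B) :
    ‖ME g0 g1 h0 h1 Q F‖ ≤ B := by
  unfold ME
  calc ‖∑ i ∈ range (Q + 1), (Q.choose i : ℂ) * ((starRingEnd ℂ) h0 * g0) ^ i *
      ((starRingEnd ℂ) h1 * g1) ^ (Q - i) * ((F i : ℝ) : ℂ)‖
      ≤ ∑ i ∈ range (Q + 1), B * ((Q.choose i : ℝ) * (‖h0‖ * ‖g0‖) ^ i *
        (‖h1‖ * ‖g1‖) ^ (Q - i)) := by
        refine (norm_sum_le _ _).trans (sum_le_sum fun i hi => ?_)
        rw [norm_mul, norm_mul, norm_mul, norm_pow, norm_pow, norm_mul, norm_mul,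
          RCLike.norm_conj, RCLike.norm_conj, Complex.norm_natCast, Complex.norm_real,
          Real.norm_eq_abs]
        have h1 := hF i (Nat.lt_succ_iff.1 (mem_range.1 hi))
        calc (Q.choose i : ℝ) * (‖h0‖ * ‖g0‖) ^ i * (‖_‖ * ‖g1‖) ^ (Q - i) * |F i|
            ≤ (Q.choose i : ℝ) * (‖h0‖ * ‖g0‖) ^ i * (‖_‖ * ‖g1‖) ^ (Q - i) * B := by gcongr
          _ = _ := by ring
    _ = B * (‖h1‖ * ‖g1‖ + ‖h0‖ * ‖g0‖) ^ Q := by
        rw [← mul_sum, sum_choose]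
    _ ≤ B * 1 := by
        gcongr
        apply pow_le_one₀ (by positivity)
        have := abs_inner_le_one hg hh
        linarith
    _ = B := mul_one B

end small

/-- the linearisation estimate for every `Q` -/
theorem exists_lin_est' (p : ℕ) : ∃ C : ℝ, 0 < C ∧
    ∀ {Ω : Type} [MeasurableSpace Ω] (μ : Measure Ω) [IsFiniteMeasure μ] (s : Ω → ℝ),
    Measurable s → (∀ ω, 0 ≤ s ω) → ∀ (g0 g1 h0 h1 : ℂ),
    ‖g0‖ ^ 2 + ‖g1‖ ^ 2 = 1 → ‖h0‖ ^ 2 + ‖h1‖ ^ 2 = 1 → ∀ Q : ℕ,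
    ∀ (G : ℕ → ℝ) (α β ε : ℝ), |ε| ≤ 1 →
    (∀ i ≤ Q, IntervalIntegrable (fun θ : ℝ => (1 - θ) *
      Kf μ s (Q * ‖g0‖ ^ 2 + θ * (i - Q * ‖g0‖ ^ 2))) volume 0 1) →
    (∀ i ≤ Q, G i = α + β * (i - Q * ‖g0‖ ^ 2) + ε * ((i - Q * ‖g0‖ ^ 2) ^ 2 *
      ∫ θ in (0:ℝ)..1, (1 - θ) * Kf μ s (Q * ‖g0‖ ^ 2 + θ * (i - Q * ‖g0‖ ^ 2)))) →
    (1 + Real.sqrt Q * dd g0 g1 h0 h1) ^ p *
      ‖ME g0 g1 h0 h1 Q (fun i => G i - α - β * (i - Q * ‖g0‖ ^ 2))‖ ≤
      C * (1 + Q * ‖g0‖ ^ 2 * ‖g1‖ ^ 2) * (Kf μ s (Q * ‖g0‖ ^ 2 / 24) +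
        Real.exp (-(Q * ‖g0‖ ^ 2) / 24) * Kf μ s 0) := by
  obtain ⟨C, hC, hC'⟩ := exists_lin_est p
  refine ⟨C + 8 * 3 ^ p, by positivity, ?_⟩
  intro Ω _ μ _ s hs hs0 g0 g1 h0 h1 hg hh Q G α β ε hε hint hG
  have hK0 := Kf_nonneg (μ := μ) (s := s) (Q * ‖g0‖ ^ 2 / 24)
  have hK1 := Kf_nonneg (μ := μ) (s := s) 0
  rcases le_or_gt 3 Q with hQ | hQ
  · refine (hC' μ s hs hs0 g0 g1 h0 h1 hg hh Q hQ G α β ε hε hint hG).trans ?_
    gcongr
    have : (0 : ℝ) ≤ 8 * 3 ^ p := by positivity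
    linarith
  · set m : ℝ := Q * ‖g0‖ ^ 2 with hm
    have hm0 : 0 ≤ m := by positivity
    have hQ2 : (Q : ℝ) ≤ 2 := by exact_mod_cast Nat.lt_succ_iff.1 hQ
    have hg0 : ‖g0‖ ^ 2 ≤ 1 := by nlinarith [sq_nonneg ‖g1‖]
    have hm2 : m ≤ Q := by
      rw [hm]
      exact mul_le_of_le_one_right (Nat.cast_nonneg Q) hg0
    have hV : 0 ≤ m * ‖g1‖ ^ 2 := by positivity
    have hb1 : ∀ i ≤ Q, |G i - α - β * (i - m)| ≤ 4 * Kf μ s 0 := by
      intro i hi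
      have hi' : (i : ℝ) ≤ Q := by exact_mod_cast hi
      have hi0 : (0 : ℝ) ≤ i := Nat.cast_nonneg i
      rw [hG i hi]
      have e : α + β * (i - m) + ε * ((i - m) ^ 2 *
          ∫ θ in (0:ℝ)..1, (1 - θ) * Kf μ s (m + θ * (i - m))) - α - β * (i - m) =
          ε * ((i - m) ^ 2 * ∫ θ in (0:ℝ)..1, (1 - θ) * Kf μ s (m + θ * (i - m))) := by ring
      rw [e, abs_mul, abs_mul, abs_of_nonneg (sq_nonneg ((i : ℝ) - m))]
      have h2 : (i - m) ^ 2 ≤ 4 := by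
        have a1 : (i : ℝ) - m ≤ 2 := by linarith
        have a2 : -2 ≤ (i : ℝ) - m := by linarith
        nlinarith
      have h3 : |∫ θ in (0:ℝ)..1, (1 - θ) * Kf μ s (m + θ * (i - m))| ≤ Kf μ s 0 := by
        have h4 : ∀ θ ∈ Set.uIoc (0:ℝ) 1, ‖(1 - θ) * Kf μ s (m + θ * (i - m))‖ ≤ Kf μ s 0 := by
          intro θ hθ
          rw [Set.uIoc_of_le zero_le_one] at hθ
          have hθ0 : 0 ≤ θ := hθ.1.le
          have hθ1 : θ ≤ 1 := hθ.2
          rw [norm_mul, Real.norm_of_nonneg (sub_nonneg.2 hθ1),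
            Real.norm_of_nonneg (Kf_nonneg _)]
          have hy : 0 ≤ m + θ * ((i : ℝ) - m) := by
            have : m + θ * ((i : ℝ) - m) = (1 - θ) * m + θ * i := by ring
            rw [this]
            have := sub_nonneg.2 hθ1
            positivity
          have h5 : Kf μ s (m + θ * (i - m)) ≤ Kf μ s 0 := by
            refine integral_mono (integrable_exp hs hs0 hy) (integrable_exp hs hs0 le_rfl) ?_
            intro ω
            apply Real.exp_le_exp.2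
            have := mul_nonneg (hs0 ω) hy
            simp only [mul_zero]
            linarith
          have h6 : (0 : ℝ) ≤ Kf μ s (m + θ * (i - m)) := Kf_nonneg _
          calc (1 - θ) * Kf μ s (m + θ * (i - m)) ≤ 1 * Kf μ s 0 :=
                mul_le_mul (by linarith) h5 h6 zero_le_one
            _ = _ := one_mul _
        have h5 := intervalIntegral.norm_integral_le_of_norm_le_const h4
        simpa using h5
      calc |ε| * ((i - m) ^ 2 * |∫ θ in (0:ℝ)..1, (1 - θ) * Kf μ s (m + θ * (i - m))|)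
          ≤ 1 * (4 * Kf μ s 0) := by gcongr
        _ = _ := one_mul _
    have h2 := norm_ME_le hg hh (Q := Q) (by positivity) hb1
    have h3 : (1 + Real.sqrt Q * dd g0 g1 h0 h1) ^ p ≤ 3 ^ p := by
      apply pow_le_pow_left₀
      · have := dd_nonneg (g0 := g0) (g1 := g1) (h0 := h0) (h1 := h1)
        positivity
      · have a1 := dd_le_one hg hh
        have a2 := dd_nonneg (g0 := g0) (g1 := g1) (h0 := h0) (h1 := h1)
        have a3 : Real.sqrt Q ≤ 2 := by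
          rw [Real.sqrt_le_left (by norm_num)]
          linarith
        have a4 : Real.sqrt Q * dd g0 g1 h0 h1 ≤ 2 * 1 := mul_le_mul a3 a1 a2 (by norm_num)
        linarith
    have h4 : (1 : ℝ) / 2 ≤ Real.exp (-m / 24) := by
      have := Real.add_one_le_exp (-m / 24)
      linarith
    calc (1 + Real.sqrt Q * dd g0 g1 h0 h1) ^ p * ‖ME g0 g1 h0 h1 Q
          (fun i => G i - α - β * (i - m))‖ ≤ 3 ^ p * (4 * Kf μ s 0) := by
          apply mul_le_mul h3 h2 (norm_nonneg _) (by positivity)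
      _ = (8 * 3 ^ p) * 1 * (1 / 2 * Kf μ s 0) := by ring
      _ ≤ (C + 8 * 3 ^ p) * (1 + m * ‖g1‖ ^ 2) * (Kf μ s (m / 24) +
          Real.exp (-m / 24) * Kf μ s 0) := by
          gcongr
          · linarith
          · linarith
          · exact le_add_of_nonneg_of_le hK0 (by gcongr)

/-! ### the logarithm -/

section logarithm

/-- the measure `x e^{-kx} dx` -/
noncomputable def muK (k : ℝ) : Measure ℝ :=
  (volume.restrict (Set.Ioi (0 : ℝ))).withDensity fun x => ENNReal.ofReal (x * Real.exp (-(k * x)))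

theorem integral_x_exp {r : ℝ} (hr : 0 < r) :
    ∫ x in Set.Ioi (0 : ℝ), x * Real.exp (-(r * x)) = 1 / r ^ 2 := by
  have h := Real.integral_rpow_mul_exp_neg_mul_Ioi (a := 2) (r := r) (by norm_num) hr
  have e : ∀ x : ℝ, x ^ ((2 : ℝ) - 1) = x := fun x => by norm_num
  simp only [e] at h
  rw [h, Real.Gamma_two, mul_one, one_div, Real.inv_rpow hr.le, one_div]
  norm_num

theorem integrable_x_exp {r : ℝ} (hr : 0 < r) :
    IntegrableOn (fun x => x * Real.exp (-(r * x))) (Set.Ioi (0 : ℝ)) := by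
  by_contra h
  have h1 := integral_x_exp hr
  rw [integral_undef h] at h1
  have : 0 < 1 / r ^ 2 := by positivity
  linarith

theorem isFinite_muK {k : ℝ} (hk : 0 < k) : IsFiniteMeasure (muK k) := by
  unfold muK
  refine isFiniteMeasure_withDensity_ofReal ?_
  exact (integrable_x_exp hk).2

theorem Kf_muK {k y : ℝ} (hk : 0 < k) (hy : 0 ≤ y) :
    Kf (muK k) (fun x => |x|) y = 1 / (y + k) ^ 2 := by
  unfold Kf muK
  rw [integral_withDensity_eq_integral_toReal_smul]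
  · have e : ∀ x ∈ Set.Ioi (0 : ℝ), (ENNReal.ofReal (x * Real.exp (-(k * x)))).toReal •
        Real.exp (-|x| * y) = x * Real.exp (-((y + k) * x)) := by
      intro x hx
      have hx0 : (0 : ℝ) < x := hx
      rw [ENNReal.toReal_ofReal (by positivity), smul_eq_mul, abs_of_pos hx0, mul_assoc,
        ← Real.exp_add]
      congr 2
      ring
    rw [setIntegral_congr_fun measurableSet_Ioi e, integral_x_exp (by linarith)]
  · exact (measurable_id.mul ((measurable_id.const_mul k).neg.exp)).ennreal_ofReal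
  · exact Filter.Eventually.of_forall fun x => ENNReal.ofReal_lt_top

/-- Taylor formula for the logarithm with integral remainder -/
theorem log_taylor {k m i : ℝ} (hk : 0 < k) (hm : 0 ≤ m) (hi : 0 ≤ i) :
    Real.log (i + k) = Real.log (m + k) + 1 / (m + k) * (i - m) +
      (-1) * ((i - m) ^ 2 * ∫ θ in (0:ℝ)..1, (1 - θ) * (1 / (m + θ * (i - m) + k) ^ 2)) := by
  have hpos : ∀ θ ∈ Set.uIcc (0:ℝ) 1, 0 < m + θ * (i - m) + k := by
    intro θ hθ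
    rw [Set.uIcc_of_le zero_le_one] at hθ
    have : m + θ * (i - m) + k = (1 - θ) * m + θ * i + k := by ring
    rw [this]
    have h1 := sub_nonneg.2 hθ.2
    have h2 := hθ.1
    positivity
  have hder : ∀ θ ∈ Set.uIcc (0:ℝ) 1, HasDerivAt (fun θ : ℝ => Real.log (m + θ * (i - m) + k) +
      (1 - θ) * ((i - m) / (m + θ * (i - m) + k)))
      (-((i - m) ^ 2 * ((1 - θ) * (1 / (m + θ * (i - m) + k) ^ 2)))) θ := by
    intro θ hθ
    have hp := hpos θ hθ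
    have h1 : HasDerivAt (fun θ : ℝ => m + θ * (i - m) + k) (i - m) θ := by
      have := (((hasDerivAt_id θ).mul_const (i - m)).const_add m).add_const k
      simpa using this
    have h2 := h1.log hp.ne'
    have h3 := (h1.inv hp.ne').const_mul (i - m)
    have h4 : HasDerivAt (fun θ : ℝ => 1 - θ) (-1) θ := by
      simpa using (hasDerivAt_id θ).const_sub 1
    have h5 := h4.mul h3
    have h6 := h2.add h5
    refine h6.congr_deriv ?_ |>.congr_of_eventuallyEq (Filter.Eventually.of_forall fun θ => ?_)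
    · simp only [Pi.inv_apply]
      field_simp
      ring
    · simp only [Pi.add_apply, Pi.mul_apply, div_eq_mul_inv, Pi.inv_apply]
  have hcont : ContinuousOn (fun θ : ℝ => -((i - m) ^ 2 * ((1 - θ) *
      (1 / (m + θ * (i - m) + k) ^ 2)))) (Set.uIcc 0 1) := by
    apply ContinuousOn.neg
    apply ContinuousOn.mul continuousOn_const
    apply ContinuousOn.mul (by fun_prop)
    apply ContinuousOn.div continuousOn_const (by fun_prop)
    intro θ hθ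
    exact pow_ne_zero 2 (hpos θ hθ).ne'
  have h := intervalIntegral.integral_eq_sub_of_hasDerivAt hder hcont.intervalIntegrable
  rw [intervalIntegral.integral_neg, intervalIntegral.integral_const_mul] at h
  simp only [zero_mul, sub_zero, one_mul, sub_self, add_zero] at h
  have e1 : m + (i - m) + k = i + k := by ring
  rw [e1] at h
  have e2 : (i - m) / (m + k) = 1 / (m + k) * (i - m) := by ring
  rw [e2] at h
  linarith

theorem exp_sq_bound {m : ℝ} (hm : 0 ≤ m) : Real.exp (-m / 24) ≤ 1250 * (1 / (1 + m) ^ 2) := by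
  have h1 := Real.pow_div_factorial_le_exp ((1 + m) / 24) (by positivity) 2
  have h2 : Real.exp ((1 + m) / 24) = Real.exp (1 / 24) * Real.exp (m / 24) := by
    rw [← Real.exp_add]; congr 1; ring
  have h3 : Real.exp (1 / 24) ≤ 24 / 23 := by
    have h6 := Real.exp_bound_div_one_sub_of_interval (x := 1 / 24) (by norm_num) (by norm_num)
    refine h6.trans ?_
    norm_num
  have h4 : Real.exp (-m / 24) = (Real.exp (m / 24))⁻¹ := by
    rw [← Real.exp_neg]; congr 1; ring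
  have h5 : ((1 + m) / 24) ^ 2 / ((Nat.factorial 2 : ℕ) : ℝ) ≤ 24 / 23 * Real.exp (m / 24) := by
    refine h1.trans ?_
    rw [h2]
    gcongr
  have h6 : ((Nat.factorial 2 : ℕ) : ℝ) = 2 := by norm_num [Nat.factorial]
  rw [h6] at h5
  rw [h4, mul_one_div, inv_eq_one_div, div_le_div_iff₀ (Real.exp_pos _) (by positivity)]
  nlinarith [Real.exp_pos (m / 24)]

/-- `K(m/24) + e^{-m/24} K(0) ≤ C (1+m)^{-2}` for `K y = (y+k)^{-2}`, `k ≥ 1` -/
theorem log_K_bound {k m : ℝ} (hk : 1 ≤ k) (hm : 0 ≤ m) :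
    1 / (m / 24 + k) ^ 2 + Real.exp (-m / 24) * (1 / (0 + k) ^ 2) ≤ 1826 * (1 / (1 + m) ^ 2) := by
  have h1 : 1 / (m / 24 + k) ^ 2 ≤ 576 * (1 / (1 + m) ^ 2) := by
    rw [mul_one_div, div_le_div_iff₀ (by positivity) (by positivity)]
    have h2 : (1 + m) / 24 ≤ m / 24 + k := by linarith
    have h3 : ((1 + m) / 24) ^ 2 ≤ (m / 24 + k) ^ 2 := pow_le_pow_left₀ (by positivity) h2 2
    nlinarith
  have h2 : Real.exp (-m / 24) * (1 / (0 + k) ^ 2) ≤ 1250 * (1 / (1 + m) ^ 2) := by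
    have h3 : 1 / (0 + k) ^ 2 ≤ 1 := by
      rw [zero_add, div_le_one (by positivity)]
      exact one_le_pow₀ hk
    calc Real.exp (-m / 24) * (1 / (0 + k) ^ 2) ≤ Real.exp (-m / 24) * 1 := by gcongr
      _ ≤ _ := by rw [mul_one]; exact exp_sq_bound hm
  linarith

/-- linearisation constant -/
noncomputable def cLin (p : ℕ) : ℝ := Classical.choose (exists_lin_est' p)

theorem cLin_pos (p : ℕ) : 0 < cLin p := (Classical.choose_spec (exists_lin_est' p)).1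

/-- **linearisation data of the logarithm** -/
theorem linD_log (Q : ℕ) {k : ℝ} (hk : 1 ≤ k) :
    LinD Q (fun i => Real.log (i + k)) (fun m => Real.log (m + k)) (fun m => 1 / (m + k))
      (fun m => 1 / (1 + m) ^ 2) (fun p => 1826 * cLin p) 1 where
  C_nonneg p := by have := cLin_pos p; positivity
  CL_nonneg := zero_le_one
  K_nonneg m hm := by positivity
  rem p g0 g1 h0 h1 hg hh := by
    have hk0 : 0 < k := by linarith
    have := isFinite_muK hk0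
    set m : ℝ := Q * ‖g0‖ ^ 2 with hm
    have hm0 : 0 ≤ m := by positivity
    have hV : 0 ≤ m * ‖g1‖ ^ 2 := by positivity
    have hy : ∀ i : ℕ, ∀ θ ∈ Set.uIcc (0:ℝ) 1, 0 ≤ m + θ * ((i : ℝ) - m) := by
      intro i θ hθ
      rw [Set.uIcc_of_le zero_le_one] at hθ
      have : m + θ * ((i : ℝ) - m) = (1 - θ) * m + θ * i := by ring
      rw [this]
      have := sub_nonneg.2 hθ.2
      have := hθ.1
      positivity
    have hspec := (Classical.choose_spec (exists_lin_est' p)).2 (muK k) (fun x => |x|)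
      (measurable_id.abs) (fun ω => abs_nonneg ω) g0 g1 h0 h1 hg hh Q
      (fun i => Real.log (i + k)) (Real.log (m + k)) (1 / (m + k)) (-1) (by norm_num) ?_ ?_
    · refine hspec.trans ?_
      rw [Kf_muK hk0 (by positivity), Kf_muK hk0 le_rfl]
      have h3 := log_K_bound hk hm0
      have hc : 0 < Classical.choose (exists_lin_est' p) := cLin_pos p
      calc Classical.choose (exists_lin_est' p) * (1 + m * ‖g1‖ ^ 2) *
            (1 / (m / 24 + k) ^ 2 + Real.exp (-m / 24) * (1 / (0 + k) ^ 2))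
          ≤ Classical.choose (exists_lin_est' p) * (1 + m * ‖g1‖ ^ 2) *
            (1826 * (1 / (1 + m) ^ 2)) := by gcongr
        _ = _ := by unfold cLin; ring
    · intro i hi
      have hc : ContinuousOn (fun θ : ℝ => (1 - θ) * (1 / (m + θ * (i - m) + k) ^ 2))
          (Set.uIcc 0 1) := by
        apply ContinuousOn.mul (by fun_prop)
        apply ContinuousOn.div continuousOn_const (by fun_prop)
        intro θ hθ
        have := hy i θ hθ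
        positivity
      refine ContinuousOn.intervalIntegrable (hc.congr fun θ hθ => ?_)
      simp only
      rw [Kf_muK hk0 (hy i θ hθ)]
    · intro i hi
      rw [log_taylor hk0 hm0 (Nat.cast_nonneg i)]
      congr 3
      refine intervalIntegral.integral_congr fun θ hθ => ?_
      rw [Kf_muK hk0 (hy i θ hθ)]
  l0 m m' hm hm' := by
    have hk0 : 0 < k := by linarith
    have p1 : 0 < m + k := by linarith
    have p2 : 0 < m' + k := by linarith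
    have e : Real.log (m' + k) - Real.log (m + k) = Real.log ((m' + k) / (m + k)) :=
      (Real.log_div p2.ne' p1.ne').symm
    have e2 : 1 / (m + k) * (m' - m) = (m' + k) / (m + k) - 1 := by field_simp; ring
    rw [e, e2]
    set x := (m' + k) / (m + k) with hx
    have hx0 : 0 < x := by positivity
    have u1 := Real.log_le_sub_one_of_pos hx0
    have u2 := Real.one_sub_inv_le_log_of_pos hx0
    have h1 : |Real.log x - (x - 1)| ≤ (x - 1) - (1 - x⁻¹) := by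
      rw [abs_le]
      constructor <;> linarith
    refine h1.trans ?_
    have e3 : (x - 1) - (1 - x⁻¹) = (m' - m) ^ 2 * ((1 / (m + k)) * (1 / (m' + k))) := by
      rw [hx]; field_simp; ring
    rw [e3, one_mul]
    have h2 : (1 / (m + k)) * (1 / (m' + k)) ≤ 1 / (1 + m) ^ 2 + 1 / (1 + m') ^ 2 := by
      have a1 : 1 / (m + k) ≤ 1 / (1 + m) := one_div_le_one_div_of_le (by linarith) (by linarith)
      have a2 : 1 / (m' + k) ≤ 1 / (1 + m') := one_div_le_one_div_of_le (by linarith) (by linarith)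
      have a3 : 0 < 1 / (1 + m) := by positivity
      have a4 : 0 < 1 / (1 + m') := by positivity
      calc (1 / (m + k)) * (1 / (m' + k)) ≤ (1 / (1 + m)) * (1 / (1 + m')) := by gcongr
        _ ≤ (1 / (1 + m)) ^ 2 + (1 / (1 + m')) ^ 2 := by
            nlinarith [sq_nonneg (1 / (1 + m) - 1 / (1 + m'))]
        _ = _ := by rw [one_div_pow, one_div_pow]
    gcongr
  l1 m m' hm hm' := by
    have p1 : 0 < m + k := by linarith
    have p2 : 0 < m' + k := by linarith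
    have e : 1 / (m' + k) - 1 / (m + k) = (m - m') * ((1 / (m + k)) * (1 / (m' + k))) := by
      field_simp; ring
    rw [e, abs_mul, abs_sub_comm m m', one_mul,
      abs_of_nonneg (by positivity : 0 ≤ (1 / (m + k)) * (1 / (m' + k)))]
    have h2 : (1 / (m + k)) * (1 / (m' + k)) ≤ 1 / (1 + m) ^ 2 + 1 / (1 + m') ^ 2 := by
      have a1 : 1 / (m + k) ≤ 1 / (1 + m) := one_div_le_one_div_of_le (by linarith) (by linarith)
      have a2 : 1 / (m' + k) ≤ 1 / (1 + m') := one_div_le_one_div_of_le (by linarith) (by linarith)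
      have a3 : 0 < 1 / (1 + m) := by positivity
      have a4 : 0 < 1 / (1 + m') := by positivity
      calc (1 / (m + k)) * (1 / (m' + k)) ≤ (1 / (1 + m)) * (1 / (1 + m')) := by gcongr
        _ ≤ (1 / (1 + m)) ^ 2 + (1 / (1 + m')) ^ 2 := by
            nlinarith [sq_nonneg (1 / (1 + m) - 1 / (1 + m'))]
        _ = _ := by rw [one_div_pow, one_div_pow]
    gcongr
  grow m m' D hm hm' hD h := by
    have h1 : 1 + m ≤ 2 * (1 + m') * (1 + D) ^ 2 := by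
      nlinarith [mul_nonneg hm' hD, mul_nonneg hm' (sq_nonneg D)]
    have h2 : (1 + m) ^ 2 ≤ (2 * (1 + m') * (1 + D) ^ 2) ^ 2 := pow_le_pow_left₀ (by linarith) h1 2
    rw [mul_one_div, div_le_div_iff₀ (by positivity) (by positivity), one_mul]
    have h3 : (1 + D) ^ 4 ≤ (1 + D) ^ 8 := pow_le_pow_right₀ (by linarith) (by norm_num)
    calc (1 + m) ^ 2 ≤ (2 * (1 + m') * (1 + D) ^ 2) ^ 2 := h2
      _ = 4 * (1 + D) ^ 4 * (1 + m') ^ 2 := by ring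
      _ ≤ 16 * (1 + D) ^ 8 * (1 + m') ^ 2 := by
          gcongr
          norm_num

/-- sums of linearisation data -/
theorem LinD.add {Q : ℕ} {G G' : ℕ → ℝ} {α β α' β' K : ℝ → ℝ} {C C' : ℕ → ℝ} {CL CL' : ℝ}
    (h : LinD Q G α β K C CL) (h' : LinD Q G' α' β' K C' CL') :
    LinD Q (fun i => G i + G' i) (fun m => α m + α' m) (fun m => β m + β' m) K
      (fun p => C p + C' p) (CL + CL') where
  C_nonneg p := add_nonneg (h.C_nonneg p) (h'.C_nonneg p)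
  CL_nonneg := add_nonneg h.CL_nonneg h'.CL_nonneg
  K_nonneg := h.K_nonneg
  rem p g0 g1 h0 h1 hg hh := by
    have e : ME g0 g1 h0 h1 Q (fun i => G i + G' i - (α (Q * ‖g0‖ ^ 2) + α' (Q * ‖g0‖ ^ 2)) -
        (β (Q * ‖g0‖ ^ 2) + β' (Q * ‖g0‖ ^ 2)) * (i - Q * ‖g0‖ ^ 2)) =
        ME g0 g1 h0 h1 Q (fun i => G i - α (Q * ‖g0‖ ^ 2) -
          β (Q * ‖g0‖ ^ 2) * (i - Q * ‖g0‖ ^ 2)) +
        ME g0 g1 h0 h1 Q (fun i => G' i - α' (Q * ‖g0‖ ^ 2) -
          β' (Q * ‖g0‖ ^ 2) * (i - Q * ‖g0‖ ^ 2)) := by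
      rw [← ME_add]
      refine ME_congr fun i _ => ?_
      ring
    rw [e]
    have h2 := h.rem p g0 g1 h0 h1 hg hh
    have h3 := h'.rem p g0 g1 h0 h1 hg hh
    have h4 : (0 : ℝ) ≤ (1 + Real.sqrt Q * dd g0 g1 h0 h1) ^ p := by
      have := dd_nonneg (g0 := g0) (g1 := g1) (h0 := h0) (h1 := h1)
      positivity
    refine (mul_le_mul_of_nonneg_left (norm_add_le _ _) h4).trans ?_
    rw [mul_add]
    refine (add_le_add h2 h3).trans (le_of_eq ?_)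
    ring
  l0 m m' hm hm' := by
    have h2 := h.l0 m m' hm hm'
    have h3 := h'.l0 m m' hm hm'
    have e : α m' + α' m' - (α m + α' m) - (β m + β' m) * (m' - m) =
        (α m' - α m - β m * (m' - m)) + (α' m' - α' m - β' m * (m' - m)) := by ring
    rw [e]
    refine (abs_add_le _ _).trans ((add_le_add h2 h3).trans (le_of_eq ?_))
    ring
  l1 m m' hm hm' := by
    have h2 := h.l1 m m' hm hm'
    have h3 := h'.l1 m m' hm hm'
    have e : β m' + β' m' - (β m + β' m) = (β m' - β m) + (β' m' - β' m) := by ring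
    rw [e]
    refine (abs_add_le _ _).trans ((add_le_add h2 h3).trans (le_of_eq ?_))
    ring
  grow := h.grow

/-- negatives of linearisation data -/
theorem LinD.neg {Q : ℕ} {G : ℕ → ℝ} {α β K : ℝ → ℝ} {C : ℕ → ℝ} {CL : ℝ}
    (h : LinD Q G α β K C CL) :
    LinD Q (fun i => -G i) (fun m => -α m) (fun m => -β m) K C CL where
  C_nonneg := h.C_nonneg
  CL_nonneg := h.CL_nonneg
  K_nonneg := h.K_nonneg
  rem p g0 g1 h0 h1 hg hh := by
    have e : ME g0 g1 h0 h1 Q (fun i => -G i - -α (Q * ‖g0‖ ^ 2) -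
        -β (Q * ‖g0‖ ^ 2) * (i - Q * ‖g0‖ ^ 2)) =
        ((-1 : ℝ) : ℂ) * ME g0 g1 h0 h1 Q (fun i => G i - α (Q * ‖g0‖ ^ 2) -
          β (Q * ‖g0‖ ^ 2) * (i - Q * ‖g0‖ ^ 2)) := by
      rw [← ME_smul]
      refine ME_congr fun i _ => ?_
      ring
    rw [e, norm_mul, Complex.norm_real, Real.norm_eq_abs, abs_neg, abs_one, one_mul]
    exact h.rem p g0 g1 h0 h1 hg hh
  l0 m m' hm hm' := by
    have e : -α m' - -α m - -β m * (m' - m) = -(α m' - α m - β m * (m' - m)) := by ring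
    rw [e, abs_neg]
    exact h.l0 m m' hm hm'
  l1 m m' hm hm' := by
    have e : -β m' - -β m = -(β m' - β m) := by ring
    rw [e, abs_neg]
    exact h.l1 m m' hm hm'
  grow := h.grow

end logarithm

end Crest.Agent.R340.Tz877
end

-- ▼ part R340/Tz7_877
section

/-!
# Row 340, block O10: kernel bounds `KBd` of linearised profiles in the frame `uf Q` (helper877)
-/

set_option autoImplicit false

namespace Crest.Agent.R340.Tz877

open Finset Complex MeasureTheory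
open Crest.Agent.R340.Fock649 Crest.Agent.R340.FI331
open Crest.Agent.R340.LR667 (dg mv_dg_apply)
open Crest.Agent.R340.CS809 (U2 sb sp sp_j_zero sb_mul_self dQ dQ_nonneg)
open Crest.Agent.R340.Avg814 (tt norm_00)

theorem idx_zero (Q : ℕ) : idx Q 0 = 0 := by
  apply Fin.ext
  simp [idx]

theorem uf_zero_apply (Q : ℕ) (g : U2) (j : Fin (Q + 1)) :
    uf Q 0 g j = ((sb Q j : ℝ) : ℂ) * ((g : Matrix (Fin 2) (Fin 2) ℂ) 0 0 ^ (Q - (j : ℕ)) *
      (g : Matrix (Fin 2) (Fin 2) ℂ) 1 0 ^ (j : ℕ)) := by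
  unfold uf
  rw [vec_apply, idx_zero, sp_j_zero]

/-- matrix elements of diagonal one-body matrices between coherent vectors -/
theorem inner_uf_dg (Q : ℕ) (g h : U2) (F : ℕ → ℝ) :
    (inner ℂ (uf Q 0 h) (mv (dg fun j : Fin (Q + 1) => F j) (uf Q 0 g)) : ℂ) =
      ME ((g : Matrix (Fin 2) (Fin 2) ℂ) 1 0) ((g : Matrix (Fin 2) (Fin 2) ℂ) 0 0)
        ((h : Matrix (Fin 2) (Fin 2) ℂ) 1 0) ((h : Matrix (Fin 2) (Fin 2) ℂ) 0 0) Q F := by
  rw [inner_eq_sum]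
  unfold ME
  rw [Finset.sum_range]
  refine Finset.sum_congr rfl fun j _ => ?_
  rw [mv_dg_apply, uf_zero_apply, uf_zero_apply, map_mul, map_mul, map_pow, map_pow,
    Complex.conj_ofReal, mul_pow, mul_pow]
  have h1 : ((Q.choose j : ℕ) : ℂ) = ((sb Q j : ℝ) : ℂ) * ((sb Q j : ℝ) : ℂ) := by
    rw [← Complex.ofReal_mul, sb_mul_self]
    simp
  rw [h1]
  ring

theorem ME_flip (g0 g1 h0 h1 : ℂ) (Q : ℕ) (F : ℕ → ℝ) :
    ME g1 g0 h1 h0 Q (fun i => F (Q - i)) = ME g0 g1 h0 h1 Q F := by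
  unfold ME
  rw [← Finset.sum_flip]
  refine Finset.sum_congr rfl fun i hi => ?_
  have hi' : i ≤ Q := Nat.lt_succ_iff.1 (mem_range.1 hi)
  have e : Q - (Q - i) = i := Nat.sub_sub_self hi'
  simp only [e, Nat.choose_symm hi']
  ring

theorem inner_uf_dg' (Q : ℕ) (g h : U2) (F : ℕ → ℝ) :
    (inner ℂ (uf Q 0 h) (mv (dg fun j : Fin (Q + 1) => F (Q - j)) (uf Q 0 g)) : ℂ) =
      ME ((g : Matrix (Fin 2) (Fin 2) ℂ) 0 0) ((g : Matrix (Fin 2) (Fin 2) ℂ) 1 0)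
        ((h : Matrix (Fin 2) (Fin 2) ℂ) 0 0) ((h : Matrix (Fin 2) (Fin 2) ℂ) 1 0) Q F := by
  rw [inner_uf_dg Q g h (fun i => F (Q - i)), ME_flip]

/-! ### distances -/

theorem sq_dd (g h : U2) : dd ((g : Matrix (Fin 2) (Fin 2) ℂ) 0 0)
    ((g : Matrix (Fin 2) (Fin 2) ℂ) 1 0) ((h : Matrix (Fin 2) (Fin 2) ℂ) 0 0)
    ((h : Matrix (Fin 2) (Fin 2) ℂ) 1 0) ^ 2 = 1 - CS809.ov g h := by
  have hg : ‖(g : Matrix (Fin 2) (Fin 2) ℂ) 0 0‖ ^ 2 + ‖(g : Matrix (Fin 2) (Fin 2) ℂ) 1 0‖ ^ 2 =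
      1 := by
    rw [norm_00]; unfold tt; ring
  have hh : ‖(h : Matrix (Fin 2) (Fin 2) ℂ) 0 0‖ ^ 2 + ‖(h : Matrix (Fin 2) (Fin 2) ℂ) 1 0‖ ^ 2 =
      1 := by
    rw [norm_00]; unfold tt; ring
  have e : CS809.ov g h = ‖(starRingEnd ℂ) ((g : Matrix (Fin 2) (Fin 2) ℂ) 0 0) *
      (h : Matrix (Fin 2) (Fin 2) ℂ) 0 0 + (starRingEnd ℂ) ((g : Matrix (Fin 2) (Fin 2) ℂ) 1 0) *
      (h : Matrix (Fin 2) (Fin 2) ℂ) 1 0‖ ^ 2 := by
    unfold CS809.ov
    rw [Matrix.mul_apply, Fin.sum_univ_two, Matrix.conjTranspose_apply, Matrix.conjTranspose_apply]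
    rfl
  rw [e]
  unfold dd
  generalize (g : Matrix (Fin 2) (Fin 2) ℂ) 0 0 = a at *
  generalize (g : Matrix (Fin 2) (Fin 2) ℂ) 1 0 = b at *
  generalize (h : Matrix (Fin 2) (Fin 2) ℂ) 0 0 = c at *
  generalize (h : Matrix (Fin 2) (Fin 2) ℂ) 1 0 = d at *
  have n : ∀ z : ℂ, ‖z‖ ^ 2 = z.re ^ 2 + z.im ^ 2 := fun z => by
    rw [← Complex.normSq_eq_norm_sq, Complex.normSq_apply]; ring
  have key : ‖a * d - b * c‖ ^ 2 + ‖(starRingEnd ℂ) a * c + (starRingEnd ℂ) b * d‖ ^ 2 =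
      (‖a‖ ^ 2 + ‖b‖ ^ 2) * (‖c‖ ^ 2 + ‖d‖ ^ 2) := by
    rw [n, n, n, n, n, n]
    simp only [Complex.sub_re, Complex.sub_im, Complex.mul_re, Complex.mul_im, Complex.add_re,
      Complex.add_im, Complex.conj_re, Complex.conj_im]
    ring
  rw [hg, hh] at key
  linarith

theorem dQ_eq_dd (Q : ℕ) (g h : U2) : dQ Q g h = 2 * (Real.sqrt Q *
    dd ((g : Matrix (Fin 2) (Fin 2) ℂ) 0 0) ((g : Matrix (Fin 2) (Fin 2) ℂ) 1 0)
      ((h : Matrix (Fin 2) (Fin 2) ℂ) 0 0) ((h : Matrix (Fin 2) (Fin 2) ℂ) 1 0)) := by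
  have h0 : (0 : ℝ) ≤ 2 * (Real.sqrt Q *
    dd ((g : Matrix (Fin 2) (Fin 2) ℂ) 0 0) ((g : Matrix (Fin 2) (Fin 2) ℂ) 1 0)
      ((h : Matrix (Fin 2) (Fin 2) ℂ) 0 0) ((h : Matrix (Fin 2) (Fin 2) ℂ) 1 0)) := by
    have := Real.sqrt_nonneg (Q : ℝ)
    have := dd_nonneg (g0 := (g : Matrix (Fin 2) (Fin 2) ℂ) 0 0)
      (g1 := (g : Matrix (Fin 2) (Fin 2) ℂ) 1 0) (h0 := (h : Matrix (Fin 2) (Fin 2) ℂ) 0 0)
      (h1 := (h : Matrix (Fin 2) (Fin 2) ℂ) 1 0)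
    positivity
  rw [FI331.dQ_eq, ← sq_dd, ← Real.sqrt_sq h0]
  congr 1
  rw [mul_pow, mul_pow, Real.sq_sqrt (Nat.cast_nonneg Q)]
  ring

theorem dd_flip (g0 g1 h0 h1 : ℂ) : dd g1 g0 h1 h0 = dd g0 g1 h0 h1 := by
  unfold dd
  rw [show g1 * h0 - g0 * h1 = -(g0 * h1 - g1 * h0) by ring, norm_neg]

/-! ### kernel bounds -/

/-- constants of the kernel bounds -/
noncomputable def kC (C : ℕ → ℝ) (CL : ℝ) (M : ℕ) : ℝ := 2 ^ M * Classical.choose (kb_exists C CL M)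

theorem kC_nonneg {C : ℕ → ℝ} {CL : ℝ} (hC : ∀ p, 0 ≤ C p) (hCL : 0 ≤ CL) (M : ℕ) :
    0 ≤ kC C CL M := by
  have := (Classical.choose_spec (kb_exists C CL M) hC hCL).1
  unfold kC
  positivity

/-- the abstract step from weighted matrix elements to the kernel bound -/
theorem kbd_aux {C0 X D D' d d' Y : ℝ} {M : ℕ} (hC0 : 0 ≤ C0) (hX : 0 ≤ X) (hY : 0 ≤ Y)
    (hD : 0 ≤ D) (hD' : 0 ≤ D') (e : d = 2 * D) (e' : d' = 2 * D')
    (h : (1 + D') ^ M * Y ≤ C0 * X * (1 + D) ^ 12) :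
    Y ≤ 2 ^ M * C0 * X * (1 + d) ^ 12 * (1 / (1 + d') ^ M) := by
  have hp : 0 < (1 + d') ^ M := by rw [e']; positivity
  rw [mul_one_div, le_div_iff₀ hp]
  have h1 : (1 + d') ^ M ≤ 2 ^ M * (1 + D') ^ M := by
    rw [← mul_pow]
    apply pow_le_pow_left₀ (by rw [e']; positivity)
    rw [e']; linarith
  have h2 : (1 + D) ^ 12 ≤ (1 + d) ^ 12 := by
    apply pow_le_pow_left₀ (by positivity)
    rw [e]; linarith
  calc Y * (1 + d') ^ M ≤ Y * (2 ^ M * (1 + D') ^ M) := by gcongr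
    _ = 2 ^ M * ((1 + D') ^ M * Y) := by ring
    _ ≤ 2 ^ M * (C0 * X * (1 + D) ^ 12) := by gcongr
    _ ≤ 2 ^ M * (C0 * X * (1 + d) ^ 12) := by gcongr
    _ = _ := by ring

variable {Q : ℕ} {G : ℕ → ℝ} {α β K : ℝ → ℝ} {C : ℕ → ℝ} {CL : ℝ}

/-- **kernel bounds, profile in `j`** (distance from the north pole) -/
theorem kbd_north (hL : LinD Q G α β K C CL) (z : U2) :
    KBd (uf Q) (dQ Q) (dg fun j : Fin (Q + 1) => G j - α (Q * tt z) - β (Q * tt z) *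
      (((j : ℕ) : ℝ) - Q * tt z)) z 12
      ((1 + Q * tt z * (1 - tt z)) * K (Q * tt z)) (kC C CL) where
  T_nonneg := by
    have h1 : 0 ≤ tt z := sq_nonneg _
    have h2 : 0 ≤ 1 - tt z := by rw [← norm_00]; positivity
    have h3 := hL.K_nonneg (Q * tt z) (by positivity)
    positivity
  c_nonneg := kC_nonneg hL.C_nonneg hL.CL_nonneg
  le M w w' := by
    have hz : ‖(z : Matrix (Fin 2) (Fin 2) ℂ) 1 0‖ ^ 2 + ‖(z : Matrix (Fin 2) (Fin 2) ℂ) 0 0‖ ^ 2 =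
        1 := by rw [norm_00]; unfold tt; ring
    have hw : ‖(w : Matrix (Fin 2) (Fin 2) ℂ) 1 0‖ ^ 2 + ‖(w : Matrix (Fin 2) (Fin 2) ℂ) 0 0‖ ^ 2 =
        1 := by rw [norm_00]; unfold tt; ring
    have hw' : ‖(w' : Matrix (Fin 2) (Fin 2) ℂ) 1 0‖ ^ 2 +
        ‖(w' : Matrix (Fin 2) (Fin 2) ℂ) 0 0‖ ^ 2 = 1 := by rw [norm_00]; unfold tt; ring
    have h := (Classical.choose_spec (kb_exists C CL M) hL.C_nonneg hL.CL_nonneg).2 Q G α β K hL
      _ _ _ _ _ _ hz hw hw'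
    rw [norm_00] at h
    change (1 + _) ^ M * ‖ME _ _ _ _ Q (fun i => G i - α (Q * tt z) - β (Q * tt z) *
      (i - Q * tt z))‖ ≤ _ * ((1 + Q * tt z * (1 - tt z)) * K (Q * tt z)) * _ at h
    rw [← inner_uf_dg Q w w' (fun i => G i - α (Q * tt z) - β (Q * tt z) * (i - Q * tt z))] at h
    have h1 : 0 ≤ tt z := sq_nonneg _
    have h2 : 0 ≤ 1 - tt z := by rw [← norm_00]; positivity
    have h3 := hL.K_nonneg (Q * tt z) (by positivity)
    exact kbd_aux (Classical.choose_spec (kb_exists C CL M) hL.C_nonneg hL.CL_nonneg).1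
      (by positivity) (norm_nonneg _)
      (mul_nonneg (Real.sqrt_nonneg _) dd_nonneg) (mul_nonneg (Real.sqrt_nonneg _) dd_nonneg)
      (by rw [dQ_eq_dd, dd_comm, dd_flip]) (by rw [dQ_eq_dd, dd_comm, dd_flip]) h

/-- **kernel bounds, profile in `Q - j`** (distance from the south pole) -/
theorem kbd_south (hL : LinD Q G α β K C CL) (z : U2) :
    KBd (uf Q) (dQ Q) (dg fun j : Fin (Q + 1) => G (Q - j) - α (Q * (1 - tt z)) -
      β (Q * (1 - tt z)) * (((Q - (j : ℕ) : ℕ) : ℝ) - Q * (1 - tt z))) z 12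
      ((1 + Q * tt z * (1 - tt z)) * K (Q * (1 - tt z))) (kC C CL) where
  T_nonneg := by
    have h1 : 0 ≤ tt z := sq_nonneg _
    have h2 : 0 ≤ 1 - tt z := by rw [← norm_00]; positivity
    have h3 := hL.K_nonneg (Q * (1 - tt z)) (by positivity)
    positivity
  c_nonneg := kC_nonneg hL.C_nonneg hL.CL_nonneg
  le M w w' := by
    have hz : ‖(z : Matrix (Fin 2) (Fin 2) ℂ) 0 0‖ ^ 2 + ‖(z : Matrix (Fin 2) (Fin 2) ℂ) 1 0‖ ^ 2 =
        1 := by rw [norm_00]; unfold tt; ring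
    have hw : ‖(w : Matrix (Fin 2) (Fin 2) ℂ) 0 0‖ ^ 2 + ‖(w : Matrix (Fin 2) (Fin 2) ℂ) 1 0‖ ^ 2 =
        1 := by rw [norm_00]; unfold tt; ring
    have hw' : ‖(w' : Matrix (Fin 2) (Fin 2) ℂ) 0 0‖ ^ 2 +
        ‖(w' : Matrix (Fin 2) (Fin 2) ℂ) 1 0‖ ^ 2 = 1 := by rw [norm_00]; unfold tt; ring
    have h := (Classical.choose_spec (kb_exists C CL M) hL.C_nonneg hL.CL_nonneg).2 Q G α β K hL
      _ _ _ _ _ _ hz hw hw'
    rw [norm_00] at h
    change (1 + _) ^ M * ‖ME _ _ _ _ Q (fun i => G i - α (Q * (1 - tt z)) - β (Q * (1 - tt z)) *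
      (i - Q * (1 - tt z)))‖ ≤ _ * ((1 + Q * (1 - tt z) * tt z) * K (Q * (1 - tt z))) * _ at h
    rw [← inner_uf_dg' Q w w' (fun i => G i - α (Q * (1 - tt z)) - β (Q * (1 - tt z)) *
      (i - Q * (1 - tt z))), show (Q : ℝ) * (1 - tt z) * tt z = Q * tt z * (1 - tt z) by ring] at h
    have h1 : 0 ≤ tt z := sq_nonneg _
    have h2 : 0 ≤ 1 - tt z := by rw [← norm_00]; positivity
    have h3 := hL.K_nonneg (Q * (1 - tt z)) (by positivity)
    exact kbd_aux (Classical.choose_spec (kb_exists C CL M) hL.C_nonneg hL.CL_nonneg).1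
      (by positivity) (norm_nonneg _)
      (mul_nonneg (Real.sqrt_nonneg _) dd_nonneg) (mul_nonneg (Real.sqrt_nonneg _) dd_nonneg)
      (by rw [dQ_eq_dd, dd_comm]) (by rw [dQ_eq_dd, dd_comm]) h

/-- weaker constants -/
theorem KBd.mono {ι S : Type*} [Fintype ι] [DecidableEq ι] [LinearOrder ι] {u : Fin 2 → S → L ι}
    {d : S → S → ℝ} {A : Matrix ι ι ℂ} {z : S} {q : ℕ} {T : ℝ} {c c' : ℕ → ℝ}
    (h : KBd u d A z q T c) (hd : ∀ x y, 0 ≤ d x y) (hc : ∀ M, c M ≤ c' M) :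
    KBd u d A z q T c' where
  T_nonneg := h.T_nonneg
  c_nonneg M := (h.c_nonneg M).trans (hc M)
  le M w w' := by
    refine (h.le M w w').trans ?_
    have := h.T_nonneg
    have := hd w z
    have := hd w' w
    have := hc M
    gcongr

/-! ### the metric profile -/

/-- the profile `-∑_{k<3} log (i + (k+1))` -/
theorem linD_gm (Q : ℕ) : LinD Q
    (fun i => -((Real.log (i + 1) + Real.log (i + 2)) + Real.log (i + 3)))
    (fun m => -((Real.log (m + 1) + Real.log (m + 2)) + Real.log (m + 3)))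
    (fun m => -((1 / (m + 1) + 1 / (m + 2)) + 1 / (m + 3)))
    (fun m => 1 / (1 + m) ^ 2) (fun p => 1826 * cLin p + 1826 * cLin p + 1826 * cLin p)
    (1 + 1 + 1) :=
  (((linD_log Q (k := 1) le_rfl).add (linD_log Q (k := 2) (by norm_num))).add
    (linD_log Q (k := 3) (by norm_num))).neg

theorem gm_three (Q : ℕ) (j : ℕ) (hj : j ≤ Q) : PathStep880.gm 3 Q j =
    -((Real.log (((Q - j : ℕ) : ℝ) + 1) + Real.log (((Q - j : ℕ) : ℝ) + 2)) +
      Real.log (((Q - j : ℕ) : ℝ) + 3)) := by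
  unfold PathStep880.gm
  rw [Nat.cast_sub hj, sum_range_succ, sum_range_succ, sum_range_one]
  push_cast
  have e1 : (Q : ℝ) - j + 0 + 1 = Q - j + 1 := by ring
  have e2 : (Q : ℝ) - j + 1 + 1 = Q - j + 2 := by ring
  have e3 : (Q : ℝ) - j + 2 + 1 = Q - j + 3 := by ring
  rw [e1, e2, e3]

/-- bound of the product of the sizes -/
theorem T1T2_le {Q : ℕ} (hQ : 1 ≤ Q) {t S A : ℝ} (ht0 : 0 ≤ t) (ht1 : t ≤ 1) (hS : 1 ≤ S) :
    ((1 + Q * t * (1 - t)) * (1 / (1 + Q * (1 - t)) ^ 2)) *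
      ((1 + Q * t * (1 - t)) * ((S / (S + Q * t)) ^ A / (S + Q * t) ^ 2)) ≤
      4 / ((Q : ℝ) + 1) ^ 2 * (1 + Q * t / S) ^ (-A) := by
  have hQ' : (1 : ℝ) ≤ Q := by exact_mod_cast hQ
  have h1t : 0 ≤ 1 - t := sub_nonneg.2 ht1
  have hj : 0 ≤ (Q : ℝ) * t := by positivity
  have hi : 0 ≤ (Q : ℝ) * (1 - t) := by positivity
  have hS0 : 0 < S := by linarith
  have hV : (1 + Q * t * (1 - t)) * (Q + 1) ≤ 2 * ((1 + Q * (1 - t)) * (1 + Q * t)) := by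
    nlinarith [mul_nonneg (mul_nonneg hj h1t) (sub_nonneg.2 hQ')]
  have hV0 : 0 ≤ 1 + Q * t * (1 - t) := by positivity
  have e : (S / (S + Q * t)) ^ A = (1 + Q * t / S) ^ (-A) := by
    rw [Real.rpow_neg (by positivity), ← Real.inv_rpow (by positivity)]
    congr 1
    field_simp
  rw [e]
  set R := (1 + Q * t / S) ^ (-A) with hR
  have hR0 : 0 ≤ R := by positivity
  have h2 : ((1 + Q * t * (1 - t)) * (1 / (1 + Q * (1 - t)) ^ 2)) *
      ((1 + Q * t * (1 - t)) * (R / (S + Q * t) ^ 2)) =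
      R * ((1 + Q * t * (1 - t)) / ((1 + Q * (1 - t)) * (S + Q * t))) ^ 2 := by
    field_simp
  rw [h2]
  have h3 : (1 + Q * t * (1 - t)) / ((1 + Q * (1 - t)) * (S + Q * t)) ≤ 2 / (Q + 1) := by
    rw [div_le_div_iff₀ (by positivity) (by positivity)]
    refine hV.trans ?_
    have : 1 + (Q : ℝ) * t ≤ S + Q * t := by linarith
    gcongr
  calc R * ((1 + Q * t * (1 - t)) / ((1 + Q * (1 - t)) * (S + Q * t))) ^ 2
      ≤ R * (2 / ((Q : ℝ) + 1)) ^ 2 := by gcongr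
    _ = _ := by rw [div_pow]; ring

end Crest.Agent.R340.Tz877
end

-- ▼ part R340/TzL_757

/-!
# R340 (helper757): the profile `prof A S` is a Laplace transform

`prof A S j = ∫ e^{-s j} dμ(s)`, `dμ = Z⁻¹ e^{-s κ} (1 - e^{-s})^(A-1) ds` on `(0,∞)`, `κ = S + 1 - A`.
-/

set_option autoImplicit false

namespace Crest.Agent.R340.TzL757

open Finset MeasureTheory Set Filter Topology
open Crest.Agent.R340.Scal725

/-- the weight -/
noncomputable def wA (A κ s : ℝ) : ℝ := Real.exp (-s * κ) * (1 - Real.exp (-s)) ^ (A - 1)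

theorem one_sub_exp_nonneg {s : ℝ} (hs : 0 ≤ s) : 0 ≤ 1 - Real.exp (-s) := by
  have := Real.exp_le_one_iff.2 (neg_nonpos.2 hs); linarith

theorem one_sub_exp_le {s : ℝ} : 1 - Real.exp (-s) ≤ s := by
  have := Real.add_one_le_exp (-s); linarith

theorem wA_nonneg {A κ s : ℝ} (hs : 0 ≤ s) : 0 ≤ wA A κ s :=
  mul_nonneg (Real.exp_pos _).le (Real.rpow_nonneg (one_sub_exp_nonneg hs) _)

theorem continuous_wA {A κ : ℝ} (hA : 1 ≤ A) : Continuous (wA A κ) := by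
  unfold wA
  have h1 : Continuous fun s : ℝ => Real.exp (-s * κ) := by fun_prop
  have h2 : Continuous fun s : ℝ => 1 - Real.exp (-s) := by fun_prop
  exact h1.mul (h2.rpow_const fun _ => Or.inr (by linarith))

theorem wA_le {A κ s : ℝ} (hA : 1 ≤ A) (hs : 0 ≤ s) :
    wA A κ s ≤ Real.exp (-s * κ) * s ^ (A - 1) := by
  unfold wA
  have := Real.rpow_le_rpow (one_sub_exp_nonneg hs) one_sub_exp_le (by linarith : 0 ≤ A - 1)
  gcongr

theorem wA_le_exp {A κ s : ℝ} (hA : 1 ≤ A) (hs : 0 ≤ s) : wA A κ s ≤ Real.exp (-s * κ) := by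
  unfold wA
  have h1 : 1 - Real.exp (-s) ≤ 1 := by have := Real.exp_pos (-s); linarith
  have := Real.rpow_le_one (one_sub_exp_nonneg hs) h1 (by linarith : 0 ≤ A - 1)
  nlinarith [Real.exp_pos (-s * κ)]

/-- polynomial moments are integrable -/
theorem integrable_wA {A κ : ℝ} (hA : 1 ≤ A) (hκ : 0 < κ) (n : ℕ) :
    IntegrableOn (fun s => s ^ n * wA A κ s) (Ioi 0) := by
  have h1 : IntegrableOn (fun s : ℝ => s ^ (n : ℝ) * Real.exp (-κ * s)) (Ioi 0) :=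
    integrableOn_rpow_mul_exp_neg_mul_rpow (s := n) (p := 1) (b := κ)
      (by have : (0:ℝ) ≤ n := Nat.cast_nonneg n; linarith) zero_lt_one hκ |>.congr_fun
      (fun s _ => by simp) measurableSet_Ioi
  refine Integrable.mono' h1 ?_ ?_
  · exact ((continuous_id.pow n).mul (continuous_wA hA)).aestronglyMeasurable.restrict
  · refine (ae_restrict_iff' measurableSet_Ioi).2 (Filter.Eventually.of_forall fun s hs => ?_)
    have hs' : (0:ℝ) < s := hs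
    rw [Real.norm_of_nonneg (mul_nonneg (by positivity) (wA_nonneg hs'.le)), Real.rpow_natCast]
    have := wA_le_exp (κ := κ) hA hs'.le
    rw [show -s * κ = -κ * s by ring] at this
    gcongr

/-- the Laplace integral -/
noncomputable def IA (A κ : ℝ) (y : ℝ) : ℝ := ∫ s in Ioi (0:ℝ), Real.exp (-s * y) * wA A κ s

theorem exp_mul_wA (A κ y s : ℝ) : Real.exp (-s * y) * wA A κ s = wA A (κ + y) s := by
  unfold wA
  rw [← mul_assoc, ← Real.exp_add]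
  congr 2
  ring

theorem integrable_exp_wA {A κ y : ℝ} (hA : 1 ≤ A) (hκ : 0 < κ + y) (n : ℕ) :
    IntegrableOn (fun s => s ^ n * (Real.exp (-s * y) * wA A κ s)) (Ioi 0) := by
  simp only [exp_mul_wA]
  exact integrable_wA hA hκ n

/-- recursion by integration by parts -/
theorem IA_succ {A κ : ℝ} (hA : 1 ≤ A) {y : ℝ} (hy : 0 < κ + y) :
    (κ + y + A) * IA A κ (y + 1) = (κ + y) * IA A κ y := by
  set F : ℝ → ℝ := fun s => Real.exp (-s * (κ + y)) * (1 - Real.exp (-s)) ^ A with hF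
  set F' : ℝ → ℝ := fun s => -(κ + y) * (Real.exp (-s * (κ + y)) * (1 - Real.exp (-s)) ^ A) +
    A * (Real.exp (-s * (κ + y)) * (1 - Real.exp (-s)) ^ (A - 1) * Real.exp (-s)) with hF'
  have hderiv : ∀ s ∈ Ioi (0:ℝ), HasDerivAt F (F' s) s := by
    intro s hs
    have hs' : (0:ℝ) < s := hs
    have h1 : HasDerivAt (fun s : ℝ => Real.exp (-s * (κ + y)))
        (Real.exp (-s * (κ + y)) * (-1 * (κ + y))) s :=
      ((hasDerivAt_neg s).mul_const (κ + y)).exp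
    have h2 : HasDerivAt (fun s : ℝ => 1 - Real.exp (-s)) (-(Real.exp (-s) * -1)) s :=
      ((hasDerivAt_neg s).exp).const_sub 1
    have hpos : 0 < 1 - Real.exp (-s) := by
      have := Real.exp_lt_one_iff.2 (neg_neg_of_pos hs'); linarith
    have h3 := h2.rpow_const (p := A) (Or.inl hpos.ne')
    have h4 := h1.mul h3
    refine h4.congr_deriv ?_
    rw [hF']
    simp only
    ring
  have hcont : ContinuousWithinAt F (Ici 0) 0 := by
    have h1 : Continuous F := by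
      rw [hF]
      have h1 : Continuous fun s : ℝ => Real.exp (-s * (κ + y)) := by fun_prop
      have h2 : Continuous fun s : ℝ => 1 - Real.exp (-s) := by fun_prop
      exact h1.mul (h2.rpow_const fun _ => Or.inr (by linarith))
    exact h1.continuousWithinAt
  -- rewrite F'
  have hF'eq : ∀ s ∈ Ioi (0:ℝ), F' s = -(κ + y) * (Real.exp (-s * y) * wA A κ s) +
      (κ + y + A) * (Real.exp (-s * (y + 1)) * wA A κ s) := by
    intro s hs
    have hs' : (0:ℝ) < s := hs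
    have hpos : 0 < 1 - Real.exp (-s) := by
      have := Real.exp_lt_one_iff.2 (neg_neg_of_pos hs'); linarith
    have e1 : (1 - Real.exp (-s)) ^ A = (1 - Real.exp (-s)) ^ (A - 1) * (1 - Real.exp (-s)) := by
      rw [← Real.rpow_add_one hpos.ne']; congr 1; ring
    have e2 : Real.exp (-s * (κ + y)) = Real.exp (-s * y) * Real.exp (-s * κ) := by
      rw [← Real.exp_add]; congr 1; ring
    have e3 : Real.exp (-s * (y + 1)) = Real.exp (-s * y) * Real.exp (-s) := by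
      rw [← Real.exp_add]; congr 1; ring
    rw [hF', wA]
    simp only
    rw [e1, e2, e3]
    ring
  have i1 : IntegrableOn (fun s => Real.exp (-s * y) * wA A κ s) (Ioi 0) := by
    have := integrable_exp_wA (κ := κ) (y := y) hA hy 0
    simpa using this
  have i2 : IntegrableOn (fun s => Real.exp (-s * (y + 1)) * wA A κ s) (Ioi 0) := by
    have := integrable_exp_wA (κ := κ) (y := y + 1) hA (by linarith) 0
    simpa using this
  have i3 : IntegrableOn F' (Ioi 0) := by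
    have : IntegrableOn (fun s => -(κ + y) * (Real.exp (-s * y) * wA A κ s) +
        (κ + y + A) * (Real.exp (-s * (y + 1)) * wA A κ s)) (Ioi 0) :=
      (i1.const_mul (-(κ + y))).add (i2.const_mul (κ + y + A))
    exact this.congr_fun (fun s hs => (hF'eq s hs).symm) measurableSet_Ioi
  have hlim : Tendsto F atTop (𝓝 0) := by
    have h1 : Tendsto (fun s : ℝ => Real.exp (-s * (κ + y))) atTop (𝓝 0) := by
      have h2 : Tendsto (fun s : ℝ => -s * (κ + y)) atTop atBot :=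
        tendsto_neg_atTop_atBot.atBot_mul_const hy
      exact Real.tendsto_exp_atBot.comp h2
    refine squeeze_zero' ?_ ?_ h1
    · filter_upwards [eventually_ge_atTop 0] with s hs
      exact mul_nonneg (Real.exp_pos _).le (Real.rpow_nonneg (one_sub_exp_nonneg hs) _)
    · filter_upwards [eventually_ge_atTop 0] with s hs
      have h2 : 1 - Real.exp (-s) ≤ 1 := by have := Real.exp_pos (-s); linarith
      have h3 := Real.rpow_le_one (one_sub_exp_nonneg hs) h2 (by linarith : 0 ≤ A)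
      rw [hF]
      simp only
      nlinarith [Real.exp_pos (-s * (κ + y))]
  have key := integral_Ioi_of_hasDerivAt_of_tendsto hcont hderiv i3 hlim
  have hF0 : F 0 = 0 := by
    rw [hF]
    simp only [neg_zero, Real.exp_zero, sub_self]
    rw [Real.zero_rpow (by linarith)]
    ring
  rw [hF0, sub_zero, setIntegral_congr_fun measurableSet_Ioi hF'eq,
    integral_add (i1.const_mul _) (i2.const_mul _), integral_const_mul, integral_const_mul] at key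
  unfold IA
  linarith

theorem IA_pos {A κ : ℝ} (hA : 1 ≤ A) {y : ℝ} (hy : 0 < κ + y) : 0 < IA A κ y := by
  have i1 : IntegrableOn (fun s => Real.exp (-s * y) * wA A κ s) (Ioi 0) := by
    have := integrable_exp_wA (κ := κ) (y := y) hA hy 0
    simpa using this
  unfold IA
  rw [setIntegral_pos_iff_support_of_nonneg_ae _ i1]
  · have h : Ioi (0:ℝ) ⊆ Function.support (fun s => Real.exp (-s * y) * wA A κ s) ∩ Ioi 0 := by
      intro s hs
      have hs' : (0:ℝ) < s := hs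
      refine ⟨?_, hs⟩
      rw [Function.mem_support]
      have hpos : 0 < 1 - Real.exp (-s) := by
        have := Real.exp_lt_one_iff.2 (neg_neg_of_pos hs'); linarith
      have : 0 < wA A κ s := mul_pos (Real.exp_pos _) (Real.rpow_pos_of_pos hpos _)
      have := Real.exp_pos (-s * y)
      positivity
    refine lt_of_lt_of_le ?_ (measure_mono h)
    simp
  · refine (ae_restrict_iff' measurableSet_Ioi).2 (Filter.Eventually.of_forall fun s hs => ?_)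
    exact mul_nonneg (Real.exp_pos _).le (wA_nonneg (le_of_lt hs))

/-- **Laplace representation** -/
theorem prof_eq {A S : ℝ} (hA : 1 ≤ A) (hS : A < S + 1) (j : ℕ) :
    prof A S j = IA A (S + 1 - A) j / IA A (S + 1 - A) 0 := by
  have hκ : 0 < S + 1 - A + 0 := by linarith
  have h0 := (IA_pos hA hκ).ne'
  rw [eq_div_iff h0]
  induction j with
  | zero => simp
  | succ j ih =>
    have hj : (0:ℝ) ≤ j := Nat.cast_nonneg j
    have h1 := IA_succ (A := A) (κ := S + 1 - A) hA (y := (j : ℝ)) (by linarith)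
    have hne : S + 1 - A + (j:ℝ) + A ≠ 0 := by
      have : 0 < S + 1 - A + (j:ℝ) + A := by linarith
      exact this.ne'
    rw [prof_succ]
    push_cast
    have e : prof A S j * (1 - A / (S + j + 1)) * IA A (S + 1 - A) 0 =
        (prof A S j * IA A (S + 1 - A) 0) * (1 - A / (S + j + 1)) := by ring
    rw [e, ih]
    have h2 : IA A (S + 1 - A) ((j:ℝ) + 1) =
        (S + 1 - A + j) * IA A (S + 1 - A) j / (S + 1 - A + j + A) := by
      rw [eq_div_iff hne]; linarith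
    rw [h2]
    have h3 : S + (j:ℝ) + 1 ≠ 0 := by
      have : S + (j:ℝ) + 1 = S + 1 - A + (j:ℝ) + A := by ring
      rw [this]; exact hne
    have h4 : S + 1 - A + (j:ℝ) + A = S + j + 1 := by ring
    rw [h4]
    field_simp
    ring

/-! ### moments and derivatives -/

/-- moments of the weight -/
noncomputable def IM (A κ : ℝ) (n : ℕ) (y : ℝ) : ℝ :=
  ∫ s in Ioi (0:ℝ), s ^ n * (Real.exp (-s * y) * wA A κ s)

theorem IM_zero (A κ y : ℝ) : IM A κ 0 y = IA A κ y := by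
  unfold IM IA
  simp

theorem IM_nonneg (A κ : ℝ) (n : ℕ) (y : ℝ) : 0 ≤ IM A κ n y := by
  refine setIntegral_nonneg measurableSet_Ioi fun s hs => ?_
  have hs' : (0:ℝ) < s := hs
  have := wA_nonneg (A := A) (κ := κ) hs'.le
  positivity

theorem continuous_integrand {A κ : ℝ} (hA : 1 ≤ A) (n : ℕ) (y : ℝ) :
    Continuous fun s : ℝ => s ^ n * (Real.exp (-s * y) * wA A κ s) := by
  have h1 : Continuous fun s : ℝ => Real.exp (-s * y) := by fun_prop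
  exact (continuous_id.pow n).mul (h1.mul (continuous_wA hA))

theorem hasDerivAt_IM {A κ : ℝ} (hA : 1 ≤ A) (n : ℕ) {y : ℝ} (hy : 0 < κ + y) :
    HasDerivAt (IM A κ n) (-(IM A κ (n + 1) y)) y := by
  set r : ℝ := (κ + y) / 2 with hr
  have hr0 : 0 < r := by rw [hr]; linarith
  have key := hasDerivAt_integral_of_dominated_loc_of_deriv_le (μ := volume.restrict (Ioi 0))
    (F := fun (y : ℝ) (s : ℝ) => s ^ n * (Real.exp (-s * y) * wA A κ s))
    (F' := fun (y : ℝ) (s : ℝ) => -(s ^ (n + 1) * (Real.exp (-s * y) * wA A κ s)))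
    (bound := fun s => s ^ (n + 1) * (Real.exp (-s * (y - r)) * wA A κ s))
    (x₀ := y) (s := Metric.ball y r) (Metric.ball_mem_nhds y hr0) ?_ ?_ ?_ ?_ ?_ ?_
  · have h2 := key.2
    rw [integral_neg] at h2
    exact h2
  · exact Filter.Eventually.of_forall fun x => (continuous_integrand hA n x).aestronglyMeasurable
  · exact integrable_exp_wA hA hy n
  · exact (continuous_integrand hA (n + 1) y).neg.aestronglyMeasurable
  · refine (ae_restrict_iff' measurableSet_Ioi).2 (Filter.Eventually.of_forall fun s hs x hx => ?_)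
    have hs' : (0:ℝ) < s := hs
    rw [norm_neg, Real.norm_of_nonneg (by have := wA_nonneg (A := A) (κ := κ) hs'.le; positivity)]
    have hx' : y - r ≤ x := by
      have := (abs_lt.1 (by simpa [Real.dist_eq] using hx : |x - y| < r)).1
      linarith
    have hw := wA_nonneg (A := A) (κ := κ) hs'.le
    have he : Real.exp (-s * x) ≤ Real.exp (-s * (y - r)) := Real.exp_le_exp.2 (by nlinarith)
    gcongr
  · exact integrable_exp_wA hA (by rw [hr]; linarith) (n + 1)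
  · refine Filter.Eventually.of_forall fun s x _ => ?_
    have h1 : HasDerivAt (fun x : ℝ => Real.exp (-s * x)) (Real.exp (-s * x) * (-s * 1)) x :=
      ((hasDerivAt_id x).const_mul (-s)).exp
    have h2 := (h1.mul_const (wA A κ s)).const_mul (s ^ n)
    refine h2.congr_deriv ?_
    rw [pow_succ]
    ring

theorem continuousOn_IM {A κ : ℝ} (hA : 1 ≤ A) (hκ : 0 < κ) (n : ℕ) :
    ContinuousOn (IM A κ n) (Ici 0) := fun y hy =>
  (hasDerivAt_IM hA n (by have : (0:ℝ) ≤ y := hy; linarith)).continuousAt.continuousWithinAt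

/-! ### the measure -/

/-- the Laplace measure -/
noncomputable def muS (A κ : ℝ) (n : ℕ) (c : ℝ) : Measure ℝ :=
  (volume.restrict (Ioi 0)).withDensity fun s => ENNReal.ofReal (c * (s ^ n * wA A κ s))

/-- the exponent function -/
noncomputable def sf (s : ℝ) : ℝ := max s 0

theorem measurable_sf : Measurable sf := measurable_id.max measurable_const

theorem sf_nonneg (s : ℝ) : 0 ≤ sf s := le_max_right _ _

theorem finite_muS {A κ : ℝ} (hA : 1 ≤ A) (hκ : 0 < κ) (n : ℕ) (c : ℝ) :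
    IsFiniteMeasure (muS A κ n c) := by
  refine isFiniteMeasure_withDensity_ofReal ?_
  exact ((integrable_wA hA hκ n).const_mul c).2

theorem Kf_muS {A κ : ℝ} (hA : 1 ≤ A) {c : ℝ} (hc : 0 ≤ c) (n : ℕ) (y : ℝ) :
    Tz877.Kf (muS A κ n c) sf y = c * IM A κ n y := by
  unfold Tz877.Kf muS
  have hm : Measurable fun s : ℝ => ENNReal.ofReal (c * (s ^ n * wA A κ s)) :=
    (measurable_const.mul (((continuous_id.pow n).mul
      (continuous_wA (κ := κ) hA)).measurable)).ennreal_ofReal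
  rw [integral_withDensity_eq_integral_toReal_smul hm
    (Filter.Eventually.of_forall fun _ => ENNReal.ofReal_lt_top)]
  unfold IM
  rw [← integral_const_mul]
  refine setIntegral_congr_fun measurableSet_Ioi fun s hs => ?_
  have hs' : (0:ℝ) < s := hs
  have hw := wA_nonneg (A := A) (κ := κ) hs'.le
  have e : sf s = s := max_eq_left hs'.le
  simp only [e]
  rw [ENNReal.toReal_ofReal (by positivity), smul_eq_mul]
  ring

/-! ### Taylor's formula -/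

theorem taylor_theta {G G' K : ℝ → ℝ} {m i : ℝ} (hm : 0 ≤ m) (hi : 0 ≤ i)
    (h1 : ∀ y, 0 ≤ y → HasDerivAt G (G' y) y) (h2 : ∀ y, 0 ≤ y → HasDerivAt G' (K y) y)
    (hK : ContinuousOn K (Ici 0)) :
    IntervalIntegrable (fun θ : ℝ => (1 - θ) * K (m + θ * (i - m))) volume 0 1 ∧
    G i = G m + G' m * (i - m) +
      (i - m) ^ 2 * ∫ θ in (0:ℝ)..1, (1 - θ) * K (m + θ * (i - m)) := by
  have hpos : ∀ θ ∈ Set.uIcc (0:ℝ) 1, 0 ≤ m + θ * (i - m) := by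
    intro θ hθ
    rw [Set.uIcc_of_le zero_le_one] at hθ
    have e : m + θ * (i - m) = (1 - θ) * m + θ * i := by ring
    rw [e]
    have := hθ.1
    have := sub_nonneg.2 hθ.2
    positivity
  have hlin : ∀ θ : ℝ, HasDerivAt (fun θ : ℝ => m + θ * (i - m)) (i - m) θ := by
    intro θ
    have := ((hasDerivAt_id θ).mul_const (i - m)).const_add m
    simpa using this
  have hKc : ContinuousOn (fun θ : ℝ => K (m + θ * (i - m))) (Set.uIcc 0 1) := by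
    refine hK.comp (Continuous.continuousOn (by fun_prop)) fun θ hθ => ?_
    exact hpos θ hθ
  have hG'c : ContinuousOn (fun θ : ℝ => G' (m + θ * (i - m))) (Set.uIcc 0 1) := by
    intro θ hθ
    exact ((h2 _ (hpos θ hθ)).comp θ (hlin θ)).continuousAt.continuousWithinAt
  have hint1 : IntervalIntegrable (fun θ : ℝ => (1 - θ) * K (m + θ * (i - m))) volume 0 1 :=
    ((continuous_const.sub continuous_id).continuousOn.mul hKc).intervalIntegrable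
  refine ⟨hint1, ?_⟩
  have hu : ∀ θ ∈ Set.uIcc (0:ℝ) 1, HasDerivAt (fun θ : ℝ => 1 - θ) (-1) θ := fun θ _ => by
    simpa using (hasDerivAt_id θ).const_sub 1
  have hv : ∀ θ ∈ Set.uIcc (0:ℝ) 1, HasDerivAt (fun θ : ℝ => (i - m) * G' (m + θ * (i - m)))
      ((i - m) * (K (m + θ * (i - m)) * (i - m))) θ := fun θ hθ =>
    ((h2 _ (hpos θ hθ)).comp θ (hlin θ)).const_mul (i - m)
  have hv' : IntervalIntegrable (fun θ : ℝ => (i - m) * (K (m + θ * (i - m)) * (i - m))) volume 0 1 :=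
    (continuousOn_const.mul (hKc.mul continuousOn_const)).intervalIntegrable
  have key := intervalIntegral.integral_mul_deriv_eq_deriv_mul hu hv
    (continuous_const.intervalIntegrable _ _) hv'
  have hG : ∀ θ ∈ Set.uIcc (0:ℝ) 1, HasDerivAt (fun θ : ℝ => G (m + θ * (i - m)))
      (G' (m + θ * (i - m)) * (i - m)) θ := fun θ hθ =>
    (h1 _ (hpos θ hθ)).comp θ (hlin θ)
  have key2 := intervalIntegral.integral_eq_sub_of_hasDerivAt hG
    (hG'c.mul continuousOn_const).intervalIntegrable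
  have e1 : ∫ θ in (0:ℝ)..1, (1 - θ) * ((i - m) * (K (m + θ * (i - m)) * (i - m))) =
      (i - m) ^ 2 * ∫ θ in (0:ℝ)..1, (1 - θ) * K (m + θ * (i - m)) := by
    rw [← intervalIntegral.integral_const_mul]
    congr 1
    funext θ
    ring
  have e2 : ∫ θ in (0:ℝ)..1, -1 * ((i - m) * G' (m + θ * (i - m))) =
      -∫ θ in (0:ℝ)..1, G' (m + θ * (i - m)) * (i - m) := by
    rw [← intervalIntegral.integral_neg]
    congr 1
    funext θ
    ring
  rw [e1, e2, key2] at key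
  rw [key]
  simp only [sub_self, zero_mul, sub_zero, one_mul, add_zero]
  have e3 : m + (i - m) = i := by ring
  rw [e3]
  ring

/-! ### size of the moments -/

theorem IM_two_le {A κ : ℝ} (hA : 1 ≤ A) {y : ℝ} (hy : 0 < κ + y) :
    IM A κ 2 y ≤ Real.Gamma (A + 2) * (κ + y) ^ (-(A + 2)) := by
  have e0 := Real.integral_rpow_mul_exp_neg_mul_Ioi (a := A + 2) (r := κ + y) (by linarith) hy
  have e1 : Real.Gamma (A + 2) * (κ + y) ^ (-(A + 2)) =
      ∫ s in Ioi (0:ℝ), s ^ (A + 2 - 1) * Real.exp (-((κ + y) * s)) := by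
    rw [e0, one_div, Real.inv_rpow hy.le, Real.rpow_neg hy.le]
    ring
  rw [e1]
  have hint : IntegrableOn (fun s : ℝ => s ^ (A + 2 - 1) * Real.exp (-((κ + y) * s))) (Ioi 0) := by
    have := integrableOn_rpow_mul_exp_neg_mul_rpow (s := A + 2 - 1) (p := 1) (b := κ + y)
      (by linarith) zero_lt_one hy
    refine this.congr_fun (fun s _ => ?_) measurableSet_Ioi
    simp only [Real.rpow_one]
    rw [neg_mul]
  unfold IM
  refine setIntegral_mono_on (integrable_exp_wA hA hy 2) hint measurableSet_Ioi fun s hs => ?_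
  have hs' : (0:ℝ) < s := hs
  have h1 := wA_le (κ := κ) hA hs'.le
  have e2 : s ^ (A + 2 - 1) = s ^ 2 * s ^ (A - 1) := by
    rw [show A + 2 - 1 = 2 + (A - 1) by ring, Real.rpow_add hs']
    norm_num
  have e3 : Real.exp (-((κ + y) * s)) = Real.exp (-s * y) * Real.exp (-s * κ) := by
    rw [← Real.exp_add]; congr 1; ring
  rw [e2, e3]
  calc s ^ 2 * (Real.exp (-s * y) * wA A κ s)
      ≤ s ^ 2 * (Real.exp (-s * y) * (Real.exp (-s * κ) * s ^ (A - 1))) := by gcongr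
    _ = _ := by ring

theorem IA_zero_ge {A κ : ℝ} (hA : 1 ≤ A) (hA2 : A ≤ 2) (hκ : 1 ≤ κ) :
    Real.exp (-1) / 4 * κ ^ (-A) ≤ IA A κ 0 := by
  have hκ0 : 0 < κ := by linarith
  have hκi : 0 < κ⁻¹ := inv_pos.2 hκ0
  have hκ1 : κ⁻¹ ≤ 1 := inv_le_one_of_one_le₀ hκ
  have i1 : IntegrableOn (fun s => Real.exp (-s * 0) * wA A κ s) (Ioi 0) := by
    have := integrable_exp_wA (κ := κ) (y := 0) hA (by linarith) 0
    simpa using this
  have i2 : IntegrableOn (fun s : ℝ => Real.exp (-1) / 2 * s ^ (A - 1)) (Ioc 0 κ⁻¹) := by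
    have h := (intervalIntegral.intervalIntegrable_rpow' (a := 0) (b := κ⁻¹) (r := A - 1)
      (by linarith)).const_mul (Real.exp (-1) / 2)
    rwa [intervalIntegrable_iff_integrableOn_Ioc_of_le hκi.le] at h
  have h1 : ∫ s in Ioc 0 κ⁻¹, Real.exp (-1) / 2 * s ^ (A - 1) ≤ IA A κ 0 := by
    unfold IA
    refine le_trans ?_ (setIntegral_mono_set i1 ?_
      (Filter.Eventually.of_forall (Ioc_subset_Ioi_self : Ioc (0:ℝ) κ⁻¹ ⊆ Ioi 0)))
    · refine setIntegral_mono_on i2 (i1.mono_set Ioc_subset_Ioi_self) measurableSet_Ioc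
        fun s hs => ?_
      have hs0 : 0 < s := hs.1
      have hs1 : s ≤ 1 := hs.2.trans hκ1
      have e1 : Real.exp (-1) ≤ Real.exp (-s * κ) := by
        apply Real.exp_le_exp.2
        have : s * κ ≤ κ⁻¹ * κ := by have := hs.2; gcongr
        rw [inv_mul_cancel₀ hκ0.ne'] at this
        linarith
      have e2 : s / 2 ≤ 1 - Real.exp (-s) := by
        have h2 : Real.exp (-s) ≤ 1 - s / 2 := by
          have h3 := Real.add_one_le_exp s
          rw [Real.exp_neg, inv_le_comm₀ (Real.exp_pos s) (by linarith)]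
          rw [inv_le_iff_one_le_mul₀ (by linarith)]
          nlinarith
        linarith
      have e3 : (s / 2) ^ (A - 1) ≤ (1 - Real.exp (-s)) ^ (A - 1) :=
        Real.rpow_le_rpow (by positivity) e2 (by linarith)
      have e4 : s ^ (A - 1) / 2 ≤ (s / 2) ^ (A - 1) := by
        rw [Real.div_rpow hs0.le (by norm_num)]
        have h4 : (2:ℝ) ^ (A - 1) ≤ 2 := by
          calc (2:ℝ) ^ (A - 1) ≤ 2 ^ (1:ℝ) :=
                Real.rpow_le_rpow_of_exponent_le (by norm_num) (by linarith)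
            _ = 2 := by norm_num
        have h5 : 0 ≤ s ^ (A - 1) := Real.rpow_nonneg hs0.le _
        have h6 : (0:ℝ) < 2 ^ (A - 1) := by positivity
        exact div_le_div_of_nonneg_left h5 h6 h4
      unfold wA
      rw [mul_zero, Real.exp_zero, one_mul]
      calc Real.exp (-1) / 2 * s ^ (A - 1) = Real.exp (-1) * (s ^ (A - 1) / 2) := by ring
        _ ≤ Real.exp (-s * κ) * (1 - Real.exp (-s)) ^ (A - 1) := by
            have h5 : 0 ≤ s ^ (A - 1) := Real.rpow_nonneg hs0.le _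
            have := (Real.exp_pos (-1)).le
            exact mul_le_mul e1 (e4.trans e3) (by positivity) (Real.exp_pos _).le
    · refine (ae_restrict_iff' measurableSet_Ioi).2 (Filter.Eventually.of_forall fun s hs => ?_)
      have hs' : (0:ℝ) < s := hs
      have := wA_nonneg (A := A) (κ := κ) hs'.le
      simp only [Pi.zero_apply]
      positivity
  refine le_trans ?_ h1
  rw [integral_const_mul, ← intervalIntegral.integral_of_le hκi.le,
    integral_rpow (Or.inl (by linarith))]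
  have e5 : A - 1 + 1 = A := by ring
  rw [e5, Real.zero_rpow (by linarith), sub_zero, Real.inv_rpow hκ0.le, ← Real.rpow_neg hκ0.le]
  have h7 : 0 < κ ^ (-A) := Real.rpow_pos_of_pos hκ0 _
  have h8 : κ ^ (-A) / 2 ≤ κ ^ (-A) / A := div_le_div_of_nonneg_left h7.le (by linarith) hA2
  have h9 := Real.exp_pos (-1)
  calc Real.exp (-1) / 4 * κ ^ (-A) = Real.exp (-1) / 2 * (κ ^ (-A) / 2) := by ring
    _ ≤ _ := by gcongr

/-! ### the model size -/

/-- the size of the second derivative of the profile -/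
noncomputable def KP (A S y : ℝ) : ℝ := (S / (S + y)) ^ A / (S + y) ^ 2

theorem KP_eq {A S y : ℝ} (hS : 0 < S) (hy : 0 ≤ y) :
    KP A S y = S ^ A * (S + y) ^ (-(A + 2)) := by
  have hSy : 0 < S + y := by linarith
  unfold KP
  rw [Real.div_rpow hS.le hSy.le, Real.rpow_neg hSy.le, Real.rpow_add hSy]
  norm_num
  rw [div_div, div_eq_mul_inv, mul_inv]
  ring

theorem KP_nonneg {A S y : ℝ} (hS : 0 < S) (hy : 0 ≤ y) : 0 ≤ KP A S y := by
  rw [KP_eq hS hy]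
  have hSy : 0 < S + y := by linarith
  positivity

/-- comparison of two values -/
theorem KP_le {A S y y' r : ℝ} (hA : 0 ≤ A) (hS : 0 < S) (hy : 0 ≤ y) (hy' : 0 ≤ y') (hr : 0 ≤ r)
    (h : S + y ≤ r * (S + y')) : KP A S y' ≤ r ^ (A + 2) * KP A S y := by
  have h1 : 0 < S + y := by linarith
  have h2 : 0 < S + y' := by linarith
  rw [KP_eq hS hy, KP_eq hS hy', Real.rpow_neg h1.le, Real.rpow_neg h2.le]
  have h3 : (S + y) ^ (A + 2) ≤ r ^ (A + 2) * (S + y') ^ (A + 2) := by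
    rw [← Real.mul_rpow hr h2.le]
    exact Real.rpow_le_rpow h1.le h (by linarith)
  have h4 : 0 < (S + y) ^ (A + 2) := Real.rpow_pos_of_pos h1 _
  have h5 : 0 < (S + y') ^ (A + 2) := Real.rpow_pos_of_pos h2 _
  have h6 : ((S + y') ^ (A + 2))⁻¹ ≤ r ^ (A + 2) * ((S + y) ^ (A + 2))⁻¹ := by
    rw [← div_eq_mul_inv, inv_eq_one_div, div_le_div_iff₀ h5 h4, one_mul]
    exact h3
  have h7 : 0 ≤ S ^ A := Real.rpow_nonneg hS.le _
  calc S ^ A * ((S + y') ^ (A + 2))⁻¹ ≤ S ^ A * (r ^ (A + 2) * ((S + y) ^ (A + 2))⁻¹) := by gcongr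
    _ = _ := by ring

theorem KP_anti {A S y y' : ℝ} (hA : 0 ≤ A) (hS : 0 < S) (hy : 0 ≤ y) (h : y ≤ y') :
    KP A S y' ≤ KP A S y := by
  have := KP_le (A := A) (y := y) (y' := y') (r := 1) hA hS hy (hy.trans h) zero_le_one (by linarith)
  rwa [Real.one_rpow, one_mul] at this

/-- constant -/
noncomputable def cK (A : ℝ) : ℝ := 4 * Real.exp 1 * Real.Gamma (A + 2) * 2 ^ (A + 2)

theorem cK_pos {A : ℝ} (hA : 1 ≤ A) : 0 < cK A := by
  have := Real.Gamma_pos_of_pos (by linarith : 0 < A + 2)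
  unfold cK; positivity

/-- the second derivative of the real profile -/
noncomputable def KS (A S y : ℝ) : ℝ := (IA A (S + 1 - A) 0)⁻¹ * IM A (S + 1 - A) 2 y

theorem KS_le {A S : ℝ} (hA : 1 ≤ A) (hA2 : A ≤ 2) (hS : 2 ≤ S) {y : ℝ} (hy : 0 ≤ y) :
    KS A S y ≤ cK A * KP A S y := by
  set κ : ℝ := S + 1 - A with hκ
  have hκ1 : 1 ≤ κ := by rw [hκ]; linarith
  have hκ0 : 0 < κ := by linarith
  have hS0 : 0 < S := by linarith
  have h1 := IM_two_le (κ := κ) hA (y := y) (by linarith)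
  have h2 := IA_zero_ge (κ := κ) hA hA2 hκ1
  have h3 : 0 < IA A κ 0 := IA_pos hA (by linarith)
  have hp : 0 < κ ^ (-A) := Real.rpow_pos_of_pos hκ0 _
  have hexp := Real.exp_pos (-1)
  have h4 : (IA A κ 0)⁻¹ ≤ 4 * Real.exp 1 * κ ^ A := by
    have h5 : (IA A κ 0)⁻¹ ≤ (Real.exp (-1) / 4 * κ ^ (-A))⁻¹ := inv_anti₀ (by positivity) h2
    refine h5.trans (le_of_eq ?_)
    rw [Real.rpow_neg hκ0.le, Real.exp_neg]
    have := Real.exp_pos 1
    have := Real.rpow_pos_of_pos hκ0 A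
    field_simp
  have hG := Real.Gamma_pos_of_pos (by linarith : 0 < A + 2)
  have hky : 0 < κ + y := by linarith
  have hSy : 0 < S + y := by linarith
  have h6 : (κ + y) ^ (-(A + 2)) ≤ 2 ^ (A + 2) * (S + y) ^ (-(A + 2)) := by
    rw [Real.rpow_neg hky.le, Real.rpow_neg hSy.le]
    have h7 : (S + y) ^ (A + 2) ≤ 2 ^ (A + 2) * (κ + y) ^ (A + 2) := by
      rw [← Real.mul_rpow (by norm_num) hky.le]
      exact Real.rpow_le_rpow hSy.le (by rw [hκ]; linarith) (by linarith)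
    have h8 : 0 < (S + y) ^ (A + 2) := Real.rpow_pos_of_pos hSy _
    have h9 : 0 < (κ + y) ^ (A + 2) := Real.rpow_pos_of_pos hky _
    rw [← div_eq_mul_inv, inv_eq_one_div, div_le_div_iff₀ h9 h8, one_mul]
    exact h7
  have h10 : κ ^ A ≤ S ^ A := Real.rpow_le_rpow hκ0.le (by rw [hκ]; linarith) (by linarith)
  have h11 : 0 ≤ κ ^ A := Real.rpow_nonneg hκ0.le _
  have h12 : 0 ≤ (κ + y) ^ (-(A + 2)) := Real.rpow_nonneg hky.le _
  rw [KP_eq hS0 hy]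
  unfold KS
  rw [← hκ]
  calc (IA A κ 0)⁻¹ * IM A κ 2 y
      ≤ (4 * Real.exp 1 * κ ^ A) * (Real.Gamma (A + 2) * (κ + y) ^ (-(A + 2))) := by
        have := IM_nonneg A κ 2 y
        gcongr
    _ ≤ (4 * Real.exp 1 * S ^ A) * (Real.Gamma (A + 2) * (2 ^ (A + 2) * (S + y) ^ (-(A + 2)))) := by
        gcongr
    _ = _ := by unfold cK; ring

theorem KS_nonneg {A S : ℝ} (hA : 1 ≤ A) (hS : A < S + 1) (y : ℝ) : 0 ≤ KS A S y := by
  have h3 : 0 < IA A (S + 1 - A) 0 := IA_pos hA (by linarith)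
  have := IM_nonneg A (S + 1 - A) 2 y
  unfold KS
  positivity

/-! ### the linearisation data -/

/-- value of the real profile -/
noncomputable def alP (A S m : ℝ) : ℝ := (IA A (S + 1 - A) 0)⁻¹ * IM A (S + 1 - A) 0 (max m 0)

/-- slope of the real profile -/
noncomputable def beP (A S m : ℝ) : ℝ := -((IA A (S + 1 - A) 0)⁻¹ * IM A (S + 1 - A) 1 (max m 0))

theorem continuous_IM_max {A κ : ℝ} (hA : 1 ≤ A) (hκ : 0 < κ) (n : ℕ) :
    Continuous fun m : ℝ => IM A κ n (max m 0) := by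
  rw [← continuousOn_univ]
  exact (continuousOn_IM hA hκ n).comp (Continuous.continuousOn (by fun_prop))
    fun m _ => le_max_right m 0

theorem continuous_alP {A S : ℝ} (hA : 1 ≤ A) (hS : A < S + 1) : Continuous (alP A S) :=
  continuous_const.mul (continuous_IM_max hA (by linarith) 0)

theorem continuous_beP {A S : ℝ} (hA : 1 ≤ A) (hS : A < S + 1) : Continuous (beP A S) :=
  (continuous_const.mul (continuous_IM_max hA (by linarith) 1)).neg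

/-- the real profile -/
noncomputable def gP (A S y : ℝ) : ℝ := (IA A (S + 1 - A) 0)⁻¹ * IM A (S + 1 - A) 0 y
/-- its derivative -/
noncomputable def gP' (A S y : ℝ) : ℝ := -((IA A (S + 1 - A) 0)⁻¹ * IM A (S + 1 - A) 1 y)

theorem hasDerivAt_gP {A S : ℝ} (hA : 1 ≤ A) (hS : A < S + 1) {y : ℝ} (hy : 0 ≤ y) :
    HasDerivAt (gP A S) (gP' A S y) y := by
  have := (hasDerivAt_IM (κ := S + 1 - A) hA 0 (y := y) (by linarith)).const_mul
    (IA A (S + 1 - A) 0)⁻¹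
  refine this.congr_deriv ?_
  unfold gP'
  ring

theorem hasDerivAt_gP' {A S : ℝ} (hA : 1 ≤ A) (hS : A < S + 1) {y : ℝ} (hy : 0 ≤ y) :
    HasDerivAt (gP' A S) (KS A S y) y := by
  have := ((hasDerivAt_IM (κ := S + 1 - A) hA 1 (y := y) (by linarith)).const_mul
    (IA A (S + 1 - A) 0)⁻¹).neg
  refine this.congr_deriv ?_
  unfold KS
  ring

theorem gP_nat {A S : ℝ} (hA : 1 ≤ A) (hS : A < S + 1) (j : ℕ) : gP A S j = prof A S j := by
  rw [prof_eq hA hS, gP, IM_zero]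
  ring

theorem alP_eq {A S m : ℝ} (hm : 0 ≤ m) : alP A S m = gP A S m := by
  unfold alP gP; rw [max_eq_left hm]

theorem beP_eq {A S m : ℝ} (hm : 0 ≤ m) : beP A S m = gP' A S m := by
  unfold beP gP'; rw [max_eq_left hm]

theorem continuousOn_KS {A S : ℝ} (hA : 1 ≤ A) (hS : A < S + 1) : ContinuousOn (KS A S) (Ici 0) :=
  continuousOn_const.mul (continuousOn_IM hA (by linarith) 2)

theorem Kf_eq_KS {A S : ℝ} (hA : 1 ≤ A) (hS : A < S + 1) (y : ℝ) :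
    Tz877.Kf (muS A (S + 1 - A) 2 (IA A (S + 1 - A) 0)⁻¹) sf y = KS A S y := by
  have h3 : 0 < IA A (S + 1 - A) 0 := IA_pos hA (by linarith)
  rw [Kf_muS hA (by positivity)]
  rfl

/-- Taylor for the profile at real points -/
theorem taylor_gP {A S : ℝ} (hA : 1 ≤ A) (hS : A < S + 1) {m i : ℝ} (hm : 0 ≤ m) (hi : 0 ≤ i) :
    IntervalIntegrable (fun θ : ℝ => (1 - θ) * KS A S (m + θ * (i - m))) volume 0 1 ∧
    gP A S i = gP A S m + gP' A S m * (i - m) +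
      (i - m) ^ 2 * ∫ θ in (0:ℝ)..1, (1 - θ) * KS A S (m + θ * (i - m)) :=
  taylor_theta hm hi (fun _ hy => hasDerivAt_gP hA hS hy) (fun _ hy => hasDerivAt_gP' hA hS hy)
    (continuousOn_KS hA hS)

theorem KS_seg_le {A S : ℝ} (hA : 1 ≤ A) (hA2 : A ≤ 2) (hS : 2 ≤ S) {m m' θ : ℝ} (hm : 0 ≤ m)
    (hm' : 0 ≤ m') (h0 : 0 ≤ θ) (h1 : θ ≤ 1) :
    KS A S (m + θ * (m' - m)) ≤ cK A * (KP A S m + KP A S m') := by
  have hS0 : 0 < S := by linarith
  have e : m + θ * (m' - m) = (1 - θ) * m + θ * m' := by ring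
  have hy : 0 ≤ m + θ * (m' - m) := by
    rw [e]; have := sub_nonneg.2 h1; positivity
  refine (KS_le hA hA2 hS hy).trans ?_
  have hc := (cK_pos hA).le
  have k1 := KP_nonneg (A := A) hS0 hm
  have k2 := KP_nonneg (A := A) hS0 hm'
  refine mul_le_mul_of_nonneg_left ?_ hc
  rcases le_total m m' with h | h
  · have : KP A S (m + θ * (m' - m)) ≤ KP A S m := by
      refine KP_anti (by linarith) hS0 hm ?_
      have : 0 ≤ θ * (m' - m) := mul_nonneg h0 (by linarith)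
      linarith
    linarith
  · have : KP A S (m + θ * (m' - m)) ≤ KP A S m' := by
      refine KP_anti (by linarith) hS0 hm' ?_
      rw [e]
      nlinarith
    linarith

theorem prof_l0 {A S : ℝ} (hA : 1 ≤ A) (hA2 : A ≤ 2) (hS : 2 ≤ S) {m m' : ℝ} (hm : 0 ≤ m)
    (hm' : 0 ≤ m') :
    |alP A S m' - alP A S m - beP A S m * (m' - m)| ≤
      cK A * (m' - m) ^ 2 * (KP A S m + KP A S m') := by
  have hSA : A < S + 1 := by linarith
  have hS0 : 0 < S := by linarith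
  rw [alP_eq hm, alP_eq hm', beP_eq hm, (taylor_gP hA hSA hm hm').2]
  have e : gP A S m + gP' A S m * (m' - m) +
      (m' - m) ^ 2 * (∫ θ in (0:ℝ)..1, (1 - θ) * KS A S (m + θ * (m' - m))) - gP A S m -
        gP' A S m * (m' - m) =
      (m' - m) ^ 2 * ∫ θ in (0:ℝ)..1, (1 - θ) * KS A S (m + θ * (m' - m)) := by ring
  rw [e, abs_mul, abs_of_nonneg (sq_nonneg (m' - m))]
  have h := intervalIntegral.norm_integral_le_of_norm_le_const (a := (0:ℝ)) (b := 1)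
    (f := fun θ => (1 - θ) * KS A S (m + θ * (m' - m)))
    (C := cK A * (KP A S m + KP A S m')) ?_
  · simp only [sub_zero, abs_one, mul_one, Real.norm_eq_abs] at h
    calc (m' - m) ^ 2 * |∫ θ in (0:ℝ)..1, (1 - θ) * KS A S (m + θ * (m' - m))|
        ≤ (m' - m) ^ 2 * (cK A * (KP A S m + KP A S m')) := by gcongr
      _ = _ := by ring
  · intro θ hθ
    rw [Set.uIoc_of_le zero_le_one] at hθ
    have h1 := KS_seg_le hA hA2 hS hm hm' hθ.1.le hθ.2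
    have h2 := KS_nonneg hA hSA (m + θ * (m' - m))
    rw [Real.norm_of_nonneg (mul_nonneg (sub_nonneg.2 hθ.2) h2)]
    have h3 : (1 - θ) * KS A S (m + θ * (m' - m)) ≤ 1 * KS A S (m + θ * (m' - m)) := by
      have := hθ.1
      gcongr
      linarith
    linarith

theorem prof_l1 {A S : ℝ} (hA : 1 ≤ A) (hA2 : A ≤ 2) (hS : 2 ≤ S) {m m' : ℝ} (hm : 0 ≤ m)
    (hm' : 0 ≤ m') :
    |beP A S m' - beP A S m| ≤ cK A * |m' - m| * (KP A S m + KP A S m') := by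
  have hSA : A < S + 1 := by linarith
  have hS0 : 0 < S := by linarith
  rw [beP_eq hm, beP_eq hm']
  have hconv : ∀ x ∈ Set.uIcc m m', 0 ≤ x := by
    intro x hx
    exact le_trans (le_min hm hm') hx.1
  have h := (convex_uIcc m m').norm_image_sub_le_of_norm_hasDerivWithin_le
    (f := gP' A S) (f' := KS A S) (C := cK A * (KP A S m + KP A S m')) (x := m) (y := m')
    (fun x hx => (hasDerivAt_gP' hA hSA (hconv x hx)).hasDerivWithinAt) ?_
    Set.left_mem_uIcc Set.right_mem_uIcc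
  · rw [Real.norm_eq_abs, Real.norm_eq_abs] at h
    refine h.trans (le_of_eq ?_)
    ring
  · intro x hx
    rw [Real.norm_of_nonneg (KS_nonneg hA hSA x)]
    rcases eq_or_ne m m' with rfl | hne
    · rw [Set.uIcc_self, Set.mem_singleton_iff] at hx
      subst hx
      have h1 := KS_seg_le hA hA2 hS hm hm le_rfl zero_le_one
      simpa using h1
    · -- x = m + θ (m' - m)
      have hne' : m' - m ≠ 0 := sub_ne_zero.2 hne.symm
      have hx2 : x = m + (x - m) / (m' - m) * (m' - m) := by field_simp; ring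
      rw [hx2]
      refine KS_seg_le hA hA2 hS hm hm' ?_ ?_
      · rcases le_total m m' with h | h
        · rw [Set.uIcc_of_le h] at hx
          exact div_nonneg (by linarith [hx.1]) (by linarith)
        · rw [Set.uIcc_of_ge h] at hx
          exact div_nonneg_of_nonpos (by linarith [hx.2]) (by linarith)
      · rcases le_total m m' with h | h
        · rw [Set.uIcc_of_le h] at hx
          have h3 : 0 < m' - m := lt_of_le_of_ne (by linarith) (Ne.symm hne')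
          rw [div_le_one h3]; linarith [hx.2]
        · rw [Set.uIcc_of_ge h] at hx
          have h3 : m' - m < 0 := lt_of_le_of_ne (by linarith) hne'
          rw [div_le_one_of_neg h3]; linarith [hx.1]

theorem prof_grow {A S : ℝ} (hA : 1 ≤ A) (hA2 : A ≤ 2) (hS : 2 ≤ S) {m m' D : ℝ} (hm : 0 ≤ m)
    (hm' : 0 ≤ m') (hD : 0 ≤ D) (h : m ≤ 2 * m' + 2 * D ^ 2) :
    KP A S m' ≤ 16 * (1 + D) ^ 8 * KP A S m := by
  have hS0 : 0 < S := by linarith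
  have h1 : S + m ≤ 2 * (1 + D) ^ 2 * (S + m') := by
    nlinarith [mul_nonneg hD hm', mul_nonneg hD hS0.le, mul_nonneg (sq_nonneg D) hm',
      mul_nonneg (sq_nonneg D) (by linarith : 0 ≤ S - 1)]
  have h2 := KP_le (A := A) (by linarith) hS0 hm hm' (r := 2 * (1 + D) ^ 2) (by positivity) h1
  refine h2.trans ?_
  have hk := KP_nonneg (A := A) hS0 hm
  refine mul_le_mul_of_nonneg_right ?_ hk
  have hr : 1 ≤ 2 * (1 + D) ^ 2 := by nlinarith
  calc (2 * (1 + D) ^ 2) ^ (A + 2) ≤ (2 * (1 + D) ^ 2) ^ (4 : ℝ) :=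
        Real.rpow_le_rpow_of_exponent_le hr (by linarith)
    _ = (2 * (1 + D) ^ 2) ^ 4 := by norm_cast
    _ = _ := by ring

/-- `KS(m/24) + e^{-m/24} KS(0) ≤ C KP(m)` -/
noncomputable def cT (A : ℝ) : ℝ := cK A * (24 ^ 4 + 24 ^ 5 * Real.exp 1)

theorem cT_nonneg {A : ℝ} (hA : 1 ≤ A) : 0 ≤ cT A := by
  have := cK_pos hA
  unfold cT; positivity

theorem KS_tail {A S : ℝ} (hA : 1 ≤ A) (hA2 : A ≤ 2) (hS : 2 ≤ S) {m : ℝ} (hm : 0 ≤ m) :
    KS A S (m / 24) + Real.exp (-m / 24) * KS A S 0 ≤ cT A * KP A S m := by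
  have hS0 : 0 < S := by linarith
  have hc := (cK_pos hA).le
  have h1 := KS_le hA hA2 hS (y := m / 24) (by positivity)
  have h2 := KS_le hA hA2 hS (y := 0) le_rfl
  have hk := KP_nonneg (A := A) hS0 hm
  have h3 : KP A S (m / 24) ≤ 24 ^ 4 * KP A S m := by
    have h4 := KP_le (A := A) (y := m) (y' := m / 24) (r := 24) (by linarith) hS0 hm
      (by positivity) (by norm_num) (by linarith)
    refine h4.trans (mul_le_mul_of_nonneg_right ?_ hk)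
    calc (24:ℝ) ^ (A + 2) ≤ 24 ^ (4 : ℝ) :=
          Real.rpow_le_rpow_of_exponent_le (by norm_num) (by linarith)
      _ = 24 ^ 4 := by norm_cast
  have h5 : KP A S 0 ≤ (1 + m) ^ 4 * KP A S m := by
    have h4 := KP_le (A := A) (y := m) (y' := 0) (r := 1 + m) (by linarith) hS0 hm
      le_rfl (by positivity) (by nlinarith)
    refine h4.trans (mul_le_mul_of_nonneg_right ?_ hk)
    calc (1 + m) ^ (A + 2) ≤ (1 + m) ^ (4 : ℝ) :=
          Real.rpow_le_rpow_of_exponent_le (by linarith) (by linarith)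
      _ = (1 + m) ^ 4 := by norm_cast
  have h6 : Real.exp (-m / 24) * (1 + m) ^ 4 ≤ 24 ^ 5 * Real.exp 1 := by
    have h7 := Real.pow_div_factorial_le_exp (1 + m / 24) (by positivity) 4
    have h8 : (1 + m / 24) ^ 4 ≤ 24 * Real.exp (1 + m / 24) := by
      rw [div_le_iff₀ (by positivity)] at h7
      have e : ((4).factorial : ℝ) = 24 := by norm_num [Nat.factorial]
      rw [e] at h7
      linarith
    have h9 : (1 + m) ^ 4 ≤ 24 ^ 4 * (1 + m / 24) ^ 4 := by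
      rw [← mul_pow]
      exact pow_le_pow_left₀ (by positivity) (by linarith) 4
    calc Real.exp (-m / 24) * (1 + m) ^ 4
        ≤ Real.exp (-m / 24) * (24 ^ 4 * (24 * Real.exp (1 + m / 24))) := by
          gcongr
          exact h9.trans (by gcongr)
      _ = 24 ^ 5 * (Real.exp (-m / 24) * Real.exp (1 + m / 24)) := by ring
      _ = _ := by
          rw [← Real.exp_add]
          congr 2
          ring
  have he := Real.exp_pos (-m / 24)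
  calc KS A S (m / 24) + Real.exp (-m / 24) * KS A S 0
      ≤ cK A * (24 ^ 4 * KP A S m) + Real.exp (-m / 24) * (cK A * ((1 + m) ^ 4 * KP A S m)) := by
        gcongr
        · exact h1.trans (by gcongr)
        · exact h2.trans (by gcongr)
    _ = cK A * (24 ^ 4 + Real.exp (-m / 24) * (1 + m) ^ 4) * KP A S m := by ring
    _ ≤ cK A * (24 ^ 4 + 24 ^ 5 * Real.exp 1) * KP A S m := by gcongr
    _ = _ := by unfold cT; ring

/-- **linearisation data of the profile** -/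
theorem linD_prof {A S : ℝ} (hA : 1 ≤ A) (hA2 : A ≤ 2) (hS : 2 ≤ S) (Q : ℕ) :
    Tz877.LinD Q (prof A S) (alP A S) (beP A S) (fun y => (S / (S + y)) ^ A / (S + y) ^ 2)
      (fun p => Tz877.cLin p * cT A) (cK A) where
  C_nonneg p := mul_nonneg (Tz877.cLin_pos p).le (cT_nonneg hA)
  CL_nonneg := (cK_pos hA).le
  K_nonneg m hm := KP_nonneg (by linarith) hm
  l0 m m' hm hm' := prof_l0 hA hA2 hS hm hm'
  l1 m m' hm hm' := prof_l1 hA hA2 hS hm hm'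
  grow m m' D hm hm' hD h := prof_grow hA hA2 hS hm hm' hD h
  rem p g0 g1 h0 h1 hg hh := by
    have hSA : A < S + 1 := by linarith
    have hκ : 0 < S + 1 - A := by linarith
    have hfin : IsFiniteMeasure (muS A (S + 1 - A) 2 (IA A (S + 1 - A) 0)⁻¹) :=
      finite_muS hA hκ 2 _
    set m : ℝ := Q * ‖g0‖ ^ 2 with hm
    have hm0 : 0 ≤ m := by positivity
    have hV : 0 ≤ m * ‖g1‖ ^ 2 := by positivity
    have hT := fun i : ℕ => taylor_gP hA hSA hm0 (Nat.cast_nonneg (α := ℝ) i)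
    have hspec := (Classical.choose_spec (Tz877.exists_lin_est' p)).2
      (muS A (S + 1 - A) 2 (IA A (S + 1 - A) 0)⁻¹) sf measurable_sf sf_nonneg g0 g1 h0 h1 hg hh Q
      (prof A S) (alP A S m) (beP A S m) 1 (by norm_num) ?_ ?_
    · refine hspec.trans ?_
      rw [Kf_eq_KS hA hSA, Kf_eq_KS hA hSA]
      have h3 := KS_tail hA hA2 hS hm0
      have hc : 0 < Classical.choose (Tz877.exists_lin_est' p) := Tz877.cLin_pos p
      calc Classical.choose (Tz877.exists_lin_est' p) * (1 + m * ‖g1‖ ^ 2) *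
            (KS A S (m / 24) + Real.exp (-m / 24) * KS A S 0)
          ≤ Classical.choose (Tz877.exists_lin_est' p) * (1 + m * ‖g1‖ ^ 2) *
            (cT A * KP A S m) := by gcongr
        _ = _ := by unfold Tz877.cLin KP; ring
    · intro i _
      simp only [Kf_eq_KS hA hSA]
      exact (hT i).1
    · intro i _
      simp only [Kf_eq_KS hA hSA]
      rw [alP_eq hm0, beP_eq hm0, ← gP_nat hA hSA i, (hT i).2, one_mul]

/-- existence form: the constants depend on `A` only -/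
theorem exists_linD_prof {A : ℝ} (hA : 1 ≤ A) (hA2 : A ≤ 2) : ∃ (C : ℕ → ℝ) (CL : ℝ),
    (∀ p, 0 ≤ C p) ∧ ∀ S : ℝ, 2 ≤ S → ∃ α β : ℝ → ℝ, Continuous α ∧ Continuous β ∧
      ∀ Q : ℕ, Tz877.LinD Q (prof A S) α β (fun y => (S / (S + y)) ^ A / (S + y) ^ 2) C CL :=
  ⟨fun p => Tz877.cLin p * cT A, cK A,
    fun p => mul_nonneg (Tz877.cLin_pos p).le (cT_nonneg hA), fun S hS =>
    ⟨alP A S, beP A S, continuous_alP hA (by linarith), continuous_beP hA (by linarith),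
      fun Q => linD_prof hA hA2 hS Q⟩⟩

end Crest.Agent.R340.TzL757
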