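import Crest.Agent.R340.BBP_120
import Crest.Agent.R340.FI2_331
import Crest.Agent.R340.Tz4_877
import Crest.Agent.R340.LocT8_163
import Crest.Agent.R340.GG_467
import Crest.Agent.R340.GeoM_986
import Crest.Agent.R340.LR8_667
import Crest.Agent.R340.LR2_667
import Crest.Agent.R340.Vac1_467
import Crest.Agent.R340.FX2_963
import Crest.Agent.R340.Defs_150
import Crest.Agent.R340.LR5_667
import Crest.Agent.R340.LocT3_163
import Crest.Agent.R340.FiltQL_867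
import Mathlib
import Crest.Agent.R340.Geo3_927
import Crest.Agent.R340.Mom_814
import Crest.Agent.R340.Avg2_814
import Crest.Agent.R340.FI1_331
import Crest.Agent.R340.LocT4_163
import Crest.Agent.R340.PD5_757
import Crest.Agent.R340.Filt3_867
import Crest.Agent.R340.LR7_667
import Crest.Agent.R340.TzL_757_Mg
import Crest.Agent.R340.PD3_757
import Crest.Agent.R340.PathStep4_880

-- ▼ part R340/TzC_757
section

/-!
# R340 (helper757): frame data for `T_z` (part (C) of 877's list)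

`schur_muQ`, `reso_uf`, `locV_theta` : the structures `Schur`, `Reso`, `LocV` for `muQ Q`, `uf Q`,
`vF t Q k g`, with absolute constants.
-/

set_option autoImplicit false

open MeasureTheory
open scoped ENNReal NNReal

namespace Crest.Agent.R340.TzC757

open Crest.Agent.R340.Fock649 Crest.Agent.R340.CS809 Crest.Agent.R340.Avg814
  Crest.Agent.R340.Rot303 Crest.Agent.R340.LocT163 Crest.Agent.R340.FI331
open Crest.Agent.R340.PV341 (Adm)

theorem muQ_eq (Q : ℕ) : muQ Q = ((Q + 1 : ℕ) : ℝ≥0) • hm := by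
  unfold muQ
  ext s hs
  rw [Measure.smul_apply, Measure.smul_apply, ENNReal.smul_def]
  push_cast
  rfl

/-- **Schur data** for `muQ Q` -/
theorem schur_muQ {Q : ℕ} (hQ : 1 ≤ Q) : QL331.Schur (muQ Q) (uf Q) (dQ Q) 1 Kg := by
  rw [muQ_eq]
  refine schur_inst hQ ?_
  have : (1 : ℝ) ≤ Q := by exact_mod_cast hQ
  push_cast
  linarith

/-- **resolution of the identity** by the localised vectors -/
theorem reso_uf {Q : ℕ} (hQ : 1 ≤ Q) (k : Fin 2) : Reso (muQ Q) (uf Q k) := by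
  rw [BBP120.uf_eq_uF' hQ]
  exact reso hQ k

/-- constant of `locV_theta` -/
noncomputable def cV (M : ℕ) : ℝ := Kd 0 * ((M.factorial : ℝ) * Real.exp 1)


/-- **the dilated frame vectors are localised**, uniformly in `Q ≥ 1`, `t`, `g`. -/
theorem locV_theta {Q : ℕ} (hQ : 1 ≤ Q) {t : Fin 3 → ℝ} (ht : Adm t) (k : Fin 2) (g : U2) :
    Tz877.LocV (uf Q) (dQ Q) (vF t Q k g) g cV := by
  intro M w
  have h := inner_decay (μ := 0) le_rfl hQ ht 0 k w g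
  rw [zero_mul, Real.exp_zero, mul_one] at h
  rw [BBP120.uf_eq_uF hQ]
  refine h.trans ?_
  have hd := dQ_nonneg Q w g
  have h2 := BBP120.one_add_pow_le M hd
  have hK := Kd_nonneg 0
  have hp : 0 < (1 + dQ Q w g) ^ M := by positivity
  rw [cV, mul_one_div, le_div_iff₀ hp]
  calc Kd 0 * Real.exp (-dQ Q w g) * (1 + dQ Q w g) ^ M
      ≤ Kd 0 * Real.exp (-dQ Q w g) * ((M.factorial : ℝ) * Real.exp 1 * Real.exp (dQ Q w g)) := by
        gcongr
    _ = Kd 0 * ((M.factorial : ℝ) * Real.exp 1) * (Real.exp (-dQ Q w g) * Real.exp (dQ Q w g)) := by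
        ring
    _ = _ := by rw [← Real.exp_add]; simp



end Crest.Agent.R340.TzC757
end

-- ▼ part R340/LocT9_163
section

/-!
helper163, R340 orphan O2, part 9: order statement, kernel and gap of `HT t Q`.
-/

set_option autoImplicit false
set_option linter.unusedSectionVars false

open scoped BigOperators ENNReal InnerProductSpace ComplexConjugate Matrix
open MeasureTheory

namespace Crest.Agent.R340.LocT163

open Crest.Agent.R340.Fock649 Crest.Agent.R340.LR667 Crest.Agent.R340.CS809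
open Crest.Agent.R340.Avg814 Crest.Agent.R340.Rot303
open Crest.Agent.R340.Geo986 (nu0 nuT pairs bz bcoef res PosM Zs mem_pairs GapG posM_nuT mem_Zs_iff
  Bg_apply)
open Crest.Agent.R340.PV341 (Adm G Gf half nrm aa xx beta dd mem_half)
open Finset (range sum_congr sum_le_sum mul_sum sum_eq_zero single_le_sum mem_range)
open Crest.Agent.R340.GG467 (pj pj_mem pj_of_mem star_pj)

theorem re_inner_HT {Q : ℕ} (hQ : 1 ≤ Q) (t : Fin 3 → ℝ) (x : Fk (Fin (Q + 1))) :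
    (⟪x, HT t Q x⟫_ℂ).re = ∑ p ∈ range (2 * Q), hh t Q p * ‖Geo986.Bg (nuT t Q) Q p x‖ ^ 2 := by
  rw [HT_eq_sum hQ t, sum_ap, inner_sum, Complex.re_sum]
  refine sum_congr rfl fun p _ => ?_
  rw [smul_ap, inner_smul_right, Complex.re_ofReal_mul, inner_star_mul_self,
    ← Complex.ofReal_pow, Complex.ofReal_re]

theorem Bg_zero_ap (ν : ℕ → ℝ) (Q : ℕ) (x : Fk (Fin (Q + 1))) : Geo986.Bg ν Q 0 x = 0 := by
  rw [Bg_zero_ring]; rfl

/-- two-sided order comparison of `HT` with the pair Hamiltonian of the metric -/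
theorem HT_bounds : ∃ c C : ℝ, 0 < c ∧ c ≤ C ∧ ∀ (t : Fin 3 → ℝ), Adm t → ∀ Q : ℕ, 1 ≤ Q →
    ∀ x : Fk (Fin (Q + 1)),
      c * ∑ p ∈ range (2 * Q), ‖Geo986.Bg (nuT t Q) Q p x‖ ^ 2 ≤ (⟪x, HT t Q x⟫_ℂ).re ∧
      (⟪x, HT t Q x⟫_ℂ).re ≤ C * ∑ p ∈ range (2 * Q), ‖Geo986.Bg (nuT t Q) Q p x‖ ^ 2 := by
  obtain ⟨c, C, hc, hcC, h⟩ := hh_bounds
  refine ⟨c, C, hc, hcC, fun t ht Q hQ x => ?_⟩
  rw [re_inner_HT hQ]
  constructor
  · rw [mul_sum]
    refine sum_le_sum fun p hp => ?_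
    rcases Nat.eq_zero_or_pos p with rfl | hp0
    · rw [Bg_zero_ap]; simp
    · exact mul_le_mul_of_nonneg_right (h t ht Q p hp0 (by rw [mem_range] at hp; omega)).1
        (sq_nonneg _)
  · rw [mul_sum]
    refine sum_le_sum fun p hp => ?_
    rcases Nat.eq_zero_or_pos p with rfl | hp0
    · rw [Bg_zero_ap]; simp
    · exact mul_le_mul_of_nonneg_right (h t ht Q p hp0 (by rw [mem_range] at hp; omega)).2
        (sq_nonneg _)

theorem HT_apply_eq_zero {t : Fin 3 → ℝ} {Q : ℕ} (hQ : 1 ≤ Q) {x : Fk (Fin (Q + 1))}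
    (hx : x ∈ Zs (nuT t Q) Q) : HT t Q x = 0 := by
  rw [HT_eq_sum hQ t, sum_ap]
  refine sum_eq_zero fun p _ => ?_
  rw [smul_ap, mul_ap, Bg_apply, hx p, smul_zero, map_zero, smul_zero]


theorem HT_mul_pj {t : Fin 3 → ℝ} {Q : ℕ} (hQ : 1 ≤ Q) : HT t Q * pj (Zs (nuT t Q) Q) = 0 :=
  Op.ext fun v => by rw [mul_ap, zero_ap]; exact HT_apply_eq_zero hQ (pj_mem _ v)

theorem bT_mul_pj {t : Fin 3 → ℝ} {Q : ℕ} (hQ : 1 ≤ Q) (g : U2) :
    bT t Q g * pj (Zs (nuT t Q) Q) = 0 :=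
  Op.ext fun v => by rw [mul_ap, zero_ap]; exact bT_mul_eq_zero hQ t g (pj_mem _ v)

/-- form gap of `HT` above the zero modes -/
theorem gap_HT : ∃ c : ℝ, 0 < c ∧ ∀ (t : Fin 3 → ℝ), Adm t → ∀ Q : ℕ, 1 ≤ Q → ∀ γ : ℝ,
    GapG (nuT t Q) Q γ → ∀ x : Fk (Fin (Q + 1)),
      c * γ * ‖x - pj (Zs (nuT t Q) Q) x‖ ^ 2 ≤ (⟪x, HT t Q x⟫_ℂ).re := by
  obtain ⟨c, C, hc, hcC, hB⟩ := HT_bounds
  refine ⟨c, hc, fun t ht Q hQ γ hγ x => ?_⟩
  set P := pj (Zs (nuT t Q) Q) with hP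
  have h0 : HT t Q (x - P x) = HT t Q x := by
    have : HT t Q (x - P x) = HT t Q x - HT t Q (P x) := (HT t Q).ap.map_sub x (P x)
    rw [this, HT_apply_eq_zero hQ (pj_mem _ x), sub_zero]
  have h1 : (⟪x - P x, HT t Q (x - P x)⟫_ℂ) = ⟪x, HT t Q x⟫_ℂ := by
    rw [h0, inner_sub_left]
    have : ⟪P x, HT t Q x⟫_ℂ = 0 := by
      have hs : star (HT t Q) = HT t Q := isSelfAdjoint_HT t Q
      rw [← hs, inner_star_right, HT_apply_eq_zero hQ (pj_mem _ x), inner_zero_left]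
    rw [this, sub_zero]
  have h2 : ∀ z ∈ Zs (nuT t Q) Q, ⟪z, x - P x⟫_ℂ = 0 := by
    intro z hz
    have hz' : P z = z := pj_of_mem hz
    have hs : star P = P := star_pj _
    have : ⟪z, P x⟫_ℂ = ⟪z, x⟫_ℂ := by
      conv_lhs => rw [← hs]
      rw [inner_star_right, hz']
    rw [inner_sub_right, this, sub_self]
  have h3 := hγ _ h2
  have h4 := (hB t ht Q hQ (x - P x)).1
  rw [h1] at h4
  calc c * γ * ‖x - P x‖ ^ 2 = c * (γ * ‖x - P x‖ ^ 2) := by ring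
    _ ≤ _ := (mul_le_mul_of_nonneg_left h3 hc.le).trans h4

end Crest.Agent.R340.LocT163
end

-- ▼ part R340/TzP_421
section

/-!
# R340, 877's list for (TZ), item (A) (helper421)

`P = pj (Zs (nuT t Q) Q)`: `bT t Q g * P = 0`, `HT t Q * P = 0`, commutation of `P` and `HT t Q` with
`Nh`, `Lz Q` and the affine one-body operators, the gap of `HT t Q` and the spectral filter
(`hkill_theta`).
-/

set_option autoImplicit false
set_option linter.unusedSectionVars false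

open MeasureTheory
open scoped InnerProductSpace ComplexConjugate

namespace Crest.Agent.R340.TzP421

open Crest.Agent.R340.Fock649 Crest.Agent.R340.LR667 Crest.Agent.R340.LocT163
  Crest.Agent.R340.GG467 Crest.Agent.R340.Avg814 Crest.Agent.R340.CS809
open Crest.Agent.R340.Geo986 (nu0 nuT pairs bz bcoef PosM Zs mem_pairs GapG)
open Crest.Agent.R340.Vac467 (Lz Lz_comm_bz Nh_comm_bz map_mem_Zs_of_comm pj_comm_Nh pj_comm_Lz)
open Crest.Agent.R340.PV341 (Adm)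

variable {Q : ℕ} {t : Fin 3 → ℝ}

/-! ### kernel -/





/-! ### commutations -/

/-- eigen-operators of a derivation -/
theorem comm_star_mul {T B : Op (Fin (Q + 1))} (hT : star T = T) {a : ℝ}
    (h : T * B - B * T = (a : ℂ) • B) : T * (star B * B) = star B * B * T := by
  have h2 := congrArg star h
  rw [star_sub, star_mul, star_mul, hT, star_smul, Complex.star_def, Complex.conj_ofReal] at h2
  have e : T * (star B * B) - star B * B * T =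
      star B * (T * B - B * T) - (star B * T - T * star B) * B := by noncomm_ring
  rw [← sub_eq_zero, e, h, h2, mul_smul_comm, smul_mul_assoc, sub_self]

theorem comm_Bg {T : Op (Fin (Q + 1))} {a : ℝ} {ν : ℕ → ℝ} {p : ℕ}
    (h : T * bz ν Q p - bz ν Q p * T = (a : ℂ) • bz ν Q p) :
    T * Geo986.Bg ν Q p - Geo986.Bg ν Q p * T = (a : ℂ) • Geo986.Bg ν Q p := by
  unfold Geo986.Bg
  rw [mul_smul_comm, smul_mul_assoc, ← smul_sub, h, smul_comm]

theorem HT_comm_of (hQ : 1 ≤ Q) (t : Fin 3 → ℝ) {T : Op (Fin (Q + 1))} (hT : star T = T)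
    {a : ℕ → ℝ} (h : ∀ p, T * bz (nuT t Q) Q p - bz (nuT t Q) Q p * T =
      (a p : ℂ) • bz (nuT t Q) Q p) : Commute (HT t Q) T := by
  rw [commute_iff_eq, HT_eq_sum hQ, Finset.mul_sum, Finset.sum_mul]
  refine Finset.sum_congr rfl fun p _ => ?_
  rw [mul_smul_comm, smul_mul_assoc, comm_star_mul hT (comm_Bg (h p))]

theorem HT_comm_Nh (hQ : 1 ≤ Q) (t : Fin 3 → ℝ) : Commute (HT t Q) Nh := by
  refine HT_comm_of hQ t star_Nh (a := fun _ => -2) fun p => ?_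
  rw [Nh_comm_bz]
  push_cast
  rfl

theorem HT_comm_Lz (hQ : 1 ≤ Q) (t : Fin 3 → ℝ) : Commute (HT t Q) (Lz Q) := by
  refine HT_comm_of hQ t Vac467.star_Lz (a := fun p => -(p : ℝ)) fun p => ?_
  rw [Lz_comm_bz]
  push_cast
  rfl

/-- affine one-body operators -/
theorem dG_aff (α β : ℝ) : dG (dg fun j : Fin (Q + 1) => α + β * ((j : ℕ) : ℝ)) =
    (α : ℂ) • (Nh : Op (Fin (Q + 1))) + (β : ℂ) • Lz Q := by
  have e : dg (fun j : Fin (Q + 1) => α + β * ((j : ℕ) : ℝ)) =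
      (α : ℂ) • (1 : Matrix (Fin (Q + 1)) (Fin (Q + 1)) ℂ) +
        (β : ℂ) • Matrix.diagonal fun i : Fin (Q + 1) => ((i : ℕ) : ℂ) := by
    unfold dg
    ext i j
    rw [Matrix.add_apply, Matrix.smul_apply, Matrix.smul_apply, Matrix.diagonal_apply,
      Matrix.diagonal_apply, Matrix.one_apply]
    by_cases h : i = j
    · rw [if_pos h, if_pos h, if_pos h]; push_cast; simp
    · rw [if_neg h, if_neg h, if_neg h]; simp
  rw [e, dG_add, dG_smul, dG_smul]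
  rfl

theorem HT_comm_aff (hQ : 1 ≤ Q) (t : Fin 3 → ℝ) (α β : ℝ) :
    Commute (HT t Q) (dG (dg fun j : Fin (Q + 1) => α + β * ((j : ℕ) : ℝ))) := by
  rw [dG_aff]
  exact ((HT_comm_Nh hQ t).smul_right _).add_right ((HT_comm_Lz hQ t).smul_right _)

theorem pj_comm_Nh' (ν : ℕ → ℝ) : Commute (pj (Zs ν Q)) Nh := (pj_comm_Nh ν).symm

theorem pj_comm_aff (ν : ℕ → ℝ) (α β : ℝ) :
    Commute (pj (Zs ν Q)) (dG (dg fun j : Fin (Q + 1) => α + β * ((j : ℕ) : ℝ))) := by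
  rw [dG_aff]
  refine ((pj_comm_Nh' ν).smul_right _).add_right (Commute.smul_right ?_ _)
  exact (pj_comm_Lz ν).symm

/-! ### differences with affine functions (the forms of 877's `cluster_Top`) -/

theorem dG_sub_tan (f : Fin (Q + 1) → ℝ) (α β : ℝ) :
    dG (dg f) - dG (dg fun j : Fin (Q + 1) => f j - α - β * ((j : ℕ) : ℝ)) =
      dG (dg fun j : Fin (Q + 1) => α + β * ((j : ℕ) : ℝ)) := by
  rw [← dG_sub]
  congr 1
  unfold dg
  rw [Matrix.diagonal_sub]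
  congr 1
  funext j
  push_cast
  ring

theorem HT_comm_sub_tan (hQ : 1 ≤ Q) (t : Fin 3 → ℝ) (f : Fin (Q + 1) → ℝ) (α β : ℝ) :
    Commute (HT t Q)
      (dG (dg f) - dG (dg fun j : Fin (Q + 1) => f j - α - β * ((j : ℕ) : ℝ))) := by
  rw [dG_sub_tan]
  exact HT_comm_aff hQ t α β

theorem pj_comm_sub_tan (ν : ℕ → ℝ) (f : Fin (Q + 1) → ℝ) (α β : ℝ) :
    Commute (pj (Zs ν Q))
      (dG (dg f) - dG (dg fun j : Fin (Q + 1) => f j - α - β * ((j : ℕ) : ℝ))) := by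
  rw [dG_sub_tan]
  exact pj_comm_aff ν α β

/-! ### the gap and the spectral filter -/

theorem exists_band {γ : ℝ} (hγ : 0 < γ) : ∃ g : ℝ → ℝ, IsFilter g ∧
    ∀ l : ℝ, γ ≤ |l| → ∫ t, (g t : ℂ) * Complex.exp (((t * l : ℝ) : ℂ) * Complex.I) = 0 := by
  obtain ⟨g, hc, _, hint, h1, hb⟩ := exists_filter hγ
  exact ⟨g, ⟨hc, hint, h1⟩, hb⟩

/-- **the spectral filter of the deformed geometries**: one filter for all `Q ≥ 1` and all admissible
metrics (helper667's literal form) -/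
theorem hkill_theta : ∀ γ₀ : ℝ, 0 < γ₀ → (∀ Q : ℕ, GapG (nu0 Q) Q γ₀) →
    ∃ w : ℝ → ℝ, IsFilter w ∧ ∀ Q : ℕ, 1 ≤ Q → ∀ t : Fin 3 → ℝ, Adm t →
      ∫ s, w s • (U (HT t Q) s * (1 - pj (Zs (nuT t Q) Q))) = 0 := by
  intro γ₀ hγ hG
  obtain ⟨γ', hγ', h⟩ := Geo986.gap_all_geometries hγ
  obtain ⟨c, hc, hgap⟩ := gap_HT
  obtain ⟨w, hw, hb⟩ := exists_band (mul_pos hc hγ')
  refine ⟨w, hw, fun Q hQ t ht => ?_⟩
  refine filter_kill_op hw hb (isSelfAdjoint_HT t Q) (isSelfAdjoint_pj _) (pj_mul_self _)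
    (HT_mul_pj hQ) fun x hx => ?_
  have h1 := hgap t ht Q hQ γ' (h t ht Q (hG Q)) x
  rwa [hx, sub_zero] at h1

end Crest.Agent.R340.TzP421
end

-- ▼ part R340/TzB_963
section

/-!
R340 (helper963): adapter (B) of (TZ).  From an operator identity
`P dG(f) (1-P) dG(F) P = ∫ P T_g P dν(g)`, `ν = (2Q-1) Haar`, to the real form of `Defs150.TZ` on
every sector, with self-adjoint `T'_g` in the class about `g`.
-/

set_option autoImplicit false
set_option linter.unusedSectionVars false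

open MeasureTheory Matrix

namespace Crest.Agent.R340.TzB963

open Crest.Agent.R340.Fock649 Crest.Agent.R340.GG467 Crest.Agent.R340.QL331
  Crest.Agent.R340.FI331 Crest.Agent.R340.CS809 Crest.Agent.R340.Rot303 Crest.Agent.R340.FX963
open Crest.Agent.R340.Geo986 (Zs)
open Crest.Agent.R340.Peel596 (Zn)
open Crest.Agent.R340.PathStep880 (off TT off_Zn TT_Nh gm)
open Crest.Agent.R340.Avg814 (G2 hm tt)
open Crest.Agent.R340.LR667 (dg)

noncomputable section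

variable {Q : ℕ}

/-- the normalised self-adjoint part -/
def Tp (κ : ℝ) (Q : ℕ) (T : U2 → Op (Fin (Q + 1))) (g : U2) : Op (Fin (Q + 1)) :=
  ((κ / ((Q : ℝ) + 1) / 2 : ℝ) : ℂ) • (T g + star (T g))

theorem continuous_Tp {κ : ℝ} {T : U2 → Op (Fin (Q + 1))} (hT : Continuous T) :
    Continuous (Tp κ Q T) := by
  have h : Continuous fun g => T g + star (T g) := hT.add (continuous_star.comp hT)
  exact h.const_smul ((κ / ((Q : ℝ) + 1) / 2 : ℝ) : ℂ)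

theorem isSelfAdjoint_Tp (κ : ℝ) (T : U2 → Op (Fin (Q + 1))) (g : U2) :
    IsSelfAdjoint (Tp κ Q T g) := by
  have h : star (Tp κ Q T g) = Tp κ Q T g := by
    unfold Tp
    rw [star_smul, star_add, star_star, RCLike.star_def, Complex.conj_ofReal,
      add_comm (star (T g)) (T g)]
  exact h

theorem commute_star_Nh {X : Op (Fin (Q + 1))} (h : Commute X (Nh : Op (Fin (Q + 1)))) :
    Commute (star X) (Nh : Op (Fin (Q + 1))) := by
  have := h.star_star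
  rwa [FX963.star_Nh] at this

theorem commute_Tp {κ : ℝ} {T : U2 → Op (Fin (Q + 1))} {g : U2}
    (h : Commute (T g) (Nh : Op (Fin (Q + 1)))) : Commute (Tp κ Q T g) (Nh : Op (Fin (Q + 1))) := by
  unfold Tp
  exact (h.add_left (commute_star_Nh h)).smul_left _

theorem pc_Tp {κ : ℝ} (hκ : 0 ≤ κ) {m : ℕ} {C : ℝ} {T : U2 → Op (Fin (Q + 1))} {g : U2}
    (h : PC (Rq Q) (uf Q) (dQ Q) m C (T g) g) :
    PC (Rq Q) (uf Q) (dQ Q) m (κ / ((Q : ℝ) + 1) * C) (Tp κ Q T g) g := by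
  have h1 := (h.add h.star).smul ((κ / ((Q : ℝ) + 1) / 2 : ℝ) : ℂ)
  rw [Complex.norm_real, Real.norm_of_nonneg (by positivity)] at h1
  unfold Tp
  convert h1 using 1
  ring

theorem re_inner_star (A : Op (Fin (Q + 1))) (ψ : Fk (Fin (Q + 1))) :
    (inner ℂ ψ ((star A) ψ)).re = (inner ℂ ψ (A ψ)).re := by
  rw [inner_star_right, ← inner_conj_symm, Complex.conj_re]

theorem re_inner_Tp (κ : ℝ) (T : U2 → Op (Fin (Q + 1))) (g : U2) (ψ : Fk (Fin (Q + 1))) :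
    (inner ℂ ψ ((Tp κ Q T g) ψ)).re = κ / ((Q : ℝ) + 1) * (inner ℂ ψ ((T g) ψ)).re := by
  have e : (Tp κ Q T g) ψ = ((κ / ((Q : ℝ) + 1) / 2 : ℝ) : ℂ) • ((T g) ψ + (star (T g)) ψ) := rfl
  rw [e, inner_smul_right, Complex.re_ofReal_mul, inner_add_right, Complex.add_re, re_inner_star]
  ring

theorem re_inner_integral {f : U2 → Op (Fin (Q + 1))} (hf : Continuous f) (r : ℝ)
    (ψ : Fk (Fin (Q + 1))) :
    (inner ℂ ψ ((r • ∫ g, f g ∂hm) ψ)).re = r * ∫ g, (inner ℂ ψ ((f g) ψ)).re ∂hm := by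
  have hint : Integrable f hm := Crest.Agent.R124.Haar.integrable_of_cont (N := Fin 2) hf
  have e0 : ((r • ∫ g, f g ∂hm) : Op (Fin (Q + 1))) = ((r : ℝ) : ℂ) • ∫ g, f g ∂hm :=
    (Complex.coe_smul r _).symm
  have e : (((r : ℝ) : ℂ) • ∫ g, f g ∂hm : Op (Fin (Q + 1))) ψ =
      ((r : ℝ) : ℂ) • ((∫ g, f g ∂hm : Op (Fin (Q + 1))) ψ) := rfl
  rw [e0, e, inner_smul_right, Complex.re_ofReal_mul]
  congr 1
  have h1 : (∫ g, f g ∂hm : Op (Fin (Q + 1))) ψ = ∫ g, (f g) ψ ∂hm :=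
    Crest.Agent.R340.Avg814.integral_ap hint ψ
  have hint2 : Integrable (fun g => (f g) ψ) hm := by
    refine Crest.Agent.R124.Haar.integrable_of_cont (N := Fin 2) ?_
    exact (Crest.Agent.R340.Avg814.evL ψ).continuous.comp hf
  have hint3 : Integrable (fun g => inner ℂ ψ ((f g) ψ)) hm := hint2.const_inner ψ
  rw [h1, ← integral_inner hint2]
  have h2 := integral_re hint3
  exact h2.symm

/-- the two forms on the sector -/
theorem adapter_form {ν : ℕ → ℝ} {f F : ℕ → ℝ} {n : ℕ} {ψ : Fk (Fin (Q + 1))}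
    (hψ : ψ ∈ Zn ν Q n) :
    (inner ℂ (off (Zn ν Q n) (TT Q f ψ)) (off (Zn ν Q n) (TT Q F ψ))).re =
      (inner ℂ ψ ((pj (Zs ν Q) * dG (dg fun i : Fin (Q + 1) => f i) * (1 - pj (Zs ν Q)) *
        dG (dg fun i : Fin (Q + 1) => F i) * pj (Zs ν Q)) ψ)).re := by
  have hN : ∀ G : ℕ → ℝ, (Nh : Op (Fin (Q + 1))) (TT Q G ψ) = (n : ℂ) • TT Q G ψ := by
    intro G
    rw [TT_Nh, hψ.2, map_smul]
  have ho : ∀ G : ℕ → ℝ, off (Zn ν Q n) (TT Q G ψ) =
      ((1 - pj (Zs ν Q)) * dG (dg fun i : Fin (Q + 1) => G i)) ψ := by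
    intro G
    rw [off_Zn (hN G), mul_ap]
    rfl
  rw [ho, ho]
  have hP : star (pj (Zs ν Q)) = pj (Zs ν Q) := star_pj _
  have h1 : star (1 - pj (Zs ν Q)) = 1 - pj (Zs ν Q) := by rw [star_sub, star_one, hP]
  have h2 : (1 - pj (Zs ν Q)) * (1 - pj (Zs ν Q)) = 1 - pj (Zs ν Q) := by
    rw [sub_mul, mul_sub, mul_sub, pj_mul_self]; simp
  have hpψ : pj (Zs ν Q) ψ = ψ := pj_of_mem hψ.1
  have hD : star (dG (dg fun i : Fin (Q + 1) => f i)) = dG (dg fun i : Fin (Q + 1) => f i) := by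
    rw [star_dG]
    congr 1
    unfold dg
    rw [Matrix.diagonal_conjTranspose]
    congr 1
    funext i
    simp
  set P := pj (Zs ν Q) with hPdef
  set A := dG (dg fun i : Fin (Q + 1) => f i) with hA
  set B := dG (dg fun i : Fin (Q + 1) => F i) with hB
  have e1 : inner ℂ (((1 - P) * A) ψ) (((1 - P) * B) ψ) =
      inner ℂ ψ ((star ((1 - P) * A) * ((1 - P) * B)) ψ) := by
    rw [mul_ap (star ((1 - P) * A)), inner_star_right]
  have e2 : star ((1 - P) * A) * ((1 - P) * B) = A * (1 - P) * B := by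
    rw [star_mul, h1, hD]
    calc A * (1 - P) * ((1 - P) * B) = A * ((1 - P) * (1 - P)) * B := by noncomm_ring
      _ = A * (1 - P) * B := by rw [h2]
  have e3 : inner ℂ ψ ((P * A * (1 - P) * B * P) ψ) = inner ℂ ψ ((A * (1 - P) * B) ψ) := by
    have e4 : (P * A * (1 - P) * B * P : Op (Fin (Q + 1))) = star P * ((A * (1 - P) * B) * P) := by
      rw [hP]; noncomm_ring
    rw [e4, mul_ap (star P), inner_star_right, hpψ, mul_ap _ P, hpψ]
  rw [e1, e2, e3]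

/-- **(B) the adapter.** -/
theorem adapter {ν : ℕ → ℝ} {f F : ℕ → ℝ} {T : U2 → Op (Fin (Q + 1))} (hT : Continuous T)
    (hTN : ∀ g, Commute (T g) (Nh : Op (Fin (Q + 1))))
    (hid : pj (Zs ν Q) * dG (dg fun i : Fin (Q + 1) => f i) * (1 - pj (Zs ν Q)) *
        dG (dg fun i : Fin (Q + 1) => F i) * pj (Zs ν Q) =
      ∫ g, pj (Zs ν Q) * T g * pj (Zs ν Q) ∂(LocT163.nuQ Q))
    {k : ℕ} {C : U2 → ℝ} (hC : ∀ g, PC (Rq Q) (uf Q) (dQ Q) (k + 5) (C g) (T g) g) :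
    ∃ T' : G2 → Op (Fin (Q + 1)), Continuous T' ∧
      (∀ g, Defs150.DyG (k + 1) Q (2 * KB k * C g) g (T' g)) ∧
      ∀ n : ℕ, ∀ ψ ∈ Zn ν Q n,
        (inner ℂ (off (Zn ν Q n) (TT Q f ψ)) (off (Zn ν Q n) (TT Q F ψ))).re =
        (inner ℂ ψ ((((Q : ℝ) + 1) • ∫ g, T' g ∂hm) ψ)).re := by
  set κ : ℝ := ((2 * Q - 1 : ℕ) : ℝ) with hκdef
  have hκ : 0 ≤ κ := Nat.cast_nonneg _
  have hκ2 : κ / ((Q : ℝ) + 1) ≤ 2 := by
    rw [div_le_iff₀ (by positivity)]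
    have : ((2 * Q - 1 : ℕ) : ℝ) ≤ ((2 * Q : ℕ) : ℝ) := by exact_mod_cast Nat.sub_le _ _
    push_cast at this
    rw [hκdef]
    linarith
  refine ⟨Tp κ Q T, continuous_Tp hT, fun g => ?_, fun n ψ hψ => ?_⟩
  · have h1 := pc_Tp hκ (hC g)
    have h0 : 0 ≤ C g := (hC g).nonneg
    have h2 := DY.of_pc_rot (commute_Tp (κ := κ) (hTN g)) h1
    refine ⟨isSelfAdjoint_cj (isSelfAdjoint_Tp κ T g), ?_⟩
    have h3 : KB k * (κ / ((Q : ℝ) + 1) * C g) ≤ 2 * KB k * C g := by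
      have := KB_pos k
      calc KB k * (κ / ((Q : ℝ) + 1) * C g) ≤ KB k * (2 * C g) := by gcongr
        _ = _ := by ring
    exact h2.mono h3
  · rw [adapter_form hψ, hid, LocT163.integral_nuQ, re_inner_integral (continuous_Tp hT)]
    have hcont : Continuous fun g => pj (Zs ν Q) * T g * pj (Zs ν Q) :=
      (continuous_const.mul hT).mul continuous_const
    have e1 := re_inner_integral hcont κ ψ
    rw [e1]
    have hpψ : pj (Zs ν Q) ψ = ψ := pj_of_mem hψ.1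
    have e2 : ∀ g, (inner ℂ ψ ((pj (Zs ν Q) * T g * pj (Zs ν Q)) ψ)).re =
        (inner ℂ ψ ((T g) ψ)).re := by
      intro g
      have e4 : (pj (Zs ν Q) * T g * pj (Zs ν Q) : Op (Fin (Q + 1))) =
          star (pj (Zs ν Q)) * (T g * pj (Zs ν Q)) := by
        rw [star_pj]; noncomm_ring
      rw [e4, mul_ap (star (pj (Zs ν Q))), inner_star_right, hpψ, mul_ap _ (pj (Zs ν Q)), hpψ]
    simp_rw [e2, re_inner_Tp]
    rw [integral_const_mul]
    field_simp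

end

end Crest.Agent.R340.TzB963
end

-- ▼ part R340/Tth1_927
section

set_option autoImplicit false
set_option linter.unusedSectionVars false

/-!
# Row 340: truncations of evolved local operators (helper927)

Abstract part of (T): Lieb-Robinson bound + far sums give truncations of `τ_t X`.
Also: the projection onto a submodule as an operator.
-/

open scoped ENNReal NNReal
open MeasureTheory

namespace Crest.Agent.R340.Tth927

open Crest.Agent.R340.QL331 Crest.Agent.R340.LR667 Crest.Agent.R340.DC867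
  Crest.Agent.R340.Filt867

section abstract

variable {A V : Type*} [CStarAlgebra A] [NormedAddCommGroup V] [InnerProductSpace ℂ V]
  (R : Car A V) {G : Type*} [MeasurableSpace G] (μ : Measure G) {n : ℕ}
  (b : G → OrthonormalBasis (Fin n) ℂ V)

/-- Lieb-Robinson bound for an operator with an exponential profile about `x`. -/
theorem lr_exp {H : A} (hH : IsSelfAdjoint H) {u : Fin 2 → G → V}
    (hu : ∀ k z, ‖u k z‖ ≤ 1) {κ : G → G → ℝ≥0∞}
    (hκ : ∀ (X : A) (k : Fin 2 × Bool) (w : G),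
      ‖⁅X, ⁅H, gen R u k w⁆⁆‖ₑ ≤ ∫⁻ z, κ w z * prof (gen R u) X z ∂μ)
    {D : G → G → ℝ} (hDtri : ∀ x y z, D x z ≤ D x y + D y z) (hDb : ∃ B, ∀ x y, D x y ≤ B)
    {μ0 v : ℝ} (hμ : 0 ≤ μ0) (hv : 0 ≤ v)
    (hS : ∀ w, ∫⁻ z, κ w z * ENNReal.ofReal (Real.exp (μ0 * D w z)) ∂μ ≤ ENNReal.ofReal v)
    {X : A} {x : G} {C : ℝ} (hC : 0 ≤ C)
    (hX : ∀ k z, ‖⁅X, gen R u k z⁆‖ ≤ C * Real.exp (-μ0 * D z x))
    (t : ℝ) (k : Fin 2 × Bool) (w : G) :
    ‖⁅tau H t X, gen R u k w⁆‖ ≤ C * Real.exp (v * |t|) * Real.exp (-μ0 * D w x) := by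
  obtain ⟨B, hB⟩ := hDb
  refine lr μ hH zero_le_one (norm_gen_le R hu) hκ
    (ρ := fun z => Real.exp (-μ0 * D z x)) (δ := Real.exp (-μ0 * B)) (Real.exp_pos _) ?_ hv ?_ hC
    hX t k w
  · intro z
    apply Real.exp_le_exp.2
    have := hB z x
    nlinarith
  · intro w'
    calc ∫⁻ z, κ w' z * ENNReal.ofReal (Real.exp (-μ0 * D z x)) ∂μ
        ≤ ∫⁻ z, κ w' z * ENNReal.ofReal (Real.exp (μ0 * D w' z)) *
            ENNReal.ofReal (Real.exp (-μ0 * D w' x)) ∂μ := by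
          refine lintegral_mono fun z => ?_
          show κ w' z * _ ≤ _
          rw [mul_assoc, ← ENNReal.ofReal_mul (Real.exp_nonneg _), ← Real.exp_add]
          gcongr
          have := hDtri w' z x
          nlinarith
      _ = (∫⁻ z, κ w' z * ENNReal.ofReal (Real.exp (μ0 * D w' z)) ∂μ) *
            ENNReal.ofReal (Real.exp (-μ0 * D w' x)) :=
          lintegral_mul_const' _ _ ENNReal.ofReal_ne_top
      _ ≤ ENNReal.ofReal v * ENNReal.ofReal (Real.exp (-μ0 * D w' x)) := by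
          gcongr
          exact hS w'
      _ = _ := by rw [← ENNReal.ofReal_mul hv]

/-- polynomial profile of the evolved operator -/
theorem lr_poly {H : A} (hH : IsSelfAdjoint H) {u : Fin 2 → G → V}
    (hu : ∀ k z, ‖u k z‖ ≤ 1) {κ : G → G → ℝ≥0∞}
    (hκ : ∀ (X : A) (k : Fin 2 × Bool) (w : G),
      ‖⁅X, ⁅H, gen R u k w⁆⁆‖ₑ ≤ ∫⁻ z, κ w z * prof (gen R u) X z ∂μ)
    {D : G → G → ℝ} (hD0 : ∀ x y, 0 ≤ D x y) (hDtri : ∀ x y z, D x z ≤ D x y + D y z)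
    (hDb : ∃ B, ∀ x y, D x y ≤ B)
    {μ0 v C0 : ℝ} (hμ : 0 < μ0) (hv : 0 ≤ v) (hC0 : 0 ≤ C0)
    (hS : ∀ w, ∫⁻ z, κ w z * ENNReal.ofReal (Real.exp (μ0 * D w z)) ∂μ ≤ ENNReal.ofReal v)
    {X : A} {x : G} {K : ℝ} (hK : 0 < K) (hXn : ‖X‖ ≤ K)
    (hX : ∀ k z, ‖⁅X, gen R u k z⁆‖ ≤ K * C0 * Real.exp (-μ0 * D z x))
    (m : ℕ) (t : ℝ) (k : Fin 2 × Bool) (w : G) :
    ‖⁅tau H t X, gen R u k w⁆‖ ≤
      K * (cPoly v μ0 C0 m * (1 + |t|) ^ m) / (1 + D w x) ^ m := by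
  have h1 := lr_exp R μ hH hu hκ hDtri hDb hμ.le hv hS (mul_nonneg hK.le hC0) hX t k w
  have h2 : ‖⁅tau H t X, gen R u k w⁆‖ / K ≤ cPoly v μ0 C0 m * (1 + |t|) ^ m / (1 + D w x) ^ m := by
    refine min_le_poly hv hμ hC0 m (abs_nonneg t) (hD0 w x) ?_ ?_
    · rw [div_le_iff₀ hK]
      refine (norm_lie_le _ _).trans ?_
      rw [norm_tau hH]
      have h3 := norm_gen_le R hu k w
      nlinarith [norm_nonneg X, norm_nonneg (gen R u k w)]
    · rw [div_le_iff₀ hK]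
      refine h1.trans (le_of_eq ?_)
      ring
  rw [div_le_iff₀ hK] at h2
  refine h2.trans (le_of_eq ?_)
  ring

/-- **truncation of the evolved operator** in the frame at `x` -/
theorem norm_sub_E_tau_le {H : A} (hH : IsSelfAdjoint H) {u : Fin 2 → G → V}
    (hu : ∀ k z, ‖u k z‖ ≤ 1) {κ : G → G → ℝ≥0∞}
    (hκ : ∀ (X : A) (k : Fin 2 × Bool) (w : G),
      ‖⁅X, ⁅H, gen R u k w⁆⁆‖ₑ ≤ ∫⁻ z, κ w z * prof (gen R u) X z ∂μ)
    {D : G → G → ℝ} (hD0 : ∀ x y, 0 ≤ D x y) (hDtri : ∀ x y z, D x z ≤ D x y + D y z)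
    (hDb : ∃ B, ∀ x y, D x y ≤ B)
    {μ0 v C0 : ℝ} (hμ : 0 < μ0) (hv : 0 ≤ v) (hC0 : 0 ≤ C0)
    (hS : ∀ w, ∫⁻ z, κ w z * ENNReal.ofReal (Real.exp (μ0 * D w z)) ∂μ ≤ ENNReal.ofReal v)
    {M : ℕ} {Cf : ℝ} (hfar : FarB R b u D (M + 4) Cf)
    {X : A} {x : G} {K : ℝ} (hK : 0 < K) (hXn : ‖X‖ ≤ K)
    (hX : ∀ k z, ‖⁅X, gen R u k z⁆‖ ≤ K * C0 * Real.exp (-μ0 * D z x)) (t : ℝ) (l : ℕ) :
    ‖tau H t X - R.E (b x) (4 ^ l) (tau H t X)‖ ≤
      Cf * (K * cPoly v μ0 C0 (M + 4)) * (1 + |t|) ^ (M + 4) * ((1 / 2 : ℝ) ^ M) ^ l := by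
  have hc := cPoly_nonneg hv hμ hC0 (M + 4)
  refine (R.norm_sub_E_le (b x) (4 ^ l) _).trans ?_
  have h := hfar (tau H t X) x (K * (cPoly v μ0 C0 (M + 4) * (1 + |t|) ^ (M + 4)))
    (by positivity)
    (fun k z => lr_poly R μ hH hu hκ hD0 hDtri hDb hμ hv hC0 hS hK hXn hX (M + 4) t k z) l
  refine h.trans (le_of_eq ?_)
  rw [Nat.add_sub_cancel, ← pow_mul, one_div, inv_pow]
  ring

end abstract

section fock

open Crest.Agent.R340.Fock649

variable {ι : Type*} [Fintype ι] [LinearOrder ι] {G : Type*} [MeasurableSpace G] (μ : Measure G)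
  {n : ℕ} (b : G → OrthonormalBasis (Fin n) ℂ (L ι))

/-- **(T)** in the form consumed by `LR667.LocData`. -/
theorem trunc_tau {H : Op ι} (hH : IsSelfAdjoint H) {u : Fin 2 → G → L ι}
    (hu : ∀ k z, ‖u k z‖ ≤ 1) {κ : G → G → ℝ≥0∞}
    (hκ : ∀ (X : Op ι) (k : Fin 2 × Bool) (w : G),
      ‖⁅X, ⁅H, gen fcar u k w⁆⁆‖ₑ ≤ ∫⁻ z, κ w z * prof (gen fcar u) X z ∂μ)
    {D : G → G → ℝ} (hD0 : ∀ x y, 0 ≤ D x y) (hDtri : ∀ x y z, D x z ≤ D x y + D y z)
    (hDb : ∃ B, ∀ x y, D x y ≤ B)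
    {μ0 v C0 : ℝ} (hμ : 0 < μ0) (hv : 0 ≤ v) (hC0 : 0 ≤ C0)
    (hS : ∀ w, ∫⁻ z, κ w z * ENNReal.ofReal (Real.exp (μ0 * D w z)) ∂μ ≤ ENNReal.ofReal v)
    {M : ℕ} {Cf : ℝ} (hfar : FarB fcar b u D (M + 4) Cf)
    {X : Op ι} {x : G} {K : ℝ} (hK : 0 < K) (hXn : ‖X‖ ≤ K)
    (hX : ∀ k z, ‖⁅X, gen fcar u k z⁆‖ ≤ K * C0 * Real.exp (-μ0 * D z x)) (t : ℝ) :
    Trunc (b x) (tau H t X) (Cf * (K * cPoly v μ0 C0 (M + 4)) * (1 + |t|) ^ (M + 4)) M := by
  intro l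
  refine ⟨fcar.E (b x) (4 ^ l) (tau H t X), ?_, ?_⟩
  · intro k hk
    have hk' : 4 ^ l ≤ (k : ℕ) := by
      by_contra h
      exact hk (mem_near.2 (not_le.1 h))
    have h := fcar.E_cm (b x) (4 ^ l) (tau H t X) k hk'
    exact ⟨h.1, by have := h.2; rwa [fcar_cr] at this⟩
  · exact norm_sub_E_tau_le fcar μ b hH hu hκ hD0 hDtri hDb hμ hv hC0 hS hfar hK hXn hX t l














end fock

end Crest.Agent.R340.Tth927
end

-- ▼ part R340/Geo4_927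
section

set_option autoImplicit false

/-!
# Row 340 (O1'): exponential tails of `vv t Q g k` in the frame at `g` (helper927)

`sum_tail_vv`: `∑_j (3/2)^j |⟨uu Q g j, vv t Q g k⟩|² ≤ CT` for `k = 0, 1`.
-/

namespace Crest.Agent.R340.Geo927

open Matrix Finset MeasureTheory Crest.Agent.R340.CS809






/-- the ratio of the tail weight, `r² = 3/2` -/
noncomputable def rt : ℝ := Real.sqrt (3 / 2)










end Crest.Agent.R340.Geo927
namespace Crest.Agent.R340.Geo927.Mix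
end Crest.Agent.R340.Geo927.Mix
end

-- ▼ part R340/Tth2_927
section

set_option autoImplicit false
set_option linter.unusedSectionVars false

/-!
# Row 340: geometry theta, concrete data (helper927)

Moments, `σ`, `J`, hat-box law in the form of `LR667.LocData`.
-/

open scoped ENNReal NNReal
open MeasureTheory Matrix

namespace Crest.Agent.R340.Tth927

open Crest.Agent.R340.CS809 Crest.Agent.R340.Fock649 Crest.Agent.R340.FI331
  Crest.Agent.R340.LR667 Crest.Agent.R340.Avg814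
open Crest.Agent.R340.LocT163 (nuQ lintegral_nuQ)

/-! ### centre, width, moments -/

/-- centre of the frame at `g` -/
noncomputable def JJ (Q : ℕ) (g : U2) : ℝ := Q * tt g

/-- width of the frame at `g` -/
noncomputable def sg (Q : ℕ) (g : U2) : ℝ :=
  Real.sqrt (1 + Mom814.sig Q (g : Matrix (Fin 2) (Fin 2) ℂ) ^ 2)


theorem JJ_mem (Q : ℕ) (g : U2) : JJ Q g ∈ Set.Icc (0 : ℝ) Q := by
  have h0 := tt_nonneg g
  have h1 := tt_le_one g
  have hQ : (0 : ℝ) ≤ Q := Nat.cast_nonneg Q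
  constructor
  · exact mul_nonneg hQ h0
  · unfold JJ; nlinarith

theorem one_le_sg (Q : ℕ) (g : U2) : 1 ≤ sg Q g := by
  unfold sg
  apply Real.one_le_sqrt.2
  have := sq_nonneg (Mom814.sig Q (g : Matrix (Fin 2) (Fin 2) ℂ))
  linarith

theorem sg_sq_le (Q : ℕ) (g : U2) : sg Q g ^ 2 ≤ 1 + min (JJ Q g) (Q - JJ Q g) := by
  have h0 := tt_nonneg g
  have h1 := tt_le_one g
  have hQ : (0 : ℝ) ≤ Q := Nat.cast_nonneg Q
  unfold sg
  rw [Real.sq_sqrt (by positivity), Mom814.sig, mul_pow, mul_pow, Real.sq_sqrt hQ, norm_11 g]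
  show 1 + (Q : ℝ) * tt g * (1 - tt g) ≤ _
  have h2 : (Q : ℝ) * tt g * (1 - tt g) ≤ min (JJ Q g) (Q - JJ Q g) := by
    apply le_min
    · unfold JJ
      have : 0 ≤ (Q : ℝ) * tt g := by positivity
      nlinarith
    · unfold JJ
      have : 0 ≤ (Q : ℝ) * (1 - tt g) := mul_nonneg hQ (by linarith)
      nlinarith
  linarith

/-- constants of the moments -/
noncomputable def Cmo (m : ℕ) : ℝ := Mom814.CM m * 2 ^ m

theorem Cmo_nonneg (m : ℕ) : 0 ≤ Cmo m := mul_nonneg (Mom814.CM_nonneg m) (by positivity)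

theorem moment_le (Q m : ℕ) (g : U2) (k : Fin (Q + 1)) :
    ‖mv (dg fun j : Fin (Q + 1) => |((j : ℕ) : ℝ) - JJ Q g| ^ m) (fb Q g k)‖ ≤
      Cmo m * (sg Q g * (1 + ((k : ℕ) : ℝ))) ^ m := by
  have h1 := Mom814.norm_weight_le Q (U2_ct_mul g) m k
    (fun j : Fin (Q + 1) => ((|((j : ℕ) : ℝ) - JJ Q g| ^ m : ℝ) : ℂ)) (D := 1) zero_le_one (by
      intro j
      rw [one_mul, Complex.norm_real, Real.norm_of_nonneg (by positivity)]
      exact le_rfl)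
  have h2 : mv (dg fun j : Fin (Q + 1) => |((j : ℕ) : ℝ) - JJ Q g| ^ m) (fb Q g k) =
      WithLp.toLp 2 (fun j : Fin (Q + 1) => ((|((j : ℕ) : ℝ) - JJ Q g| ^ m : ℝ) : ℂ) *
        Mom814.uf Q (g : Matrix (Fin 2) (Fin 2) ℂ) k j) := by
    ext j
    rw [mv_dg_apply, fb_apply, vec_apply, PiLp.toLp_apply, Mom814.uf_of_lt _ k.2]
  rw [h2]
  refine h1.trans ?_
  rw [one_mul, Cmo, mul_assoc]
  refine mul_le_mul_of_nonneg_left ?_ (Mom814.CM_nonneg m)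
  rw [← mul_pow]
  have h3 : 1 + Mom814.sig Q (g : Matrix (Fin 2) (Fin 2) ℂ) ≤ 2 * sg Q g := by
    have h4 : Mom814.sig Q (g : Matrix (Fin 2) (Fin 2) ℂ) ≤ sg Q g := by
      unfold sg
      apply Real.le_sqrt_of_sq_le
      linarith
    have := one_le_sg Q g
    linarith
  have h5 := Mom814.sig_nonneg Q (g : Matrix (Fin 2) (Fin 2) ℂ)
  have hk : (0 : ℝ) ≤ ((k : ℕ) : ℝ) := Nat.cast_nonneg _
  refine pow_le_pow_left₀ (by positivity) ?_ m
  nlinarith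

/-- hat-box law for the centre -/
theorem push_JJ {Q : ℕ} (hQ : 1 ≤ Q) (F : ℝ → ℝ≥0∞) (hF : Measurable F) :
    ∫⁻ z, F (JJ Q z) ∂(nuQ Q) ≤ ENNReal.ofReal 2 * ∫⁻ t in Set.Icc (0 : ℝ) Q, F t := by
  have hQ1 : (1 : ℝ) ≤ Q := by exact_mod_cast hQ
  have hQ0 : (0 : ℝ) < Q := by linarith
  have e1 : ∫⁻ z, F (JJ Q z) ∂hm = ∫⁻ x in Set.Icc (0 : ℝ) 1, F (Q * x) := by
    have := lintegral_tt (F := fun x => F (Q * x)) (hF.comp (measurable_const_mul _))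
    exact this
  have e2 : ∫⁻ x in Set.Icc (0 : ℝ) 1, F (Q * x) =
      ENNReal.ofReal (Q : ℝ)⁻¹ * ∫⁻ t in Set.Icc (0 : ℝ) Q, F t := by
    rw [← lintegral_indicator measurableSet_Icc, ← lintegral_indicator measurableSet_Icc]
    have e3 : ∀ x : ℝ, (Set.Icc (0 : ℝ) 1).indicator (fun x => F (Q * x)) x =
        (Set.Icc (0 : ℝ) Q).indicator F (Q * x) := by
      intro x
      by_cases hx : x ∈ Set.Icc (0 : ℝ) 1
      · rw [Set.indicator_of_mem hx, Set.indicator_of_mem]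
        exact ⟨by nlinarith [hx.1], by nlinarith [hx.2]⟩
      · rw [Set.indicator_of_notMem hx, Set.indicator_of_notMem]
        intro h
        apply hx
        constructor
        · by_contra hneg
          push Not at hneg
          nlinarith [h.1]
        · by_contra hneg
          push Not at hneg
          nlinarith [h.2]
    simp only [e3]
    have hm' : Measurable ((Set.Icc (0 : ℝ) Q).indicator F) := hF.indicator measurableSet_Icc
    have h4 := lintegral_map (μ := volume) hm' (measurable_const_mul (Q : ℝ))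
    rw [← h4, Real.map_volume_mul_left hQ0.ne', lintegral_smul_measure,
      abs_of_pos (inv_pos.2 hQ0), smul_eq_mul]
  rw [lintegral_nuQ, e1, e2, ← mul_assoc]
  gcongr
  rw [← ENNReal.ofReal_natCast, ← ENNReal.ofReal_mul (by positivity)]
  apply ENNReal.ofReal_le_ofReal
  rw [← div_eq_mul_inv, div_le_iff₀ hQ0, Nat.cast_sub (by omega)]
  push_cast
  linarith

end Crest.Agent.R340.Tth927
end

-- ▼ part R340/Tth3_927
section

set_option autoImplicit false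
set_option linter.unusedSectionVars false

/-!
# Row 340: the evolution theorem and the truncations (T) in geometry theta (helper927)

`evoHyp_theta` : `Filt867.EvoHyp` for `HT t Q`, constants uniform in `Q ≥ 1` and `Adm t`;
`bT_prof` : exponential profile of `bT t Q z`; `trunc_theta` : (T) of `LR667.LocData`.
-/

open scoped ENNReal NNReal
open MeasureTheory Matrix

namespace Crest.Agent.R340.Tth927

open Crest.Agent.R340.CS809 Crest.Agent.R340.Fock649 Crest.Agent.R340.FI331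
  Crest.Agent.R340.LR667 Crest.Agent.R340.Avg814 Crest.Agent.R340.QL331
open Crest.Agent.R340.LocT163 (nuQ muQ HT bT kT vT Bv pb uF vF)
open Crest.Agent.R340.PV341 (Adm)
open Crest.Agent.R340.Filt867 (EvoHyp cPoly cPoly_nonneg cEvo)
open Crest.Agent.R340.PD757 (Kn Ks)

/-- the two names of the frame vectors -/
theorem uF_eq_uf {Q : ℕ} (hQ : 1 ≤ Q) : LocT163.uF Q = FI331.uf Q := by
  funext k g
  ext i
  rw [LocT163.uF_apply hQ, FI331.uf, vec_apply]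
  congr 1
  apply Fin.ext
  rw [idx_val hQ]
  rfl

theorem hκ_theta {Q : ℕ} (hQ : 1 ≤ Q) {t : Fin 3 → ℝ} (ht : Adm t) (X : Op (Fin (Q + 1)))
    (k : Fin 2 × Bool) (w : U2) :
    ‖⁅X, ⁅HT t Q, DC867.gen fcar (FI331.uf Q) k w⁆⁆‖ₑ ≤
      ∫⁻ y, kT t Q w y * prof (DC867.gen fcar (FI331.uf Q)) X y ∂(muQ Q) := by
  have h := LocT163.dcomm_theta hQ ht X k w
  rwa [uF_eq_uf hQ] at h

/-- a pair annihilator is even -/
theorem ev_pb {ι : Type*} [Fintype ι] [LinearOrder ι] (v1 v0 : L ι) :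
    (fcar : Car (Op ι) (L ι)).Ev (pb v1 v0) :=
  Car.ev_odd_mul_odd _ (Car.par_an _ v1) (Car.par_an _ v0)

theorem commute_th_of_ev {ι : Type*} [Fintype ι] [LinearOrder ι] {a : Op ι}
    (h : (fcar : Car (Op ι) (L ι)).Ev a) : Commute a (fcar : Car (Op ι) (L ι)).th := by
  have h1 : (fcar : Car (Op ι) (L ι)).th * a * (fcar : Car (Op ι) (L ι)).th = a := h
  show a * _ = _ * a
  calc a * (fcar : Car (Op ι) (L ι)).th
      = (fcar : Car (Op ι) (L ι)).th * a * (fcar : Car (Op ι) (L ι)).th *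
          (fcar : Car (Op ι) (L ι)).th := by rw [h1]
    _ = (fcar : Car (Op ι) (L ι)).th * a := by
        rw [mul_assoc, (fcar : Car (Op ι) (L ι)).th_sq, mul_one]

theorem ev_bT (t : Fin 3 → ℝ) (Q : ℕ) (z : U2) :
    (fcar : Car (Op (Fin (Q + 1))) (L (Fin (Q + 1)))).Ev (bT t Q z) := ev_pb _ _

theorem integrable_bb {Q : ℕ} (hQ : 1 ≤ Q) (t : Fin 3 → ℝ) :
    Integrable (fun z => star (bT t Q z) * bT t Q z) (nuQ Q) := by
  have h := LocT163.continuous_bT hQ t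
  exact LocT163.integrable_nuQ Q (h.star.mul h)

theorem HT_comm_th {Q : ℕ} (hQ : 1 ≤ Q) (t : Fin 3 → ℝ) :
    Commute (HT t Q) (fcar : Car (Op (Fin (Q + 1))) (L (Fin (Q + 1)))).th := by
  have hi := integrable_bb hQ t
  show HT t Q * _ = _ * HT t Q
  rw [LocT163.HT_eq, integral_mul_op hi, mul_integral_op hi]
  refine integral_congr_ae (Filter.Eventually.of_forall fun z => ?_)
  exact (commute_th_of_ev ((ev_bT t Q z).star.mul (ev_bT t Q z))).eq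

/-- constant of the overlaps of the frame -/
noncomputable def C12 : ℝ := 12 * Real.exp (4 * 1 ^ 2)

theorem C12_pos : 0 < C12 := by unfold C12; positivity

/-- **all hypotheses of the evolution theorem for `HT t Q`**, constants uniform in `Q ≥ 1`,
`Adm t` -/
theorem evoHyp_theta {Q : ℕ} (hQ : 1 ≤ Q) {t : Fin 3 → ℝ} (ht : Adm t) (m : ℕ) :
    EvoHyp (fcar : Car (Op (Fin (Q + 1))) (L (Fin (Q + 1)))) (muQ Q) (fb Q) (FI331.uf Q) (dQ Q)
      (HT t Q) (kT t Q) 1 (vT 1) C12 (4 * Kn (m + 7)) (2 * Ks m) m where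
  htop := alg_univ
  hH := LocT163.isSelfAdjoint_HT t Q
  hth := HT_comm_th hQ t
  hu k z := (norm_uf Q k z).le
  hκ := hκ_theta hQ ht
  hD0 := dQ_nonneg Q
  hDsymm := dQ_comm Q
  hDtri x y z := dQ_triangle Q x y z
  hDb := ⟨2 * Real.sqrt Q, dQ_le Q⟩
  hμ := one_pos
  hv := LocT163.vT_nonneg 1
  hC0 := C12_pos.le
  hS w := LocT163.schur_theta zero_le_one hQ ht w
  hov k l w z := norm_inner_uf_exp hQ 1 k l w z
  hCf := by have := PD757.Kn_pos (m + 7); positivity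
  hCn := by have := PD757.Ks_pos m; positivity
  hfar := PD757.far_B' _ m
  hnear := PD757.near_B _ m

/-! ### profile of the local pair annihilators -/

/-- constant of the profile -/
noncomputable def Cb : ℝ := 2 * (Bv + 1) * LocT163.Kd 1

theorem Cb_nonneg : 0 ≤ Cb := by
  have h1 := LocT163.Bv_nonneg
  have h2 := LocT163.Kd_nonneg 1
  unfold Cb; positivity

theorem norm_lie_pb_an {ι : Type*} [Fintype ι] [LinearOrder ι] (v1 v0 u : L ι) :
    ⁅pb v1 v0, an u⁆ = 0 := by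
  have a1 : an v1 * an u = - (an u * an v1) := eq_neg_of_add_eq_zero_left (an_an v1 u)
  have a0 : an v0 * an u = - (an u * an v0) := eq_neg_of_add_eq_zero_left (an_an v0 u)
  rw [pb, Ring.lie_def, mul_assoc, a0, mul_neg, ← mul_assoc, a1]
  simp [mul_assoc]

theorem lie_pb_cr {ι : Type*} [Fintype ι] [LinearOrder ι] (v1 v0 u : L ι) :
    ⁅pb v1 v0, cr u⁆ = (inner ℂ v0 u : ℂ) • an v1 - (inner ℂ v1 u : ℂ) • an v0 := by
  have h1 : an v1 * cr u = (inner ℂ v1 u : ℂ) • (1 : Op ι) - cr u * an v1 :=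
    eq_sub_of_add_eq (an_cr v1 u)
  have h0 : an v0 * cr u = (inner ℂ v0 u : ℂ) • (1 : Op ι) - cr u * an v0 :=
    eq_sub_of_add_eq (an_cr v0 u)
  rw [pb, Ring.lie_def, mul_assoc, h0, mul_sub, ← mul_assoc, h1, sub_mul]
  simp only [mul_smul_comm, smul_mul_assoc, mul_one, one_mul, mul_assoc]
  abel

theorem inner_uf_vF_le {μ : ℝ} (hμ : 0 ≤ μ) {Q : ℕ} (hQ : 1 ≤ Q) {t : Fin 3 → ℝ} (ht : Adm t)
    (k l : Fin 2) (w z : U2) :
    ‖(inner ℂ (FI331.uf Q k w) (vF t Q l z) : ℂ)‖ ≤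
      LocT163.Kd μ * Real.exp (-(μ + 1) * dQ Q w z) := by
  have h := LocT163.inner_decay hμ hQ ht k l w z
  rw [uF_eq_uf hQ, ← le_div_iff₀ (Real.exp_pos _)] at h
  refine h.trans (le_of_eq ?_)
  rw [div_eq_mul_inv, ← Real.exp_neg, mul_assoc, ← Real.exp_add]
  congr 2
  ring

/-- exponential profile of `bT t Q z` -/
theorem bT_prof {Q : ℕ} (hQ : 1 ≤ Q) {t : Fin 3 → ℝ} (ht : Adm t) (z : U2) (k : Fin 2 × Bool)
    (w : U2) :
    ‖⁅bT t Q z, DC867.gen fcar (FI331.uf Q) k w⁆‖ ≤ Cb * Real.exp (-1 * dQ Q w z) := by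
  have hB := LocT163.Bv_nonneg
  have hK := LocT163.Kd_nonneg 1
  obtain ⟨k, c⟩ := k
  cases c
  · rw [DC867.gen_false, fcar_an, bT, norm_lie_pb_an, norm_zero]
    exact mul_nonneg Cb_nonneg (Real.exp_pos _).le
  · rw [DC867.gen_true, fcar_cr, bT, lie_pb_cr]
    have hn : ∀ l : Fin 2, ‖(inner ℂ (vF t Q l z) (FI331.uf Q k w) : ℂ)‖ ≤
        LocT163.Kd 1 * Real.exp (-1 * dQ Q w z) := by
      intro l
      rw [norm_inner_symm]
      refine (inner_uf_vF_le zero_le_one hQ ht k l w z).trans ?_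
      have := dQ_nonneg Q w z
      gcongr
      linarith
    have hv : ∀ l : Fin 2, ‖an (vF t Q l z)‖ ≤ Bv + 1 := by
      intro l
      rw [norm_an]
      have := LocT163.norm_vF_le hQ (fun k => (ht k).1) (fun k => (ht k).2) l z
      linarith
    refine (norm_sub_le _ _).trans ?_
    rw [norm_smul, norm_smul]
    calc ‖(inner ℂ (vF t Q 0 z) (FI331.uf Q k w) : ℂ)‖ * ‖an (vF t Q 1 z)‖ +
          ‖(inner ℂ (vF t Q 1 z) (FI331.uf Q k w) : ℂ)‖ * ‖an (vF t Q 0 z)‖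
        ≤ LocT163.Kd 1 * Real.exp (-1 * dQ Q w z) * (Bv + 1) +
          LocT163.Kd 1 * Real.exp (-1 * dQ Q w z) * (Bv + 1) :=
          add_le_add (mul_le_mul (hn 0) (hv 1) (norm_nonneg _) (by positivity))
            (mul_le_mul (hn 1) (hv 0) (norm_nonneg _) (by positivity))
      _ = Cb * Real.exp (-1 * dQ Q w z) := by unfold Cb; ring

/-- bound of the norm of `bT` -/
noncomputable def Kb : ℝ := Bv ^ 2 + 1

theorem Kb_pos : 0 < Kb := by unfold Kb; positivity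

theorem norm_bT_le' {Q : ℕ} (hQ : 1 ≤ Q) {t : Fin 3 → ℝ} (ht : Adm t) (z : U2) :
    ‖bT t Q z‖ ≤ Kb := by
  have := LocT163.norm_bT_le hQ ht z
  unfold Kb; linarith

/-- the constants of (T) -/
noncomputable def Dt (M : ℕ) : ℝ :=
  Kb + 4 * Kn (M + 3) * (Kb * cPoly (vT 1) 1 (Cb / Kb) (M + 1 + 4))

theorem Dt_ge (M : ℕ) : Kb ≤ Dt M := by
  have h1 := PD757.Kn_pos (M + 3)
  have h2 := Kb_pos
  have h3 := cPoly_nonneg (LocT163.vT_nonneg 1) one_pos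
    (div_nonneg Cb_nonneg h2.le) (M + 1 + 4)
  have : 0 ≤ 4 * Kn (M + 3) * (Kb * cPoly (vT 1) 1 (Cb / Kb) (M + 1 + 4)) := by positivity
  unfold Dt; linarith

theorem Dt_nonneg (M : ℕ) : 0 ≤ Dt M := Kb_pos.le.trans (Dt_ge M)

/-- **(T) in geometry theta** -/
theorem trunc_theta {Q : ℕ} (hQ : 1 ≤ Q) {t : Fin 3 → ℝ} (ht : Adm t) (M : ℕ) (s : ℝ) (z : U2) :
    Trunc (fb Q z) (tau (HT t Q) s (bT t Q z)) (Dt M * (1 + |s|) ^ (M + 5)) M := by
  have hKb := Kb_pos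
  have h := trunc_tau (muQ Q) (fb Q) (LocT163.isSelfAdjoint_HT t Q)
    (u := FI331.uf Q) (fun k z => (norm_uf Q k z).le) (κ := kT t Q) (hκ_theta hQ ht)
    (D := dQ Q) (dQ_nonneg Q) (fun x y z => dQ_triangle Q x y z) ⟨2 * Real.sqrt Q, dQ_le Q⟩
    (μ0 := 1) (v := vT 1) (C0 := Cb / Kb) one_pos (LocT163.vT_nonneg 1)
    (div_nonneg Cb_nonneg hKb.le)
    (fun w => LocT163.schur_theta zero_le_one hQ ht w) (M := M + 1)
    (Cf := 4 * Kn (M + 3)) (PD757.far_B _ M) (X := bT t Q z) (x := z) hKb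
    (norm_bT_le' hQ ht z) (by
      intro k w
      refine (bT_prof hQ ht z k w).trans (le_of_eq ?_)
      rw [mul_div_cancel₀ _ hKb.ne']) s
  intro l
  obtain ⟨Y, hY1, hY2⟩ := h l
  refine ⟨Y, hY1, hY2.trans ?_⟩
  have h1 : ((1 / 2 : ℝ) ^ (M + 1)) ^ l ≤ ((1 / 2 : ℝ) ^ M) ^ l :=
    pow_le_pow_left₀ (by positivity) (pow_le_pow_of_le_one (by norm_num) (by norm_num)
      (Nat.le_succ M)) l
  have h2 := PD757.Kn_pos (M + 3)
  have h3 := cPoly_nonneg (LocT163.vT_nonneg 1) one_pos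
    (div_nonneg Cb_nonneg hKb.le) (M + 1 + 4)
  have h4 : 4 * Kn (M + 3) * (Kb * cPoly (vT 1) 1 (Cb / Kb) (M + 1 + 4)) ≤ Dt M := by
    unfold Dt; linarith
  have h5 : 0 ≤ 1 + |s| := by positivity
  have h6 := Dt_nonneg M
  calc 4 * Kn (M + 3) * (Kb * cPoly (vT 1) 1 (Cb / Kb) (M + 1 + 4)) * (1 + |s|) ^ (M + 1 + 4) *
        ((1 / 2 : ℝ) ^ (M + 1)) ^ l
      ≤ Dt M * (1 + |s|) ^ (M + 1 + 4) * ((1 / 2 : ℝ) ^ M) ^ l := by gcongr
    _ = _ := by rw [show M + 1 + 4 = M + 5 by ring]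

end Crest.Agent.R340.Tth927
end

-- ▼ part R340/Tth4_927
section

set_option autoImplicit false
set_option linter.unusedSectionVars false

/-!
# Row 340: distances, Schur integrals and profile classes in geometry theta (helper927)

`DR_le_dQ` : the two-pole distance of the centres is at most `dQ`; `lint3_nuQ`;
`bT_PC`, `tau_PC`, `Fl_PC`, `SS_PC` : the profile class under the evolution by `HT t Q`.
-/

open scoped ENNReal NNReal
open MeasureTheory Matrix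

namespace Crest.Agent.R340.Tth927

open Crest.Agent.R340.CS809 Crest.Agent.R340.Fock649 Crest.Agent.R340.FI331
  Crest.Agent.R340.LR667 Crest.Agent.R340.Avg814 Crest.Agent.R340.QL331
open Crest.Agent.R340.LocT163 (nuQ muQ HT bT kT vT Bv)
open Crest.Agent.R340.PV341 (Adm)
open Crest.Agent.R340.Filt867 (EvoHyp cPoly cEvo mom)
open Crest.Agent.R340.PD757 (Kn Ks)

theorem abs_sqrt_sq_add_one_sub_le (x y : ℝ) :
    |Real.sqrt (x ^ 2 + 1) - Real.sqrt (y ^ 2 + 1)| ≤ |x - y| := by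
  have hx := Real.sq_sqrt (show (0 : ℝ) ≤ x ^ 2 + 1 by positivity)
  have hy := Real.sq_sqrt (show (0 : ℝ) ≤ y ^ 2 + 1 by positivity)
  have hx0 := Real.sqrt_nonneg (x ^ 2 + 1)
  have hy0 := Real.sqrt_nonneg (y ^ 2 + 1)
  set a := Real.sqrt (x ^ 2 + 1)
  set b := Real.sqrt (y ^ 2 + 1)
  rw [← sq_le_sq]
  have h1 : (x * y + 1) ≤ a * b := by
    have h2 : (x * y + 1) ^ 2 ≤ (a * b) ^ 2 := by
      rw [mul_pow, hx, hy]
      nlinarith [sq_nonneg (x - y)]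
    exact (abs_le_of_sq_le_sq' h2 (mul_nonneg hx0 hy0)).2
  nlinarith

theorem two_pole_aux {a b a' b' o : ℝ} (ha0 : 0 ≤ a) (hb0 : 0 ≤ b) (ha0' : 0 ≤ a') (hb0' : 0 ≤ b')
    (h1 : b ^ 2 = 1 - a ^ 2) (h2 : b' ^ 2 = 1 - a' ^ 2) (ho : o ≤ (a * a' + b * b') ^ 2) :
    (|a - a'| + |b - b'|) ^ 2 ≤ 4 * (1 - o) := by
  have hs0 : 0 ≤ a * a' + b * b' := by positivity
  have hs1 : a * a' + b * b' ≤ 1 := by nlinarith [sq_nonneg (a - a'), sq_nonneg (b - b')]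
  have h5 : o ≤ a * a' + b * b' := ho.trans (by nlinarith)
  have h6 : (|a - a'| + |b - b'|) ^ 2 ≤ 2 * ((a - a') ^ 2 + (b - b') ^ 2) := by
    have := sq_nonneg (|a - a'| - |b - b'|)
    have k1 := sq_abs (a - a')
    have k2 := sq_abs (b - b')
    nlinarith
  have h7 : (a - a') ^ 2 + (b - b') ^ 2 = 2 - 2 * (a * a' + b * b') := by
    have : (a - a') ^ 2 + (b - b') ^ 2 = a ^ 2 + b ^ 2 + (a' ^ 2 + b' ^ 2) -
        2 * (a * a' + b * b') := by ring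
    rw [this, h1, h2]; ring
  linarith

/-- **the two-pole distance of the centres** -/
theorem DR_le_dQ (Q : ℕ) (z g : U2) : DR Q (JJ Q z) (JJ Q g) ≤ dQ Q z g := by
  have hQ : (0 : ℝ) ≤ Q := Nat.cast_nonneg Q
  have hq := Real.sq_sqrt hQ
  have hq0 := Real.sqrt_nonneg (Q : ℝ)
  set q := Real.sqrt (Q : ℝ)
  set a := ‖(z : Matrix (Fin 2) (Fin 2) ℂ) 1 0‖ with ha
  set b := ‖(z : Matrix (Fin 2) (Fin 2) ℂ) 0 0‖ with hb
  set a' := ‖(g : Matrix (Fin 2) (Fin 2) ℂ) 1 0‖ with ha'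
  set b' := ‖(g : Matrix (Fin 2) (Fin 2) ℂ) 0 0‖ with hb'
  have ha0 : 0 ≤ a := norm_nonneg _
  have hb0 : 0 ≤ b := norm_nonneg _
  have ha0' : 0 ≤ a' := norm_nonneg _
  have hb0' : 0 ≤ b' := norm_nonneg _
  have h1 : b ^ 2 = 1 - a ^ 2 := norm_00 z
  have h2 : b' ^ 2 = 1 - a' ^ 2 := norm_00 g
  have e1 : JJ Q z + 1 = (q * a) ^ 2 + 1 := by
    rw [mul_pow, hq]; rfl
  have e2 : JJ Q g + 1 = (q * a') ^ 2 + 1 := by
    rw [mul_pow, hq]; rfl
  have e3 : (Q : ℝ) - JJ Q z + 1 = (q * b) ^ 2 + 1 := by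
    rw [mul_pow, hq, h1]
    show (Q : ℝ) - Q * a ^ 2 + 1 = _
    ring
  have e4 : (Q : ℝ) - JJ Q g + 1 = (q * b') ^ 2 + 1 := by
    rw [mul_pow, hq, h2]
    show (Q : ℝ) - Q * a' ^ 2 + 1 = _
    ring
  have f1 := abs_sqrt_sq_add_one_sub_le (q * a) (q * a')
  have f2 := abs_sqrt_sq_add_one_sub_le (q * b) (q * b')
  have g1 : |q * a - q * a'| = q * |a - a'| := by
    rw [← mul_sub, abs_mul, abs_of_nonneg hq0]
  have g2 : |q * b - q * b'| = q * |b - b'| := by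
    rw [← mul_sub, abs_mul, abs_of_nonneg hq0]
  have hov : ov z g ≤ (a * a' + b * b') ^ 2 := by
    have h3 : ‖((z : Matrix (Fin 2) (Fin 2) ℂ)ᴴ * (g : Matrix (Fin 2) (Fin 2) ℂ)) 0 0‖ ≤
        a * a' + b * b' := by
      rw [Matrix.mul_apply, Fin.sum_univ_two, conjTranspose_apply, conjTranspose_apply]
      refine (norm_add_le _ _).trans ?_
      rw [norm_mul, norm_mul, norm_star, norm_star]
      linarith
    unfold ov
    gcongr
  have hd := dQ_sq Q z g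
  have hd0 := dQ_nonneg Q z g
  have hmain : (q * |a - a'| + q * |b - b'|) ^ 2 ≤ dQ Q z g ^ 2 := by
    have h6 := two_pole_aux ha0 hb0 ha0' hb0' h1 h2 hov
    have e5 : (q * |a - a'| + q * |b - b'|) ^ 2 = Q * (|a - a'| + |b - b'|) ^ 2 := by
      rw [← mul_add, mul_pow, hq]
    rw [e5, hd]
    calc (Q : ℝ) * (|a - a'| + |b - b'|) ^ 2 ≤ Q * (4 * (1 - ov z g)) := by gcongr
      _ = 4 * (Q * (1 - ov z g)) := by ring
  have h8 : q * |a - a'| + q * |b - b'| ≤ dQ Q z g :=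
    (abs_le_of_sq_le_sq' hmain hd0).2
  unfold DR
  rw [e1, e2, e3, e4]
  linarith

theorem nuQ_eq_smul (Q : ℕ) : nuQ Q = (((2 * Q - 1 : ℕ) : ℝ≥0)) • hm := by
  unfold LocT163.nuQ
  ext s hs
  simp only [Measure.smul_apply, smul_eq_mul, ENNReal.smul_def]
  rfl

theorem muQ_eq_smul (Q : ℕ) : muQ Q = (((Q + 1 : ℕ) : ℝ≥0)) • hm := by
  unfold LocT163.muQ
  ext s hs
  simp only [Measure.smul_apply, smul_eq_mul, ENNReal.smul_def]
  rfl

theorem nuQ_const_le (Q : ℕ) : ((((2 * Q - 1 : ℕ) : ℝ≥0)) : ℝ) ≤ 2 * Q := by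
  have : 2 * Q - 1 ≤ 2 * Q := Nat.sub_le _ _
  exact_mod_cast this

theorem muQ_const_le {Q : ℕ} (hQ : 1 ≤ Q) : ((((Q + 1 : ℕ) : ℝ≥0)) : ℝ) ≤ 2 * Q := by
  have : Q + 1 ≤ 2 * Q := by omega
  exact_mod_cast this

/-- `∫⁻ (1+dQ)^{-3} dnuQ ≤ 1` -/
theorem lint3_nuQ {Q : ℕ} (hQ : 1 ≤ Q) (g : U2) :
    ∫⁻ h, ENNReal.ofReal (1 / (1 + dQ Q g h) ^ 3) ∂(nuQ Q) ≤ 1 := by
  rw [nuQ_eq_smul]
  exact lint3 hQ (nuQ_const_le Q) g



theorem schur_muQ {Q : ℕ} (hQ : 1 ≤ Q) : QL331.Schur (muQ Q) (FI331.uf Q) (dQ Q) 1 Kg := by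
  rw [muQ_eq_smul]
  exact schur_inst hQ (muQ_const_le hQ)

/-! ### profile classes -/





variable {Q : ℕ} {t : Fin 3 → ℝ} {X : Op (Fin (Q + 1))} {x : U2} {m : ℕ} {C : ℝ}

/-- constant of the evolution in the class of exponent `m` -/
noncomputable def Ev0 (m : ℕ) : ℝ :=
  1 + cEvo (vT 1) 1 C12 (4 * Kn (m + 7)) (2 * Ks m) m

theorem cEvo_theta_nonneg (m : ℕ) : 0 ≤ cEvo (vT 1) 1 C12 (4 * Kn (m + 7)) (2 * Ks m) m :=
  Filt867.cEvo_nonneg one_pos (LocT163.vT_nonneg 1) C12_pos.le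
    (by have := PD757.Kn_pos (m + 7); positivity) (by have := PD757.Ks_pos m; positivity)

theorem Ev0_nonneg (m : ℕ) : 0 ≤ Ev0 m := by
  have := cEvo_theta_nonneg m
  unfold Ev0; linarith

/-- **evolution in the profile class, geometry theta** -/
theorem tau_PC (hQ : 1 ≤ Q) (ht : Adm t)
    (hX : (fcar : Car (Op (Fin (Q + 1))) (L (Fin (Q + 1)))).Ev X)
    (h : PC (fcar : Car (Op (Fin (Q + 1))) (L (Fin (Q + 1)))) (FI331.uf Q) (dQ Q) m C X x) (s : ℝ) :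
    PC (fcar : Car (Op (Fin (Q + 1))) (L (Fin (Q + 1)))) (FI331.uf Q) (dQ Q) m
      (Ev0 m * (1 + |s|) ^ (m + 9) * C) (tau (HT t Q) s X) x := by
  have hC : 0 ≤ C := (norm_nonneg _).trans h.1
  have hc := cEvo_theta_nonneg m
  have hs : (1 : ℝ) ≤ (1 + |s|) ^ (m + 9) := one_le_pow₀ (by linarith [abs_nonneg s])
  have h0 : 1 ≤ Ev0 m * (1 + |s|) ^ (m + 9) := by
    have : 1 ≤ Ev0 m := by unfold Ev0; linarith
    nlinarith
  refine ⟨?_, fun k w => ?_⟩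
  · rw [norm_tau (LocT163.isSelfAdjoint_HT t Q)]
    exact h.1.trans (le_mul_of_one_le_left hC h0)
  · have h1 := (evoHyp_theta hQ ht m).tau hX hC h.2 s k w
    refine h1.trans ?_
    have hd := dQ_nonneg Q w x
    apply div_le_div_of_nonneg_right _ (by positivity)
    have h2 : cEvo (vT 1) 1 C12 (4 * Kn (m + 7)) (2 * Ks m) m ≤ Ev0 m := by
      unfold Ev0; linarith
    calc _ ≤ Ev0 m * C * (1 + |s|) ^ (m + 9) := by gcongr
      _ = _ := by ring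


/-- `S(X)` in the profile class -/
theorem SS_PC (hQ : 1 ≤ Q) (ht : Adm t) {g : ℝ → ℝ} (hg : IsFilter g)
    (hX : (fcar : Car (Op (Fin (Q + 1))) (L (Fin (Q + 1)))).Ev X)
    (h : PC (fcar : Car (Op (Fin (Q + 1))) (L (Fin (Q + 1)))) (FI331.uf Q) (dQ Q) m C X x) :
    PC (fcar : Car (Op (Fin (Q + 1))) (L (Fin (Q + 1)))) (FI331.uf Q) (dQ Q) m
      (Ev0 m * mom g (m + 10) * C) (SS g (HT t Q) X) x := by
  have hC : 0 ≤ C := (norm_nonneg _).trans h.1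
  have hc := cEvo_theta_nonneg m
  have hm := Filt867.mom_nonneg g (m + 10)
  have hm0 := Filt867.mom_mono hg (show 1 ≤ m + 10 by omega)
  have hm00 := Filt867.mom_nonneg g 1
  refine ⟨?_, fun k w => ?_⟩
  · refine (Filt867.norm_SS_le_mom hg (LocT163.isSelfAdjoint_HT t Q) X).trans ?_
    calc ‖X‖ * mom g 1 ≤ C * mom g (m + 10) := by gcongr; exact h.1
      _ ≤ Ev0 m * mom g (m + 10) * C := by
        have : 1 ≤ Ev0 m := by unfold Ev0; linarith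
        nlinarith [mul_nonneg hm hC]
  · have h1 := (evoHyp_theta hQ ht m).SS hg hX hC h.2 k w
    refine h1.trans ?_
    have hd := dQ_nonneg Q w x
    apply div_le_div_of_nonneg_right _ (by positivity)
    have h2 : cEvo (vT 1) 1 C12 (4 * Kn (m + 7)) (2 * Ks m) m ≤ Ev0 m := by
      unfold Ev0; linarith
    gcongr

end Crest.Agent.R340.Tth927
end

-- ▼ part R340/Tz8_877
section

/-!
# Row 340, block O10: **(TZ)**, the local decomposition of the cross term (helper877)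
-/

set_option autoImplicit false

namespace Crest.Agent.R340.Tz877

open Finset Complex MeasureTheory
open Crest.Agent.R340.Fock649 Crest.Agent.R340.FI331 Crest.Agent.R340.QL331
open Crest.Agent.R340.LR667
open Crest.Agent.R340.CS809 (U2 dQ dQ_nonneg)
open Crest.Agent.R340.Avg814 (G2 hm tt norm_00 continuous_tt)
open Crest.Agent.R340.LocT163 (nuQ muQ HT bT vF continuous_bT HT_eq integrable_nuQ
  isSelfAdjoint_HT HT_mul_pj bT_mul_pj)
open Crest.Agent.R340.Geo986 (Zs nuT nu0 GapG)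
open Crest.Agent.R340.GG467 (pj isSelfAdjoint_pj)
open Crest.Agent.R340.PV341 (Adm)
open Crest.Agent.R340.Step596 (tA)
open Crest.Agent.R340.PathStep880 (gm adm_tA)
open Crest.Agent.R340.Scal725 (prof)

/-- `-∑_{k<3} log (i+k+1)` -/
noncomputable def G3 (i : ℕ) : ℝ := -((Real.log (i + 1) + Real.log (i + 2)) + Real.log (i + 3))

/-- its value at a real point -/
noncomputable def a3 (m : ℝ) : ℝ := -((Real.log (m + 1) + Real.log (m + 2)) + Real.log (m + 3))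

/-- its slope -/
noncomputable def b3 (m : ℝ) : ℝ := -((1 / (m + 1) + 1 / (m + 2)) + 1 / (m + 3))

/-- the linearised metric profile about `z` -/
noncomputable def Xm (Q : ℕ) (z : U2) : Matrix (Fin (Q + 1)) (Fin (Q + 1)) ℂ :=
  dg fun j : Fin (Q + 1) => G3 (Q - j) - a3 (Q * (1 - tt z)) -
    b3 (Q * (1 - tt z)) * (((Q - (j : ℕ) : ℕ) : ℝ) - Q * (1 - tt z))

/-- a linearised profile about `z` -/
noncomputable def Bm (Q : ℕ) (f : ℕ → ℝ) (α β : ℝ → ℝ) (z : U2) :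
    Matrix (Fin (Q + 1)) (Fin (Q + 1)) ℂ :=
  dg fun j : Fin (Q + 1) => f j - α (Q * tt z) - β (Q * tt z) * (((j : ℕ) : ℝ) - Q * tt z)

theorem Xm_eq (Q : ℕ) (z : U2) : Xm Q z = dg fun j : Fin (Q + 1) => gm 3 Q j -
    (a3 (Q * (1 - tt z)) + b3 (Q * (1 - tt z)) * (Q - Q * (1 - tt z))) -
      (-b3 (Q * (1 - tt z))) * ((j : ℕ) : ℝ) := by
  unfold Xm
  congr 1
  funext j
  have hj : (j : ℕ) ≤ Q := Nat.lt_succ_iff.1 j.2
  rw [gm_three Q j hj, Nat.cast_sub hj]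
  unfold G3
  rw [Nat.cast_sub hj]
  ring

theorem Bm_eq (Q : ℕ) (f : ℕ → ℝ) (α β : ℝ → ℝ) (z : U2) : Bm Q f α β z =
    dg fun j : Fin (Q + 1) => f j - (α (Q * tt z) - β (Q * tt z) * (Q * tt z)) -
      β (Q * tt z) * ((j : ℕ) : ℝ) := by
  unfold Bm
  congr 1
  funext j
  ring

theorem tt_nonneg (z : U2) : 0 ≤ tt z := sq_nonneg _

theorem tt_le_one (z : U2) : tt z ≤ 1 := by
  have := norm_00 z
  nlinarith [sq_nonneg ‖(z : Matrix (Fin 2) (Fin 2) ℂ) 0 0‖]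

theorem continuous_dg {Q : ℕ} {f : U2 → Fin (Q + 1) → ℝ} (h : ∀ j, Continuous fun z => f z j) :
    Continuous fun z => dg (f z) := by
  unfold dg
  refine Continuous.matrix_diagonal (continuous_pi fun j => ?_)
  exact Complex.continuous_ofReal.comp (h j)

theorem continuous_Xm (Q : ℕ) : Continuous (Xm Q) := by
  have ht : Continuous (fun z : U2 => tt z) := continuous_tt
  have hp : ∀ (z : U2) (k : ℝ), 0 < k → (Q : ℝ) * (1 - tt z) + k ≠ 0 := fun z k hk => by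
    have h1 := sub_nonneg.2 (tt_le_one z)
    positivity
  have hl : Continuous fun z : U2 => (Q : ℝ) * (1 - tt z) :=
    continuous_const.mul (continuous_const.sub ht)
  refine continuous_dg fun j => ?_
  have ha : Continuous fun z : U2 => a3 (Q * (1 - tt z)) := by
    unfold a3
    refine (((hl.add continuous_const).log fun z => hp z 1 one_pos).add
      ((hl.add continuous_const).log fun z => hp z 2 two_pos)).add
      ((hl.add continuous_const).log fun z => hp z 3 three_pos) |>.neg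
  have hb : Continuous fun z : U2 => b3 (Q * (1 - tt z)) := by
    unfold b3
    refine (((continuous_const.div (hl.add continuous_const) fun z => hp z 1 one_pos).add
      (continuous_const.div (hl.add continuous_const) fun z => hp z 2 two_pos)).add
      (continuous_const.div (hl.add continuous_const) fun z => hp z 3 three_pos)).neg
  exact (continuous_const.sub ha).sub (hb.mul (continuous_const.sub hl))

theorem continuous_Bm (Q : ℕ) (f : ℕ → ℝ) {α β : ℝ → ℝ} (hα : Continuous α) (hβ : Continuous β) :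
    Continuous (Bm Q f α β) := by
  have ht : Continuous (fun z : U2 => tt z) := continuous_tt
  have hl : Continuous fun z : U2 => (Q : ℝ) * tt z := continuous_const.mul ht
  refine continuous_dg fun j => ?_
  exact (continuous_const.sub (hα.comp hl)).sub ((hβ.comp hl).mul (continuous_const.sub hl))

/-- the constants of the metric profile -/
noncomputable def c3 (M : ℕ) : ℝ :=
  kC (fun p => 1826 * cLin p + 1826 * cLin p + 1826 * cLin p) (1 + 1 + 1) M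

theorem c3_nonneg (M : ℕ) : 0 ≤ c3 M :=
  kC_nonneg (linD_gm 0).C_nonneg (linD_gm 0).CL_nonneg M

theorem kbd_Xm (Q : ℕ) (z : U2) : KBd (uf Q) (dQ Q) (Xm Q z) z 12
    ((1 + Q * tt z * (1 - tt z)) * (1 / (1 + Q * (1 - tt z)) ^ 2)) c3 :=
  kbd_south (linD_gm Q) z

/-! ### continuity and particle number -/

theorem continuous_Top {Q : ℕ} (hQ : 1 ≤ Q) (t : Fin 3 → ℝ) {w : ℝ → ℝ} (hw : IsFilter w)
    {X B : U2 → Matrix (Fin (Q + 1)) (Fin (Q + 1)) ℂ} (hX : Continuous X) (hB : Continuous B) :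
    Continuous fun z => Top w (HT t Q) (vF t Q 1 z) (vF t Q 0 z) (X z) (B z) := by
  have hH := isSelfAdjoint_HT t Q
  have hb : Continuous fun z => an (vF t Q 1 z) * an (vF t Q 0 z) := continuous_bT hQ t
  have hdX : Continuous fun z => dG (X z) := (Avg814.continuous_dG Q).comp hX
  have hdB : Continuous fun z => dG (B z) := (Avg814.continuous_dG Q).comp hB
  have hS : Continuous fun z => SS w (HT t Q) (dG (B z)) := by
    have h := (Filt867.SSL hw hH).continuous.comp hdB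
    exact h
  have hs : Continuous fun z => star (an (vF t Q 1 z) * an (vF t Q 0 z)) :=
    continuous_star.comp hb
  unfold Top
  simp only [Ring.lie_def]
  exact ((((hdX.mul hs).sub (hs.mul hdX)).mul ((hb.mul hS).sub (hS.mul hb))).const_smul I).neg

section shift

variable {R : Type*} [Ring R] [Algebra ℂ R] {N A B : R} {a b : ℂ}

theorem lie_shift (hA : N * A - A * N = a • A) (hB : N * B = B * N) :
    N * ⁅A, B⁆ - ⁅A, B⁆ * N = a • ⁅A, B⁆ := by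
  have e : N * (A * B - B * A) - (A * B - B * A) * N =
      (N * A - A * N) * B + A * (N * B - B * N) - (N * B - B * N) * A - B * (N * A - A * N) := by
    noncomm_ring
  rw [Ring.lie_def, e, hA, hB, sub_self, mul_zero, zero_mul, add_zero, sub_zero, smul_mul_assoc,
    mul_smul_comm, smul_sub]

theorem lie_shift' (hA : N * A - A * N = a • A) (hB : N * B = B * N) :
    N * ⁅B, A⁆ - ⁅B, A⁆ * N = a • ⁅B, A⁆ := by
  have h := lie_shift hA hB
  rw [← neg_inj, ← smul_neg, show -⁅B, A⁆ = ⁅A, B⁆ by rw [Ring.lie_def, Ring.lie_def]; abel, ← h,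
    show ⁅A, B⁆ = -⁅B, A⁆ by rw [Ring.lie_def, Ring.lie_def]; abel]
  noncomm_ring

theorem mul_shift (hA : N * A - A * N = a • A) (hB : N * B - B * N = b • B) :
    N * (A * B) - A * B * N = (a + b) • (A * B) := by
  have e : N * (A * B) - A * B * N = (N * A - A * N) * B + A * (N * B - B * N) := by noncomm_ring
  rw [e, hA, hB, smul_mul_assoc, mul_smul_comm, add_smul]

end shift

theorem commute_Top {Q : ℕ} (hQ : 1 ≤ Q) (t : Fin 3 → ℝ) {w : ℝ → ℝ} (hw : IsFilter w)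
    (v1 v0 : L (Fin (Q + 1))) (X B : Matrix (Fin (Q + 1)) (Fin (Q + 1)) ℂ) :
    Commute (Top w (HT t Q) v1 v0 X B) (Nh : Op (Fin (Q + 1))) := by
  have hS : Nh * SS w (HT t Q) (dG B) = SS w (HT t Q) (dG B) * Nh :=
    (Filt867.SS_comm hw (isSelfAdjoint_HT t Q) (TzP421.HT_comm_Nh hQ t)
      (show Commute (dG B) Nh from (Nh_comm_dG B).symm)).symm
  have h1 : ∀ v : L (Fin (Q + 1)), Nh * an v - an v * Nh = (-1 : ℂ) • an v := fun v => by
    rw [Nh_comm_an, neg_one_smul]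
  have h2 : ∀ v : L (Fin (Q + 1)), Nh * cr v - cr v * Nh = (1 : ℂ) • cr v := fun v => by
    rw [Nh_comm_cr, one_smul]
  have h3 := lie_shift (mul_shift (h1 v1) (h1 v0)) hS
  have h4 := lie_shift' (mul_shift (h2 v0) (h2 v1)) (Nh_comm_dG X)
  have h5 := mul_shift h4 h3
  rw [show (1 + 1 + (-1 + -1) : ℂ) = 0 by norm_num, zero_smul, sub_eq_zero] at h5
  unfold Top
  rw [star_pair]
  refine Commute.neg_left (Commute.smul_left ?_ _)
  exact h5.symm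

/-- **(TZ)** from the gap in the round geometry -/
theorem exists_TZ {γ₀ : ℝ} (hγ : 0 < γ₀) (hG : ∀ Q : ℕ, GapG (nu0 Q) Q γ₀) (k : ℕ) {A : ℝ}
    (hA : 1 ≤ A) (hA2 : A ≤ 2) : ∃ K, Defs150.TZ (k + 1) A K := by
  obtain ⟨w, hw, hkill⟩ := TzP421.hkill_theta γ₀ hγ hG
  obtain ⟨C, CL, hC, hprof⟩ := TzL757.exists_linD_prof hA hA2
  set c : ℕ → ℝ := fun M => c3 M + |kC C CL M| with hc
  set κ : ℝ := cTop 1 Kg 12 c TzC757.cV TzC757.cV w Tth927.Ev0 (fun m => m + 9) (k + 5) with hκ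
  refine ⟨8 * FX963.KB k * |κ|, ?_, ?_⟩
  · have := FX963.KB_pos k
    positivity
  intro Q hQ θ hθ S hS
  obtain ⟨α, β, hα, hβ, hL⟩ := hprof S hS
  have ht : Adm (tA θ) := adm_tA hθ
  set t : Fin 3 → ℝ := tA θ with htdef
  have hkC : ∀ M, 0 ≤ kC C CL M := kC_nonneg hC (hL Q).CL_nonneg
  have hH := isSelfAdjoint_HT t Q
  have hNh := TzP421.HT_comm_Nh hQ t
  set T : U2 → Op (Fin (Q + 1)) := fun z =>
    Top w (HT t Q) (vF t Q 1 z) (vF t Q 0 z) (Xm Q z) (Bm Q (prof A S) α β z) with hT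
  have hTc : Continuous T :=
    continuous_Top hQ t hw (continuous_Xm Q) (continuous_Bm Q (prof A S) hα hβ)
  have hTN : ∀ g, Commute (T g) (Nh : Op (Fin (Q + 1))) := fun g =>
    commute_Top hQ t hw _ _ _ _
  have hid : pj (Zs (nuT t Q) Q) * dG (dg fun i : Fin (Q + 1) => gm 3 Q i) *
      (1 - pj (Zs (nuT t Q) Q)) * dG (dg fun i : Fin (Q + 1) => prof A S i) *
        pj (Zs (nuT t Q) Q) =
      ∫ g, pj (Zs (nuT t Q) Q) * T g * pj (Zs (nuT t Q) Q) ∂(nuQ Q) := by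
    refine cluster_Top hw hH (isSelfAdjoint_pj _) (HT_mul_pj hQ) (hkill Q hQ t ht) ?_ ?_ ?_ ?_ ?_ ?_
    · exact integrable_nuQ Q ((continuous_star.comp (continuous_bT hQ t)).mul (continuous_bT hQ t))
    · exact HT_eq t Q
    · exact fun z => bT_mul_pj hQ z
    · intro z
      rw [Xm_eq]
      exact TzP421.pj_comm_sub_tan _ _ _ _
    · intro z
      rw [Bm_eq]
      exact TzP421.HT_comm_sub_tan hQ t _ _ _
    · intro z
      rw [Bm_eq]
      exact TzP421.pj_comm_sub_tan _ _ _ _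
  have hPC : ∀ g, PC (FX963.Rq Q) (uf Q) (dQ Q) (k + 5)
      (κ * (((1 + Q * tt g * (1 - tt g)) * (1 / (1 + Q * (1 - tt g)) ^ 2)) *
        ((1 + Q * tt g * (1 - tt g)) * ((S / (S + Q * tt g)) ^ A / (S + Q * tt g) ^ 2))))
      (T g) g := by
    intro g
    have hX : KBd (uf Q) (dQ Q) (Xm Q g) g 12
        ((1 + Q * tt g * (1 - tt g)) * (1 / (1 + Q * (1 - tt g)) ^ 2)) c :=
      (kbd_Xm Q g).mono (dQ_nonneg Q) fun M => le_add_of_nonneg_right (abs_nonneg _)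
    have hB : KBd (uf Q) (dQ Q) (Bm Q (prof A S) α β g) g 12
        ((1 + Q * tt g * (1 - tt g)) * ((S / (S + Q * tt g)) ^ A / (S + Q * tt g) ^ 2)) c :=
      (kbd_north (hL Q) g).mono (dQ_nonneg Q) fun M =>
        (le_abs_self _).trans (le_add_of_nonneg_left (c3_nonneg M))
    have hE : Evo (uf Q) (dQ Q) (HT t Q) Tth927.Ev0 (fun m => m + 9) := by
      intro m C' X x hXe hX s
      exact Tth927.tau_PC hQ ht hXe hX s
    exact PC_Top (TzC757.schur_muQ hQ) (TzC757.reso_uf hQ 0) hw hH (Tth927.HT_comm_th hQ t) Tth927.Ev0_nonneg hE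
      (TzC757.locV_theta hQ ht 0 g) (TzC757.locV_theta hQ ht 1 g) hX hB (k + 5)
  obtain ⟨T', hT'c, hT'D, hT'i⟩ := TzB963.adapter hTc hTN hid hPC
  refine ⟨T', hT'c, fun g => ⟨(hT'D g).1, (hT'D g).2.mono ?_⟩, hT'i⟩
  have hKB := FX963.KB_pos k
  have h1 := T1T2_le hQ (tt_nonneg g) (tt_le_one g) (S := S) (A := A) (by linarith)
  have h2 : 0 ≤ ((1 + Q * tt g * (1 - tt g)) * (1 / (1 + Q * (1 - tt g)) ^ 2)) *
        ((1 + Q * tt g * (1 - tt g)) * ((S / (S + Q * tt g)) ^ A / (S + Q * tt g) ^ 2)) := by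
    have := tt_nonneg g
    have := sub_nonneg.2 (tt_le_one g)
    have : 0 < S := by linarith
    positivity
  calc 2 * FX963.KB k * (κ * (((1 + Q * tt g * (1 - tt g)) * (1 / (1 + Q * (1 - tt g)) ^ 2)) *
        ((1 + Q * tt g * (1 - tt g)) * ((S / (S + Q * tt g)) ^ A / (S + Q * tt g) ^ 2))))
      ≤ 2 * FX963.KB k * (|κ| * (4 / ((Q : ℝ) + 1) ^ 2 * (1 + Q * tt g / S) ^ (-A))) := by
        gcongr
        exact le_abs_self κ
    _ = _ := by ring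

end Crest.Agent.R340.Tz877
end

-- ▼ part R340/TX1_880
section

/-!
# R340, (TX) part 1 (helper880): the coefficients of the pair annihilators `Bg (nuT t Q) Q p`

`tail_le`: the part of `Bg` on the pairs with an orbital `< L`, `4 L ≤ p`, is small: for every `M`
`∑_{x ∈ pairs Q p, x.1 < L} |β x| ≤ K_M (sj p)⁻ᴹ`, uniformly in `Q`, `t`, `L`, `p`;
`sum_abs_le`: `∑_{x ∈ pairs Q p} |β x| ≤ sj p`.
-/

set_option autoImplicit false

namespace Crest.Agent.R340.TX880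

open Finset
open Crest.Agent.R340.Fock649 Crest.Agent.R340.Geo986
open Crest.Agent.R340.PV341 (Adm G G_pos half mem_half)
open Crest.Agent.R340.PD757 (sj sj_sq sj_pos one_le_sj)

/-! ### 1. one step of the ratio -/

theorem pow_ratio (τ x y : ℝ) (h1 : τ ≤ 1 / 2) (hy : 0 < y) (hyx : y ≤ x) :
    ((x + 1) ^ (-τ) * y ^ (-τ)) ^ 2 * ((x + 1) * y) ≤
      (x ^ (-τ) * (y + 1) ^ (-τ)) ^ 2 * (x * (y + 1)) := by
  have hx : 0 < x := by linarith
  have e1 : ((x + 1) ^ (-τ) * y ^ (-τ)) ^ 2 * ((x + 1) * y) = ((x + 1) * y) ^ (1 - 2 * τ) := by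
    have hp : 0 < (x + 1) * y := by positivity
    rw [← Real.mul_rpow (by linarith) hy.le, ← Real.rpow_natCast, ← Real.rpow_mul hp.le,
      ← Real.rpow_add_one hp.ne']
    congr 1
    push_cast
    ring
  have e2 : (x ^ (-τ) * (y + 1) ^ (-τ)) ^ 2 * (x * (y + 1)) = (x * (y + 1)) ^ (1 - 2 * τ) := by
    have hp : 0 < x * (y + 1) := by positivity
    rw [← Real.mul_rpow hx.le (by linarith), ← Real.rpow_natCast, ← Real.rpow_mul hp.le,
      ← Real.rpow_add_one hp.ne']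
    congr 1
    push_cast
    ring
  rw [e1, e2]
  apply Real.rpow_le_rpow (by positivity) _ (by linarith)
  nlinarith

theorem G_ratio {t : Fin 3 → ℝ} (ht : Adm t) {a b : ℕ} (hab : b ≤ a) :
    (G t (a + 1) * G t b) ^ 2 * (((b : ℝ) + 1) * (a + 4)) ≤
      (G t a * G t (b + 1)) ^ 2 * (((a : ℝ) + 1) * (b + 4)) := by
  have hb0 : (0 : ℝ) ≤ b := Nat.cast_nonneg b
  have hab' : (b : ℝ) ≤ a := by exact_mod_cast hab
  have h1 : ∏ k : Fin 3, ((((a + 1 : ℕ) : ℝ) + k + 1) ^ (-(t k)) * ((b : ℝ) + k + 1) ^ (-(t k))) ^ 2 *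
      ((((a + 1 : ℕ) : ℝ) + k + 1) * ((b : ℝ) + k + 1)) ≤
      ∏ k : Fin 3, (((a : ℝ) + k + 1) ^ (-(t k)) * (((b + 1 : ℕ) : ℝ) + k + 1) ^ (-(t k))) ^ 2 *
      (((a : ℝ) + k + 1) * (((b + 1 : ℕ) : ℝ) + k + 1)) := by
    refine Finset.prod_le_prod (fun k _ => by positivity) fun k _ => ?_
    have hk : (0 : ℝ) ≤ ((k : ℕ) : ℝ) := Nat.cast_nonneg _
    have := pow_ratio (t k) ((a : ℝ) + k + 1) ((b : ℝ) + k + 1) (ht k).2
      (by positivity) (by linarith)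
    push_cast
    have e1 : (a : ℝ) + 1 + k + 1 = a + k + 1 + 1 := by ring
    have e2 : (b : ℝ) + 1 + k + 1 = b + k + 1 + 1 := by ring
    rw [e1, e2]
    exact this
  have hp2 : ∀ f g : Fin 3 → ℝ, ∏ k, (f k ^ 2 * g k) = (∏ k, f k) ^ 2 * ∏ k, g k := by
    intro f g
    rw [Finset.prod_mul_distrib, Finset.prod_pow]
  rw [hp2, hp2] at h1
  have hL : ∏ k : Fin 3, ((((a + 1 : ℕ) : ℝ) + k + 1) * ((b : ℝ) + k + 1)) =
      (((b : ℝ) + 1) * (a + 4)) * (((a : ℝ) + 2) * (a + 3) * (b + 2) * (b + 3)) := by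
    rw [Fin.prod_univ_three]
    simp only [Fin.val_zero, Fin.val_one, Fin.val_two]
    push_cast
    ring
  have hR : ∏ k : Fin 3, (((a : ℝ) + k + 1) * (((b + 1 : ℕ) : ℝ) + k + 1)) =
      (((a : ℝ) + 1) * (b + 4)) * (((a : ℝ) + 2) * (a + 3) * (b + 2) * (b + 3)) := by
    rw [Fin.prod_univ_three]
    simp only [Fin.val_zero, Fin.val_one, Fin.val_two]
    push_cast
    ring
  have hG1 : ∏ k : Fin 3, ((((a + 1 : ℕ) : ℝ) + k + 1) ^ (-(t k)) * ((b : ℝ) + k + 1) ^ (-(t k))) =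
      G t (a + 1) * G t b := by
    rw [Finset.prod_mul_distrib]; rfl
  have hG2 : ∏ k : Fin 3, (((a : ℝ) + k + 1) ^ (-(t k)) * (((b + 1 : ℕ) : ℝ) + k + 1) ^ (-(t k))) =
      G t a * G t (b + 1) := by
    rw [Finset.prod_mul_distrib]; rfl
  rw [hL, hR, hG1, hG2] at h1
  have hW : 0 < ((a : ℝ) + 2) * (a + 3) * (b + 2) * (b + 3) := by positivity
  refine le_of_mul_le_mul_right ?_ hW
  linarith [h1]

/-- `1 / ν_j²` -/
theorem inv_nuT_sq (t : Fin 3 → ℝ) {Q j : ℕ} (_hj : j ≤ Q) :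
    ((nuT t Q j) ^ 2)⁻¹ = (Q.choose j : ℝ) * G t (Q - j) ^ 2 := by
  have h0 : (0 : ℝ) ≤ (Q.choose j : ℝ) := Nat.cast_nonneg _
  have hG := G_pos t (Q - j)
  simp only [nuT, nu0, Pi.mul_apply, Pi.inv_apply]
  rw [mul_pow, inv_pow, inv_pow, Real.sq_sqrt h0, mul_inv, inv_inv, inv_inv]

/-- the squared coefficient -/
theorem bcoef_sq (t : Fin 3 → ℝ) {Q i j : ℕ} (hi : i ≤ Q) (hj : j ≤ Q) :
    bcoef (nuT t Q) i j ^ 2 = ((j : ℝ) - i) ^ 2 *
      (((Q.choose i : ℝ) * G t (Q - i) ^ 2) * ((Q.choose j : ℝ) * G t (Q - j) ^ 2)) := by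
  rw [← inv_nuT_sq t hi, ← inv_nuT_sq t hj]
  unfold bcoef
  rw [div_pow, mul_pow, div_eq_mul_inv, mul_inv]

/-- **one step**: for `3 (i+1) ≤ p`, `27 ≤ p`, the squared coefficient increases by `4/3`. -/
theorem step_ratio {t : Fin 3 → ℝ} (ht : Adm t) {Q p i : ℕ} (hp : 27 ≤ p) (hi : 3 * (i + 1) ≤ p)
    (hpQ : p - i ≤ Q) :
    bcoef (nuT t Q) i (p - i) ^ 2 ≤ 3 / 4 * bcoef (nuT t Q) (i + 1) (p - (i + 1)) ^ 2 := by
  have hiQ : i + 1 ≤ Q := by omega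
  rw [bcoef_sq t (by omega) hpQ, bcoef_sq t hiQ (by omega)]
  obtain ⟨b, hb⟩ : ∃ b, Q = p - i + b := ⟨Q - (p - i), by omega⟩
  obtain ⟨a, ha⟩ : ∃ a, Q = i + 1 + a := ⟨Q - (i + 1), by omega⟩
  have hab : b ≤ a := by omega
  have e1 : Q - i = a + 1 := by omega
  have e2 : Q - (p - i) = b := by omega
  have e3 : Q - (i + 1) = a := by omega
  have e4 : Q - (p - (i + 1)) = b + 1 := by omega
  rw [e1, e2, e3, e4]
  -- the binomials
  have c1 : (Q.choose i : ℝ) * (a + 1) = (Q.choose (i + 1) : ℝ) * (i + 1) := by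
    have h := Nat.choose_succ_right_eq Q i
    rw [e1] at h
    exact_mod_cast h.symm
  have c2 : (Q.choose (p - i) : ℝ) * (p - i : ℕ) = (Q.choose (p - (i + 1)) : ℝ) * (b + 1) := by
    have h := Nat.choose_succ_right_eq Q (p - (i + 1))
    rw [e4, show p - (i + 1) + 1 = p - i by omega] at h
    exact_mod_cast h
  have hGr := G_ratio ht hab
  have hpi : ((p - i : ℕ) : ℝ) = (p : ℝ) - i := Nat.cast_sub (by omega)
  have hpi' : ((p - (i + 1) : ℕ) : ℝ) = (p : ℝ) - (i + 1) := by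
    rw [Nat.cast_sub (by omega)]; push_cast; ring
  have h3 : 3 * ((i : ℝ) + 1) ≤ p := by exact_mod_cast hi
  have h27 : (27 : ℝ) ≤ p := by exact_mod_cast hp
  have hi0 : (0 : ℝ) ≤ i := Nat.cast_nonneg i
  have ha0 : (0 : ℝ) ≤ a := Nat.cast_nonneg a
  have hb0 : (0 : ℝ) ≤ b := Nat.cast_nonneg b
  have habr : (b : ℝ) ≤ a := by exact_mod_cast hab
  rw [hpi] at c2
  rw [hpi, hpi']
  push_cast
  set A := (Q.choose i : ℝ)
  set A' := (Q.choose (i + 1) : ℝ)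
  set B := (Q.choose (p - i) : ℝ)
  set B' := (Q.choose (p - (i + 1)) : ℝ)
  have hA' : 0 ≤ A' := Nat.cast_nonneg _
  have hB' : 0 ≤ B' := Nat.cast_nonneg _
  -- A B = A' B' (i+1)(b+1)/((a+1)(p-i))
  have hAB : A * B * (((a : ℝ) + 1) * (p - i)) = A' * B' * (((i : ℝ) + 1) * (b + 1)) := by
    calc A * B * (((a : ℝ) + 1) * (p - i)) = (A * (a + 1)) * (B * (p - i)) := by ring
      _ = _ := by rw [c1, c2]; ring
  set g := (G t (a + 1) * G t b) ^ 2 with hg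
  set g' := (G t a * G t (b + 1)) ^ 2 with hg'
  have hg0 : 0 ≤ g := sq_nonneg _
  have hg0' : 0 ≤ g' := sq_nonneg _
  have eL : ((p : ℝ) - i - i) ^ 2 * (A * G t (a + 1) ^ 2 * (B * G t b ^ 2)) =
      ((p : ℝ) - i - i) ^ 2 * (A * B * g) := by rw [hg]; ring
  have eR : 3 / 4 * (((p : ℝ) - (i + 1) - (i + 1)) ^ 2 *
      (A' * G t a ^ 2 * (B' * G t (b + 1) ^ 2))) =
      3 / 4 * ((p : ℝ) - (i + 1) - (i + 1)) ^ 2 * (A' * B' * g') := by rw [hg']; ring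
  rw [eL, eR]
  -- multiply by D = (a+1)(p-i)(a+4)
  have hD : 0 < ((a : ℝ) + 1) * (p - i) * (a + 4) := by
    have : 0 < (p : ℝ) - i := by linarith
    positivity
  refine le_of_mul_le_mul_right ?_ hD
  have s1 : A * B * g * (((a : ℝ) + 1) * (p - i) * (a + 4)) ≤
      A' * B' * g' * (((i : ℝ) + 1) * (a + 1) * (b + 4)) := by
    calc A * B * g * (((a : ℝ) + 1) * (p - i) * (a + 4))
        = (A * B * (((a : ℝ) + 1) * (p - i))) * (g * (a + 4)) := by ring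
      _ = A' * B' * ((i : ℝ) + 1) * (g * ((b + 1) * (a + 4))) := by rw [hAB]; ring
      _ ≤ A' * B' * ((i : ℝ) + 1) * (g' * ((a + 1) * (b + 4))) := by gcongr
      _ = _ := by ring
  have s2 : ((p : ℝ) - i - i) ^ 2 * (((i : ℝ) + 1) * (a + 1) * (b + 4)) ≤
      3 / 4 * ((p : ℝ) - (i + 1) - (i + 1)) ^ 2 * (((a : ℝ) + 1) * (p - i) * (a + 4)) := by
    have hx : 9 ≤ (p : ℝ) - (i + 1) - (i + 1) := by linarith
    set x := (p : ℝ) - (i + 1) - (i + 1) with hxd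
    have ex : (p : ℝ) - i - i = x + 2 := by rw [hxd]; ring
    rw [ex]
    have q1 : (x + 2) ^ 2 ≤ 3 / 2 * x ^ 2 := by nlinarith
    have q2 : (i : ℝ) + 1 ≤ 1 / 2 * ((p : ℝ) - i) := by linarith
    have q4 : 0 ≤ (p : ℝ) - i := by linarith
    have q3 : ((i : ℝ) + 1) * (a + 1) * (b + 4) ≤ (1 / 2 * ((p : ℝ) - i)) * (a + 1) * (a + 4) := by
      gcongr
    calc (x + 2) ^ 2 * (((i : ℝ) + 1) * (a + 1) * (b + 4))
        ≤ (3 / 2 * x ^ 2) * ((1 / 2 * ((p : ℝ) - i)) * (a + 1) * (a + 4)) := by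
          apply mul_le_mul q1 q3 (by positivity) (by positivity)
      _ = _ := by ring
  calc ((p : ℝ) - i - i) ^ 2 * (A * B * g) * (((a : ℝ) + 1) * (p - i) * (a + 4))
      = ((p : ℝ) - i - i) ^ 2 * (A * B * g * (((a : ℝ) + 1) * (p - i) * (a + 4))) := by ring
    _ ≤ ((p : ℝ) - i - i) ^ 2 * (A' * B' * g' * (((i : ℝ) + 1) * (a + 1) * (b + 4))) := by gcongr
    _ = A' * B' * g' * (((p : ℝ) - i - i) ^ 2 * (((i : ℝ) + 1) * (a + 1) * (b + 4))) := by ring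
    _ ≤ A' * B' * g' * (3 / 4 * ((p : ℝ) - (i + 1) - (i + 1)) ^ 2 *
        (((a : ℝ) + 1) * (p - i) * (a + 4))) := by gcongr
    _ = _ := by ring

/-! ### 2. the far pairs -/

theorem steps_ratio {t : Fin 3 → ℝ} (ht : Adm t) {Q p i : ℕ} (hp : 27 ≤ p) (hpQ : p - i ≤ Q)
    (n : ℕ) (hi : 3 * (i + n) ≤ p) :
    bcoef (nuT t Q) i (p - i) ^ 2 ≤ (3 / 4) ^ n * bcoef (nuT t Q) (i + n) (p - (i + n)) ^ 2 := by
  induction n with
  | zero => simp
  | succ n ih =>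
    refine (ih (by omega)).trans ?_
    rw [pow_succ (3 / 4 : ℝ) n, mul_assoc]
    apply mul_le_mul_of_nonneg_left _ (by positivity)
    exact step_ratio ht hp (by omega) (by omega)

/-- normalised coefficients of `Bg ν Q p` -/
noncomputable def be (ν : ℕ → ℝ) (Q p : ℕ) (x : Fin (Q + 1) × Fin (Q + 1)) : ℝ :=
  (√(nz ν Q p))⁻¹ * bcoef ν x.1 x.2

theorem Bg_eq (ν : ℕ → ℝ) (Q p : ℕ) :
    Bg ν Q p = ∑ x ∈ pairs Q p, ((be ν Q p x : ℝ) : ℂ) • (c x.2 * c x.1) := by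
  unfold Bg bz be
  rw [Finset.smul_sum]
  refine Finset.sum_congr rfl fun x _ => ?_
  rw [smul_smul, ← Complex.ofReal_mul]

theorem sum_be_sq_le (ν : ℕ → ℝ) (Q p : ℕ) : ∑ x ∈ pairs Q p, be ν Q p x ^ 2 ≤ 1 := by
  unfold be
  simp only [mul_pow]
  rw [← Finset.mul_sum]
  have h0 := nz_nonneg ν Q p
  change ((√(nz ν Q p))⁻¹) ^ 2 * nz ν Q p ≤ 1
  rw [inv_pow, Real.sq_sqrt h0]
  exact inv_mul_le_one

theorem be_sq_le_one {ν : ℕ → ℝ} {Q p : ℕ} {x : Fin (Q + 1) × Fin (Q + 1)} (hx : x ∈ pairs Q p) :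
    be ν Q p x ^ 2 ≤ 1 :=
  (Finset.single_le_sum (f := fun x => be ν Q p x ^ 2) (fun _ _ => sq_nonneg _) hx).trans
    (sum_be_sq_le ν Q p)

theorem card_pairs_le (Q p : ℕ) : (pairs Q p).card ≤ p + 1 := by
  have h : (pairs Q p).card ≤ (Finset.range (p + 1)).card := by
    refine Finset.card_le_card_of_injOn (fun x => (x.1 : ℕ)) ?_ ?_
    · intro x hx
      have h2 := (mem_pairs.1 hx).2
      simp only [Finset.coe_range, Set.mem_Iio]
      omega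
    · intro x hx y hy h
      have hx2 := (mem_pairs.1 hx).2
      have hy2 := (mem_pairs.1 hy).2
      simp only at h
      refine Prod.ext (Fin.ext h) (Fin.ext ?_)
      omega
  rwa [Finset.card_range] at h

theorem sum_abs_le (ν : ℕ → ℝ) (Q p : ℕ) : ∑ x ∈ pairs Q p, |be ν Q p x| ≤ sj p := by
  have h1 : (∑ x ∈ pairs Q p, |be ν Q p x|) ^ 2 ≤ (pairs Q p).card * ∑ x ∈ pairs Q p, |be ν Q p x| ^ 2 :=
    sq_sum_le_card_mul_sum_sq
  simp only [sq_abs] at h1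
  have h2 := sum_be_sq_le ν Q p
  have h3 : ((pairs Q p).card : ℝ) ≤ p + 1 := by exact_mod_cast card_pairs_le Q p
  have h4 : 0 ≤ ∑ x ∈ pairs Q p, be ν Q p x ^ 2 := Finset.sum_nonneg fun _ _ => sq_nonneg _
  apply Real.le_sqrt_of_sq_le
  calc _ ≤ ((pairs Q p).card : ℝ) * ∑ x ∈ pairs Q p, be ν Q p x ^ 2 := h1
    _ ≤ ((p : ℝ) + 1) * 1 := by gcongr
    _ = 1 + p := by ring

/-- a coefficient far from the diagonal is exponentially small -/
theorem be_far {t : Fin 3 → ℝ} (ht : Adm t) {Q p L : ℕ} (hp : 27 ≤ p) (hL : 4 * L ≤ p)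
    {x : Fin (Q + 1) × Fin (Q + 1)} (hx : x ∈ pairs Q p) (hxL : (x.1 : ℕ) < L) :
    |be (nuT t Q) Q p x| ≤ (7 / 8) ^ (p / 3 - p / 4 + 1) := by
  obtain ⟨hx1, hx2⟩ := mem_pairs.1 hx
  have hx1' : (x.1 : ℕ) < x.2 := hx1
  set i := (x.1 : ℕ) with hi
  set n := p / 3 - p / 4 + 1 with hn
  have hx2' : (x.2 : ℕ) = p - i := by omega
  have hQ2 := x.2.isLt
  have h1 := steps_ratio ht hp (i := i) (Q := Q) (by omega) n (by omega)
  -- the pair `i + n`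
  have hy : ((⟨i + n, by omega⟩, ⟨p - (i + n), by omega⟩) : Fin (Q + 1) × Fin (Q + 1)) ∈
      pairs Q p := by
    refine mem_pairs.2 ⟨?_, ?_⟩
    · show i + n < p - (i + n)
      omega
    · show i + n + (p - (i + n)) = p
      omega
  have h2 := be_sq_le_one (ν := nuT t Q) hy
  have h3 : be (nuT t Q) Q p x ^ 2 ≤ (3 / 4) ^ n := by
    unfold be at h2 ⊢
    rw [mul_pow] at h2 ⊢
    rw [← hi, hx2']
    calc ((√(nz (nuT t Q) Q p))⁻¹) ^ 2 * bcoef (nuT t Q) i (p - i) ^ 2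
        ≤ ((√(nz (nuT t Q) Q p))⁻¹) ^ 2 *
          ((3 / 4) ^ n * bcoef (nuT t Q) (i + n) (p - (i + n)) ^ 2) := by gcongr
      _ = (3 / 4) ^ n * (((√(nz (nuT t Q) Q p))⁻¹) ^ 2 *
          bcoef (nuT t Q) (i + n) (p - (i + n)) ^ 2) := by ring
      _ ≤ (3 / 4) ^ n * 1 := by gcongr
      _ = _ := mul_one _
  apply abs_le_of_sq_le_sq _ (by positivity)
  refine h3.trans ?_
  rw [← pow_mul, mul_comm, pow_mul]
  gcongr
  norm_num

/-- constant of `tail_le` -/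
theorem exists_tail_const (M : ℕ) : ∃ K : ℝ, 1 ≤ K ∧ ∀ p : ℕ,
    ((p : ℝ) + 1) * (7 / 8) ^ (p / 3 - p / 4 + 1) * sj p ^ M ≤ K := by
  have h := tendsto_pow_const_mul_const_pow_of_abs_lt_one (M + 1) (r := (7 / 8 : ℝ))
    (by rw [abs_of_pos (by norm_num)]; norm_num)
  obtain ⟨K, hK⟩ := h.bddAbove_range
  have hK' : ∀ n : ℕ, (n : ℝ) ^ (M + 1) * (7 / 8 : ℝ) ^ n ≤ K := fun n => hK ⟨n, rfl⟩
  refine ⟨max 1 (13 ^ (M + 1) * K), le_max_left _ _, fun p => ?_⟩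
  refine le_trans ?_ (le_max_right _ _)
  set n := p / 3 - p / 4 + 1 with hn
  have h1 : (p : ℝ) + 1 ≤ 13 * n := by
    have : p + 1 ≤ 13 * n := by omega
    exact_mod_cast this
  have h2 : sj p ≤ 13 * n := by
    have h3 := one_le_sj p
    have h4 := sj_sq p
    nlinarith
  have h0 := (sj_pos p).le
  calc ((p : ℝ) + 1) * (7 / 8) ^ n * sj p ^ M ≤ (13 * n) * (7 / 8) ^ n * (13 * n) ^ M := by gcongr
    _ = 13 ^ (M + 1) * ((n : ℝ) ^ (M + 1) * (7 / 8 : ℝ) ^ n) := by ring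
    _ ≤ _ := by
      apply mul_le_mul_of_nonneg_left (hK' n) (by positivity)

/-- **the far part of the pair annihilators** -/
theorem exists_tail (M : ℕ) : ∃ K : ℝ, 1 ≤ K ∧ ∀ (t : Fin 3 → ℝ), Adm t → ∀ Q p L : ℕ, 4 * L ≤ p →
    ∑ x ∈ (pairs Q p).filter (fun x => (x.1 : ℕ) < L), |be (nuT t Q) Q p x| ≤
      K * ((sj p)⁻¹) ^ M := by
  obtain ⟨K, hK1, hK⟩ := exists_tail_const M
  refine ⟨max K (28 * 6 ^ M), hK1.trans (le_max_left _ _), fun t ht Q p L hL => ?_⟩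
  have hs := sj_pos p
  rw [inv_pow, ← div_eq_mul_inv, le_div_iff₀ (by positivity)]
  have hcard : (((pairs Q p).filter (fun x => (x.1 : ℕ) < L)).card : ℝ) ≤ p + 1 := by
    have h1 := Finset.card_filter_le (pairs Q p) (fun x => (x.1 : ℕ) < L)
    have h2 := h1.trans (card_pairs_le Q p)
    exact_mod_cast h2
  rcases Nat.lt_or_ge p 27 with hp | hp
  · refine le_trans ?_ (le_max_right _ _)
    have hp' : (p : ℝ) + 1 ≤ 28 := by
      have : p + 1 ≤ 28 := by omega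
      exact_mod_cast this
    have h6 : sj p ≤ 6 := by
      have := sj_sq p
      nlinarith
    have h1 : ∑ x ∈ (pairs Q p).filter (fun x => (x.1 : ℕ) < L), |be (nuT t Q) Q p x| ≤
        ∑ x ∈ (pairs Q p).filter (fun x => (x.1 : ℕ) < L), (1 : ℝ) := by
      refine Finset.sum_le_sum fun x hx => ?_
      have := be_sq_le_one (ν := nuT t Q) (Finset.mem_filter.1 hx).1
      exact abs_le_of_sq_le_sq (by rwa [one_pow]) zero_le_one
    rw [Finset.sum_const, nsmul_eq_mul, mul_one] at h1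
    calc _ ≤ (28 : ℝ) * 6 ^ M := by
          apply mul_le_mul (h1.trans (hcard.trans hp')) (by gcongr) (by positivity) (by norm_num)
      _ = _ := rfl
  · refine le_trans ?_ (le_max_left _ _)
    refine le_trans ?_ (hK p)
    apply mul_le_mul_of_nonneg_right _ (by positivity)
    have h1 : ∑ x ∈ (pairs Q p).filter (fun x => (x.1 : ℕ) < L), |be (nuT t Q) Q p x| ≤
        ∑ x ∈ (pairs Q p).filter (fun x => (x.1 : ℕ) < L), (7 / 8 : ℝ) ^ (p / 3 - p / 4 + 1) := by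
      refine Finset.sum_le_sum fun x hx => ?_
      exact be_far ht hp hL (Finset.mem_filter.1 hx).1 (Finset.mem_filter.1 hx).2
    rw [Finset.sum_const, nsmul_eq_mul] at h1
    exact h1.trans (by gcongr)

end Crest.Agent.R340.TX880
end

-- ▼ part R340/TX2_880
section

/-!
# R340, (TX) part 2 (helper880): `∑_p hh_p ⁅dG h, star B_p⁆ ⁅B_p, S⁆` is in the dyadic class

`B_p = Bg (nuT t Q) Q p`. If `S ∈ DY Q (k+q+5) C`, `|h j| ≤ κ (sj j)^q`, `|hh_p| ≤ Ch`, then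
`YY ∈ DY Q (k+1) (K Ch κ C)`, `K` depends on `k`, `q` only (`dy_YY`).
-/

set_option autoImplicit false

namespace Crest.Agent.R340.TX880

open Finset
open Crest.Agent.R340.Fock649 Crest.Agent.R340.Geo986
open Crest.Agent.R340.PV341 (Adm)
open Crest.Agent.R340.Peel596 (c_mul_dG_diagonal)
open Crest.Agent.R340.PD757 (sj sj_sq sj_pos one_le_sj sj_le_two_pow sum_far_pow)
open Crest.Agent.R340.FX963 (LocN DY locN_iff)
open Crest.Agent.R340.QL331 (Car fcar farS nearS mem_farS mem_nearS)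

variable {Q : ℕ}

theorem sj_mono {i j : ℕ} (h : i ≤ j) : sj i ≤ sj j := by
  unfold PD757.sj
  apply Real.sqrt_le_sqrt
  have : (i : ℝ) ≤ j := by exact_mod_cast h
  linarith

/-! ### 1. algebra of the pair operators -/

theorem norm_Bg_le (ν : ℕ → ℝ) (Q p : ℕ) : ‖Bg ν Q p‖ ≤ sj p := by
  rw [Bg_eq]
  exact (norm_sum_smul_cc_le _ _).trans (sum_abs_le ν Q p)

/-- diagonal one-body operator -/
noncomputable def Dh (Q : ℕ) (h : ℕ → ℝ) : Op (Fin (Q + 1)) :=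
  dG (Matrix.diagonal fun i : Fin (Q + 1) => ((h i : ℝ) : ℂ))

theorem star_Dh (Q : ℕ) (h : ℕ → ℝ) : star (Dh Q h) = Dh Q h := by
  unfold Dh
  rw [star_dG, Matrix.diagonal_conjTranspose]
  congr 2
  funext i
  simp

theorem cc_mul_Dh (h : ℕ → ℝ) (i j : Fin (Q + 1)) :
    c j * c i * Dh Q h = Dh Q h * (c j * c i) + ((h i + h j : ℝ) : ℂ) • (c j * c i) := by
  unfold Dh
  rw [mul_assoc, c_mul_dG_diagonal, mul_add, ← mul_assoc, c_mul_dG_diagonal, add_mul,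
    mul_smul_comm, smul_mul_assoc, mul_assoc, add_assoc, ← add_smul]
  congr 2
  push_cast
  ring

theorem Bg_mul_Dh (ν : ℕ → ℝ) (h : ℕ → ℝ) (p : ℕ) : Bg ν Q p * Dh Q h - Dh Q h * Bg ν Q p =
    ∑ x ∈ pairs Q p, ((be ν Q p x * (h x.1 + h x.2) : ℝ) : ℂ) • (c x.2 * c x.1) := by
  rw [Bg_eq, Finset.sum_mul, Finset.mul_sum, ← Finset.sum_sub_distrib]
  refine Finset.sum_congr rfl fun x _ => ?_
  rw [smul_mul_assoc, cc_mul_Dh, mul_smul_comm, smul_add, smul_smul, add_sub_cancel_left]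
  push_cast
  rfl

/-- the creation side: `⁅dG h, star B_p⁆` -/
theorem lie_Dh_star (ν : ℕ → ℝ) (h : ℕ → ℝ) (p : ℕ) : ⁅Dh Q h, star (Bg ν Q p)⁆ =
    star (∑ x ∈ pairs Q p, ((be ν Q p x * (h x.1 + h x.2) : ℝ) : ℂ) • (c x.2 * c x.1)) := by
  rw [← Bg_mul_Dh, star_sub, star_mul, star_mul, star_Dh, Ring.lie_def]

theorem norm_lie_Dh_le (ν : ℕ → ℝ) {h : ℕ → ℝ} {κ : ℝ} {q : ℕ} (hκ : 0 ≤ κ)
    (hh : ∀ j ≤ Q, |h j| ≤ κ * sj j ^ q) (p : ℕ) :
    ‖⁅Dh Q h, star (Bg ν Q p)⁆‖ ≤ 2 * κ * sj p ^ (q + 1) := by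
  rw [lie_Dh_star, norm_star]
  refine (norm_sum_smul_cc_le _ _).trans ?_
  have h1 : ∀ x ∈ pairs Q p, |be ν Q p x * (h x.1 + h x.2)| ≤ |be ν Q p x| * (2 * κ * sj p ^ q) := by
    intro x hx
    have hx2 := (mem_pairs.1 hx).2
    rw [abs_mul]
    apply mul_le_mul_of_nonneg_left _ (abs_nonneg _)
    have e1 := hh x.1 (by omega)
    have e2 := hh x.2 (by omega)
    have e3 : sj (x.1 : ℕ) ≤ sj p := sj_mono (by omega)
    have e4 : sj (x.2 : ℕ) ≤ sj p := sj_mono (by omega)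
    have e5 := (sj_pos (x.1 : ℕ)).le
    have e6 := (sj_pos (x.2 : ℕ)).le
    calc |h x.1 + h x.2| ≤ |h x.1| + |h x.2| := abs_add_le _ _
      _ ≤ κ * sj p ^ q + κ * sj p ^ q :=
        add_le_add (e1.trans (by gcongr)) (e2.trans (by gcongr))
      _ = _ := by ring
  refine (Finset.sum_le_sum h1).trans ?_
  rw [← Finset.sum_mul]
  have h2 := sum_abs_le ν Q p
  have h3 := (sj_pos p).le
  calc (∑ x ∈ pairs Q p, |be ν Q p x|) * (2 * κ * sj p ^ q) ≤ sj p * (2 * κ * sj p ^ q) := by gcongr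
    _ = _ := by ring

/-! ### 2. locality of the pair operators -/

theorem par_c (i : Fin (Q + 1)) : (fcar : Car (Op (Fin (Q + 1))) (Fock649.L (Fin (Q + 1)))).par (c i) =
    -c i := by
  have h := (fcar : Car (Op (Fin (Q + 1))) (Fock649.L (Fin (Q + 1)))).par_an (e i)
  rwa [QL331.fcar_an, an_e] at h

theorem LocN.mul' {L : ℕ} {X Y : Op (Fin (Q + 1))} (h : LocN Q L X) (h' : LocN Q L Y) :
    LocN Q L (X * Y) := by
  rw [locN_iff] at *; exact h.mul h'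

theorem LocN.sum' {L : ℕ} {σ : Type*} (s : Finset σ) {X : σ → Op (Fin (Q + 1))}
    (h : ∀ i ∈ s, LocN Q L (X i)) : LocN Q L (∑ i ∈ s, X i) := by
  classical
  induction s using Finset.induction_on with
  | empty =>
    have := (LocN.one Q L).smul 0
    rwa [zero_smul] at this
  | insert a s ha ih =>
    rw [Finset.sum_insert ha]
    exact (h a (Finset.mem_insert_self _ _)).add (ih fun i hi => h i (Finset.mem_insert_of_mem hi))

theorem commute_cc_c {i j k : Fin (Q + 1)} : Commute (c j * c i : Op (Fin (Q + 1))) (c k) := by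
  have h1 : (c i * c k : Op (Fin (Q + 1))) = -(c k * c i) := eq_neg_of_add_eq_zero_left (c_c i k)
  have h2 : (c j * c k : Op (Fin (Q + 1))) = -(c k * c j) := eq_neg_of_add_eq_zero_left (c_c j k)
  show c j * c i * c k = c k * (c j * c i)
  rw [mul_assoc, h1, mul_neg, ← mul_assoc, h2, neg_mul, neg_neg, mul_assoc]

theorem commute_cc_d {i j k : Fin (Q + 1)} (hi : i ≠ k) (hj : j ≠ k) :
    Commute (c j * c i : Op (Fin (Q + 1))) (d k) := by
  have h1 : (c i * d k : Op (Fin (Q + 1))) = -(d k * c i) :=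
    eq_neg_of_add_eq_zero_left (by rw [c_d, if_neg hi])
  have h2 : (c j * d k : Op (Fin (Q + 1))) = -(d k * c j) :=
    eq_neg_of_add_eq_zero_left (by rw [c_d, if_neg hj])
  show c j * c i * d k = d k * (c j * c i)
  rw [mul_assoc, h1, mul_neg, ← mul_assoc, h2, neg_mul, neg_neg, mul_assoc]

theorem locN_cc {L : ℕ} {i j : Fin (Q + 1)} (hi : (i : ℕ) < L) (hj : (j : ℕ) < L) :
    LocN Q L (c j * c i) := by
  refine ⟨QL331.Car.ev_odd_mul_odd _ (par_c j) (par_c i), fun k hk => ⟨commute_cc_c, ?_⟩⟩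
  apply commute_cc_d
  · intro h; subst h; omega
  · intro h; subst h; omega

theorem locN_pair {L p : ℕ} (hp : p < L) (r : Fin (Q + 1) × Fin (Q + 1) → ℝ) :
    LocN Q L (∑ x ∈ pairs Q p, ((r x : ℝ) : ℂ) • (c x.2 * c x.1)) := by
  refine LocN.sum' _ fun x hx => ?_
  have hx2 := (mem_pairs.1 hx).2
  exact (locN_cc (by omega) (by omega)).smul _

theorem locN_Bg {L p : ℕ} (hp : p < L) (ν : ℕ → ℝ) : LocN Q L (Bg ν Q p) := by
  rw [Bg_eq]; exact locN_pair hp _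

theorem locN_lie_Dh {L p : ℕ} (hp : p < L) (ν h : ℕ → ℝ) :
    LocN Q L (⁅Dh Q h, star (Bg ν Q p)⁆) := by
  rw [lie_Dh_star]; exact (locN_pair hp _).star

theorem norm_lie_le {X Y : Op (Fin (Q + 1))} : ‖⁅X, Y⁆‖ ≤ 2 * ‖X‖ * ‖Y‖ := by
  rw [Ring.lie_def]
  calc ‖X * Y - Y * X‖ ≤ ‖X * Y‖ + ‖Y * X‖ := norm_sub_le _ _
    _ ≤ ‖X‖ * ‖Y‖ + ‖Y‖ * ‖X‖ := add_le_add (norm_mul_le _ _) (norm_mul_le _ _)
    _ = _ := by ring

/-- only the pairs with an orbital `< L` see an operator local in orbitals `< L` -/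
theorem lie_Bg_le_of_loc {ν : ℕ → ℝ} {p L : ℕ} {Y : Op (Fin (Q + 1))} (hY : LocN Q L Y) :
    ‖⁅Bg ν Q p, Y⁆‖ ≤
      2 * (∑ x ∈ (pairs Q p).filter (fun x => (x.1 : ℕ) < L), |be ν Q p x|) * ‖Y‖ := by
  have h1 : Bg ν Q p = (∑ x ∈ (pairs Q p).filter (fun x => (x.1 : ℕ) < L),
      ((be ν Q p x : ℝ) : ℂ) • (c x.2 * c x.1)) +
      ∑ x ∈ (pairs Q p).filter (fun x => ¬ (x.1 : ℕ) < L),
        ((be ν Q p x : ℝ) : ℂ) • (c x.2 * c x.1) := by
    rw [Bg_eq, Finset.sum_filter_add_sum_filter_not]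
  have h2 : Commute (∑ x ∈ (pairs Q p).filter (fun x => ¬ (x.1 : ℕ) < L),
        ((be ν Q p x : ℝ) : ℂ) • (c x.2 * c x.1)) Y := by
    refine Commute.sum_left _ _ _ fun x hx => ?_
    obtain ⟨hx1, hx2⟩ := Finset.mem_filter.1 hx
    have hx3 : (x.1 : ℕ) < x.2 := (mem_pairs.1 hx1).1
    refine Commute.smul_left ?_ _
    exact ((hY.2 x.2 (by omega)).1.mul_right (hY.2 x.1 (by omega)).1).symm
  have h3 : ⁅Bg ν Q p, Y⁆ = ⁅∑ x ∈ (pairs Q p).filter (fun x => (x.1 : ℕ) < L),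
      ((be ν Q p x : ℝ) : ℂ) • (c x.2 * c x.1), Y⁆ := by
    rw [h1, Ring.lie_def, Ring.lie_def, add_mul, mul_add, h2.eq]
    abel
  rw [h3]
  refine norm_lie_le.trans ?_
  gcongr
  exact norm_sum_smul_cc_le _ _

/-- **commutator of `B_p` with the dyadic class** -/
theorem exists_lie_Bg (m : ℕ) : ∃ K : ℝ, 1 ≤ K ∧ ∀ (t : Fin 3 → ℝ), Adm t → ∀ (Q : ℕ) (C : ℝ)
    (S : Op (Fin (Q + 1))), DY Q (m + 1) C S → ∀ p : ℕ,
      ‖⁅Bg (nuT t Q) Q p, S⁆‖ ≤ K * C * ((sj p)⁻¹) ^ m := by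
  obtain ⟨K, hK1, hK⟩ := exists_tail m
  refine ⟨4 * K + 2 * 4 ^ (m + 1), by have : (0:ℝ) ≤ 2 * 4 ^ (m + 1) := by positivity
                                      linarith, fun t ht Q C S hS p => ?_⟩
  have hC := hS.nonneg
  have hs := sj_pos p
  rcases Nat.lt_or_ge p 4 with hp | hp
  · have h2 : sj p ≤ 2 := by
      have := sj_le_two_pow (l := 1) (j := p) (by omega)
      simpa using this
    have h3 : 1 ≤ 2 ^ m * ((sj p)⁻¹) ^ m := by
      rw [← mul_pow]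
      apply one_le_pow₀
      rw [← div_eq_mul_inv, one_le_div hs]
      exact h2
    have h4 : ‖⁅Bg (nuT t Q) Q p, S⁆‖ ≤ 4 * C := by
      refine norm_lie_le.trans ?_
      have := norm_Bg_le (nuT t Q) Q p
      have h5 := hS.norm_le
      calc 2 * ‖Bg (nuT t Q) Q p‖ * ‖S‖ ≤ 2 * 2 * C := by
            gcongr
            exact this.trans h2
        _ = 4 * C := by ring
    have h5 : (4 : ℝ) * 2 ^ m ≤ 2 * 4 ^ (m + 1) := by
      have : (2 : ℝ) ^ m ≤ 4 ^ m := by gcongr; norm_num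
      have h0 : (0 : ℝ) ≤ 4 ^ m := by positivity
      rw [pow_succ]
      linarith
    calc ‖⁅Bg (nuT t Q) Q p, S⁆‖ ≤ 4 * C * 1 := by rw [mul_one]; exact h4
      _ ≤ 4 * C * (2 ^ m * ((sj p)⁻¹) ^ m) := by gcongr
      _ = (4 * 2 ^ m) * C * ((sj p)⁻¹) ^ m := by ring
      _ ≤ (4 * K + 2 * 4 ^ (m + 1)) * C * ((sj p)⁻¹) ^ m := by
        gcongr
        linarith
  · obtain ⟨l, hl1, hl2⟩ : ∃ l : ℕ, 4 * 4 ^ l ≤ p ∧ p + 1 ≤ 4 ^ (l + 2) := by
      have h1 := Nat.pow_log_le_self 4 (show p ≠ 0 by omega)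
      have h2 := Nat.lt_pow_succ_log_self (show 1 < 4 by norm_num) p
      have h3 : 1 ≤ Nat.log 4 p := Nat.log_pos (by norm_num) hp
      obtain ⟨l, hl⟩ := Nat.exists_eq_add_of_le h3
      refine ⟨l, ?_, ?_⟩
      · rw [hl, pow_add, pow_one] at h1; exact h1
      · rw [hl] at h2
        have e : (1 + l).succ = l + 2 := by omega
        rw [e] at h2
        omega
    obtain ⟨Y, hY, hSY⟩ := hS.app l
    have hYn : ‖Y‖ ≤ 2 * C := by
      have h1 : ‖Y‖ ≤ ‖S‖ + ‖S - Y‖ := by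
        have : Y = S - (S - Y) := by abel
        calc ‖Y‖ = ‖S - (S - Y)‖ := by rw [← this]
          _ ≤ _ := norm_sub_le _ _
      have h2 : C * ((2 ^ l)⁻¹) ^ (m + 1) ≤ C * 1 := by
        gcongr
        apply pow_le_one₀ (by positivity)
        rw [inv_le_one_iff₀]
        right
        exact one_le_pow₀ (by norm_num)
      linarith [hS.norm_le]
    have e1 : ⁅Bg (nuT t Q) Q p, S⁆ = ⁅Bg (nuT t Q) Q p, Y⁆ + ⁅Bg (nuT t Q) Q p, S - Y⁆ := by
      simp only [Ring.lie_def, mul_sub, sub_mul]; abel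
    have h1 := lie_Bg_le_of_loc (ν := nuT t Q) (p := p) hY
    have h2 := hK t ht Q p (4 ^ l) hl1
    have h3 : ‖⁅Bg (nuT t Q) Q p, Y⁆‖ ≤ 2 * (K * ((sj p)⁻¹) ^ m) * (2 * C) := by
      refine h1.trans ?_
      have h0 : 0 ≤ ∑ x ∈ (pairs Q p).filter (fun x => (x.1 : ℕ) < 4 ^ l), |be (nuT t Q) Q p x| :=
        Finset.sum_nonneg fun _ _ => abs_nonneg _
      gcongr
    have h4 : ‖⁅Bg (nuT t Q) Q p, S - Y⁆‖ ≤ 2 * sj p * (C * ((2 ^ l)⁻¹) ^ (m + 1)) := by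
      refine norm_lie_le.trans ?_
      have := norm_Bg_le (nuT t Q) Q p
      gcongr
    have h5 : ((2 : ℝ) ^ l)⁻¹ ≤ 4 * (sj p)⁻¹ := by
      have h6 := sj_le_two_pow hl2
      rw [← div_eq_mul_inv, inv_eq_one_div, div_le_div_iff₀ (by positivity) hs, one_mul]
      calc sj p ≤ 2 ^ (l + 2) := h6
        _ = _ := by rw [pow_add]; ring
    have h6 : 2 * sj p * (C * ((2 ^ l)⁻¹) ^ (m + 1)) ≤
        2 * 4 ^ (m + 1) * C * ((sj p)⁻¹) ^ m := by
      calc 2 * sj p * (C * ((2 ^ l)⁻¹) ^ (m + 1)) ≤ 2 * sj p * (C * (4 * (sj p)⁻¹) ^ (m + 1)) := by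
            gcongr
        _ = _ := by
          rw [mul_pow, pow_succ (sj p)⁻¹ m]
          field_simp
    rw [e1]
    calc _ ≤ ‖⁅Bg (nuT t Q) Q p, Y⁆‖ + ‖⁅Bg (nuT t Q) Q p, S - Y⁆‖ := norm_add_le _ _
      _ ≤ 2 * (K * ((sj p)⁻¹) ^ m) * (2 * C) + 2 * 4 ^ (m + 1) * C * ((sj p)⁻¹) ^ m :=
        add_le_add h3 (h4.trans h6)
      _ = _ := by ring

/-! ### 3. the sum over `p` -/

/-- `∑_p hh_p ⁅dG h, star B_p⁆ ⁅B_p, S⁆` -/
noncomputable def YY (ν : ℕ → ℝ) (Q : ℕ) (hh h : ℕ → ℝ) (S : Op (Fin (Q + 1))) :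
    Op (Fin (Q + 1)) :=
  ∑ p : Fin (2 * Q), ((hh p : ℝ) : ℂ) • (⁅Dh Q h, star (Bg ν Q p)⁆ * ⁅Bg ν Q p, S⁆)

theorem Bg_mul_Nh (ν : ℕ → ℝ) (Q p : ℕ) :
    Bg ν Q p * Nh = (Nh : Op (Fin (Q + 1))) * Bg ν Q p + (2 : ℂ) • Bg ν Q p := by
  unfold Bg
  rw [smul_mul_assoc, PathStep880.bz_mul_Nh, smul_add, mul_smul_comm, smul_comm (2 : ℂ)]

theorem star_Bg_mul_Nh (ν : ℕ → ℝ) (Q p : ℕ) : star (Bg ν Q p) * Nh =
    (Nh : Op (Fin (Q + 1))) * star (Bg ν Q p) - (2 : ℂ) • star (Bg ν Q p) := by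
  have h := congrArg star (Bg_mul_Nh ν Q p)
  rw [star_mul, star_add, star_mul, star_smul, FX963.star_Nh] at h
  have e : star (2 : ℂ) = 2 := by simp
  rw [e] at h
  rw [h]
  abel

theorem Dh_comm_Nh (Q : ℕ) (h : ℕ → ℝ) : Dh Q h * Nh = (Nh : Op (Fin (Q + 1))) * Dh Q h :=
  (Nh_comm_dG _).symm

theorem commute_term (ν : ℕ → ℝ) (h : ℕ → ℝ) (p : ℕ) {S : Op (Fin (Q + 1))}
    (hS : Commute S (Nh : Op (Fin (Q + 1)))) :
    Commute (⁅Dh Q h, star (Bg ν Q p)⁆ * ⁅Bg ν Q p, S⁆) (Nh : Op (Fin (Q + 1))) := by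
  set B := Bg ν Q p
  set N := (Nh : Op (Fin (Q + 1)))
  have hB : B * N = N * B + (2 : ℂ) • B := Bg_mul_Nh ν Q p
  have hB' : star B * N = N * star B - (2 : ℂ) • star B := star_Bg_mul_Nh ν Q p
  have hD : Dh Q h * N = N * Dh Q h := Dh_comm_Nh Q h
  have hS' : S * N = N * S := hS
  have h1 : ⁅B, S⁆ * N = N * ⁅B, S⁆ + (2 : ℂ) • ⁅B, S⁆ := by
    rw [Ring.lie_def, sub_mul, mul_assoc, hS', ← mul_assoc, hB, mul_assoc S B N, hB, mul_add,
      ← mul_assoc S N B, hS', add_mul, smul_mul_assoc, mul_smul_comm, mul_sub, smul_sub]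
    simp only [mul_assoc]
    abel
  have h2 : ⁅Dh Q h, star B⁆ * N = N * ⁅Dh Q h, star B⁆ - (2 : ℂ) • ⁅Dh Q h, star B⁆ := by
    rw [Ring.lie_def, sub_mul, mul_assoc, hB', mul_sub, ← mul_assoc (Dh Q h) N, hD,
      mul_assoc (star B) (Dh Q h) N, hD, ← mul_assoc (star B) N, hB', sub_mul, smul_mul_assoc,
      mul_smul_comm, mul_sub, smul_sub]
    simp only [mul_assoc]
    abel
  show ⁅Dh Q h, star B⁆ * ⁅B, S⁆ * N = N * (⁅Dh Q h, star B⁆ * ⁅B, S⁆)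
  rw [mul_assoc, h1, mul_add, ← mul_assoc, h2, sub_mul, mul_smul_comm, smul_mul_assoc, mul_assoc,
    sub_add_cancel]

theorem pairs_zero (Q : ℕ) : pairs Q 0 = ∅ := by
  refine Finset.eq_empty_of_forall_notMem fun x hx => ?_
  obtain ⟨h1, h2⟩ := mem_pairs.1 hx
  have h3 : (x.1 : ℕ) < x.2 := h1
  omega

theorem Bg_zero (ν : ℕ → ℝ) (Q : ℕ) : Bg ν Q 0 = 0 := by
  rw [Bg_eq, pairs_zero, Finset.sum_empty]

theorem card_nearS_le (n L : ℕ) : (nearS n L).card ≤ L := by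
  have h : (nearS n L).card ≤ (Finset.range L).card := by
    refine Finset.card_le_card_of_injOn (fun x => (x : ℕ)) ?_ ?_
    · intro x hx
      have := mem_nearS.1 hx
      simpa using this
    · intro x _ y _ h
      exact Fin.ext h
  rwa [Finset.card_range] at h

/-- **(TX), class part**: `YY` is in the dyadic class. -/
theorem exists_dy_YY (q k : ℕ) : ∃ K : ℝ, 1 ≤ K ∧ ∀ (t : Fin 3 → ℝ), Adm t → ∀ (Q : ℕ)
    (hh h : ℕ → ℝ) (Ch κ C : ℝ) (S : Op (Fin (Q + 1))), 0 ≤ κ → (∀ p < 2 * Q, |hh p| ≤ Ch) →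
      0 ≤ Ch → (∀ j ≤ Q, |h j| ≤ κ * sj j ^ q) → DY Q (k + q + 5) C S →
      DY Q (k + 1) (K * (Ch * κ * C)) (YY (nuT t Q) Q hh h S) := by
  obtain ⟨K, hK1, hK⟩ := exists_lie_Bg (k + q + 4)
  refine ⟨4 + 4 * K, by linarith, fun t ht Q hh h Ch κ C S hκ hhh hCh hh' hS => ?_⟩
  have hC := hS.nonneg
  have hterm : ∀ p : Fin (2 * Q), ∀ Z : Op (Fin (Q + 1)), ∀ b : ℝ,
      ‖⁅Bg (nuT t Q) Q p, Z⁆‖ ≤ b →
      ‖((hh p : ℝ) : ℂ) • (⁅Dh Q h, star (Bg (nuT t Q) Q p)⁆ * ⁅Bg (nuT t Q) Q p, Z⁆)‖ ≤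
        Ch * (2 * κ * sj p ^ (q + 1)) * b := by
    intro p Z b hb
    rw [norm_smul, Complex.norm_real, Real.norm_eq_abs, mul_assoc]
    have h1 := norm_lie_Dh_le (nuT t Q) hκ hh' p
    have h2 := (sj_pos (p : ℕ)).le
    have h3 := hhh p p.2
    refine mul_le_mul h3 ?_ (norm_nonneg _) hCh
    refine (norm_mul_le _ _).trans ?_
    exact mul_le_mul h1 hb (norm_nonneg _) (by positivity)
  -- the approximants
  have happ : ∀ l : ℕ, ∃ Y, LocN Q (4 ^ l) Y ∧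
      ‖YY (nuT t Q) Q hh h S - Y‖ ≤ (4 + 4 * K) * (Ch * κ * C) * ((2 ^ l)⁻¹) ^ (k + 1) ∧
      (l = 0 → Y = 0) := by
    intro l
    obtain ⟨Sl, hSl, hSSl⟩ := hS.app l
    refine ⟨∑ p ∈ nearS (2 * Q) (4 ^ l), ((hh p : ℝ) : ℂ) •
      (⁅Dh Q h, star (Bg (nuT t Q) Q p)⁆ * ⁅Bg (nuT t Q) Q p, Sl⁆), ?_, ?_, ?_⟩
    · refine LocN.sum' _ fun p hp => ?_
      have hp' := mem_nearS.1 hp
      refine LocN.smul _ (LocN.mul' (locN_lie_Dh hp' _ _) ?_)
      rw [Ring.lie_def]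
      exact (LocN.mul' (locN_Bg hp' _) hSl).sub (LocN.mul' hSl (locN_Bg hp' _))
    · have hsplit : YY (nuT t Q) Q hh h S - (∑ p ∈ nearS (2 * Q) (4 ^ l), ((hh p : ℝ) : ℂ) •
          (⁅Dh Q h, star (Bg (nuT t Q) Q p)⁆ * ⁅Bg (nuT t Q) Q p, Sl⁆)) =
          (∑ p ∈ nearS (2 * Q) (4 ^ l), ((hh p : ℝ) : ℂ) •
            (⁅Dh Q h, star (Bg (nuT t Q) Q p)⁆ * ⁅Bg (nuT t Q) Q p, S - Sl⁆)) +
          ∑ p ∈ farS (2 * Q) (4 ^ l), ((hh p : ℝ) : ℂ) •
            (⁅Dh Q h, star (Bg (nuT t Q) Q p)⁆ * ⁅Bg (nuT t Q) Q p, S⁆) := by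
        have e1 : YY (nuT t Q) Q hh h S = (∑ p ∈ nearS (2 * Q) (4 ^ l), ((hh p : ℝ) : ℂ) •
            (⁅Dh Q h, star (Bg (nuT t Q) Q p)⁆ * ⁅Bg (nuT t Q) Q p, S⁆)) +
          ∑ p ∈ farS (2 * Q) (4 ^ l), ((hh p : ℝ) : ℂ) •
            (⁅Dh Q h, star (Bg (nuT t Q) Q p)⁆ * ⁅Bg (nuT t Q) Q p, S⁆) := by
          unfold YY nearS farS
          rw [← Finset.sum_filter_add_sum_filter_not Finset.univ
            (fun j : Fin (2 * Q) => (j : ℕ) < 4 ^ l)]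
          congr 1
          apply Finset.sum_congr _ fun _ _ => rfl
          ext j
          simp
        rw [e1, add_sub_right_comm, ← Finset.sum_sub_distrib]
        congr 1
        refine Finset.sum_congr rfl fun p _ => ?_
        rw [← smul_sub, ← mul_sub]
        congr 2
        simp only [Ring.lie_def, mul_sub, sub_mul]
        abel
      rw [hsplit]
      have hn : ‖∑ p ∈ nearS (2 * Q) (4 ^ l), ((hh p : ℝ) : ℂ) •
            (⁅Dh Q h, star (Bg (nuT t Q) Q p)⁆ * ⁅Bg (nuT t Q) Q p, S - Sl⁆)‖ ≤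
          4 * (Ch * κ * C) * ((2 ^ l)⁻¹) ^ (k + 1) := by
        refine (norm_sum_le _ _).trans ?_
        have h1 : ∀ p ∈ nearS (2 * Q) (4 ^ l), ‖((hh p : ℝ) : ℂ) •
            (⁅Dh Q h, star (Bg (nuT t Q) Q p)⁆ * ⁅Bg (nuT t Q) Q p, S - Sl⁆)‖ ≤
            Ch * (2 * κ * (2 ^ l) ^ (q + 1)) * (2 * 2 ^ l * (C * ((2 ^ l)⁻¹) ^ (k + q + 5))) := by
          intro p hp
          have hp' := mem_nearS.1 hp
          have h2 : sj (p : ℕ) ≤ 2 ^ l := sj_le_two_pow (by omega)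
          have h3 := (sj_pos (p : ℕ)).le
          have h4 : ‖⁅Bg (nuT t Q) Q p, S - Sl⁆‖ ≤ 2 * 2 ^ l * (C * ((2 ^ l)⁻¹) ^ (k + q + 5)) := by
            refine norm_lie_le.trans ?_
            have := (norm_Bg_le (nuT t Q) Q p).trans h2
            gcongr
          refine (hterm p (S - Sl) _ h4).trans ?_
          gcongr
        refine (Finset.sum_le_sum h1).trans ?_
        rw [Finset.sum_const, nsmul_eq_mul]
        have h5 : ((nearS (2 * Q) (4 ^ l)).card : ℝ) ≤ (2 ^ l) ^ 2 := by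
          have h6 : ((nearS (2 * Q) (4 ^ l)).card : ℝ) ≤ ((4 ^ l : ℕ) : ℝ) := by
            exact_mod_cast card_nearS_le (2 * Q) (4 ^ l)
          refine h6.trans (le_of_eq ?_)
          push_cast
          rw [← pow_mul, mul_comm l 2, pow_mul]
          norm_num
        calc ((nearS (2 * Q) (4 ^ l)).card : ℝ) * (Ch * (2 * κ * (2 ^ l) ^ (q + 1)) *
              (2 * 2 ^ l * (C * ((2 ^ l)⁻¹) ^ (k + q + 5))))
            ≤ (2 ^ l) ^ 2 * (Ch * (2 * κ * (2 ^ l) ^ (q + 1)) *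
              (2 * 2 ^ l * (C * ((2 ^ l)⁻¹) ^ (k + q + 5)))) := by gcongr
          _ = 4 * (Ch * κ * C) * ((2 ^ l) ^ (q + 4) * ((2 ^ l)⁻¹) ^ (k + q + 5)) := by ring
          _ = _ := by
            have h7 : ((2 : ℝ) ^ l)⁻¹ ^ (k + q + 5) =
                ((2 : ℝ) ^ l)⁻¹ ^ (q + 4) * ((2 : ℝ) ^ l)⁻¹ ^ (k + 1) := by
              rw [← pow_add]; congr 1; omega
            rw [h7, ← mul_assoc ((2 ^ l : ℝ) ^ (q + 4)), ← mul_pow, mul_inv_cancel₀ (by positivity),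
              one_pow, one_mul]
      have hf : ‖∑ p ∈ farS (2 * Q) (4 ^ l), ((hh p : ℝ) : ℂ) •
            (⁅Dh Q h, star (Bg (nuT t Q) Q p)⁆ * ⁅Bg (nuT t Q) Q p, S⁆)‖ ≤
          4 * K * (Ch * κ * C) * ((2 ^ l)⁻¹) ^ (k + 1) := by
        refine (norm_sum_le _ _).trans ?_
        have h1 : ∀ p ∈ farS (2 * Q) (4 ^ l), ‖((hh p : ℝ) : ℂ) •
            (⁅Dh Q h, star (Bg (nuT t Q) Q p)⁆ * ⁅Bg (nuT t Q) Q p, S⁆)‖ ≤
            2 * K * (Ch * κ * C) * ((sj (p : ℕ))⁻¹) ^ (k + 3) := by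
          intro p _
          have h2 := hK t ht Q C S hS p
          have h3 := sj_pos (p : ℕ)
          refine (hterm p S _ h2).trans (le_of_eq ?_)
          have h7 : (sj (p : ℕ))⁻¹ ^ (k + q + 4) =
              (sj (p : ℕ))⁻¹ ^ (q + 1) * (sj (p : ℕ))⁻¹ ^ (k + 3) := by
            rw [← pow_add]; congr 1; omega
          rw [h7]
          calc Ch * (2 * κ * sj (p : ℕ) ^ (q + 1)) *
                (K * C * ((sj (p : ℕ))⁻¹ ^ (q + 1) * (sj (p : ℕ))⁻¹ ^ (k + 3)))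
              = 2 * K * (Ch * κ * C) * ((sj (p : ℕ) ^ (q + 1) * (sj (p : ℕ))⁻¹ ^ (q + 1)) *
                (sj (p : ℕ))⁻¹ ^ (k + 3)) := by ring
            _ = _ := by rw [← mul_pow, mul_inv_cancel₀ h3.ne', one_pow, one_mul]
        refine (Finset.sum_le_sum h1).trans ?_
        rw [← Finset.mul_sum]
        have h2 := sum_far_pow (2 * Q) l k
        calc _ ≤ 2 * K * (Ch * κ * C) * (2 * (((2:ℝ) ^ l)⁻¹) ^ (k + 1)) := by gcongr
          _ = _ := by ring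
      calc _ ≤ _ := norm_add_le _ _
        _ ≤ 4 * (Ch * κ * C) * ((2 ^ l)⁻¹) ^ (k + 1) +
            4 * K * (Ch * κ * C) * ((2 ^ l)⁻¹) ^ (k + 1) := add_le_add hn hf
        _ = _ := by ring
    · intro hl
      subst hl
      refine Finset.sum_eq_zero fun p hp => ?_
      have hp' := mem_nearS.1 hp
      have hp0 : (p : ℕ) = 0 := by omega
      rw [hp0, Bg_zero]
      simp [Ring.lie_def]
  refine ⟨?_, ?_, fun l => ?_⟩
  · unfold YY
    refine Commute.sum_left _ _ _ fun p _ => ?_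
    exact (commute_term _ _ _ hS.comm).smul_left _
  · obtain ⟨Y, -, h1, h2⟩ := happ 0
    rw [h2 rfl, sub_zero] at h1
    simpa using h1
  · obtain ⟨Y, h0, h1, -⟩ := happ l
    exact ⟨Y, h0, h1⟩

end Crest.Agent.R340.TX880
end

-- ▼ part R340/TX3_880
section

/-!
# R340, (TX) part 3 (helper880): the `X` term of the path derivative

`tx_gen`: for `X ∈ DY Q (k+q+9) 1` and every profile `F` with `|F j - (α + β j)| ≤ κ (sj j)^q` there is
`Y ∈ Dy (k+1) Q (K κ)` with `Re⟪off (TT Q F ψ), off (X ψ)⟫ = Re⟪ψ, Y ψ⟫` for the zero modes of every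
`nuT t Q`; `tx`: `Defs150.TX 40 24 K`.
-/

set_option autoImplicit false

open scoped InnerProductSpace
open MeasureTheory

namespace Crest.Agent.R340.TX880

open Finset
open Crest.Agent.R340.Fock649 Crest.Agent.R340.Geo986 Crest.Agent.R340.Step596
open Crest.Agent.R340.PV341 (Adm)
open Crest.Agent.R340.Peel596
open Crest.Agent.R340.PathStep880
open Crest.Agent.R340.PD757 (sj sj_sq sj_pos one_le_sj)
open Crest.Agent.R340.FX963 (LocN DY locN_iff KX KB)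
open Crest.Agent.R340.GG467 (pj pj_mem pj_of_mem star_pj pj_mul_self isSelfAdjoint_pj)
open Crest.Agent.R340.LR667 (IsFilter SS U)
open Crest.Agent.R340.LocT163 (HT hh HT_eq_sum hh_bounds isSelfAdjoint_HT HT_mul_pj)
open Crest.Agent.R340.Scal725 (dd)

variable {Q : ℕ}

/-! ### 1. algebra -/

/-- `P G H S P = P (∑_p hh_p ⁅G, star B_p⁆ ⁅B_p, S⁆) P` -/
theorem mul_H_mul {ν : ℕ → ℝ} {H P S : Op (Fin (Q + 1))} {hc h : ℕ → ℝ} (hPs : star P = P)
    (hBP : ∀ p, Bg ν Q p * P = 0)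
    (hH : H = ∑ p : Fin (2 * Q), ((hc p : ℝ) : ℂ) • (star (Bg ν Q p) * Bg ν Q p)) :
    P * Dh Q h * (H * S * P) = P * YY ν Q hc h S * P := by
  have hPB : ∀ p, P * star (Bg ν Q p) = 0 := by
    intro p
    have h1 := congrArg star (hBP p)
    rwa [star_mul, hPs, star_zero] at h1
  rw [hH, YY, Finset.sum_mul, Finset.sum_mul, Finset.mul_sum, Finset.mul_sum, Finset.sum_mul]
  refine Finset.sum_congr rfl fun p _ => ?_
  rw [smul_mul_assoc, smul_mul_assoc, mul_smul_comm, mul_smul_comm, smul_mul_assoc]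
  congr 1
  have e1 : P * ⁅Dh Q h, star (Bg ν Q p)⁆ = P * Dh Q h * star (Bg ν Q p) := by
    rw [Ring.lie_def, mul_sub, ← mul_assoc, ← mul_assoc, hPB, zero_mul, sub_zero]
  have e2 : ⁅Bg ν Q p, S⁆ * P = Bg ν Q p * S * P := by
    rw [Ring.lie_def, sub_mul, mul_assoc S, hBP, mul_zero, sub_zero]
  calc P * Dh Q h * (star (Bg ν Q p) * Bg ν Q p * S * P)
      = (P * Dh Q h * star (Bg ν Q p)) * (Bg ν Q p * S * P) := by noncomm_ring
    _ = (P * ⁅Dh Q h, star (Bg ν Q p)⁆) * (⁅Bg ν Q p, S⁆ * P) := by rw [e1, e2]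
    _ = _ := by noncomm_ring

theorem Bg_mul_pj (ν : ℕ → ℝ) (Q p : ℕ) : Bg ν Q p * pj (Zs ν Q) = 0 := by
  have h1 : bz ν Q p * pj (Zs ν Q) = 0 := by
    apply Op.ext
    intro ψ
    rw [mul_ap]
    exact (pj_mem (Zs ν Q) ψ) p
  unfold Bg
  rw [smul_mul_assoc, h1, smul_zero]

/-- coefficients, zero at `p = 0` -/
noncomputable def hz (t : Fin 3 → ℝ) (Q p : ℕ) : ℝ := if p = 0 then 0 else hh t Q p

theorem HT_eq_fin (hQ : 1 ≤ Q) (t : Fin 3 → ℝ) : HT t Q = ∑ p : Fin (2 * Q),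
    ((hz t Q p : ℝ) : ℂ) • (star (Bg (nuT t Q) Q p) * Bg (nuT t Q) Q p) := by
  rw [HT_eq_sum hQ, ← Fin.sum_univ_eq_sum_range (fun p => ((hh t Q p : ℝ) : ℂ) •
      (star (Bg (nuT t Q) Q p) * Bg (nuT t Q) Q p)) (2 * Q)]
  refine Finset.sum_congr rfl fun p _ => ?_
  unfold hz
  split_ifs with h
  · rw [h, Bg_zero]; simp
  · rfl

/-! ### 2. the general theorem -/


theorem TT_sub_aff (F : ℕ → ℝ) (α β : ℝ) (ψ : Fk (Fin (Q + 1))) : TT Q F ψ =
    TT Q (fun j => F j - (α + β * j)) ψ + (((α : ℝ) : ℂ) • TT Q (fun _ => 1) ψ +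
      ((β : ℝ) : ℂ) • TT Q (fun j => (j : ℝ)) ψ) := by
  have h1 : Dh Q F = Dh Q (fun j => F j - (α + β * j)) +
      (((α : ℝ) : ℂ) • Dh Q (fun _ => 1) + ((β : ℝ) : ℂ) • Dh Q (fun j => (j : ℝ))) := by
    unfold Dh
    rw [← dG_smul, ← dG_smul, ← dG_add, ← dG_add]
    congr 1
    ext i j
    simp only [Matrix.add_apply, Matrix.smul_apply, Matrix.diagonal_apply, smul_eq_mul]
    split_ifs with h
    · push_cast; ring
    · simp
  exact congrArg (fun A : Op (Fin (Q + 1)) => A ψ) h1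

/-- **(TX), general profile** -/
theorem tx_gen (q k : ℕ) {γ₀ : ℝ} (hγ : 0 < γ₀) (hG : ∀ Q : ℕ, GapG (nu0 Q) Q γ₀) :
    ∃ K : ℝ, 0 ≤ K ∧ ∀ Q : ℕ, 1 ≤ Q → ∀ t : Fin 3 → ℝ, Adm t → ∀ X : Op (Fin (Q + 1)),
      ∀ C : ℝ, DY Q (k + q + 9) C X → ∀ (F : ℕ → ℝ) (α β κ : ℝ), 0 ≤ κ →
      (∀ j ≤ Q, |F j - (α + β * j)| ≤ κ * sj j ^ q) →
      ∃ Y : Op (Fin (Q + 1)), Defs150.Dy (k + 1) Q (K * (κ * C)) Y ∧ ∀ n : ℕ,
        ∀ ψ ∈ Zn (nuT t Q) Q n,
        (⟪off (Zn (nuT t Q) Q n) (TT Q F ψ), off (Zn (nuT t Q) Q n) (X ψ)⟫_ℂ).re =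
          (⟪ψ, Y ψ⟫_ℂ).re := by
  obtain ⟨w, hw, hkill⟩ := TzP421.hkill_theta γ₀ hγ hG
  obtain ⟨c0, Ch, hc0, hcC, hb⟩ := hh_bounds
  obtain ⟨K, hK1, hK⟩ := exists_dy_YY q k
  have hCh : 0 ≤ Ch := by linarith
  have hmom := Filt867.mom_nonneg w (k + q + 9 + 10)
  have hEv := Tth927.Ev0_nonneg (k + q + 9)
  have hKX := FX963.KX_pos (k + q + 9)
  have hKB := FX963.KB_pos (k + q + 4)
  set M : ℝ := KB (k + q + 4) * (Tth927.Ev0 (k + q + 9) * Filt867.mom w (k + q + 9 + 10) *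
    KX (k + q + 9)) with hM
  have hM0 : 0 ≤ M := by positivity
  refine ⟨K * (Ch * M), by positivity, fun Q hQ t ht X C hX F α β κ hκ hF => ?_⟩
  have hC := hX.nonneg
  set H := HT t Q with hHdef
  have hHs : IsSelfAdjoint H := isSelfAdjoint_HT t Q
  set P := pj (Zs (nuT t Q) Q) with hP
  have hPs : star P = P := star_pj _
  set S := SS w H X with hSdef
  -- class of `S`
  have hSN : Commute S (Nh : Op (Fin (Q + 1))) :=
    Filt867.SS_comm hw hHs (TzP421.HT_comm_Nh hQ t) hX.comm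
  have hSPC := Tth927.SS_PC hQ ht hw hX.ev hX.pc
  have hSDY : DY Q (k + q + 5) (M * C) S := by
    have h1 := FX963.DY.of_pc (k := k + q + 4) hSN hSPC
    refine h1.mono (le_of_eq ?_)
    rw [hM]; ring
  -- the operator
  set h : ℕ → ℝ := fun j => F j - (α + β * j) with hh'
  set V := YY (nuT t Q) Q (hz t Q) h S with hV
  have hzb : ∀ p < 2 * Q, |hz t Q p| ≤ Ch := by
    intro p hp
    unfold hz
    split_ifs with h0
    · rw [abs_zero]; exact hCh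
    · obtain ⟨h1, h2⟩ := hb t ht Q p (by omega) (by omega)
      rw [abs_of_nonneg (by linarith)]
      exact h2
  have hVDY : DY Q (k + 1) (K * (Ch * κ * (M * C))) V :=
    hK t ht Q (hz t Q) h Ch κ (M * C) S hκ hzb hCh hF hSDY
  set W := (-Complex.I) • V with hW
  have hWDY : DY Q (k + 1) (K * (Ch * κ * (M * C))) W := by
    have := hVDY.smul (-Complex.I)
    rwa [norm_neg, Complex.norm_I, one_mul] at this
  set Y := ((1 / 2 : ℝ) : ℂ) • (W + star W) with hY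
  have hYs : star Y = Y := by
    rw [hY, star_smul, star_add, star_star, Complex.star_def, Complex.conj_ofReal,
      add_comm (star W) W]
  have hYDY : DY Q (k + 1) (K * (Ch * M) * (κ * C)) Y := by
    have h1 := (hWDY.add hWDY.star).smul ((1 / 2 : ℝ) : ℂ)
    refine h1.mono (le_of_eq ?_)
    rw [Complex.norm_real, Real.norm_eq_abs, abs_of_pos (by norm_num)]
    ring
  refine ⟨Y, ⟨hYs, hYDY⟩, fun n ψ hψ => ?_⟩
  -- the identity
  have hkillQ := hkill Q hQ t ht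
  have hoffd : (1 - P) * X * P = -(Complex.I • (H * S * P)) :=
    LR667.offdiag_eq hw hHs (isSelfAdjoint_pj _) (HT_mul_pj hQ) hkillQ X
  have hPP : P * P = P := pj_mul_self _
  have hψZ : ψ ∈ Zs (nuT t Q) Q := hψ.1
  have hPψ : P ψ = ψ := pj_of_mem hψZ
  have hNψ : (Nh : Op (Fin (Q + 1))) ψ = (n : ℂ) • ψ := hψ.2
  set Z := Zn (nuT t Q) Q n with hZ
  have hoffF : off Z (TT Q F ψ) = off Z (TT Q h ψ) := by
    rw [TT_sub_aff F α β ψ, map_add]
    have h1 : ((α : ℝ) : ℂ) • TT Q (fun _ => 1) ψ + ((β : ℝ) : ℂ) • TT Q (fun j => (j : ℝ)) ψ ∈ Z :=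
      Z.add_mem (Z.smul_mem _ (TT_one_mem_Zn hψ)) (Z.smul_mem _ (TT_lin_mem_Zn hψ))
    have h2 : off Z (((α : ℝ) : ℂ) • TT Q (fun _ => 1) ψ +
        ((β : ℝ) : ℂ) • TT Q (fun j => (j : ℝ)) ψ) = 0 := by
      rw [off_apply, Submodule.starProjection_eq_self_iff.2 h1, sub_self]
    rw [h2, add_zero]
  have hoffP : ∀ x : Fk (Fin (Q + 1)), (Nh : Op (Fin (Q + 1))) x = (n : ℂ) • x →
      off Z x = (1 - P) x := by
    intro x hx
    rw [hZ, off_Zn hx]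
    rfl
  have hNh : (Nh : Op (Fin (Q + 1))) (TT Q h ψ) = (n : ℂ) • TT Q h ψ := by
    rw [TT_Nh, hNψ, map_smul]
  have hNX : (Nh : Op (Fin (Q + 1))) (X ψ) = (n : ℂ) • X ψ := by
    rw [← mul_ap, ← hX.comm.eq, mul_ap, hNψ, map_smul]
  rw [hoffF, hoffP _ hNh, hoffP _ hNX]
  have hI : star (1 - P) * (1 - P) = 1 - P := by
    rw [star_sub, star_one, hPs, sub_mul, mul_sub, mul_sub, hPP]
    simp
  have e1 : ⟪(1 - P) (TT Q h ψ), (1 - P) (X ψ)⟫_ℂ = ⟪ψ, (P * Dh Q h * ((1 - P) * X * P)) ψ⟫_ℂ := by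
    have a1 : ⟪(1 - P) (TT Q h ψ), (1 - P) (X ψ)⟫_ℂ = ⟪TT Q h ψ, ((1 - P) * X) ψ⟫_ℂ := by
      rw [← inner_star_right, ← mul_ap, hI, ← mul_ap]
    have a2 : ⟪TT Q h ψ, ((1 - P) * X) ψ⟫_ℂ = ⟪ψ, (Dh Q h * ((1 - P) * X)) ψ⟫_ℂ := by
      have h3 := inner_star_left (Dh Q h) ψ (((1 - P) * X) ψ)
      rw [star_Dh] at h3
      exact h3
    rw [a1, a2]
    have a3 : ⟪ψ, (Dh Q h * ((1 - P) * X)) ψ⟫_ℂ = ⟪P ψ, (Dh Q h * ((1 - P) * X)) (P ψ)⟫_ℂ := by
      rw [hPψ]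
    rw [a3, ← inner_star_right, hPs, ← mul_ap, ← mul_ap]
    congr 2
  have e2 : P * Dh Q h * ((1 - P) * X * P) = P * W * P := by
    rw [hoffd, mul_neg, mul_smul_comm,
      mul_H_mul (hc := hz t Q) hPs (Bg_mul_pj _ Q) (HT_eq_fin hQ t), hW, mul_smul_comm,
      smul_mul_assoc, neg_smul]
  rw [e1, e2]
  have e3 : ⟪ψ, (P * W * P) ψ⟫_ℂ = ⟪ψ, W ψ⟫_ℂ := by
    rw [mul_ap, mul_ap, hPψ, ← hPs, inner_star_right, hPψ]
  rw [e3]
  have e4 : ⟪ψ, Y ψ⟫_ℂ = ((1 / 2 : ℝ) : ℂ) * (⟪ψ, W ψ⟫_ℂ + ⟪ψ, star W ψ⟫_ℂ) := by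
    rw [hY, smul_ap, add_ap, inner_smul_right, inner_add_right]
  have e5 : (⟪ψ, star W ψ⟫_ℂ).re = (⟪ψ, W ψ⟫_ℂ).re := by
    rw [inner_star_right, ← inner_conj_symm, Complex.conj_re]
  rw [e4, Complex.re_ofReal_mul, Complex.add_re, e5]
  ring

/-! ### 3. the metric profile -/

theorem gm_taylor (b : ℕ) {Q j : ℕ} (hQ : 1 ≤ Q) (hj : j ≤ Q) :
    |gm b Q j - (gm b Q 0 + (gm b Q 1 - gm b Q 0) * j)| ≤
      6 * b / ((Q : ℝ) + 1) ^ 2 * sj j ^ 6 := by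
  have hQ' : (1 : ℝ) ≤ Q := by exact_mod_cast hQ
  have hb0 : (0 : ℝ) ≤ b := Nat.cast_nonneg b
  rcases Nat.eq_zero_or_pos j with rfl | h
  · have h0 := (sj_pos 0).le
    simp only [Nat.cast_zero, mul_zero, add_zero, sub_self, abs_zero]
    positivity
  obtain ⟨i, rfl⟩ : ∃ i, j = i + 1 := ⟨j - 1, by omega⟩
  have hiQ : i + 1 ≤ Q := hj
  have hiQr : (i : ℝ) + 1 ≤ Q := by exact_mod_cast hiQ
  have hi0 : (0 : ℝ) ≤ i := Nat.cast_nonneg i
  have e1 : gm b Q (i + 1) - (gm b Q 0 + (gm b Q 1 - gm b Q 0) * ((i + 1 : ℕ) : ℝ)) =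
      ∑ p ∈ range i, dd (gm b Q) p * ((i : ℝ) - p) := by
    rw [taylor (gm b Q) i]
    push_cast
    ring
  rw [e1]
  have hterm : ∀ p ∈ range i, 0 ≤ dd (gm b Q) p * ((i : ℝ) - p) ∧
      dd (gm b Q) p * ((i : ℝ) - p) ≤ 4 / 3 * b * (i ^ 2 / (Q : ℝ) ^ 2) := by
    intro p hp
    have hp' := mem_range.1 hp
    have hpi : (p : ℝ) + 1 ≤ i := by exact_mod_cast hp'
    have hp0 : (0 : ℝ) ≤ p := Nat.cast_nonneg p
    have h1 := dd_gm_nonneg (b := b) (Q := Q) (p := p) (by omega)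
    have h2 := dd_gm_le (b := b) (Q := Q) (p := p) (by omega)
    refine ⟨mul_nonneg h1 (by linarith), ?_⟩
    have hQp : 0 < (Q : ℝ) - p := by linarith
    have h3 : ((i : ℝ) - p) * Q ≤ i * ((Q : ℝ) - p) := by nlinarith
    have h4 : ((i : ℝ) - p) * (((Q : ℝ) - p) ^ 2)⁻¹ ≤ i ^ 2 / (Q : ℝ) ^ 2 := by
      rw [← div_eq_mul_inv, div_le_div_iff₀ (by positivity) (by positivity)]
      have h5 : (((i : ℝ) - p) * Q) ^ 2 ≤ (i * ((Q : ℝ) - p)) ^ 2 := by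
        have : 0 ≤ ((i : ℝ) - p) * Q := mul_nonneg (by linarith) (by linarith)
        gcongr
      have h6 : ((i : ℝ) - p) ≤ ((i : ℝ) - p) ^ 2 := by nlinarith
      calc ((i : ℝ) - p) * (Q : ℝ) ^ 2 ≤ ((i : ℝ) - p) ^ 2 * (Q : ℝ) ^ 2 := by gcongr
        _ = (((i : ℝ) - p) * Q) ^ 2 := by ring
        _ ≤ (i * ((Q : ℝ) - p)) ^ 2 := h5
        _ = _ := by ring
    calc dd (gm b Q) p * ((i : ℝ) - p) ≤ (4 / 3 * b * (((Q : ℝ) - p) ^ 2)⁻¹) * ((i : ℝ) - p) :=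
          mul_le_mul_of_nonneg_right h2 (by linarith)
      _ = 4 / 3 * b * (((i : ℝ) - p) * (((Q : ℝ) - p) ^ 2)⁻¹) := by ring
      _ ≤ _ := by gcongr
  rw [abs_of_nonneg (sum_nonneg fun p hp => (hterm p hp).1)]
  refine (sum_le_sum fun p hp => (hterm p hp).2).trans ?_
  rw [sum_const, card_range, nsmul_eq_mul]
  have e2 : sj (i + 1) ^ 6 = ((i : ℝ) + 2) ^ 3 := by
    rw [show (6 : ℕ) = 2 * 3 from rfl, pow_mul, sj_sq]
    push_cast
    ring
  rw [e2]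
  have h7 : 1 / (Q : ℝ) ^ 2 ≤ 4 / ((Q : ℝ) + 1) ^ 2 := by
    rw [div_le_div_iff₀ (by positivity) (by positivity)]
    nlinarith
  calc (i : ℝ) * (4 / 3 * b * (i ^ 2 / (Q : ℝ) ^ 2)) = 4 / 3 * b * i ^ 3 * (1 / (Q : ℝ) ^ 2) := by ring
    _ ≤ 4 / 3 * b * ((i : ℝ) + 2) ^ 3 * (4 / ((Q : ℝ) + 1) ^ 2) := by gcongr; linarith
    _ = (16 / 3 * b) / ((Q : ℝ) + 1) ^ 2 * ((i : ℝ) + 2) ^ 3 := by ring
    _ ≤ _ := by gcongr; norm_num

/-- **(TX)**, path generator `gm b Q`, all metrics -/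
theorem tx_gm (k : ℕ) {γ₀ : ℝ} (hγ : 0 < γ₀) (hG : ∀ Q : ℕ, GapG (nu0 Q) Q γ₀) :
    ∃ K : ℝ, 0 ≤ K ∧ ∀ b Q : ℕ, 1 ≤ Q → ∀ t : Fin 3 → ℝ, Adm t → ∀ X : Op (Fin (Q + 1)),
      ∀ C : ℝ, DY Q (k + 15) C X →
      ∃ Y : Op (Fin (Q + 1)), Defs150.Dy (k + 1) Q (K * b * C / ((Q : ℝ) + 1) ^ 2) Y ∧ ∀ n : ℕ,
        ∀ ψ ∈ Zn (nuT t Q) Q n,
        (⟪off (Zn (nuT t Q) Q n) (TT Q (gm b Q) ψ), off (Zn (nuT t Q) Q n) (X ψ)⟫_ℂ).re =
          (⟪ψ, Y ψ⟫_ℂ).re := by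
  obtain ⟨K, hK0, hK⟩ := tx_gen 6 k hγ hG
  refine ⟨K * 6, by positivity, fun b Q hQ t ht X C hX => ?_⟩
  obtain ⟨Y, hY, h⟩ := hK Q hQ t ht X C hX (gm b Q) (gm b Q 0) (gm b Q 1 - gm b Q 0)
    (6 * b / ((Q : ℝ) + 1) ^ 2) (by positivity) (fun j hj => gm_taylor b hQ hj)
  refine ⟨Y, ⟨hY.1, hY.2.mono (le_of_eq ?_)⟩, h⟩
  ring

/-- **(TX)**, literal -/
theorem exists_TX (k : ℕ) {γ₀ : ℝ} (hγ : 0 < γ₀) (hG : ∀ Q : ℕ, GapG (nu0 Q) Q γ₀) :
    ∃ K : ℝ, Defs150.TX (k + 15) (k + 1) K := by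
  obtain ⟨K, hK0, hK⟩ := tx_gm k hγ hG
  refine ⟨K * 3, by positivity, fun Q hQ θ hθ X hX => ?_⟩
  obtain ⟨Y, hY, h⟩ := hK 3 Q hQ (tA θ) (adm_tA hθ) X 1 hX.2
  refine ⟨Y, ⟨hY.1, hY.2.mono (le_of_eq ?_)⟩, fun n ψ hψ => h n ψ hψ⟩
  push_cast
  ring

/-- **(TX)** with the exponents of PLAN-F1 -/
theorem exists_TX_40_24 {γ₀ : ℝ} (hγ : 0 < γ₀) (hG : ∀ Q : ℕ, GapG (nu0 Q) Q γ₀) :
    ∃ K : ℝ, Defs150.TX 40 24 K := by
  obtain ⟨K, hK0, hK⟩ := exists_TX 23 hγ hG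
  exact ⟨K, hK0, fun Q hQ θ hθ X hX => hK Q hQ θ hθ X ⟨hX.1, hX.2.mono_exp (by norm_num)⟩⟩

end Crest.Agent.R340.TX880
end

-- ▼ part R340/LR10_667
section

/-!
# R340 / S0532, layer 10: (RC), (RX), (RZ) of `Defs_150`  (helper667)

From the locality data of all geometries (`LocAll`) and the filter (`KillAll`).
-/

set_option autoImplicit false

open Matrix Finset MeasureTheory
open scoped ENNReal

namespace Crest.Agent.R340.LR667

open Crest.Agent.R340.Fock649 Crest.Agent.R340.GG467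
open Crest.Agent.R340.Geo986 (Zs nuT)
open Crest.Agent.R340.Peel596 (Zn)
open Crest.Agent.R340.PathStep880 (off TT off_Zn TT_Nh)
open Crest.Agent.R340.PV341 (Adm)
open Crest.Agent.R340.LocT163 (bT HT)
open Crest.Agent.R340.CS809 (U2 dQ dQ_comm dQ_nonneg)
open Crest.Agent.R340.Tth927 (JJ sg JJ_mem)
open Crest.Agent.R340.FI331 (fb uf)
open Crest.Agent.R340.FX963 (DY)
open Crest.Agent.R340.Avg814 (G2 tt)

/-- the locality data of all geometries, constants independent of `Q ≥ 1` and `t` -/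
def LocAll (Cm Dm : ℕ → ℝ) (em : ℕ → ℕ) (Cμ : ℝ) : Prop :=
  ∀ Q : ℕ, 1 ≤ Q → ∀ t : Fin 3 → ℝ, Adm t →
    LocData (LocT163.nuQ Q) (HT t Q) (pj (Zs (nuT t Q) Q)) (bT t Q) (fb Q) (JJ Q) (sg Q)
      Cm Dm em Cμ

/-- one filter kills the excited states of all geometries -/
def KillAll (w : ℝ → ℝ) : Prop :=
  ∀ Q : ℕ, 1 ≤ Q → ∀ t : Fin 3 → ℝ, Adm t →
    ∫ s, w s • (U (HT t Q) s * (1 - pj (Zs (nuT t Q) Q))) = 0

/-- ring distance is dominated by the distance on the sphere -/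
theorem dist_le (Q : ℕ) (z g : U2) : DR Q (JJ Q z) (JJ Q g) ≤ dQ Q g z := by
  rw [dQ_comm]
  exact Tth927.DR_le_dQ Q z g

/-- area bound -/
theorem area_le {Q : ℕ} (hQ : 1 ≤ Q) (g : U2) :
    ∫⁻ z, ENNReal.ofReal (((1 + dQ Q g z) ^ 3)⁻¹) ∂(LocT163.nuQ Q) ≤ ENNReal.ofReal 1 := by
  have h := Tth927.lint3_nuQ hQ g
  simp only [one_div] at h
  rwa [ENNReal.ofReal_one]

/-- all inputs -/
structure Inp (Cm Dm : ℕ → ℝ) (em : ℕ → ℕ) (Cμ : ℝ) (w : ℝ → ℝ) : Prop where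
  loc : LocAll Cm Dm em Cμ
  filt : IsFilter w
  kill : KillAll w
  Cm_nonneg : ∀ m, 0 ≤ Cm m
  Cμ_nonneg : 0 ≤ Cμ

variable {Cm Dm : ℕ → ℝ} {em : ℕ → ℕ} {Cμ : ℝ} {w : ℝ → ℝ}

/-- **(RC)** -/
theorem Inp.RC (h : Inp Cm Dm em Cμ w) : Defs150.RC (CGc w Cm Dm em Cμ 20) := by
  refine ⟨CGc_nonneg h.Cμ_nonneg 20, fun Q hQ t ht n => ?_⟩
  have := (h.loc Q hQ t ht).RC2 h.filt (h.kill Q hQ t ht) 20 n
  exact_mod_cast this

/-- commutators of a local operator with the pair annihilators of all geometries -/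
theorem norm_lie_bT_le {n r Q : ℕ} (hQ : 1 ≤ Q) {t : Fin 3 → ℝ} (ht : Adm t) {g : U2}
    {X : Op (Fin (Q + 1))} {C : ℝ} (hX : QL331.PC (FX963.Rq Q) (uf Q) (dQ Q) n C X g) (hr : r ≤ n)
    (z : U2) : ‖⁅X, bT t Q z⁆‖ ≤ (BBP120.KB n * C) * ((1 + dQ Q g z) ^ r)⁻¹ := by
  have hC : 0 ≤ C := (norm_nonneg _).trans hX.1
  have hK := BBP120.KB_nonneg n
  have hd := dQ_nonneg Q g z
  refine ((BBP120.bbp_PC n hQ ht hX z).1).trans ?_
  rw [div_eq_mul_inv]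
  apply mul_le_mul_of_nonneg_left _ (by positivity)
  apply inv_anti₀ (by positivity)
  exact pow_le_pow_right₀ (by linarith) hr

/-- constant of the profile of the class `DY n Q 1` against the pair annihilators -/
noncomputable def cDY (n : ℕ) : ℝ := BBP120.KB n * (FX963.KX n * 1)

theorem cDY_nonneg (n : ℕ) : 0 ≤ cDY n := by
  unfold cDY
  have h1 := BBP120.KB_nonneg n
  have h2 := FX963.one_le_KX n
  have h3 : 0 ≤ FX963.KX n := by linarith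
  positivity

theorem JJ_one (Q : ℕ) : JJ Q 1 = 0 := by
  unfold Tth927.JJ
  have : tt (1 : U2) = 0 := by
    unfold Avg814.tt
    simp
  rw [this, mul_zero]

/-- **(RX)** -/
theorem Inp.RX (h : Inp Cm Dm em Cμ w) {nW : ℕ} (hn : 8 ≤ nW) :
    Defs150.RX nW (CKc w Cm Dm em 4 1 1 * cDY nW) := by
  refine ⟨mul_nonneg (CKc_nonneg h.Cm_nonneg 4 zero_le_one zero_le_one) (cDY_nonneg nW), ?_⟩
  intro Q hQ t ht n X hX
  refine (h.loc Q hQ t ht).RX2 h.filt (h.kill Q hQ t ht) n X hX.2.comm (cDY_nonneg nW)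
    zero_le_one le_rfl (d0 := fun z => dQ Q 1 z) (fun z => dQ_nonneg Q 1 z) (fun z => ?_)
    (fun z => ?_) (area_le hQ 1)
  · have := dist_le Q z 1
    rw [JJ_one] at this
    rwa [one_mul]
  · exact norm_lie_bT_le hQ ht hX.2.pc hn z

/-- shift of the index in the distance -/
theorem DR_shift {Q p : ℕ} (hp : p < Q - 1) (J : ℝ) :
    1 + DR Q (p : ℝ) J ≤ 3 * (1 + DR Q ((p + 1 : ℕ) : ℝ) J) := by
  have h1 := DR_triangle Q (p : ℝ) ((p + 1 : ℕ) : ℝ) J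
  have h0 : (0 : ℝ) ≤ p := Nat.cast_nonneg p
  have hpc : (p : ℝ) + 2 ≤ Q := by
    have : p + 2 ≤ Q := by omega
    exact_mod_cast this
  have h2 : DR Q (p : ℝ) ((p + 1 : ℕ) : ℝ) ≤ 2 := by
    unfold DR
    push_cast
    have e1 := abs_sqrt_sub_le (a := (p : ℝ) + 1) (b := (p : ℝ) + 1 + 1) (by linarith) (by linarith)
    have e2 := abs_sqrt_sub_le (a := (Q : ℝ) - p + 1) (b := (Q : ℝ) - (p + 1) + 1) (by linarith)
      (by linarith)
    have s1 : 1 ≤ Real.sqrt ((p : ℝ) + 1 + 1) := Real.one_le_sqrt.2 (by linarith)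
    have s2 : 1 ≤ Real.sqrt ((Q : ℝ) - (p + 1) + 1) := Real.one_le_sqrt.2 (by linarith)
    have d1 : |(p : ℝ) + 1 - ((p : ℝ) + 1 + 1)| = 1 := by
      rw [show (p : ℝ) + 1 - ((p : ℝ) + 1 + 1) = -1 by ring, abs_neg, abs_one]
    have d2 : |(Q : ℝ) - p + 1 - ((Q : ℝ) - (p + 1) + 1)| = 1 := by
      rw [show (Q : ℝ) - p + 1 - ((Q : ℝ) - (p + 1) + 1) = 1 by ring, abs_one]
    rw [d1] at e1
    rw [d2] at e2
    have e3 : 1 / Real.sqrt ((p : ℝ) + 1 + 1) ≤ 1 := (div_le_one (by linarith)).2 s1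
    have e4 : 1 / Real.sqrt ((Q : ℝ) - (p + 1) + 1) ≤ 1 := (div_le_one (by linarith)).2 s2
    linarith
  have h3 := DR_nonneg Q ((p + 1 : ℕ) : ℝ) J
  linarith

/-- **(RZ)** -/
theorem Inp.RZ (h : Inp Cm Dm em Cμ w) {nW : ℕ} (hn : 13 ≤ nW) :
    Defs150.RZ nW (CKc w Cm Dm em 9 1 1 * cDY nW * (2 * 3 ^ 8)) := by
  have hK0 : 0 ≤ CKc w Cm Dm em 9 1 1 * cDY nW :=
    mul_nonneg (CKc_nonneg h.Cm_nonneg 9 zero_le_one zero_le_one) (cDY_nonneg nW)
  refine ⟨by positivity, ?_⟩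
  intro Q hQ t ht n g T hT ψ hψ φ hφ p hp
  have hpc : QL331.PC (FX963.Rq Q) (uf Q) (dQ Q) nW (FX963.KX nW * 1) T g := DY.pc_rot hT.2
  have hN : Commute T Nh := (FX963.commute_cj_Nh_iff g).1 hT.2.comm
  have hJ := JJ_mem Q g
  have h1 := (h.loc Q hQ t ht).CZ h.filt (h.kill Q hQ t ht) 9 n T hN (cDY_nonneg nW)
    zero_le_one le_rfl hJ (d0 := fun z => dQ Q g z) (fun z => dQ_nonneg Q g z)
    (fun z => by rw [one_mul]; exact dist_le Q z g)
    (fun z => norm_lie_bT_le hQ ht hpc hn z) (area_le hQ g) hψ hφ (by omega : p + 1 ≤ Q)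
  refine h1.trans ?_
  have hpQ : (((p + 1 : ℕ) : ℝ)) ∈ Set.Icc (0 : ℝ) Q := cast_mem (by omega)
  have hD := DR_nonneg Q ((p + 1 : ℕ) : ℝ) (JJ Q g)
  have hD' := DR_nonneg Q (p : ℝ) (JJ Q g)
  have e1 : Real.sqrt (dr Q (JJ Q g)) ≤
      (2 * Real.sqrt (PSD716.dd Q p)) * (1 + DR Q ((p + 1 : ℕ) : ℝ) (JJ Q g)) := by
    refine (sqrt_dr_le_mul hJ hpQ).trans ?_
    rw [DR_comm Q (JJ Q g)]
    gcongr
    rw [show (2 : ℝ) * Real.sqrt (PSD716.dd Q p) = Real.sqrt (4 * PSD716.dd Q p) by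
      rw [Real.sqrt_mul (by norm_num), show (4 : ℝ) = 2 ^ 2 by norm_num,
        Real.sqrt_sq (by norm_num)]]
    apply Real.sqrt_le_sqrt
    have := dr_shift hp
    have h2 : 1 ≤ PSD716.dd Q p := PSD716.one_le_dd (by omega)
    push_cast
    linarith
  have e2 : ((1 + DR Q ((p + 1 : ℕ) : ℝ) (JJ Q g)) ^ 8)⁻¹ ≤
      3 ^ 8 * (1 + Defs150.Dr Q p (Q * tt g)) ^ (-(8 : ℝ)) := by
    have e3 : Defs150.Dr Q p (Q * tt g) = DR Q (p : ℝ) (JJ Q g) := rfl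
    rw [e3, Real.rpow_neg (by linarith), show (8 : ℝ) = ((8 : ℕ) : ℝ) by norm_num,
      Real.rpow_natCast, ← div_eq_mul_inv, le_div_iff₀ (by positivity), inv_mul_le_iff₀
      (by positivity), ← mul_pow]
    gcongr
    have := DR_shift hp (JJ Q g)
    linarith
  have hns : 0 ≤ ‖ψ‖ * ‖φ‖ := by positivity
  calc (CKc w Cm Dm em 9 1 1 * cDY nW) * Real.sqrt (dr Q (JJ Q g)) *
        ((1 + DR Q ((p + 1 : ℕ) : ℝ) (JJ Q g)) ^ 9)⁻¹ * (‖ψ‖ * ‖φ‖)
      ≤ (CKc w Cm Dm em 9 1 1 * cDY nW) *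
        ((2 * Real.sqrt (PSD716.dd Q p)) * (1 + DR Q ((p + 1 : ℕ) : ℝ) (JJ Q g))) *
        ((1 + DR Q ((p + 1 : ℕ) : ℝ) (JJ Q g)) ^ 9)⁻¹ * (‖ψ‖ * ‖φ‖) := by gcongr
    _ = (CKc w Cm Dm em 9 1 1 * cDY nW) * (2 * Real.sqrt (PSD716.dd Q p)) *
        ((1 + DR Q ((p + 1 : ℕ) : ℝ) (JJ Q g)) ^ 8)⁻¹ * (‖ψ‖ * ‖φ‖) := by
        have hne : 1 + DR Q ((p + 1 : ℕ) : ℝ) (JJ Q g) ≠ 0 := by positivity
        field_simp
    _ ≤ (CKc w Cm Dm em 9 1 1 * cDY nW) * (2 * Real.sqrt (PSD716.dd Q p)) *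
        (3 ^ 8 * (1 + Defs150.Dr Q p (Q * tt g)) ^ (-(8 : ℝ))) * (‖ψ‖ * ‖φ‖) := by gcongr
    _ = _ := by ring

end Crest.Agent.R340.LR667
end

-- ▼ part R340/LR11_667

/-!
# R340 / S0532, layer 11: the locality data of all geometries; (RC), (RX), (RZ) of PLAN-F1
(helper667)

`locdata_theta` assembles 163's / 927's / 421's results; `exists_RC_RX_RZ` is the final output of
the clustering block, from the gap of the closed sphere.
-/

set_option autoImplicit false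

open Matrix Finset MeasureTheory
open scoped ENNReal

namespace Crest.Agent.R340.LR667

open Crest.Agent.R340.Fock649 Crest.Agent.R340.GG467
open Crest.Agent.R340.Geo986 (Zs nuT nu0 GapG)
open Crest.Agent.R340.PV341 (Adm)
open Crest.Agent.R340.LocT163 (bT HT)
open Crest.Agent.R340.CS809 (U2 dQ dQ_comm dQ_nonneg)
open Crest.Agent.R340.Tth927 (JJ sg)
open Crest.Agent.R340.FI331 (fb uf)

/-- **the locality data of all geometries** -/
theorem locdata_theta : LocAll Tth927.Cmo Tth927.Dt (fun M => M + 5) 2 := by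
  intro Q hQ t ht
  exact {
    hH := LocT163.isSelfAdjoint_HT t Q
    hP := isSelfAdjoint_pj _
    hP1 := norm_pj_le _
    hHP := LocT163.HT_mul_pj hQ
    commH := TzP421.HT_comm_aff hQ t
    commP := TzP421.pj_comm_aff _
    int := Tth927.integrable_bb hQ t
    H_eq := LocT163.HT_eq t Q
    bP := fun z => LocT163.bT_mul_pj hQ z
    norm_b := fun M z => (Tth927.norm_bT_le' hQ ht z).trans (Tth927.Dt_ge M)
    trunc := fun M s z => Tth927.trunc_theta hQ ht M s z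
    Cm_nonneg := Tth927.Cmo_nonneg
    mom := fun m z k => Tth927.moment_le Q m z k
    one_le_σ := Tth927.one_le_sg Q
    σ_sq_le := Tth927.sg_sq_le Q
    J_mem := Tth927.JJ_mem Q
    Cμ_nonneg := by norm_num
    push := fun F hF => Tth927.push_JJ hQ F hF }

/-- inputs of the clustering theorems from the gap of the closed sphere -/
theorem exists_inp {γ : ℝ} (hγ : 0 < γ) (hG : ∀ Q : ℕ, GapG (nu0 Q) Q γ) :
    ∃ w : ℝ → ℝ, Inp Tth927.Cmo Tth927.Dt (fun M => M + 5) 2 w := by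
  obtain ⟨w, hw, hk⟩ := TzP421.hkill_theta γ hγ hG
  exact ⟨w, ⟨locdata_theta, hw, hk, Tth927.Cmo_nonneg, by norm_num⟩⟩

/-- **the clustering inputs of PLAN-F1** -/
theorem exists_RC_RX_RZ {γ : ℝ} (hγ : 0 < γ) (hG : ∀ Q : ℕ, GapG (nu0 Q) Q γ) :
    (∃ K, Defs150.RC K) ∧ (∀ nW : ℕ, 8 ≤ nW → ∃ K, Defs150.RX nW K) ∧
      (∀ nW : ℕ, 13 ≤ nW → ∃ K, Defs150.RZ nW K) := by
  obtain ⟨w, h⟩ := exists_inp hγ hG
  exact ⟨⟨_, h.RC⟩, fun nW hn => ⟨_, h.RX hn⟩, fun nW hn => ⟨_, h.RZ hn⟩⟩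

end Crest.Agent.R340.LR667
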