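import Crest.Agent.R340.GeoM_986
import Crest.Agent.R340.Peel_596
import Crest.Agent.R340.PairNorm_986

-- ▼ part R340/GeoC_986
section

/-!
R340, block L2 = GEOMETRY (helper986), part 6: scaling, shift of the metric, and the abstract form
of the inequality (G0): `κ ‖ψ‖² ≤ ‖c_L ψ‖²` for zero modes `ψ` orthogonal to the zero modes with the
last orbital `L` empty.
-/

set_option autoImplicit false
open scoped InnerProductSpace ComplexConjugate

namespace Crest.Agent.R340.Geo986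

open Fock649 Finset Emb596 Peel596
open PV341 (Adm G Gf sp Tp half nrm beta aa xx)

/-! ### scaling -/

theorem bz_scale {ν ν' : ℕ → ℝ} {Q : ℕ} {a : ℝ} (ha : 0 < a) (h : ∀ j ≤ Q, ν' j = a * ν j)
    (p : ℕ) : bz ν' Q p = (((a ^ 2)⁻¹ : ℝ) : ℂ) • bz ν Q p := by
  unfold bz
  rw [smul_sum]
  refine sum_congr rfl fun x _ => ?_
  rw [smul_smul, ← Complex.ofReal_mul]
  congr 2
  unfold bcoef
  rw [h _ (by omega), h _ (by omega)]
  rcases eq_or_ne (ν x.1) 0 with h3 | h3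
  · simp [h3]
  rcases eq_or_ne (ν x.2) 0 with h4 | h4
  · simp [h4]
  field_simp

theorem nz_scale {ν ν' : ℕ → ℝ} {Q : ℕ} {a : ℝ} (ha : 0 < a) (h : ∀ j ≤ Q, ν' j = a * ν j)
    (p : ℕ) : nz ν' Q p = ((a ^ 2)⁻¹) ^ 2 * nz ν Q p := by
  unfold nz
  rw [mul_sum]
  refine sum_congr rfl fun x _ => ?_
  rw [← mul_pow]
  congr 1
  unfold bcoef
  rw [h _ (by omega), h _ (by omega)]
  rcases eq_or_ne (ν x.1) 0 with h3 | h3
  · simp [h3]
  rcases eq_or_ne (ν x.2) 0 with h4 | h4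
  · simp [h4]
  field_simp

theorem Bg_scale {ν ν' : ℕ → ℝ} {Q : ℕ} {a : ℝ} (ha : 0 < a) (h : ∀ j ≤ Q, ν' j = a * ν j)
    (p : ℕ) : Bg ν' Q p = Bg ν Q p := by
  unfold Bg
  rw [bz_scale ha h, nz_scale ha h, smul_smul, ← Complex.ofReal_mul,
    Real.sqrt_mul (by positivity), Real.sqrt_sq (by positivity), mul_inv, inv_inv]
  congr 2
  have := ha.ne'
  field_simp

theorem Zs_scale {ν ν' : ℕ → ℝ} {Q : ℕ} {a : ℝ} (ha : 0 < a) (h : ∀ j ≤ Q, ν' j = a * ν j) :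
    Zs ν' Q = Zs ν Q := by
  ext ψ
  rw [mem_Zs, mem_Zs]
  refine forall_congr' fun p => ?_
  rw [bz_scale ha h]
  show (((a ^ 2)⁻¹ : ℝ) : ℂ) • bz ν Q p ψ = 0 ↔ _
  rw [smul_eq_zero]
  constructor
  · rintro (h1 | h1)
    · have h2 : (a ^ 2)⁻¹ ≠ 0 := by positivity
      exact absurd (by exact_mod_cast h1) h2
    · exact h1
  · exact Or.inr

theorem GapG_scale {ν ν' : ℕ → ℝ} {Q : ℕ} {a γ : ℝ} (ha : 0 < a) (h : ∀ j ≤ Q, ν' j = a * ν j)
    (H : GapG ν Q γ) : GapG ν' Q γ := by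
  intro ψ hψ
  rw [Zs_scale ha h] at hψ
  simp only [Bg_scale ha h]
  exact H ψ hψ

/-! ### shift of the metric: flux `Q+1`, last orbital empty = flux `Q`, more weight -/

/-- shift of the exponents -/
noncomputable def shT (t : Fin 3 → ℝ) : Fin 3 → ℝ := ![1 / 2, t 0, t 1]

theorem Adm_shT {t : Fin 3 → ℝ} (ht : Adm t) : Adm (shT t) := by
  intro k
  fin_cases k
  · simp [shT]
  · simpa [shT] using ht 0
  · simpa [shT] using ht 1

theorem G_shT {t : Fin 3 → ℝ} (h2 : t 2 = 0) (u : ℕ) :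
    G (shT t) u = (√((u : ℝ) + 1))⁻¹ * G t (u + 1) := by
  unfold PV341.G
  rw [Fin.prod_univ_three, Fin.prod_univ_three]
  simp only [shT, h2, Fin.isValue, Matrix.cons_val_zero, Matrix.cons_val_one, Fin.val_zero,
    Fin.val_one, Fin.val_two, Nat.cast_zero, Nat.cast_one, Nat.cast_ofNat, add_zero,
    neg_zero, Real.rpow_zero, mul_one, Nat.cast_add]
  rw [Real.rpow_neg (by positivity), ← Real.sqrt_eq_rpow]
  have e1 : (u : ℝ) + 1 + 1 = u + 1 + 1 := rfl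
  have e2 : (u : ℝ) + 2 + 1 = u + 1 + 1 + 1 := by ring
  show _ * _ * ((u : ℝ) + 2 + 1) ^ (-(t 1)) = _
  rw [e2, mul_assoc]

theorem nuT_succ {t : Fin 3 → ℝ} (h2 : t 2 = 0) {Q j : ℕ} (hj : j ≤ Q) :
    nuT t (Q + 1) j = (√((Q : ℝ) + 1))⁻¹ * nuT (shT t) Q j := by
  simp only [nuT, Pi.mul_apply, Pi.inv_apply, nu0]
  rw [G_shT h2, show Q + 1 - j = Q - j + 1 by omega]
  have hc := choose_mul_sub' Q j
  have hQ : (0 : ℝ) < Q.choose j := by exact_mod_cast Nat.choose_pos hj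
  have hu : ((Q - j : ℕ) : ℝ) = Q - j := Nat.cast_sub hj
  have hu0 : (0 : ℝ) ≤ Q - j := by rw [← hu]; positivity
  have hs : √((Q + 1).choose j : ℝ) * √((Q : ℝ) - j + 1) = √((Q : ℝ) + 1) * √(Q.choose j : ℝ) := by
    rw [← Real.sqrt_mul (by positivity), ← Real.sqrt_mul (by positivity), ← hc]
    congr 1; ring
  rw [hu]
  have h1 : 0 < √((Q + 1).choose j : ℝ) := Real.sqrt_pos.mpr (by
    exact_mod_cast Nat.choose_pos (by omega : j ≤ Q + 1))
  have h2' : 0 < √((Q : ℝ) - j + 1) := Real.sqrt_pos.mpr (by linarith)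
  have h3 : 0 < √((Q : ℝ) + 1) := Real.sqrt_pos.mpr (by positivity)
  have h4 : 0 < √(Q.choose j : ℝ) := Real.sqrt_pos.mpr hQ
  have h5 := PV341.G_pos t (Q - j + 1)
  rw [mul_inv, inv_inv]
  have : (√((Q + 1).choose j : ℝ))⁻¹ = √((Q : ℝ) - j + 1) * ((√((Q : ℝ) + 1))⁻¹ *
      (√(Q.choose j : ℝ))⁻¹) := by
    field_simp
    linarith
  rw [this]
  ring

/-! ### the abstract (G0) -/

/-- the sum of the squared amplitudes of the pairs containing the last orbital, relative to the rest -/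
noncomputable def Wsum (ν : ℕ → ℝ) (Q : ℕ) : ℝ :=
  ∑ p ∈ range (2 * Q), if Q + 1 ≤ p then bcoef ν (p - (Q + 1)) (Q + 1) ^ 2 / nz ν Q p else 0

/-- pairs of flux `Q+1` = pairs of flux `Q` and possibly the pair containing the last orbital -/
theorem sum_pairs_succ {M : Type*} [AddCommMonoid M] (Q p : ℕ)
    (f : Fin (Q + 1 + 1) × Fin (Q + 1 + 1) → M) :
    ∑ x ∈ pairs (Q + 1) p, f x = (∑ x ∈ pairs Q p, f (x.1.castSucc, x.2.castSucc)) +
      if h : Q + 1 ≤ p ∧ p < 2 * (Q + 1) then f (⟨p - (Q + 1), by omega⟩, Fin.last (Q + 1))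
      else 0 := by
  classical
  set g : Fin (Q + 1) × Fin (Q + 1) ↪ Fin (Q + 1 + 1) × Fin (Q + 1 + 1) :=
    ⟨fun x => (x.1.castSucc, x.2.castSucc), fun x y h => by
      simp only [Prod.mk.injEq, Fin.castSucc_inj] at h
      exact Prod.ext h.1 h.2⟩ with hg
  have hfil : (pairs (Q + 1) p).filter (fun x => x.2 ≠ Fin.last (Q + 1)) = (pairs Q p).map g := by
    ext x
    rw [mem_filter, mem_pairs, Finset.mem_map]
    constructor
    · rintro ⟨⟨h1, h2⟩, h3⟩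
      have h1' : (x.1 : ℕ) < x.2 := h1
      have h3' : (x.2 : ℕ) ≠ Q + 1 := fun h => h3 (Fin.ext (by rw [Fin.val_last]; exact h))
      have := x.2.isLt
      refine ⟨(⟨x.1, by omega⟩, ⟨x.2, by omega⟩), mem_pairs.mpr ⟨h1', h2⟩, ?_⟩
      rfl
    · rintro ⟨y, hy, rfl⟩
      rw [mem_pairs] at hy
      refine ⟨⟨hy.1, hy.2⟩, fun h => ?_⟩
      have h' : y.2.castSucc = Fin.last (Q + 1) := h
      have := congrArg Fin.val h'
      rw [Fin.val_castSucc, Fin.val_last] at this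
      omega
  rw [← sum_filter_add_sum_filter_not (pairs (Q + 1) p) (fun x => x.2 ≠ Fin.last (Q + 1)), hfil,
    sum_map]
  congr 1
  split_ifs with h
  · have : (pairs (Q + 1) p).filter (fun x => ¬ x.2 ≠ Fin.last (Q + 1)) =
        {(⟨p - (Q + 1), by omega⟩, Fin.last (Q + 1))} := by
      ext x
      rw [mem_filter, mem_pairs, mem_singleton]
      constructor
      · rintro ⟨⟨h1, h2⟩, h3⟩
        have h3' : x.2 = Fin.last (Q + 1) := by simpa using h3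
        refine Prod.ext (Fin.ext ?_) h3'
        rw [h3', Fin.val_last] at h2
        show (x.1 : ℕ) = p - (Q + 1)
        omega
      · rintro rfl
        refine ⟨⟨?_, ?_⟩, by simp⟩
        · show p - (Q + 1) < Q + 1
          omega
        · show p - (Q + 1) + (Q + 1) = p
          omega
    rw [this, sum_singleton]
  · refine sum_eq_zero fun x hx => ?_
    exfalso
    rw [mem_filter, mem_pairs] at hx
    obtain ⟨⟨h1, h2⟩, h3⟩ := hx
    have h3' : x.2 = Fin.last (Q + 1) := by simpa using h3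
    have h1' : (x.1 : ℕ) < x.2 := h1
    rw [h3', Fin.val_last] at h2 h1'
    exact h ⟨by omega, by omega⟩

theorem last_notMem_range_ee (Q : ℕ) : Fin.last (Q + 1) ∉ Set.range (ee (Nat.le_succ Q)) := by
  rw [mem_range_ee, Fin.val_last]
  omega

/-- norm of the restricted pair annihilator on the part of a zero mode with `L` empty -/
theorem norm_bz_rst_le {ν : ℕ → ℝ} {Q : ℕ} {ψ : Fk (Fin (Q + 1 + 1))}
    (hψ : ψ ∈ Zs ν (Q + 1)) (p : ℕ) :
    ‖bz ν Q p (rst (ee (Nat.le_succ Q)) ψ)‖ ≤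
      if Q + 1 ≤ p then |bcoef ν (p - (Q + 1)) (Q + 1)| * ‖c (Fin.last (Q + 1)) ψ‖ else 0 := by
  set E := ee (Nat.le_succ Q) with hE
  set L := Fin.last (Q + 1) with hL
  have h0 : rst E (bz ν (Q + 1) p ψ) = 0 := by rw [hψ p, map_zero]
  unfold bz at h0
  rw [sum_pairs_succ, add_ap, map_add, sum_ap, map_sum] at h0
  have h1 : ∑ x ∈ pairs Q p, rst E ((((bcoef ν (x.1.castSucc : Fin (Q + 1 + 1))
      (x.2.castSucc : Fin (Q + 1 + 1)) : ℝ) : ℂ) •
        (c x.2.castSucc * c x.1.castSucc : Op (Fin (Q + 1 + 1)))) ψ) = bz ν Q p (rst E ψ) := by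
    unfold bz
    rw [sum_ap]
    refine sum_congr rfl fun x _ => ?_
    have e1 : (x.1.castSucc : Fin (Q + 1 + 1)) = E x.1 := rfl
    have e2 : (x.2.castSucc : Fin (Q + 1 + 1)) = E x.2 := rfl
    rw [smul_ap, smul_ap, mul_ap, mul_ap, map_smul, e1, e2, rst_c, rst_c]
    rfl
  rw [h1] at h0
  have h2 := eq_neg_of_add_eq_zero_left h0
  rw [h2, norm_neg]
  split_ifs with h3 h4 h5
  · rw [smul_ap, map_smul, norm_smul, Complex.norm_real, Real.norm_eq_abs, hL, Fin.val_last]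
    refine mul_le_mul_of_nonneg_left ?_ (abs_nonneg _)
    refine (norm_rst_le _ _).trans ?_
    have e : (c (Fin.last (Q + 1)) * c (⟨p - (Q + 1), by omega⟩ : Fin (Q + 1 + 1)) :
        Op (Fin (Q + 1 + 1))) = - (c ⟨p - (Q + 1), by omega⟩ * c (Fin.last (Q + 1))) := c_c_eq _ _
    rw [e, neg_ap, norm_neg, mul_ap]
    refine (Op.norm_ap_le _ _).trans ?_
    rw [norm_c, one_mul]
  · exact absurd h3.1 h4
  · rw [zero_ap, map_zero, norm_zero]
    positivity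
  · rw [zero_ap, map_zero, norm_zero]

/-- the part with `L` empty -/
theorem norm_sq_le_rst {Q : ℕ} (ψ : Fk (Fin (Q + 1 + 1))) :
    ‖ψ‖ ^ 2 = ‖rst (ee (Nat.le_succ Q)) ψ‖ ^ 2 + ‖c (Fin.last (Q + 1)) ψ‖ ^ 2 := by
  set E := ee (Nat.le_succ Q) with hE
  set L := Fin.last (Q + 1) with hL
  have hcd := c_d L L
  rw [if_pos rfl] at hcd
  have h1 : ψ = c L (d L ψ) + d L (c L ψ) := by
    have := congrArg (fun A : Op (Fin (Q + 1 + 1)) => A ψ) hcd
    simp only [add_ap, mul_ap, one_ap] at this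
    exact this.symm
  have hcc : ∀ φ : Fk (Fin (Q + 1 + 1)), c L (c L φ) = 0 := fun φ =>
    congrArg (fun A : Op (Fin (Q + 1 + 1)) => A φ) (c_mul_self L)
  have hdd : ∀ φ : Fk (Fin (Q + 1 + 1)), d L (d L φ) = 0 := fun φ =>
    congrArg (fun A : Op (Fin (Q + 1 + 1)) => A φ) (d_mul_self L)
  have h2 : emb E (rst E (c L (d L ψ))) = c L (d L ψ) := by
    refine emb_rst_of_c_eq_zero E _ fun j hj => ?_
    have : j = L := by
      rw [hE, mem_range_ee] at hj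
      exact Fin.ext (by rw [hL, Fin.val_last]; omega)
    rw [this, hcc]
  have h3 : rst E ψ = rst E (c L (d L ψ)) := by
    conv_lhs => rw [h1]
    rw [map_add, rst_d_not E L (last_notMem_range_ee Q), add_zero]
  have h4 : ‖c L (d L ψ)‖ = ‖rst E ψ‖ := by
    rw [← h2, norm_emb, h3]
  have h5 : (⟪c L (d L ψ), d L (c L ψ)⟫_ℂ) = 0 := by
    rw [← star_c, inner_star_right, hcc, inner_zero_left]
  have h6 : ‖d L (c L ψ)‖ ^ 2 = ‖c L ψ‖ ^ 2 := by
    have h7 : c L (d L (c L ψ)) = c L ψ := by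
      have := congrArg (fun A : Op (Fin (Q + 1 + 1)) => A (c L ψ)) hcd
      simp only [add_ap, mul_ap, one_ap] at this
      rw [hcc, map_zero, add_zero] at this
      exact this
    have h8 : (⟪d L (c L ψ), d L (c L ψ)⟫_ℂ) = ⟪c L ψ, c L ψ⟫_ℂ := by
      conv_lhs => rw [← star_c, inner_star_left, star_c, h7]
    rw [← inner_self_eq_norm_sq (𝕜 := ℂ), ← inner_self_eq_norm_sq (𝕜 := ℂ), h8]
  have h7 : ‖ψ‖ * ‖ψ‖ = ‖c L (d L ψ)‖ * ‖c L (d L ψ)‖ + ‖d L (c L ψ)‖ * ‖d L (c L ψ)‖ := by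
    conv_lhs => rw [h1]
    exact norm_add_sq_eq_norm_sq_add_norm_sq_of_inner_eq_zero _ _ (by exact_mod_cast h5)
  rw [← h6, ← h4]
  nlinarith [h7]

theorem G0_abstract {ν : ℕ → ℝ} {Q : ℕ} (hν : PosM ν (Q + 1)) {γ C : ℝ} (hγ : 0 < γ)
    (hC : 0 ≤ C) (hgap : GapG ν Q γ) (hW : Wsum ν Q ≤ C) {ψ : Fk (Fin (Q + 1 + 1))}
    (hψ : ψ ∈ Zs ν (Q + 1))
    (hort : ∀ φ ∈ Zs ν (Q + 1), c (Fin.last (Q + 1)) φ = 0 → ⟪φ, ψ⟫_ℂ = 0) :
    γ / (γ + C) * ‖ψ‖ ^ 2 ≤ ‖c (Fin.last (Q + 1)) ψ‖ ^ 2 := by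
  set E := ee (Nat.le_succ Q) with hE
  set L := Fin.last (Q + 1) with hL
  have hνQ : PosM ν Q := fun j hj => hν j (by omega)
  have h1 : ∀ z ∈ Zs ν Q, ⟪z, rst E ψ⟫_ℂ = 0 := by
    intro z hz
    rw [inner_rst_right]
    exact hort _ ((emb_mem_Zs_iff (Nat.le_succ Q) ν z).mpr hz)
      (c_emb_not E L (last_notMem_range_ee Q) z)
  have h2 := hgap _ h1
  have h3 : ∑ p ∈ range (2 * Q), ‖Bg ν Q p (rst E ψ)‖ ^ 2 ≤ Wsum ν Q * ‖c L ψ‖ ^ 2 := by
    unfold Wsum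
    rw [sum_mul]
    refine sum_le_sum fun p _ => ?_
    have hb := norm_bz_rst_le hψ p
    rcases (pairs Q p).eq_empty_or_nonempty with hp | hp
    · have : Bg ν Q p (rst E ψ) = 0 := by
        rw [Bg_apply, bz_eq_zero_of_empty hp]
        exact smul_zero _
      rw [this, norm_zero, zero_pow two_ne_zero]
      have hnn := nz_nonneg ν Q p
      split_ifs <;> positivity
    · have hn := nz_pos hνQ hp
      rw [Bg_apply, norm_smul, Complex.norm_real, Real.norm_eq_abs, mul_pow, sq_abs, inv_pow,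
        Real.sq_sqrt hn.le]
      split_ifs at hb ⊢ with h4
      · rw [div_mul_eq_mul_div, inv_mul_eq_div]
        refine div_le_div_of_nonneg_right ?_ hn.le
        have := pow_le_pow_left₀ (norm_nonneg _) hb 2
        rw [mul_pow, sq_abs] at this
        exact this
      · have : ‖bz ν Q p (rst E ψ)‖ = 0 := le_antisymm hb (norm_nonneg _)
        rw [this]
        simp
  have h4 : γ * ‖rst E ψ‖ ^ 2 ≤ C * ‖c L ψ‖ ^ 2 :=
    (h2.trans h3).trans (mul_le_mul_of_nonneg_right hW (sq_nonneg _))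
  rw [norm_sq_le_rst ψ, div_mul_eq_mul_div, div_le_iff₀ (by positivity)]
  linarith

end Crest.Agent.R340.Geo986
end

-- ▼ part R340/GeoD_986

/-!
R340, block L2 = GEOMETRY (helper986), part 7: the inequality (G0), uniformly in the flux and in the
geometries `nuT t N`, `t 2 = 0` (one, two or three of the last orbitals peeled off).
-/

set_option autoImplicit false
open scoped InnerProductSpace ComplexConjugate

namespace Crest.Agent.R340.Geo986

open Fock649 Finset Emb596 Peel596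
open PV341 (Adm G Gf sp Tp half nrm beta aa xx)

theorem nrm_eq_choose (Q b : ℕ) :
    nrm (Q + 1) (b + 1) = ((Q : ℝ) + 1) * ((2 * Q).choose b : ℝ) := by
  rw [← sum_sq_half Q b]
  unfold PV341.nrm
  refine (sum_subset_zero_on_sdiff ?_ ?_ ?_)
  · intro i hi
    have := PV341.mem_half.mp hi
    exact mem_filter.mpr ⟨mem_range.mpr (by omega), by omega⟩
  · intro i hi
    rw [mem_sdiff, mem_filter] at hi
    have h1 : Q + 1 < b + 1 - i := by
      by_contra hc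
      exact hi.2 (PV341.mem_half.mpr ⟨hi.1.2, by omega⟩)
    rw [Nat.choose_eq_zero_of_lt h1]
    simp
  · intro i _
    unfold PV341.aa PV341.xx
    push_cast
    ring

/-- extreme pair in the round metric -/
theorem extreme_le {Q P : ℕ} (hP : 3 ≤ P) (hPQ : P ≤ Q + 1) :
    bcoef (nu0 (Q + 1)) (Q + 1 - P) (Q + 1) ^ 2 ≤
      8 * P * (1 / 2) ^ P * nz (nu0 (Q + 1)) Q (2 * (Q + 1) - P) := by
  set p := 2 * (Q + 1) - P with hp
  have hsum : nz (nu0 (Q + 1)) (Q + 1) p =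
      nz (nu0 (Q + 1)) Q p + bcoef (nu0 (Q + 1)) (Q + 1 - P) (Q + 1) ^ 2 := by
    unfold nz
    rw [sum_pairs_succ Q p (fun x => bcoef (nu0 (Q + 1)) x.1 x.2 ^ 2), dif_pos (by omega)]
    congr 3
    show p - (Q + 1) = Q + 1 - P
    omega
  have hnz : nz (nu0 (Q + 1)) (Q + 1) p = ((Q : ℝ) + 1) * ((2 * Q).choose (P - 1) : ℝ) := by
    have e : p = (p - 1) + 1 := by omega
    rw [nz_nu0, e, nrm_eq_choose]
    congr 2
    rw [← Nat.choose_symm (by omega : P - 1 ≤ 2 * Q)]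
    congr 1
    omega
  have hw : bcoef (nu0 (Q + 1)) (Q + 1 - P) (Q + 1) ^ 2 =
      (P : ℝ) * (((Q : ℝ) + 1) * (Q.choose (P - 1) : ℝ)) := by
    have h1 := choose_mul_self' Q (P - 1)
    have e1 : P - 1 + 1 = P := by omega
    have e2 : ((P - 1 : ℕ) : ℝ) + 1 = P := by
      have : ((P - 1 + 1 : ℕ) : ℝ) = P := by rw [e1]
      push_cast at this
      exact this
    rw [e1, e2] at h1
    rw [← h1]
    unfold bcoef nu0
    rw [Nat.choose_self, Nat.cast_one, Real.sqrt_one, inv_one, mul_one,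
      Nat.choose_symm hPQ, div_inv_eq_mul, mul_pow, Real.sq_sqrt (by positivity),
      Nat.cast_sub hPQ]
    push_cast
    ring
  have h2 : ((2 : ℝ) ^ (P - 1)) * (Q.choose (P - 1) : ℝ) ≤ ((2 * Q).choose (P - 1) : ℝ) := by
    exact_mod_cast two_pow_mul_choose_le Q (P - 1)
  have h3 : (P : ℝ) * 4 ≤ 3 * 2 ^ (P - 1) := by
    obtain ⟨k, rfl⟩ : ∃ k, P = k + 3 := ⟨P - 3, by omega⟩
    have e : k + 3 - 1 = k + 2 := by omega
    rw [e]
    clear * -
    induction k with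
    | zero => norm_num
    | succ k ih =>
      rw [show k + 1 + 2 = (k + 2) + 1 by ring, pow_succ]
      push_cast at ih ⊢
      have : (0 : ℝ) ≤ k := by positivity
      linarith
  have h4 : ((1 : ℝ) / 2) ^ P = (1 / 2) * (1 / 2 ^ (P - 1)) := by
    have e1 : P = P - 1 + 1 := by omega
    conv_lhs => rw [e1]
    rw [pow_succ, one_div_pow]
    ring
  set w := bcoef (nu0 (Q + 1)) (Q + 1 - P) (Q + 1) ^ 2 with hwdef
  set n0 := nz (nu0 (Q + 1)) Q p with hn0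
  set θ : ℝ := (P : ℝ) * (1 / 2 ^ (P - 1)) with hθ
  have h2p : (0 : ℝ) < 2 ^ (P - 1) := by positivity
  have hθ1 : θ ≤ 3 / 4 := by
    rw [hθ, mul_one_div, div_le_iff₀ h2p]
    linarith
  have hθ0 : 0 ≤ θ := by positivity
  have hwle : w ≤ θ * (n0 + w) := by
    rw [← hsum, hnz, hw, hθ]
    have : (P : ℝ) * (1 / 2 ^ (P - 1)) * (((Q : ℝ) + 1) * ((2 * Q).choose (P - 1) : ℝ)) =
        (P : ℝ) * (((Q : ℝ) + 1) * (((2 * Q).choose (P - 1) : ℝ) / 2 ^ (P - 1))) := by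
      ring
    rw [this]
    have h5 : (Q.choose (P - 1) : ℝ) ≤ ((2 * Q).choose (P - 1) : ℝ) / 2 ^ (P - 1) := by
      rw [le_div_iff₀ h2p]; linarith
    gcongr
  have hw0 : 0 ≤ w := sq_nonneg _
  have hn00 : 0 ≤ n0 := nz_nonneg _ _ _
  rw [h4]
  have : 8 * (P : ℝ) * (1 / 2 * (1 / 2 ^ (P - 1))) * n0 = 4 * θ * n0 := by rw [hθ]; ring
  rw [this]
  nlinarith

theorem G_antitone {t : Fin 3 → ℝ} (ht : Adm t) : Antitone (G t) :=
  antitone_nat_of_succ_le fun i =>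
    (Real.log_le_log_iff (PV341.G_pos _ _) (PV341.G_pos _ _)).mp (PV341.log_G_anti ht i)

theorem bcoef_nuT (t : Fin 3 → ℝ) (N i j : ℕ) :
    bcoef (nuT t N) i j = bcoef (nu0 N) i j * (G t (N - i) * G t (N - j)) := by
  simp only [bcoef, nuT, Pi.mul_apply, Pi.inv_apply]
  have h1 := (PV341.G_pos t (N - i)).ne'
  have h2 := (PV341.G_pos t (N - j)).ne'
  rw [div_eq_mul_inv, div_eq_mul_inv, mul_inv, mul_inv, mul_inv, inv_inv, inv_inv, mul_inv]
  ring

theorem nz_nuT_ge {t : Fin 3 → ℝ} (ht : Adm t) {N Q P p : ℕ} (hP : 2 * N = P + p) (hQ : Q ≤ N) :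
    (G t P * G t 0) ^ 2 * nz (nu0 N) Q p ≤ ((P : ℝ) + 3) ^ 3 * nz (nuT t N) Q p := by
  unfold nz
  rw [mul_sum, mul_sum]
  refine sum_le_sum fun x hx => ?_
  obtain ⟨h1, h2⟩ := mem_pairs.mp hx
  have hx1 := x.1.isLt
  have hx2 := x.2.isLt
  rw [bcoef_nuT, mul_pow (bcoef (nu0 N) x.1 x.2)]
  set u := N - (x.1 : ℕ) with hu
  set v := N - (x.2 : ℕ) with hv
  have hu1 : G t P ≤ G t u := G_antitone ht (by omega)
  have hv1 : G t P ≤ G t v := G_antitone ht (by omega)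
  have hq := rpow_le_G ht P
  set q : ℝ := ((P : ℝ) + 3) ^ (-(3 / 2) : ℝ) with hqdef
  have hq0 : 0 < q := Real.rpow_pos_of_pos (by positivity) _
  have hqsq : ((P : ℝ) + 3) ^ 3 * q ^ 2 = 1 := by
    rw [hqdef, ← Real.rpow_natCast (((P : ℝ) + 3) ^ (-(3 / 2) : ℝ)) 2, ← Real.rpow_mul
      (by positivity), ← Real.rpow_natCast ((P : ℝ) + 3) 3, ← Real.rpow_add (by positivity)]
    norm_num
  have hGP := PV341.G_pos t P
  have hG0 := PV341.G_pos t 0
  have hG01 := G_le_one ht 0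
  have hkey : q * (G t P * G t 0) ≤ G t u * G t v := by
    calc q * (G t P * G t 0) = (q * G t 0) * G t P := by ring
      _ ≤ (G t u) * G t v := by
        refine mul_le_mul ?_ hv1 hGP.le (PV341.G_pos _ _).le
        calc q * G t 0 ≤ q * 1 := by gcongr
          _ = q := mul_one _
          _ ≤ G t P := hq
          _ ≤ _ := hu1
  have hsq : q ^ 2 * (G t P * G t 0) ^ 2 ≤ (G t u * G t v) ^ 2 := by
    rw [← mul_pow]
    exact pow_le_pow_left₀ (by positivity) hkey 2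
  calc (G t P * G t 0) ^ 2 * bcoef (nu0 N) x.1 x.2 ^ 2
      = ((P : ℝ) + 3) ^ 3 * (bcoef (nu0 N) x.1 x.2 ^ 2 * (q ^ 2 * (G t P * G t 0) ^ 2)) := by
        linear_combination (-(G t P * G t 0) ^ 2 * bcoef (nu0 N) x.1 x.2 ^ 2) * hqsq
    _ ≤ _ := by gcongr

/-- bounding function -/
noncomputable def fW (n : ℕ) : ℝ := 8 * ((n : ℝ) + 3) ^ 4 * (1 / 2) ^ n

theorem fW_nonneg (n : ℕ) : 0 ≤ fW n := by unfold fW; positivity

theorem summable_fW : Summable fW := by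
  have h1 : Summable fun n : ℕ => ((n : ℝ) ^ 4 * (1 / 2) ^ n : ℝ) :=
    summable_pow_mul_geometric_of_norm_lt_one 4 (by norm_num)
  have h2 := (summable_nat_add_iff 3).mpr h1
  have h3 := h2.mul_left 64
  refine h3.congr fun n => ?_
  unfold fW
  push_cast
  ring

theorem term_le {t : Fin 3 → ℝ} (ht : Adm t) {Q p : ℕ} (hp1 : Q + 1 ≤ p) (hp2 : p < 2 * Q) :
    bcoef (nuT t (Q + 1)) (p - (Q + 1)) (Q + 1) ^ 2 / nz (nuT t (Q + 1)) Q p ≤
      fW (2 * (Q + 1) - p) := by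
  set N := Q + 1 with hN
  obtain ⟨P, hP⟩ : ∃ P, 2 * N = P + p := ⟨2 * N - p, by omega⟩
  have hP3 : 3 ≤ P := by omega
  have hPN : P ≤ N := by omega
  have e1 : p - N = N - P := by omega
  have e2 : 2 * N - p = P := by omega
  have e3 : p = 2 * N - P := by omega
  have hpne : (pairs Q p).Nonempty := by
    refine ⟨(⟨p - Q, by omega⟩, ⟨Q, by omega⟩), mem_pairs.mpr ⟨?_, ?_⟩⟩
    · show p - Q < Q
      omega
    · show p - Q + Q = p
      omega
  have hpos : 0 < nz (nuT t N) Q p := nz_pos (fun j hj => posM_nuT t N j (by omega)) hpne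
  rw [div_le_iff₀ hpos, e1, e2, bcoef_nuT, mul_pow]
  have e4 : N - (N - P) = P := by omega
  rw [e4, Nat.sub_self]
  have h1 := extreme_le (Q := Q) hP3 hPN
  have h2 := nz_nuT_ge ht (Q := Q) hP (by omega)
  rw [← hN, ← e3] at h1
  have hP0 : (0 : ℝ) ≤ P := by positivity
  calc bcoef (nu0 N) (N - P) N ^ 2 * (G t P * G t 0) ^ 2
      ≤ (8 * P * (1 / 2) ^ P * nz (nu0 N) Q p) * (G t P * G t 0) ^ 2 := by gcongr
    _ = 8 * P * (1 / 2) ^ P * ((G t P * G t 0) ^ 2 * nz (nu0 N) Q p) := by ring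
    _ ≤ 8 * P * (1 / 2) ^ P * (((P : ℝ) + 3) ^ 3 * nz (nuT t N) Q p) := by gcongr
    _ = (8 * (P * ((P : ℝ) + 3) ^ 3) * (1 / 2) ^ P) * nz (nuT t N) Q p := by ring
    _ ≤ fW P * nz (nuT t N) Q p := by
        refine mul_le_mul_of_nonneg_right ?_ hpos.le
        unfold fW
        refine mul_le_mul_of_nonneg_right (mul_le_mul_of_nonneg_left ?_ (by norm_num))
          (by positivity)
        rw [pow_succ ((P : ℝ) + 3) 3, mul_comm (((P : ℝ) + 3) ^ 3)]
        refine mul_le_mul_of_nonneg_right (by linarith) (by positivity)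

theorem Wsum_le {t : Fin 3 → ℝ} (ht : Adm t) (Q : ℕ) :
    Wsum (nuT t (Q + 1)) Q ≤ ∑' n, fW n := by
  unfold Wsum
  rw [← sum_filter]
  calc ∑ p ∈ (range (2 * Q)).filter (fun p => Q + 1 ≤ p),
        bcoef (nuT t (Q + 1)) (p - (Q + 1)) (Q + 1) ^ 2 / nz (nuT t (Q + 1)) Q p
      ≤ ∑ p ∈ (range (2 * Q)).filter (fun p => Q + 1 ≤ p), fW (2 * (Q + 1) - p) := by
        refine sum_le_sum fun p hp => ?_
        rw [mem_filter, mem_range] at hp
        exact term_le ht hp.2 hp.1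
    _ = ∑ P ∈ ((range (2 * Q)).filter (fun p => Q + 1 ≤ p)).image
          (fun p => 2 * (Q + 1) - p), fW P := by
        rw [sum_image]
        intro x hx y hy hxy
        simp only [coe_filter, mem_range, Set.mem_ofPred_eq] at hx hy
        simp only at hxy
        omega
    _ ≤ ∑' n, fW n := summable_fW.sum_le_tsum _ fun i _ => fW_nonneg i

/-- **(G0)**: zero modes orthogonal to the zero modes with the last orbital empty have the last orbital
occupied with probability bounded below. -/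
theorem G0_all {γ : ℝ} (hγ : 0 < γ) : ∃ κ : ℝ, 0 < κ ∧ κ ≤ 1 ∧
    ((∀ Q : ℕ, GapG (nu0 Q) Q γ) → ∀ t : Fin 3 → ℝ, Adm t → t 2 = 0 → ∀ Q : ℕ,
      ∀ ψ ∈ Zs (nuT t (Q + 1)) (Q + 1),
        (∀ φ ∈ Zs (nuT t (Q + 1)) (Q + 1), c (Fin.last (Q + 1)) φ = 0 → ⟪φ, ψ⟫_ℂ = 0) →
          κ * ‖ψ‖ ^ 2 ≤ ‖c (Fin.last (Q + 1)) ψ‖ ^ 2) := by
  obtain ⟨γ', hγ', hall⟩ := gap_all_geometries hγ
  have hC : 0 ≤ ∑' n, fW n := tsum_nonneg fW_nonneg
  refine ⟨γ' / (γ' + ∑' n, fW n), by positivity, ?_, fun H t ht h2 Q ψ hψ hort => ?_⟩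
  · rw [div_le_one (by positivity)]
    linarith
  · have hgap : GapG (nuT t (Q + 1)) Q γ' :=
      GapG_scale (a := (√((Q : ℝ) + 1))⁻¹) (by positivity) (fun j hj => nuT_succ h2 hj)
        (hall (shT t) (Adm_shT ht) Q (H Q))
    exact G0_abstract (posM_nuT t (Q + 1)) hγ' hC hgap (Wsum_le ht Q) hψ hort

/-! ### sectors -/

/-- projection onto the states with `n` particles -/
noncomputable def Pr {ι : Type*} [Fintype ι] [LinearOrder ι] (n : ℕ) : Op ι :=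
  diag fun S => if S.card = n then 1 else 0

section sectors
variable {ι : Type*} [Fintype ι] [LinearOrder ι]

theorem Pr_ket (n : ℕ) (S : Finset ι) :
    Pr n (ket S) = (if S.card = n then (1 : ℂ) else 0) • ket S := diag_ket _ _

theorem c_mul_Pr_succ (i : ι) (n : ℕ) : (c i * Pr (n + 1) : Op ι) = Pr n * c i := by
  refine op_ext fun S => ?_
  rw [mul_ap, mul_ap, Pr_ket, map_smul, c_ket]
  by_cases hi : i ∈ S
  · rw [if_pos hi, map_smul, Pr_ket, smul_comm]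
    congr 2
    have h := Finset.card_erase_add_one hi
    by_cases h1 : S.card = n + 1
    · rw [if_pos h1, if_pos (by omega)]
    · rw [if_neg h1, if_neg (by omega)]
  · rw [if_neg hi, smul_zero, map_zero]

theorem c_mul_Pr_zero (i : ι) : (c i * Pr 0 : Op ι) = 0 := by
  refine op_ext fun S => ?_
  rw [mul_ap, Pr_ket, map_smul, c_ket, zero_ap]
  by_cases hi : i ∈ S
  · rw [if_neg (Finset.card_ne_zero_of_mem hi), zero_smul]
  · rw [if_neg hi, smul_zero]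

theorem c_Pr_eq_zero {i : ι} {φ : Fk ι} (h : c i φ = 0) (n : ℕ) : c i (Pr n φ) = 0 := by
  rcases n with _ | n
  · exact congrArg (fun A : Op ι => A φ) (c_mul_Pr_zero i)
  · have := congrArg (fun A : Op ι => A φ) (c_mul_Pr_succ i n)
    simp only [mul_ap] at this
    rw [this, h, map_zero]

theorem star_Pr (n : ℕ) : star (Pr n : Op ι) = Pr n := by
  unfold Pr
  rw [star_diag]
  congr 1
  funext S
  simp only [Pi.star_apply]
  split_ifs <;> simp

theorem Pr_eq_self {n : ℕ} {ψ : Fk ι} (h : Nh ψ = (n : ℂ) • ψ) : Pr n ψ = ψ := by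
  ext S
  have h1 := congrArg (fun v : Fk ι => v S) h
  rw [Nh_eq] at h1
  simp only [diag_apply, PiLp.smul_apply, smul_eq_mul] at h1
  unfold Pr
  rw [diag_apply]
  by_cases hS : S.card = n
  · rw [if_pos hS, one_mul]
  · rw [if_neg hS, zero_mul]
    have h2 : ((S.card : ℂ) - n) * ψ S = 0 := by rw [sub_mul, h1, sub_self]
    rcases mul_eq_zero.mp h2 with h3 | h3
    · exfalso
      rw [sub_eq_zero] at h3
      exact hS (by exact_mod_cast h3)
    · exact h3.symm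

theorem Nh_Pr (n : ℕ) (ψ : Fk ι) : Nh (Pr n ψ) = (n : ℂ) • Pr n ψ := by
  ext S
  rw [Nh_eq]
  simp only [Pr, diag_apply, PiLp.smul_apply, smul_eq_mul]
  by_cases hS : S.card = n
  · rw [if_pos hS, hS]
  · rw [if_neg hS]; ring

end sectors

theorem bz_Pr_eq_zero {ν : ℕ → ℝ} {Q p : ℕ} {φ : Fk (Fin (Q + 1))} (h : bz ν Q p φ = 0) (n : ℕ) :
    bz ν Q p (Pr n φ) = 0 := by
  have hcc : ∀ m : ℕ, ∀ x : Fin (Q + 1) × Fin (Q + 1), (c x.2 * c x.1 * Pr (m + 2) :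
      Op (Fin (Q + 1))) = Pr m * (c x.2 * c x.1) := fun m x => by
    rw [mul_assoc, c_mul_Pr_succ, ← mul_assoc, c_mul_Pr_succ, mul_assoc]
  rcases n with _ | _ | m
  · have : bz ν Q p * Pr 0 = 0 := by
      unfold bz
      rw [sum_mul]
      refine sum_eq_zero fun x _ => ?_
      rw [smul_mul_assoc, mul_assoc, c_mul_Pr_zero, mul_zero, smul_zero]
    exact congrArg (fun A : Op (Fin (Q + 1)) => A φ) this
  · have : bz ν Q p * Pr (0 + 1) = 0 := by
      unfold bz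
      rw [sum_mul]
      refine sum_eq_zero fun x _ => ?_
      rw [smul_mul_assoc, mul_assoc, c_mul_Pr_succ, ← mul_assoc, c_mul_Pr_zero, zero_mul, smul_zero]
    exact congrArg (fun A : Op (Fin (Q + 1)) => A φ) this
  · have : bz ν Q p * Pr (m + 2) = Pr m * bz ν Q p := by
      unfold bz
      rw [sum_mul, mul_sum]
      refine sum_congr rfl fun x _ => ?_
      rw [smul_mul_assoc, hcc, mul_smul_comm]
    have h2 := congrArg (fun A : Op (Fin (Q + 1)) => A φ) this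
    simp only [mul_ap] at h2
    show bz ν Q p (Pr (m + 2) φ) = 0
    rw [h2, h, map_zero]

theorem Pr_mem_Zn {ν : ℕ → ℝ} {Q : ℕ} {φ : Fk (Fin (Q + 1))} (h : φ ∈ Zs ν Q) (n : ℕ) :
    Pr n φ ∈ Zn ν Q n := ⟨fun p => bz_Pr_eq_zero (h p) n, Nh_Pr n φ⟩

/-- orthogonality within the sector is enough -/
theorem orth_of_sector {ν : ℕ → ℝ} {Q n : ℕ} {k : Fin (Q + 1)} {ψ : Fk (Fin (Q + 1))}
    (hψ : ψ ∈ Zn ν Q n) (hort : ∀ φ ∈ Zn ν Q n, c k φ = 0 → ⟪φ, ψ⟫_ℂ = 0) :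
    ∀ φ ∈ Zs ν Q, c k φ = 0 → ⟪φ, ψ⟫_ℂ = 0 := by
  intro φ hφ h0
  have h1 := hort _ (Pr_mem_Zn hφ n) (c_Pr_eq_zero h0 n)
  rw [← star_Pr n, inner_star_left, Pr_eq_self hψ.2] at h1
  exact h1

/-- (G0) in the sector of `n` particles, all the geometries with `t 2 = 0` -/
theorem G0_sector {γ : ℝ} (hγ : 0 < γ) : ∃ κ : ℝ, 0 < κ ∧ κ ≤ 1 ∧
    ((∀ Q : ℕ, GapG (nu0 Q) Q γ) → ∀ t : Fin 3 → ℝ, Adm t → t 2 = 0 → ∀ Q n : ℕ,
      ∀ ψ ∈ Zn (nuT t (Q + 1)) (Q + 1) n,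
        (∀ φ ∈ Zn (nuT t (Q + 1)) (Q + 1) n, c (Fin.last (Q + 1)) φ = 0 → ⟪φ, ψ⟫_ℂ = 0) →
          κ * ‖ψ‖ ^ 2 ≤ ‖c (Fin.last (Q + 1)) ψ‖ ^ 2) := by
  obtain ⟨κ, h1, h2, h3⟩ := G0_all hγ
  exact ⟨κ, h1, h2, fun H t ht ht2 Q n ψ hψ hort =>
    h3 H t ht ht2 Q ψ hψ.1 (orth_of_sector hψ hort)⟩

theorem G_zero (i : ℕ) : G (fun _ => 0) i = 1 := by
  unfold PV341.G
  simp

theorem nuT_zero (Q : ℕ) : nuT (fun _ => 0) Q = nu0 Q := by
  funext j
  simp [nuT, G_zero]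

theorem Adm_zero : Adm fun _ => 0 := fun _ => ⟨le_rfl, by norm_num⟩


end Crest.Agent.R340.Geo986
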