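import Crest.Agent.R340.StrR_735
import Crest.Agent.R340.RecE_735
import Crest.Agent.R340.CrsH_757
import Crest.Agent.R340.Str1_875
import Crest.Agent.R340.PathStep4_880
import Crest.Agent.R340.Vac3_467
import Crest.Agent.R340.DomG_735
import Crest.Agent.R340.AvgG_725
import Crest.Agent.R340.Conv5_102
import Crest.Agent.R340.Defs_150
import Crest.Agent.R340.Str_735
import Crest.Agent.R340.PathStep2_880
import Crest.Agent.R340.Avg2_814
import Crest.Agent.R340.Vac5_467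
import Crest.Agent.R340.PeelX_596
import Crest.Agent.R340.GeoD_986
import Crest.Agent.R340.FX1_963
import Crest.Agent.R340.Hstep2_596

-- ▼ part R340/SPa_735
section

/-!
# R340 / S0532: strong pass, scalar part of the assembly (helper735)

* `rt_small` : `(e/N) rt_N ≤ 1/20`;
* `prof_facts` : the three facts on `F = C prof A S - Ψ`, `Ψ ∈ Cls (prof a S) (C e/N) N`;
* `Ab A g` : `g S Q` is absorbed by the margin `prof A S Q / (S + Q)` for `S` large, `S ≤ 200 Q`;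
  calculus and the terms of the strong step.
-/

set_option autoImplicit false
set_option linter.unusedSectionVars false

namespace Crest.Agent.R340.SP735

open Finset
open Crest.Agent.R340.Scal725
open Crest.Agent.R340.RecS735 Crest.Agent.R340.Str735 Crest.Agent.R340.StrB735
  Crest.Agent.R340.RecE735
open Crest.Agent.R340.Conv102 (DD DD_zero DD_succ DD_two DD_smul)

/-- `e * rt_N / N` is small for `N ≥ S/100` -/
theorem rt_small {a A S e : ℝ} (ha1 : a ≤ 1)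
    (hA1 : 1 ≤ A) (hAa : A < 1 + a) (hS1 : 2 * (A - 1) ≤ (1 + a - A) * S)
    (hS : 400 ≤ S) (_hA2 : A ≤ 2) (he : 0 ≤ e) (heS : 10000 * e ≤ S) {N : ℕ}
    (hN : S ≤ 100 * (N : ℝ)) : e / N * rt a A S N ≤ 1 / 20 := by
  have hS0 : 0 < S := by linarith
  have hN0 : (0 : ℝ) < N := by linarith
  have h1 := rt_div_le ha1 hA1 hAa hS1 (by linarith) N
  have h4 : S + (N : ℝ) ≤ 101 * N := by linarith
  have h3 : rt a A S N / N ≤ 101 / S := by
    rw [div_le_div_iff₀ (by positivity) hS0] at h1 ⊢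
    linarith
  calc e / N * rt a A S N = e * (rt a A S N / N) := by ring
    _ ≤ e * (101 / S) := mul_le_mul_of_nonneg_left h3 he
    _ ≤ 1 / 20 := by
        rw [mul_div_assoc', div_le_div_iff₀ hS0 (by norm_num)]
        linarith

/-- **profile facts** for the strong step from `Q` to `Q + 3` -/
theorem prof_facts {a A S C e : ℝ} (ha0 : 0 < a) (ha1 : a ≤ 1)
    (hA1 : 1 ≤ A) (hAa : A < 1 + a) (hS1 : 2 * (A - 1) ≤ (1 + a - A) * S)
    (hS : 400 ≤ S) (hA2 : A ≤ 2) (hC : 0 ≤ C) (he : 0 ≤ e) (heS : 10000 * e ≤ S) {Q : ℕ}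
    (hN : S ≤ 100 * ((Q + 3 : ℕ) : ℝ)) {Ψ : ℕ → ℝ}
    (hΨ : Cls (prof a S) (C * (e / ((Q + 3 : ℕ) : ℝ))) (Q + 3) Ψ) :
    (∀ p < Q + 2, |dd (fun j => C * prof A S j - Ψ j) p| ≤ (2 * C) * dd (prof A S) p) ∧
    (C * prof A S (Q + 3) - Ψ (Q + 3) ≤ C * prof A S (Q + 2) - Ψ (Q + 2)) ∧
    (C * prof A S (Q + 2) - Ψ (Q + 2) ≤ C * prof A S (Q + 1) - Ψ (Q + 1)) := by
  have hS0 : 0 < S := by linarith
  have hA : A < S + 1 := by linarith
  have haA : a ≤ A := by linarith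
  have hN0 : (0 : ℝ) < ((Q + 3 : ℕ) : ℝ) := by positivity
  have hrt := rt_small ha1 hA1 hAa hS1 hS hA2 he heS hN
  have hen : 0 ≤ e / ((Q + 3 : ℕ) : ℝ) := by positivity
  -- for `j ≤ Q + 3`
  have hj : ∀ j ≤ Q + 3, e / ((Q + 3 : ℕ) : ℝ) * rt a A S j ≤ 1 / 20 := by
    intro j hj
    refine (mul_le_mul_of_nonneg_left (rt_mono hS0.le haA hA hj) hen).trans hrt
  -- second differences
  have h2 : ∀ p, p + 2 ≤ Q + 3 → 0 ≤ dd Ψ p ∧ dd Ψ p ≤ C * (1 / 20) * dd (prof A S) p := by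
    intro p hp
    have h := hΨ 2 le_rfl p hp
    rw [DD_two, DD_two] at h
    refine ⟨h.1, h.2.trans ?_⟩
    have h3 := dd_le (a := a) (A := A) (M := rt a A S p) (A0 := rt a A S p) hS0.le ha0 haA hA
      (by
        have hr := rt_pos (a := a) hS0.le haA hA p
        apply mul_le_mul_of_nonneg_left _ hr.le
        nlinarith) le_rfl
    have h4 := dd_prof_nonneg hS0.le (by linarith : (0 : ℝ) ≤ A) hA p
    calc C * (e / ((Q + 3 : ℕ) : ℝ)) * dd (prof a S) p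
        ≤ C * (e / ((Q + 3 : ℕ) : ℝ)) * (rt a A S p * dd (prof A S) p) :=
          mul_le_mul_of_nonneg_left h3 (by positivity)
      _ = C * (e / ((Q + 3 : ℕ) : ℝ) * rt a A S p) * dd (prof A S) p := by ring
      _ ≤ C * (1 / 20) * dd (prof A S) p := by
          apply mul_le_mul_of_nonneg_right _ h4
          exact mul_le_mul_of_nonneg_left (hj p (by omega)) hC
  -- first differences
  have h1 : ∀ p, p + 1 ≤ Q + 3 →
      Ψ p - Ψ (p + 1) ≤ C * (prof A S p - prof A S (p + 1)) := by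
    intro p hp
    have h := hΨ 1 (by norm_num) p hp
    rw [DD_one, DD_one] at h
    have h3 := diff_le (a := a) (A := A) (M := rt a A S p) (A0 := rt a A S p) hS0.le ha0 hA
      (by
        have hr := rt_pos (a := a) hS0.le haA hA p
        exact mul_le_mul_of_nonneg_left haA hr.le) (le_refl (rt a A S p))
    have h4 : 0 ≤ prof A S p - prof A S (p + 1) := by
      have := prof_antitone hS0.le (by linarith : (0 : ℝ) ≤ A) hA (Nat.le_succ p)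
      linarith
    refine h.2.trans ?_
    calc C * (e / ((Q + 3 : ℕ) : ℝ)) * (prof a S p - prof a S (p + 1))
        ≤ C * (e / ((Q + 3 : ℕ) : ℝ)) * (rt a A S p * (prof A S p - prof A S (p + 1))) :=
          mul_le_mul_of_nonneg_left h3 (by positivity)
      _ = C * (e / ((Q + 3 : ℕ) : ℝ) * rt a A S p) * (prof A S p - prof A S (p + 1)) := by ring
      _ ≤ C * 1 * (prof A S p - prof A S (p + 1)) := by
          apply mul_le_mul_of_nonneg_right _ h4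
          apply mul_le_mul_of_nonneg_left _ hC
          linarith [hj p (by omega)]
      _ = _ := by ring
  refine ⟨fun p hp => ?_, ?_, ?_⟩
  · have h := h2 p (by omega)
    have h4 := dd_prof_nonneg hS0.le (by linarith : (0 : ℝ) ≤ A) hA p
    have e1 : dd (fun j => C * prof A S j - Ψ j) p = C * dd (prof A S) p - dd Ψ p := by
      unfold dd; ring
    rw [e1, abs_le]
    have h5 : 0 ≤ C * dd (prof A S) p := mul_nonneg hC h4
    constructor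
    · nlinarith [h.1, h.2]
    · nlinarith [h.1, h.2]
  · have := h1 (Q + 2) (by omega)
    linarith
  · have := h1 (Q + 1) (by omega)
    linarith

/-! ### Absorption calculus -/

/-- `g S Q` is absorbed by the margin, `S` large and `S ≤ 200 Q` -/
def Ab (A : ℝ) (g : ℝ → ℕ → ℝ) : Prop :=
  ∀ c : ℝ, 0 < c → ∃ S0 : ℝ, ∀ S : ℝ, S0 ≤ S → ∀ Q : ℕ, S ≤ 200 * (Q : ℝ) →
    g S Q ≤ c * (prof A S Q / (S + Q))

theorem Ab.add {A : ℝ} {g h : ℝ → ℕ → ℝ} (hg : Ab A g) (hh : Ab A h) :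
    Ab A (fun S Q => g S Q + h S Q) := by
  intro c hc
  obtain ⟨S1, h1⟩ := hg (c / 2) (by positivity)
  obtain ⟨S2, h2⟩ := hh (c / 2) (by positivity)
  refine ⟨max S1 S2, fun S hS Q hQ => ?_⟩
  have e1 := h1 S ((le_max_left _ _).trans hS) Q hQ
  have e2 := h2 S ((le_max_right _ _).trans hS) Q hQ
  show g S Q + h S Q ≤ _
  linarith

theorem Ab.smul {A : ℝ} {g : ℝ → ℕ → ℝ} (hg : Ab A g) {k : ℝ} (hk : 0 ≤ k) :
    Ab A (fun S Q => k * g S Q) := by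
  intro c hc
  obtain ⟨S1, h1⟩ := hg (c / (k + 1)) (by positivity)
  refine ⟨max S1 (|A| + 1), fun S hS Q hQ => ?_⟩
  have e1 := h1 S ((le_max_left _ _).trans hS) Q hQ
  have hSA : |A| + 1 ≤ S := (le_max_right _ _).trans hS
  have hA := le_abs_self A
  have hS0 : 0 < S := by linarith [abs_nonneg A]
  show k * g S Q ≤ _
  have hp := prof_pos hS0.le (by linarith : A < S + 1) Q
  have h0 : 0 ≤ prof A S Q / (S + Q) := by positivity
  calc k * g S Q ≤ k * (c / (k + 1) * (prof A S Q / (S + Q))) := mul_le_mul_of_nonneg_left e1 hk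
    _ = k / (k + 1) * (c * (prof A S Q / (S + Q))) := by
        field_simp
    _ ≤ 1 * (c * (prof A S Q / (S + Q))) := by
        apply mul_le_mul_of_nonneg_right _ (by positivity)
        rw [div_le_one (by positivity)]
        linarith
    _ = _ := one_mul _

theorem Ab.of_le {A : ℝ} {g h : ℝ → ℕ → ℝ} (hh : Ab A h) (S1 : ℝ)
    (hgh : ∀ S : ℝ, S1 ≤ S → ∀ Q : ℕ, S ≤ 200 * (Q : ℝ) → g S Q ≤ h S Q) : Ab A g := by
  intro c hc
  obtain ⟨S2, h2⟩ := hh c hc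
  refine ⟨max S1 S2, fun S hS Q hQ => ?_⟩
  exact (hgh S ((le_max_left _ _).trans hS) Q hQ).trans
    (h2 S ((le_max_right _ _).trans hS) Q hQ)

theorem ab_pow {A p q : ℝ} (M : ℝ) (hA1 : 1 ≤ A) (hq : A + 1 ≤ q) (hp : p < q - 1) :
    Ab A (fun S Q => M * S ^ p * (Q : ℝ) ^ (-q)) := by
  intro c hc
  obtain ⟨S0, _, h⟩ := pow_absorb (ε := 1 / 200) M hA1 (by norm_num) hq hp hc
  exact ⟨S0, fun S hS Q hQ => h S hS Q (by linarith)⟩

theorem ab_npow {A : ℝ} {p q : ℕ} (M : ℝ) (hA1 : 1 ≤ A) (hq : A + 1 ≤ q) (hp : p + 1 < q) :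
    Ab A (fun S Q => M * S ^ p / (Q : ℝ) ^ q) := by
  intro c hc
  obtain ⟨S0, _, h⟩ := npow_absorb (ε := 1 / 200) M hA1 (by norm_num) hq hp hc
  exact ⟨S0, fun S hS Q hQ => h S hS Q (by linarith)⟩

theorem ab_dd {A : ℝ} {M : ℝ} (hM : 0 ≤ M) (hA1 : 1 ≤ A) (hA2 : A ≤ 2) :
    Ab A (fun S Q => M * dd (prof A S) Q) := by
  intro c hc
  obtain ⟨S0, _, h⟩ := dd_log_absorb (ε := 1 / 200) M hA1 hA2 (by norm_num) hc
  refine ⟨max S0 400, fun S hS Q hQ => ?_⟩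
  have hS400 : 400 ≤ S := (le_max_right _ _).trans hS
  refine le_trans ?_ (h S ((le_max_left _ _).trans hS) Q (by linarith))
  have hd := dd_prof_nonneg (by linarith : (0 : ℝ) ≤ S) (by linarith : (0 : ℝ) ≤ A)
    (by linarith : A < S + 1) Q
  apply mul_le_mul_of_nonneg_left _ hM
  have hQ2 : (2 : ℝ) ≤ Q := by linarith
  have hlog : 1 ≤ Real.log ((Q : ℝ) + 2) := by
    rw [Real.le_log_iff_exp_le (by linarith)]
    have := Real.exp_one_lt_d9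
    linarith
  nlinarith

theorem ab_crs {A a : ℝ} (K C1 : ℝ) (hK : 0 ≤ K) (hC1 : 0 ≤ C1) (ha0 : 0 ≤ a)
    (ha1 : a < 1) (hA1 : 1 ≤ A) (hAa : A < 1 + a) :
    Ab A (fun S Q => K * (C1 * S ^ (1 - a) / Q) *
      ((S + Q) * prof a S Q / ((Q : ℝ) + 2) ^ 2)) := by
  intro c hc
  obtain ⟨S0, _, h⟩ := CrsH757.crs_absorb (ε := 1 / 200) K C1 hK hC1 ha0 ha1 hA1 hAa
    (by norm_num) hc
  exact ⟨S0, fun S hS Q hQ => h S hS Q (by linarith)⟩

/-- the margin at `Q` and at `Q + 3` -/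
theorem margin_shift {A S : ℝ} (hA1 : 1 ≤ A) (hA2 : A ≤ 2) (hS : 400 ≤ S) (Q : ℕ) :
    prof A S Q / (S + Q) ≤ 2 * (prof A S (Q + 3) / (S + Q + 3)) := by
  have hA : A < S + 1 := by linarith
  have hQ : (0 : ℝ) ≤ Q := Nat.cast_nonneg Q
  have h := prof_le_mul (by linarith : (0 : ℝ) ≤ S) (by linarith : (0 : ℝ) ≤ A) hA Q 3
    (by push_cast; linarith)
  have hp := prof_pos (by linarith : (0 : ℝ) ≤ S) hA (Q + 3)
  have h1 : 1 + 2 * (((3 : ℕ) : ℝ) * A) / (S + Q + 1) ≤ 1 + 1 / 10 := by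
    have : 2 * (((3 : ℕ) : ℝ) * A) / (S + Q + 1) ≤ 1 / 10 := by
      rw [div_le_div_iff₀ (by positivity) (by norm_num)]
      push_cast
      linarith
    linarith
  have h2 : prof A S Q ≤ 11 / 10 * prof A S (Q + 3) := by
    refine h.trans ?_
    have := mul_le_mul_of_nonneg_left h1 hp.le
    linarith
  rw [mul_div_assoc', div_le_div_iff₀ (by linarith) (by linarith)]
  have h3 : S + Q + 3 ≤ 11 / 10 * (S + Q) := by linarith
  calc prof A S Q * (S + Q + 3) ≤ (11 / 10 * prof A S (Q + 3)) * (11 / 10 * (S + Q)) :=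
        mul_le_mul h2 h3 (by linarith) (by positivity)
    _ ≤ 2 * prof A S (Q + 3) * (S + Q) := by
        have h4 : 0 ≤ prof A S (Q + 3) * (S + Q) := by positivity
        nlinarith

/-- from absorption at `Q` to the margin of `strong_red` at `Q + 3` -/
theorem Ab.margin {A : ℝ} (hA1 : 1 ≤ A) (hA2 : A ≤ 2) {g : ℝ → ℕ → ℝ} (hg : Ab A g) :
    ∃ S0 : ℝ, ∀ S : ℝ, S0 ≤ S → ∀ Q : ℕ, S ≤ 100 * ((Q + 3 : ℕ) : ℝ) →
      g S Q ≤ A * prof A S (Q + 3) / (S + Q + 3) := by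
  obtain ⟨S0, h⟩ := hg (1 / 2) (by norm_num)
  refine ⟨max S0 600, fun S hS Q hQ => ?_⟩
  have hS6 : 600 ≤ S := (le_max_right _ _).trans hS
  push_cast at hQ
  have h1 := h S ((le_max_left _ _).trans hS) Q (by linarith)
  have h2 := margin_shift hA1 hA2 (by linarith : 400 ≤ S) Q
  have hp := prof_pos (by linarith : (0 : ℝ) ≤ S) (by linarith : A < S + 1) (Q + 3)
  have h3 : 0 ≤ prof A S (Q + 3) / (S + Q + 3) := by positivity
  calc g S Q ≤ 1 / 2 * (prof A S Q / (S + Q)) := h1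
    _ ≤ 1 * (prof A S (Q + 3) / (S + Q + 3)) := by linarith
    _ ≤ A * (prof A S (Q + 3) / (S + Q + 3)) := mul_le_mul_of_nonneg_right hA1 h3
    _ = _ := by ring

end Crest.Agent.R340.SP735
end

-- ▼ part R340/Str2_875
section

/-!
# R340, strong pass, operator side, part 2 (helper875): the absorption step on the Fock model

* `flow_Gm`   : the metric flow of PathStep_880 is a `Flow` of Str1_875;
* `cr Q k θ A ψ` : the cross number `Re ⟪(1-P) dG(g) ψ, (1-P) A ψ⟫` in the sector `k` of the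
  geometry `nuT (tA θ) Q`;
* `s1`        : the vacuum scalar at `θ = 1`;
* `move_strong` : from the bound for the profile `F - ε` on the round sphere of flux `Q` to the bound
  for the profile `F` in the metric of the round sphere of flux `Q + 3`, restricted to flux `Q`.
-/

set_option autoImplicit false
set_option linter.unusedSectionVars false

namespace Crest.Agent.R340.Str875

open Set
open Crest.Agent.R340.PathStep880
open Crest.Agent.R340.Fock649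
open Crest.Agent.R340.Geo986 Crest.Agent.R340.Peel596 Crest.Agent.R340.Step596
open Crest.Agent.R340.Vac467 (IsRef)
open Crest.Agent.R340.Scal725 (cs)
open Crest.Agent.R340.DomF735 (dGf)
open Crest.Agent.R340.GG467 (pj)

/-! ### 1. the instance -/

theorem flow_Gm (b Q : ℕ) : Flow (Gm b Q) (TT Q (gm b Q)) :=
  ⟨Gm_zero b Q, Gm_injective b Q, fun θ F => hasDerivAt_Gm b Q θ F⟩

theorem MZ_A (Q n : ℕ) (θ : ℝ) :
    MZ (Gm 3 Q) (Zn (nu0 Q) Q n) θ = Zn (nuT (tA θ) Q) Q n := Zt_A Q n θ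

theorem sym_TT {Q : ℕ} (f : ℕ → ℝ) : Sym (TT Q f) := fun x y => inner_TT Q f x y

theorem sym_of_star {Q : ℕ} {X : Op (Fin (Q + 1))} (hX : star X = X) : Sym X.ap := fun x y => by
  have := inner_star_left X x y
  rw [hX] at this
  exact this

theorem dGf_ap (Q : ℕ) (f : ℕ → ℝ) (ψ : Fk (Fin (Q + 1))) : dGf f Q ψ = TT Q f ψ := rfl

/-- the cross number in the sector `k` of the geometry `θ` -/
noncomputable def cr (Q k : ℕ) (θ : ℝ) (A : Fk (Fin (Q + 1)) →L[ℂ] Fk (Fin (Q + 1)))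
    (ψ : Fk (Fin (Q + 1))) : ℝ :=
  (inner ℂ (off (Zn (nuT (tA θ) Q) Q k) (TT Q (gm 3 Q) ψ))
    (off (Zn (nuT (tA θ) Q) Q k) (A ψ))).re

theorem crs_A (Q k : ℕ) (θ : ℝ) (A : Fk (Fin (Q + 1)) →L[ℂ] Fk (Fin (Q + 1)))
    (ψ : Fk (Fin (Q + 1))) :
    crs (TT Q (gm 3 Q)) (MZ (Gm 3 Q) (Zn (nu0 Q) Q k) θ) A ψ = cr Q k θ A ψ := by
  rw [MZ_A]; rfl

/-- the quadratic form `3 (cs f Q ‖ψ‖² - ⟪ψ, dG f ψ⟫)` -/
noncomputable def hh (f : ℕ → ℝ) (Q : ℕ) (ψ : Fk (Fin (Q + 1))) : ℝ :=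
  3 * (cs f Q * ‖ψ‖ ^ 2 - (inner ℂ ψ (dGf f Q ψ)).re)

theorem re_inner_Dop (Q : ℕ) (s : ℝ) (f : ℕ → ℝ) (X : Op (Fin (Q + 1))) (ψ : Fk (Fin (Q + 1))) :
    (inner ℂ ψ (Dop Q s 3 f X ψ)).re =
      s * ‖ψ‖ ^ 2 - 3 * (inner ℂ ψ (TT Q f ψ)).re - (inner ℂ ψ (X ψ)).re := by
  have e : (Dop Q s 3 f X) ψ = (s : ℂ) • ψ - ((3 : ℝ) : ℂ) • TT Q f ψ - X ψ := by
    unfold Dop
    rw [sub_ap, sub_ap, smul_ap, smul_ap, one_ap]
    rfl
  rw [e]
  simp only [inner_sub_right, inner_smul_right, Complex.sub_re, Complex.re_ofReal_mul]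
  rw [re_inner_self]

theorem TT_sub_apply (Q : ℕ) (f g : ℕ → ℝ) (ψ : Fk (Fin (Q + 1))) :
    TT Q (fun j => f j - g j) ψ = TT Q f ψ - TT Q g ψ := by
  have h : TT Q (f - g) = TT Q f - TT Q g := map_sub (TT Q) f g
  have h2 : (f - g) = fun j => f j - g j := rfl
  rw [← h2, h]; rfl

/-! ### 2. the vacuum -/

theorem Zn_vac_eq_span {Q n0 : ℕ} (hn0 : Q = 3 * (n0 - 1)) {Φ : Fk (Fin (Q + 1))}
    (hΦ : IsRef (nu0 Q) Q n0 Φ) : Zn (nu0 Q) Q n0 = Submodule.span ℂ {Φ} := by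
  apply le_antisymm
  · intro ψ hψ
    rw [hΦ.span (posM_nu0 Q) hn0 hψ]
    exact Submodule.smul_mem _ _ (Submodule.mem_span_singleton_self _)
  · rw [Submodule.span_singleton_le_iff_mem]
    exact hΦ.mem_Zn

theorem vE_zero {Q n0 : ℕ} {Φ : Fk (Fin (Q + 1))} (hΦ : IsRef (nu0 Q) Q n0 Φ)
    (A : Fk (Fin (Q + 1)) →L[ℂ] Fk (Fin (Q + 1))) :
    vE (Gm 3 Q) Φ A 0 = (inner ℂ Φ (A Φ)).re := by
  unfold vE
  rw [Gm_zero]
  have e : (ContinuousLinearMap.id ℂ (Fk (Fin (Q + 1)))) Φ = Φ := rfl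
  rw [e, hΦ.unit, one_pow, div_one]

theorem vE_TT_zero {Q n0 : ℕ} (hn1 : 1 ≤ n0) (hn0 : Q = 3 * (n0 - 1)) {Φ : Fk (Fin (Q + 1))}
    (hΦ : IsRef (nu0 Q) Q n0 Φ) (f : ℕ → ℝ) : vE (Gm 3 Q) Φ (TT Q f) 0 = cs f Q := by
  rw [vE_zero hΦ]
  have h := hΦ.dens_diag hn1 hn0 f
  have e : (TT Q f) Φ = (dG (Matrix.diagonal fun j : Fin (Q + 1) => ((f j : ℝ) : ℂ))) Φ := rfl
  rw [e, h, Complex.ofReal_re]

/-- the vacuum scalar at the end of the A-path -/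
noncomputable def s1 (Q : ℕ) (Φ : Fk (Fin (Q + 1))) (F : ℕ → ℝ) (X : Op (Fin (Q + 1))) : ℝ :=
  3 * vE (Gm 3 Q) Φ (TT Q F) 1 + vE (Gm 3 Q) Φ X.ap 1

/-! ### 3. the absorption step -/

/-- **The strong move** (doc 1315). -/
theorem move_strong {Q n n0 : ℕ} (hn1 : 1 ≤ n0) (hn0 : Q = 3 * (n0 - 1)) {Φ : Fk (Fin (Q + 1))}
    (hΦ : IsRef (nu0 Q) Q n0 Φ) (F ε : ℕ → ℝ) (X : Op (Fin (Q + 1))) (hX : star X = X)
    {eW eY eT m : ℝ}
    (hW : ∀ θ ∈ Ioc (0 : ℝ) 1, ∀ k, ∀ ψ ∈ Zn (nuT (tA θ) Q) Q k, ‖ψ‖ = 1 →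
      |cr Q k θ (TT Q ε) ψ| ≤ eW)
    (hT : ∀ θ ∈ Ioc (0 : ℝ) 1, ∃ Y : Op (Fin (Q + 1)), star Y = Y ∧
      (∀ k, ∀ ψ ∈ Zn (nuT (tA θ) Q) Q k, ‖ψ‖ = 1 →
        |3 * cr Q k θ (TT Q F) ψ + cr Q k θ X.ap ψ - (inner ℂ ψ (Y ψ)).re| ≤ eT) ∧
      (∀ θ' ∈ Ioc (0 : ℝ) 1, ∀ k, ∀ ψ ∈ Zn (nuT (tA θ') Q) Q k, ‖ψ‖ = 1 →
        |cr Q k θ' Y.ap ψ| ≤ eY) ∧
      (∀ ψ ∈ Zn (nu0 Q) Q n,
        -(hh ε Q ψ) ≤ (inner ℂ ψ (Y ψ)).re - (inner ℂ Φ (Y Φ)).re * ‖ψ‖ ^ 2))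
    (h0 : LB (nu0 Q) Q n (Dop Q (3 * cs (fun j => F j - ε j) Q + (inner ℂ Φ (X Φ)).re) 3
      (fun j => F j - ε j) X) m) :
    LB (nu0 (Q + 3)) Q n (Dop Q (s1 Q Φ F X) 3 F X) (m - (12 * eW + 2 * eY + 2 * eT)) := by
  have hsp := Zn_vac_eq_span hn0 hΦ
  have key := absorb (flow_Gm 3 Q) hΦ.ne (Zn (nu0 Q) Q n) (sym_TT F) (sym_TT ε)
    (sym_of_star hX) (a := 3) (eW := eW) (eY := eY) (eT := eT) (m := m) (by norm_num)
    (fun θ hθ ψ hψ h1 => by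
      rw [crs_A]
      rw [MZ_A] at hψ
      exact hW θ hθ n ψ hψ h1)
    (fun θ hθ ψ hψ h1 => by
      rw [← hsp] at hψ ⊢
      rw [crs_A]
      rw [MZ_A] at hψ
      exact hW θ hθ n0 ψ hψ h1)
    (fun θ hθ => by
      obtain ⟨Y, hYs, hY1, hY2, hY3⟩ := hT θ hθ
      refine ⟨Y.ap, sym_of_star hYs, ?_, ?_, ?_, ?_, ?_⟩
      · intro ψ hψ h1
        rw [crs_A, crs_A]
        rw [MZ_A] at hψ
        exact hY1 n ψ hψ h1
      · intro ψ hψ h1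
        rw [← hsp] at hψ ⊢
        rw [crs_A, crs_A]
        rw [MZ_A] at hψ
        exact hY1 n0 ψ hψ h1
      · intro θ' hθ' ψ hψ h1
        rw [crs_A]
        rw [MZ_A] at hψ
        exact hY2 θ' hθ' n ψ hψ h1
      · intro θ' hθ' ψ hψ h1
        rw [← hsp] at hψ ⊢
        rw [crs_A]
        rw [MZ_A] at hψ
        exact hY2 θ' hθ' n0 ψ hψ h1
      · intro ψ hψ
        have h1 := hY3 ψ hψ
        rw [vE_TT_zero hn1 hn0 hΦ, vE_zero hΦ]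
        unfold hh at h1
        rw [dGf_ap] at h1
        linarith)
    (fun ψ hψ => by
      have h1 := h0 ψ hψ
      rw [re_inner_Dop, TT_sub_apply, inner_sub_right, Complex.sub_re] at h1
      rw [vE_TT_zero hn1 hn0 hΦ, vE_TT_zero hn1 hn0 hΦ, vE_zero hΦ]
      have e : cs (fun j => F j - ε j) Q = cs F Q - cs ε Q := by
        unfold Scal725.cs
        rw [Finset.sum_sub_distrib]; ring
      rw [e] at h1
      linarith)
  intro ψ hψ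
  have hψ' : ψ ∈ MZ (Gm 3 Q) (Zn (nu0 Q) Q n) 1 := by
    rw [MZ_A, Zn_A]; exact hψ
  have h1 := key ψ hψ'
  rw [re_inner_Dop]
  unfold s1
  linarith

end Crest.Agent.R340.Str875
end

-- ▼ part R340/W0_725
section

/-!
R340 (S0532), strong pass, the input (W0) of `Str875.move_strong` (helper725).

From the output `Defs150.WP` of the weak pass, the family `T` of `Defs150.TZ` and the operator `YX` of
`Defs150.TX`:

* `abs_le_of_WP` : one operator of the class;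
* `abs_int_le`   : the rotated and integrated family, with 102's weight `wt` and profile `Ph`;
* `W0`           : literally the last clause of `hT` of `move_strong`, for
  `Y = 3 C (Q+1) ∫ T + YX` and the explicit profile `ep`.
-/

set_option autoImplicit false

open Matrix Finset MeasureTheory

namespace Crest.Agent.R340.W0725

open Crest.Agent.R340.Fock649 Crest.Agent.R340.Gam303 Crest.Agent.R340.Rot303
open Crest.Agent.R340.Avg814 Crest.Agent.R340.CS809 Crest.Agent.R124.Haar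
open Crest.Agent.R340.DomF735 Crest.Agent.R340.Scal725 Crest.Agent.R340.AvgG725
open Crest.Agent.R340.Geo986 Crest.Agent.R340.Peel596 Crest.Agent.R340.Conv102
open Crest.Agent.R340.Defs150 Crest.Agent.R340.FX963 Crest.Agent.R340.Str875
open Crest.Agent.R340.Vac467 (IsRef)

noncomputable section

variable {Q : ℕ}

/-! ### scalars -/

theorem cs_smul' (r : ℝ) (f : ℕ → ℝ) (Q : ℕ) : cs (fun j => r * f j) Q = r * cs f Q := by
  unfold cs
  rw [← mul_sum]; ring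

theorem cs_add' (f g : ℕ → ℝ) (Q : ℕ) : cs (fun j => f j + g j) Q = cs f Q + cs g Q := by
  unfold cs
  rw [sum_add_distrib]; ring

theorem dGf_smul' (r : ℝ) (f : ℕ → ℝ) (Q : ℕ) :
    dGf (fun j => r * f j) Q = ((r : ℝ) : ℂ) • dGf f Q := by
  unfold dGf
  rw [← dG_smul]
  congr 1
  ext i k
  by_cases h : i = k
  · subst h; simp [res]
  · simp [Matrix.diagonal_apply_ne _ h]

theorem dGf_add' (f g : ℕ → ℝ) (Q : ℕ) :
    dGf (fun j => f j + g j) Q = dGf f Q + dGf g Q := by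
  unfold dGf
  rw [← dG_add]
  congr 1
  ext i k
  by_cases h : i = k
  · subst h; simp [res]
  · simp [Matrix.diagonal_apply_ne _ h]

theorem hf_smul (r : ℝ) (f : ℕ → ℝ) (ψ : Fk (Fin (Q + 1))) :
    hf (fun j => r * f j) Q ψ = r * hf f Q ψ := by
  unfold hf
  rw [cs_smul', dGf_smul', smul_ap, inner_smul_right, Complex.re_ofReal_mul]
  ring

theorem hf_add (f g : ℕ → ℝ) (ψ : Fk (Fin (Q + 1))) :
    hf (fun j => f j + g j) Q ψ = hf f Q ψ + hf g Q ψ := by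
  unfold hf
  rw [cs_add', dGf_add', add_ap, inner_add_right, Complex.add_re]
  ring

theorem hh_eq_hf (f : ℕ → ℝ) (ψ : Fk (Fin (Q + 1))) : hh f Q ψ = hf f Q ψ := rfl

/-! ### the vacuum -/

theorem isVac_of_isRef {n0 : ℕ} (hn1 : 1 ≤ n0) (hn0 : Q = 3 * (n0 - 1)) {Φ : Fk (Fin (Q + 1))}
    (hΦ : IsRef (nu0 Q) Q n0 Φ) : IsVac Q Φ := by
  refine ⟨?_, hΦ.unit⟩
  have e : Q / 3 + 1 = n0 := by omega
  rw [e]; exact hΦ.mem_Zn

theorem hf_vac {n0 : ℕ} (hn1 : 1 ≤ n0) (hn0 : Q = 3 * (n0 - 1)) {Φ : Fk (Fin (Q + 1))}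
    (hΦ : IsRef (nu0 Q) Q n0 Φ) (f : ℕ → ℝ) : hf f Q Φ = 0 := by
  have h := hΦ.dens_diag hn1 hn0 f
  have e : dGf f Q = dG (Matrix.diagonal fun j : Fin (Q + 1) => ((f j : ℝ) : ℂ)) := rfl
  unfold hf
  rw [e, h, Complex.ofReal_re, hΦ.unit]
  ring

theorem form_smul (A : Op (Fin (Q + 1))) (z : ℂ) (φ : Fk (Fin (Q + 1))) :
    (inner ℂ (z • φ) (A (z • φ)) : ℂ).re = ‖z‖ ^ 2 * (inner ℂ φ (A φ) : ℂ).re := by
  rw [map_smul, inner_smul_left, inner_smul_right, ← mul_assoc, Complex.conj_mul']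
  norm_cast
  rw [Complex.re_ofReal_mul]

theorem hf_smul_vec (f : ℕ → ℝ) (z : ℂ) (φ : Fk (Fin (Q + 1))) :
    hf f Q (z • φ) = ‖z‖ ^ 2 * hf f Q φ := by
  unfold hf
  rw [form_smul, norm_smul]
  ring

/-! ### one operator -/

theorem DY_of_scale {n : ℕ} {c : ℝ} (hc : 0 < c) {X : Op (Fin (Q + 1))} (h : Dy n Q c X) :
    Dy n Q 1 (((c⁻¹ : ℝ) : ℂ) • X) := by
  refine ⟨?_, ?_⟩
  · unfold IsSelfAdjoint
    rw [star_smul, h.1.star_eq, Complex.star_def, Complex.conj_ofReal]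
  · have h1 := h.2.smul (((c⁻¹ : ℝ) : ℂ))
    rwa [Complex.norm_real, Real.norm_of_nonneg (inv_nonneg.2 hc.le), inv_mul_cancel₀ hc.ne'] at h1

theorem dy_neg {n : ℕ} {c : ℝ} {X : Op (Fin (Q + 1))} (h : Dy n Q c X) : Dy n Q c (-X) :=
  ⟨h.1.neg, h.2.neg⟩

theorem re_inner_Dop' (s C : ℝ) (f : ℕ → ℝ) (X : Op (Fin (Q + 1))) (φ : Fk (Fin (Q + 1))) :
    (inner ℂ φ (Dop Q s (3 * C) f X φ) : ℂ).re =
      s * ‖φ‖ ^ 2 - 3 * C * (inner ℂ φ (dGf f Q φ) : ℂ).re - (inner ℂ φ (X φ) : ℂ).re := by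
  have e : dG (Matrix.diagonal fun j : Fin (Q + 1) => ((f j : ℝ) : ℂ)) = dGf f Q := rfl
  have h2 : ((RCLike.ofReal ‖φ‖ : ℂ) ^ 2).re = ‖φ‖ ^ 2 := by norm_cast
  unfold Dop
  rw [e, sub_ap, sub_ap, smul_ap, smul_ap, one_ap, inner_sub_right, inner_sub_right,
    inner_smul_right, inner_smul_right, Complex.sub_re, Complex.sub_re, Complex.re_ofReal_mul,
    Complex.re_ofReal_mul, inner_self_eq_norm_sq_to_K, h2]

/-- **(W) for one operator about the pole**, all sectors `3 n ≤ Q + 3`. -/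
theorem abs_le_of_WP {nW : ℕ} {a R0 CW θ : ℝ} (hWP : WP nW a R0 CW θ) (hCW : 0 ≤ CW) (hθ : 0 ≤ θ)
    {S : ℝ} (hS : R0 ≤ S) (hS0 : 0 ≤ S) (haS : a < S + 1) {n n0 : ℕ} (hn1 : 1 ≤ n0)
    (hn0 : Q = 3 * (n0 - 1)) (hn : n ≤ n0) {Φ : Fk (Fin (Q + 1))} (hΦ : IsRef (nu0 Q) Q n0 Φ)
    {c : ℝ} (hc : 0 < c) {X : Op (Fin (Q + 1))} (hX : Dy nW Q c X) {ψ : Fk (Fin (Q + 1))}
    (hψ : ψ ∈ Zn (nu0 Q) Q n) :
    |(inner ℂ ψ (X ψ) : ℂ).re - (inner ℂ Φ (X Φ) : ℂ).re * ‖ψ‖ ^ 2| ≤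
      c * CW * hf (prof a S) Q ψ := by
  rcases Nat.lt_or_ge n n0 with hlt | hge
  · have hv := isVac_of_isRef hn1 hn0 hΦ
    have h3 : 3 ∣ Q := by rw [hn0]; exact Dvd.intro _ rfl
    have h3n : 3 * n ≤ Q := by omega
    have hX1 := DY_of_scale hc hX
    have h1 := hWP S hS Q n _ Φ h3 h3n hX1 hv ψ hψ
    have h2 := hWP S hS Q n _ Φ h3 h3n (dy_neg hX1) hv ψ hψ
    have hpos : 0 ≤ θ * CW * ((Q : ℝ) + 3 - 3 * n) * prof a S Q * ‖ψ‖ ^ 2 := by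
      have k1 : (0 : ℝ) ≤ (Q : ℝ) + 3 - 3 * n := by
        have : ((3 * n : ℕ) : ℝ) ≤ ((Q : ℕ) : ℝ) := by exact_mod_cast h3n
        push_cast at this
        linarith
      have k2 := (prof_pos hS0 haS Q).le
      positivity
    rw [re_inner_Dop', smul_ap, smul_ap, inner_smul_right, inner_smul_right,
      Complex.re_ofReal_mul, Complex.re_ofReal_mul] at h1
    rw [re_inner_Dop', neg_ap, neg_ap, smul_ap, smul_ap, inner_neg_right, inner_neg_right,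
      inner_smul_right, inner_smul_right, Complex.neg_re, Complex.neg_re,
      Complex.re_ofReal_mul, Complex.re_ofReal_mul] at h2
    have h3' : CW * hf (prof a S) Q ψ = 3 * CW * cs (prof a S) Q * ‖ψ‖ ^ 2 -
        3 * CW * (inner ℂ ψ (dGf (prof a S) Q ψ) : ℂ).re := by unfold hf; ring
    have h4 : |c⁻¹ * ((inner ℂ ψ (X ψ) : ℂ).re - (inner ℂ Φ (X Φ) : ℂ).re * ‖ψ‖ ^ 2)| ≤
        CW * hf (prof a S) Q ψ := by
      rw [abs_le, h3']
      constructor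
      · linarith
      · linarith
    rw [abs_mul, abs_of_pos (inv_pos.2 hc), inv_mul_le_iff₀ hc] at h4
    rw [mul_assoc]
    exact h4
  · have hnn : n = n0 := le_antisymm hn hge
    subst hnn
    have e := hΦ.span (posM_nu0 Q) hn0 hψ
    set z : ℂ := (inner ℂ Φ ψ : ℂ)
    rw [e, form_smul, hf_smul_vec, hf_vac hn1 hn0 hΦ, norm_smul, hΦ.unit]
    have : ‖z‖ ^ 2 * (inner ℂ Φ (X Φ) : ℂ).re - (inner ℂ Φ (X Φ) : ℂ).re * (‖z‖ * 1) ^ 2 = 0 := by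
      ring
    rw [this]
    simp

/-! ### the family -/

/-- the weight of the family `T` at `g` -/
def ct (K A : ℝ) (Q Q2 : ℕ) (g : G2) : ℝ :=
  K / ((Q : ℝ) + 1) ^ 2 * (1 + Q * tt g / Q2) ^ (-A)

theorem ct_pos {K : ℝ} (hK : 0 < K) (A : ℝ) (Q Q2 : ℕ) (g : G2) : 0 < ct K A Q Q2 g := by
  have h0 := tt_nonneg g
  have h1 : 0 < 1 + Q * tt g / Q2 := by positivity
  unfold ct
  have := Real.rpow_pos_of_pos h1 (-A)
  positivity

theorem continuous_ct (K A : ℝ) (Q Q2 : ℕ) : Continuous (ct K A Q Q2) := by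
  unfold ct
  refine continuous_const.mul (Continuous.rpow_const ?_ fun g => Or.inl ?_)
  · exact continuous_const.add ((continuous_const.mul continuous_tt).div_const _)
  · have h0 := tt_nonneg g
    have : 0 < 1 + Q * tt g / Q2 := by positivity
    exact this.ne'

theorem continuous_re_inner {A : G2 → Op (Fin (Q + 1))} (hA : Continuous A)
    (v w : Fk (Fin (Q + 1))) : Continuous fun g => (inner ℂ v (A g w) : ℂ).re :=
  Complex.continuous_re.comp ((innerSL ℂ v).continuous.comp ((evL w).continuous.comp hA))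

/-- **(W) for the family.** -/
theorem abs_int_le {nW : ℕ} {a R0 CW θ : ℝ} (hWP : WP nW a R0 CW θ) (hCW : 0 ≤ CW) (hθ : 0 ≤ θ)
    {S : ℝ} (hS : R0 ≤ S) (hS0 : 0 ≤ S) (haS : a < S + 1) {n n0 : ℕ} (hn1 : 1 ≤ n0)
    (hn0 : Q = 3 * (n0 - 1)) (hn : n ≤ n0) {Φ : Fk (Fin (Q + 1))} (hΦ : IsRef (nu0 Q) Q n0 Φ)
    {K A : ℝ} (hK : 0 < K) (hA : 0 ≤ A) {Q2 : ℕ} (h2 : 1 ≤ Q2)
    {T : G2 → Op (Fin (Q + 1))} (hTc : Continuous T)
    (hT : ∀ g, DyG nW Q (ct K A Q Q2 g) g (T g)) {ψ : Fk (Fin (Q + 1))}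
    (hψ : ψ ∈ Zn (nu0 Q) Q n) :
    |(inner ℂ ψ (((((Q : ℝ) + 1)) • ∫ g, T g ∂hm) ψ) : ℂ).re -
      (inner ℂ Φ (((((Q : ℝ) + 1)) • ∫ g, T g ∂hm) Φ) : ℂ).re * ‖ψ‖ ^ 2| ≤
      CW * (K / ((Q : ℝ) + 1) ^ 2) * hf (Ph A Q Q2 (prof a S)) Q ψ := by
  have := secondCountable_G2
  -- normalised family
  set T' : G2 → Op (Fin (Q + 1)) := fun g => (((ct K A Q Q2 g)⁻¹ : ℝ) : ℂ) • T g with hT'
  have hcc := continuous_ct K A Q Q2
  have hT'c : Continuous T' :=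
    (Complex.continuous_ofReal.comp (hcc.inv₀ fun g => (ct_pos hK A Q Q2 g).ne')).smul hTc
  have hT'D : ∀ g : G2, Dy nW Q 1 (cj (g : Matrix (Fin 2) (Fin 2) ℂ)ᴴ (T' g)) := by
    intro g
    have h1 := DY_of_scale (ct_pos hK A Q Q2 g) (hT g)
    have e : cj (g : Matrix (Fin 2) (Fin 2) ℂ)ᴴ (T' g) = (((ct K A Q Q2 g)⁻¹ : ℝ) : ℂ) •
        cj (star (g : Matrix (Fin 2) (Fin 2) ℂ)) (T g) := by
      rw [hT', star_eq_conjTranspose]
      unfold cj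
      rw [mul_smul_comm, smul_mul_assoc]
    rw [e]
    exact h1
  set t : G2 → ℝ := fun g =>
    (inner ℂ Φ (cj (g : Matrix (Fin 2) (Fin 2) ℂ)ᴴ (T' g) Φ) : ℂ).re with ht
  have hZ : ∀ k : ℕ, ∀ g : G2, ∀ φ ∈ Zn (nu0 Q) Q k,
      star (Rg Q (g : Matrix (Fin 2) (Fin 2) ℂ)) φ ∈ Zn (nu0 Q) Q k := by
    intro k g φ hφ
    rw [star_Rg]
    refine Vac467.Rg_mem_Zn ?_ hφ
    rw [conjTranspose_conjTranspose]; exact g2_ct_mul g
  have hWk : ∀ k ≤ n0, ∀ g : G2, ∀ φ ∈ Zn (nu0 Q) Q k,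
      |(inner ℂ φ (cj (g : Matrix (Fin 2) (Fin 2) ℂ)ᴴ (T' g) φ) : ℂ).re - t g * ‖φ‖ ^ 2| ≤
        CW * hf (prof a S) Q φ := by
    intro k hk g φ hφ
    have h1 := abs_le_of_WP hWP hCW hθ hS hS0 haS hn1 hn0 hk hΦ one_pos (hT'D g) hφ
    rwa [one_mul] at h1
  have htc : Continuous t := by
    have h1 : Continuous fun g : G2 => Rg Q ((g : Matrix (Fin 2) (Fin 2) ℂ)ᴴ) :=
      continuous_Rg.comp continuous_subtype_val.matrix_conjTranspose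
    have h2 : Continuous fun g : G2 => cj (g : Matrix (Fin 2) (Fin 2) ℂ)ᴴ (T' g) :=
      (h1.mul hT'c).mul h1.star
    exact continuous_re_inner h2 Φ Φ
  set s : G2 → ℝ := fun g => ((Q : ℝ) + 1) * ct K A Q Q2 g with hs
  have hsc : Continuous s := continuous_const.mul hcc
  set cw' : G2 → ℝ := fun g => K / ((Q : ℝ) + 1) ^ 2 * Conv102.wt A Q Q2 (tt g) with hcw'
  have hcwc : Continuous cw' := continuous_const.mul ((continuous_wt A Q Q2).comp continuous_tt)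
  have hsw : ∀ g, |s g| ≤ cw' g := by
    intro g
    have h0 := ct_pos hK A Q Q2 g
    have h1 := le_wt hA (Q := Q) h2 (tt_nonneg g) (tt_le_one g)
    have hq : (0 : ℝ) < (Q : ℝ) + 1 := by positivity
    rw [hs, hcw', abs_of_pos (mul_pos hq h0)]
    have e : ((Q : ℝ) + 1) * ct K A Q Q2 g =
        K / ((Q : ℝ) + 1) ^ 2 * (((Q : ℝ) + 1) * (1 + Q * tt g / Q2) ^ (-A)) := by
      unfold ct; ring
    rw [e]
    have hKq : 0 ≤ K / ((Q : ℝ) + 1) ^ 2 := by positivity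
    exact mul_le_mul_of_nonneg_left h1 hKq
  have hst : Integrable (fun g => s g * t g) hm := integrable_of_cont (hsc.mul htc)
  have hΦ1 : ∫ g : G2, (cw' g : ℂ) • cj (g : Matrix (Fin 2) (Fin 2) ℂ) (dGf (prof a S) Q) ∂hm =
      dGf (fun j => K / ((Q : ℝ) + 1) ^ 2 * Ph A Q Q2 (prof a S) j) Q := by
    rw [dGf_smul', ← wt_dGf, ← integral_smul]
    refine integral_congr_ae (Filter.Eventually.of_forall fun g => ?_)
    simp only [hcw']
    rw [smul_smul, ← Complex.ofReal_mul]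
  have hcs1 : cs (fun j => K / ((Q : ℝ) + 1) ^ 2 * Ph A Q Q2 (prof a S) j) Q =
      (∫ g, cw' g ∂hm) * cs (prof a S) Q := by
    rw [cs_smul', wt_cs, hcw', integral_const_mul]
    ring
  have hop : (∫ g, (s g : ℂ) • T' g ∂hm) = (((Q : ℝ) + 1)) • ∫ g, T g ∂hm := by
    rw [← integral_smul]
    refine integral_congr_ae (Filter.Eventually.of_forall fun g => ?_)
    simp only [hs, hT']
    rw [smul_smul, ← Complex.ofReal_mul, mul_assoc, mul_inv_cancel₀ (ct_pos hK A Q Q2 g).ne',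
      mul_one]
    exact Complex.coe_smul _ _
  have key : ∀ k ≤ n0, ∀ φ ∈ Zn (nu0 Q) Q k,
      |(inner ℂ φ (((((Q : ℝ) + 1)) • ∫ g, T g ∂hm) φ) : ℂ).re -
        (∫ g, s g * t g ∂hm) * ‖φ‖ ^ 2| ≤
        CW * hf (fun j => K / ((Q : ℝ) + 1) ^ 2 * Ph A Q Q2 (prof a S) j) Q φ := by
    intro k hk φ hφ
    have h1 := w_average (hZ k) hT'c (hWk k hk) hsc.aestronglyMeasurable hsw hcwc hst hΦ1 hcs1 hφ
    rw [hop] at h1
    exact h1
  have hv := key n0 le_rfl Φ hΦ.mem_Zn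
  rw [hf_vac hn1 hn0 hΦ, mul_zero, hΦ.unit, one_pow, mul_one] at hv
  have hv' : (inner ℂ Φ (((((Q : ℝ) + 1)) • ∫ g, T g ∂hm) Φ) : ℂ).re = ∫ g, s g * t g ∂hm := by
    have := abs_nonpos_iff.1 hv
    linarith
  have h1 := key n hn ψ hψ
  rw [hv']
  rw [hf_smul] at h1
  refine h1.trans (le_of_eq ?_)
  ring

/-! ### the sum -/

/-- **the profile which absorbs the cross error** -/
def ep (a : ℝ) (A : ℝ) (Q Q2 : ℕ) (S S' r1 r2 : ℝ) (j : ℕ) : ℝ :=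
  r1 * Ph A Q Q2 (prof a S) j + r2 * prof a S' j

/-- the operator `3 C (Q+1) ∫ T + YX` -/
def YY (C : ℝ) (Q : ℕ) (T : G2 → Op (Fin (Q + 1))) (YX : Op (Fin (Q + 1))) : Op (Fin (Q + 1)) :=
  ((3 * C : ℝ) : ℂ) • (((Q : ℝ) + 1) • ∫ g, T g ∂hm) + YX

theorem isSelfAdjoint_cj' {X : Op (Fin (Q + 1))} (g : Matrix (Fin 2) (Fin 2) ℂ)
    (hX : IsSelfAdjoint X) : IsSelfAdjoint (cj g X) := by
  unfold IsSelfAdjoint
  rw [cj_star, hX.star_eq]

theorem sa_of_DyG {nW : ℕ} {c : ℝ} {g : G2} {X : Op (Fin (Q + 1))} (h : DyG nW Q c g X) :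
    star X = X := by
  have h1 := isSelfAdjoint_cj' (g : Matrix (Fin 2) (Fin 2) ℂ) h.1
  rw [cj_cj, star_eq_conjTranspose, g2_mul_ct, cj_id] at h1
  exact h1

theorem star_YY {nW : ℕ} {c : G2 → ℝ} {C : ℝ} {T : G2 → Op (Fin (Q + 1))}
    (hT : ∀ g, DyG nW Q (c g) g (T g)) {YX : Op (Fin (Q + 1))} (hY : star YX = YX) :
    star (YY C Q T YX) = YY C Q T YX := by
  unfold YY
  rw [star_add, star_smul, star_smul, star_integral_op, hY]
  have e : (∫ g, star (T g) ∂hm) = ∫ g, T g ∂hm :=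
    integral_congr_ae (Filter.Eventually.of_forall fun g => sa_of_DyG (hT g))
  rw [e, Complex.star_def, Complex.conj_ofReal]
  simp

/-- **(W0)**: the last clause of `hT` in `Str875.move_strong`. -/
theorem W0 {nW : ℕ} {a R0 CW θ : ℝ} (hWP : WP nW a R0 CW θ) (hCW : 0 ≤ CW) (hθ : 0 ≤ θ)
    {S S' : ℝ} (hS : R0 ≤ S) (hS0 : 0 ≤ S) (haS : a < S + 1) (hS' : R0 ≤ S') (hS0' : 0 ≤ S')
    (haS' : a < S' + 1) {n n0 : ℕ} (hn1 : 1 ≤ n0)
    (hn0 : Q = 3 * (n0 - 1)) (hn : n ≤ n0) {Φ : Fk (Fin (Q + 1))} (hΦ : IsRef (nu0 Q) Q n0 Φ)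
    {K A C : ℝ} (hC : 0 ≤ C) (hK : 0 < K) (hA : 0 ≤ A) {Q2 : ℕ} (h2 : 1 ≤ Q2)
    {T : G2 → Op (Fin (Q + 1))} (hTc : Continuous T)
    (hT : ∀ g, DyG nW Q (K / ((Q : ℝ) + 1) ^ 2 * (1 + Q * tt g / Q2) ^ (-A)) g (T g))
    {KX : ℝ} (hKX : 0 < KX) {YX : Op (Fin (Q + 1))} (hYX : Dy nW Q (KX / ((Q : ℝ) + 1) ^ 2) YX) :
    ∀ ψ ∈ Zn (nu0 Q) Q n,
      -(hh (ep a A Q Q2 S S' (3 * C * CW * (K / ((Q : ℝ) + 1) ^ 2))
        (CW * (KX / ((Q : ℝ) + 1) ^ 2))) Q ψ) ≤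
        (inner ℂ ψ (YY C Q T YX ψ)).re - (inner ℂ Φ (YY C Q T YX Φ)).re * ‖ψ‖ ^ 2 := by
  intro ψ hψ
  have h1 := abs_int_le hWP hCW hθ hS hS0 haS hn1 hn0 hn hΦ hK hA h2 hTc hT hψ
  have hc : 0 < KX / ((Q : ℝ) + 1) ^ 2 := by positivity
  have h3 := abs_le_of_WP hWP hCW hθ hS' hS0' haS' hn1 hn0 hn hΦ hc hYX hψ
  have h1' := (abs_le.1 h1).1
  have h3' := (abs_le.1 h3).1
  have e1 : ∀ φ : Fk (Fin (Q + 1)), (inner ℂ φ (YY C Q T YX φ) : ℂ).re =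
      3 * C * (inner ℂ φ (((((Q : ℝ) + 1)) • ∫ g, T g ∂hm) φ) : ℂ).re +
        (inner ℂ φ (YX φ) : ℂ).re := by
    intro φ
    unfold YY
    rw [add_ap, smul_ap, inner_add_right, inner_smul_right, Complex.add_re,
      Complex.re_ofReal_mul]
  have e2 : hh (ep a A Q Q2 S S' (3 * C * CW * (K / ((Q : ℝ) + 1) ^ 2))
      (CW * (KX / ((Q : ℝ) + 1) ^ 2))) Q ψ =
      3 * C * (CW * (K / ((Q : ℝ) + 1) ^ 2) * hf (Ph A Q Q2 (prof a S)) Q ψ) +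
        KX / ((Q : ℝ) + 1) ^ 2 * CW * hf (prof a S') Q ψ := by
    rw [hh_eq_hf]
    have := hf_add (Q := Q) (fun j => 3 * C * CW * (K / ((Q : ℝ) + 1) ^ 2) * Ph A Q Q2 (prof a S) j)
      (fun j => CW * (KX / ((Q : ℝ) + 1) ^ 2) * prof a S' j) ψ
    unfold ep
    rw [this, hf_smul, hf_smul]
    ring
  rw [e1, e1, e2]
  have h4 := mul_le_mul_of_nonneg_left h1' (show (0 : ℝ) ≤ 3 * C by positivity)
  linarith

/-! ### the class of the profile `ep` -/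

open Crest.Agent.R340.Str735 (Cls DD_add DD_prof_nonneg)

/-- constant of `Cls_ep` -/
def C3 (a A : ℝ) : ℝ := CP a A 0 + CP a A 1 + CP a A 2

theorem C3_pos {a A : ℝ} (ha0 : 0 < a) (ha1 : a < 1) (hA : 1 < A) : 0 < C3 a A := by
  unfold C3
  have h0 := CP_pos ha0 ha1 hA 0
  have h1 := CP_pos ha0 ha1 hA 1
  have h2 := CP_pos ha0 ha1 hA 2
  linarith

theorem CP_le_C3 {a A : ℝ} (ha0 : 0 < a) (ha1 : a < 1) (hA : 1 < A) {r : ℕ} (hr : r ≤ 2) :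
    CP a A r ≤ C3 a A := by
  unfold C3
  have h0 := CP_pos ha0 ha1 hA 0
  have h1 := CP_pos ha0 ha1 hA 1
  have h2 := CP_pos ha0 ha1 hA 2
  interval_cases r <;> linarith

/-- **class of `ep`** (`R ≤ Q2`): -/
theorem Cls_ep {a A R : ℝ} (ha0 : 0 < a) (ha1 : a < 1) (hA : 1 < A) {Q2 : ℕ} (hQ : 1 ≤ Q)
    (h2 : 1 ≤ Q2) (hR : 0 ≤ R) (haR : a < R + 1) (hR2 : R ≤ Q2) {r1 r2 : ℝ} (h1 : 0 ≤ r1)
    (hr2 : 0 ≤ r2) :
    Cls (prof a Q2) (r1 * (C3 a A * (Q2 * prof a R Q2)) + r2) Q (ep a A Q Q2 R Q2 r1 r2) := by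
  intro r hr j hj
  have h20 : (0 : ℝ) ≤ Q2 := Nat.cast_nonneg _
  have h21 : (1 : ℝ) ≤ Q2 := by exact_mod_cast h2
  have hp := DD_prof_nonneg (S := (Q2 : ℝ)) h20 ha0.le (by linarith) hr j
  obtain ⟨k1, k2⟩ := DD_Ph (R := R) ha0 ha1 hA hQ h2 hR hR2 r j hj
  have hpr := (prof_pos hR haR Q2).le
  have k3 : CP a A r * (Q2 * prof a R Q2) * DD (prof a Q2) r j ≤
      C3 a A * (Q2 * prof a R Q2) * DD (prof a Q2) r j :=
    mul_le_mul_of_nonneg_right (mul_le_mul_of_nonneg_right (CP_le_C3 ha0 ha1 hA hr)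
      (mul_nonneg h20 hpr)) hp
  have e : DD (ep a A Q Q2 R Q2 r1 r2) r j =
      r1 * DD (Ph A Q Q2 (prof a R)) r j + r2 * DD (prof a Q2) r j := by
    unfold ep
    rw [DD_add, DD_smul, DD_smul]
  rw [e]
  constructor
  · exact add_nonneg (mul_nonneg h1 k1) (mul_nonneg hr2 hp)
  · have k4 := mul_le_mul_of_nonneg_left (k2.trans k3) h1
    have k5 : (r1 * (C3 a A * (Q2 * prof a R Q2)) + r2) * DD (prof a Q2) r j =
        r1 * (C3 a A * (Q2 * prof a R Q2) * DD (prof a Q2) r j) + r2 * DD (prof a Q2) r j := by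
      ring
    rw [k5]
    linarith

/-- the class of `ep` in the form of `StrR735.strong_red` -/
theorem Cls_ep' {a A R : ℝ} (ha0 : 0 < a) (ha1 : a < 1) (hA : 1 < A) {Q2 : ℕ} (hQ : 1 ≤ Q)
    (h2 : 1 ≤ Q2) (hR : 0 ≤ R) (haR : a < R + 1) (hR2 : R ≤ Q2) {C CW K KX e : ℝ} (hC : 0 < C)
    (hCW : 0 ≤ CW) (hK : 0 ≤ K) (hKX : 0 ≤ KX)
    (he : 4 * CW * K * (C3 a A * (Q2 * prof a R Q2)) + 2 * CW * KX / C ≤ e) :
    Cls (prof a Q2) (C * (3 * e / ((Q + 3 : ℕ) : ℝ) ^ 2)) Q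
      (ep a A Q Q2 R Q2 (3 * C * CW * (K / ((Q : ℝ) + 1) ^ 2)) (CW * (KX / ((Q : ℝ) + 1) ^ 2))) := by
  have hq1 : (1 : ℝ) ≤ Q := by exact_mod_cast hQ
  have h20 : (0 : ℝ) ≤ Q2 := Nat.cast_nonneg _
  have h21 : (1 : ℝ) ≤ Q2 := by exact_mod_cast h2
  have hpr := (prof_pos hR haR Q2).le
  have hC3 := (C3_pos ha0 ha1 hA).le
  refine (Cls_ep ha0 ha1 hA hQ h2 hR haR hR2 (by positivity) (by positivity)).mono ?_
    (fun r hr j => DD_prof_nonneg h20 ha0.le (by linarith) hr j)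
  set W : ℝ := C3 a A * (Q2 * prof a R Q2) with hW
  have hW0 : 0 ≤ W := by positivity
  have e1 : 3 * C * CW * (K / ((Q : ℝ) + 1) ^ 2) * W + CW * (KX / ((Q : ℝ) + 1) ^ 2) =
      (3 * C * CW * K * W + CW * KX) / ((Q : ℝ) + 1) ^ 2 := by
    field_simp
  have e2 : C * (3 * e / ((Q + 3 : ℕ) : ℝ) ^ 2) = (3 * (C * e)) / ((Q : ℝ) + 3) ^ 2 := by
    push_cast; ring
  rw [e1, e2, div_le_div_iff₀ (by positivity) (by positivity)]
  have h5 : 3 * (4 * (C * CW * K * W) + 2 * (CW * KX)) ≤ 3 * (C * e) := by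
    have h6 := mul_le_mul_of_nonneg_left he hC.le
    have h7 : C * (4 * CW * K * W + 2 * CW * KX / C) = 4 * (C * CW * K * W) + 2 * (CW * KX) := by
      field_simp
    rw [h7] at h6
    linarith
  have h8 : ((Q : ℝ) + 3) ^ 2 ≤ 4 * ((Q : ℝ) + 1) ^ 2 := by nlinarith
  have h9 : 0 ≤ C * CW * K * W := by positivity
  have h10 : 0 ≤ CW * KX := by positivity
  have h11 : 0 ≤ ((Q : ℝ) + 1) ^ 2 := by positivity
  calc (3 * C * CW * K * W + CW * KX) * ((Q : ℝ) + 3) ^ 2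
      ≤ (3 * C * CW * K * W + CW * KX) * (4 * ((Q : ℝ) + 1) ^ 2) :=
        mul_le_mul_of_nonneg_left h8 (by linarith)
    _ = (3 * (4 * (C * CW * K * W)) + 4 * (CW * KX)) * ((Q : ℝ) + 1) ^ 2 := by ring
    _ ≤ (3 * (4 * (C * CW * K * W) + 2 * (CW * KX))) * ((Q : ℝ) + 1) ^ 2 :=
        mul_le_mul_of_nonneg_right (by linarith) h11
    _ ≤ _ := mul_le_mul_of_nonneg_right h5 h11

end

end Crest.Agent.R340.W0725
end

-- ▼ part R340/W1_725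
section

/-!
R340 (S0532), strong pass (helper725): the strong move with all inputs of block E.

* `TZ.mono`, `TX.mono`;
* `eC`          : the bound of `CrsH757.abs_crs_le` for `b = 3`;
* `strong_move` : `Str875.move_strong` with `hW`, `hT` discharged from `RC`, `TZ`, `TX`, `WP`; the only
  remaining hypothesis is `hY` (the cross number of `Y` in the other geometries).
-/

set_option autoImplicit false

open Matrix Finset MeasureTheory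

namespace Crest.Agent.R340.W0725

open Crest.Agent.R340.Fock649 Crest.Agent.R340.Gam303 Crest.Agent.R340.Rot303
open Crest.Agent.R340.Avg814 Crest.Agent.R340.CS809 Crest.Agent.R124.Haar
open Crest.Agent.R340.DomF735 Crest.Agent.R340.Scal725 Crest.Agent.R340.AvgG725
open Crest.Agent.R340.Geo986 Crest.Agent.R340.Peel596 Crest.Agent.R340.Conv102
open Crest.Agent.R340.Step596 Crest.Agent.R340.PathStep880
open Crest.Agent.R340.Defs150 Crest.Agent.R340.FX963 Crest.Agent.R340.Str875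
open Crest.Agent.R340.Vac467 (IsRef)
open Crest.Agent.R340.Str735 (Cls)
open Crest.Agent.R340.PV341 (Adm)

noncomputable section

theorem dy_mono {n Q : ℕ} {C C' : ℝ} {X : Op (Fin (Q + 1))} (h : Dy n Q C X) (hC : C ≤ C') :
    Dy n Q C' X := ⟨h.1, h.2.mono hC⟩

theorem TZ.mono {nW : ℕ} {A K K' : ℝ} (h : TZ nW A K) (hK : K ≤ K') : TZ nW A K' := by
  refine ⟨h.1.trans hK, fun Q hQ θ hθ S hS => ?_⟩
  obtain ⟨T, hc, hT, hn⟩ := h.2 Q hQ θ hθ S hS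
  refine ⟨T, hc, fun g => dy_mono (hT g) ?_, hn⟩
  have h0 := tt_nonneg g
  have : 0 ≤ (1 + Q * tt g / S) ^ (-A) := by positivity
  gcongr

theorem TX.mono {nS nW : ℕ} {K K' : ℝ} (h : TX nS nW K) (hK : K ≤ K') : TX nS nW K' := by
  refine ⟨h.1.trans hK, fun Q hQ θ hθ X hX => ?_⟩
  obtain ⟨Y, hY, hn⟩ := h.2 Q hQ θ hθ X hX
  refine ⟨Y, dy_mono hY ?_, hn⟩
  gcongr

/-- the bound of `CrsH757.abs_crs_le` for `b = 3` and unit vectors -/
def eC (K a : ℝ) (Q Q2 : ℕ) (M : ℝ) : ℝ :=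
  984 * (3 : ℕ) * K * M / (1 - a) * ((Q2 + Q) * prof a Q2 Q / ((Q : ℝ) + 2) ^ 2)




end

end Crest.Agent.R340.W0725
end

-- ▼ part R340/CrsYr_874
section

/-!
# R340, strong pass (helper874): real estimates for the crude error `eY`

* `sq_decay`   : `1 + ((j-p)/√d_p)² ≤ (1 + Dr)⁴`;
* `weight_le`  : `(1+j/S)^(-A) (1+Dr)^(-8) ≤ (1+p/S)^(-A) (1 + ((j-p)/√d_p)²)⁻¹`;
* `int_lorentz`: `(Q+1) ∫ (1 + ((Q t(g) - p)/r)²)⁻¹ dhm ≤ 7 r`;
* `sum_gm_prof`: `∑_{p<Q-1} dd gm_p d_p (1+p/S)^(-A) ≤ 80 S^A Q^(1/2-A)`.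
-/

set_option autoImplicit false

namespace Crest.Agent.R340.CrsY874

open Finset MeasureTheory
open Crest.Agent.R340.PathStep880
open Crest.Agent.R340.Avg814 (G2 hm tt)

/-- ring distance of an integer ring and a real ring coordinate (same as `Defs150.Dr`) -/
noncomputable def Dj (Q p : ℕ) (j : ℝ) : ℝ :=
  |Real.sqrt ((p : ℝ) + 1) - Real.sqrt (j + 1)| +
    |Real.sqrt ((Q : ℝ) - p + 1) - Real.sqrt ((Q : ℝ) - j + 1)|

theorem Dj_nonneg (Q p : ℕ) (j : ℝ) : 0 ≤ Dj Q p j := by unfold Dj; positivity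

/-- one pole -/
theorem lorentz_aux {a b D : ℝ} (ha : 1 ≤ a) (hb : 0 ≤ b) (hD : |Real.sqrt a - Real.sqrt b| ≤ D) :
    1 + ((a - b) / Real.sqrt a) ^ 2 ≤ (1 + D) ^ 4 := by
  have ha0 : 0 ≤ a := by linarith
  have hsa : 1 ≤ Real.sqrt a := by rw [Real.one_le_sqrt]; exact ha
  have hsa0 : 0 < Real.sqrt a := by linarith
  have hD0 : 0 ≤ D := (abs_nonneg _).trans hD
  have h1 : a - b = (Real.sqrt a - Real.sqrt b) * (Real.sqrt a + Real.sqrt b) := by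
    have e1 := Real.mul_self_sqrt ha0
    have e2 := Real.mul_self_sqrt hb
    nlinarith
  have h2 : |a - b| ≤ D * (2 * Real.sqrt a + D) := by
    rw [h1, abs_mul]
    have h3 : |Real.sqrt a + Real.sqrt b| ≤ 2 * Real.sqrt a + D := by
      rw [abs_of_nonneg (by positivity)]
      have := (abs_le.1 hD).1
      linarith
    exact mul_le_mul hD h3 (abs_nonneg _) hD0
  have h4 : |(a - b) / Real.sqrt a| ≤ (1 + D) ^ 2 - 1 := by
    rw [abs_div, abs_of_pos hsa0, div_le_iff₀ hsa0]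
    refine h2.trans ?_
    nlinarith [mul_nonneg hD0 hD0]
  have h5 : ((a - b) / Real.sqrt a) ^ 2 ≤ ((1 + D) ^ 2 - 1) ^ 2 := by
    rw [← sq_abs]
    exact pow_le_pow_left₀ (abs_nonneg _) h4 2
  nlinarith [sq_nonneg D]

theorem sq_decay {Q p : ℕ} (hp : p ≤ Q) {j : ℝ} (hj : 0 ≤ j) (hjQ : j ≤ Q) :
    1 + ((j - p) / Real.sqrt (PSD716.dd Q p)) ^ 2 ≤ (1 + Dj Q p j) ^ 4 := by
  have hpQ : (p : ℝ) ≤ Q := by exact_mod_cast hp
  have hp0 : (0 : ℝ) ≤ p := Nat.cast_nonneg p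
  rcases le_total ((p : ℝ) + 1) ((Q : ℝ) - p + 1) with h | h
  · have e : PSD716.dd Q p = (p : ℝ) + 1 := min_eq_left h
    rw [e]
    have h1 := lorentz_aux (a := (p : ℝ) + 1) (b := j + 1) (D := Dj Q p j) (by linarith)
      (by linarith) (by unfold Dj; linarith [abs_nonneg (Real.sqrt ((Q : ℝ) - p + 1) -
        Real.sqrt ((Q : ℝ) - j + 1))])
    refine le_trans (le_of_eq ?_) h1
    rw [show (p : ℝ) + 1 - (j + 1) = -(j - p) by ring, neg_div, neg_sq]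
  · have e : PSD716.dd Q p = (Q : ℝ) - p + 1 := min_eq_right h
    rw [e]
    have h1 := lorentz_aux (a := (Q : ℝ) - p + 1) (b := (Q : ℝ) - j + 1) (D := Dj Q p j)
      (by linarith) (by linarith) (by unfold Dj; linarith [abs_nonneg (Real.sqrt ((p : ℝ) + 1) -
        Real.sqrt (j + 1))])
    refine le_trans (le_of_eq ?_) h1
    rw [show (Q : ℝ) - p + 1 - (Q - j + 1) = (j - p) by ring]

/-- the weight at ring `p` is controlled by the weight at `j` -/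
theorem ratio_le {Q p : ℕ} {j S : ℝ} (hj : 0 ≤ j) (hS : 1 ≤ S) :
    1 + p / S ≤ (1 + j / S) * (1 + Dj Q p j) ^ 2 := by
  have hS0 : 0 < S := by linarith
  have hp0 : (0 : ℝ) ≤ p := Nat.cast_nonneg p
  have hD := Dj_nonneg Q p j
  have h1 : Real.sqrt ((p : ℝ) + 1) ≤ Real.sqrt (j + 1) * (1 + Dj Q p j) := by
    have h2 : Real.sqrt ((p : ℝ) + 1) ≤ Real.sqrt (j + 1) + Dj Q p j := by
      have h3 := le_abs_self (Real.sqrt ((p : ℝ) + 1) - Real.sqrt (j + 1))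
      have h4 := abs_nonneg (Real.sqrt ((Q : ℝ) - p + 1) - Real.sqrt ((Q : ℝ) - j + 1))
      unfold Dj
      linarith
    have h5 : 1 ≤ Real.sqrt (j + 1) := by rw [Real.one_le_sqrt]; linarith
    nlinarith
  have h2 : (p : ℝ) + 1 ≤ (j + 1) * (1 + Dj Q p j) ^ 2 := by
    calc (p : ℝ) + 1 = Real.sqrt ((p : ℝ) + 1) ^ 2 := (Real.sq_sqrt (by linarith)).symm
      _ ≤ (Real.sqrt (j + 1) * (1 + Dj Q p j)) ^ 2 :=
          pow_le_pow_left₀ (Real.sqrt_nonneg _) h1 2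
      _ = (j + 1) * (1 + Dj Q p j) ^ 2 := by rw [mul_pow, Real.sq_sqrt (by linarith)]
  have h3 : 1 ≤ (1 + Dj Q p j) ^ 2 := by nlinarith
  have e : (1 + (p : ℝ) / S) = (S + p) / S := by field_simp
  have e2 : (1 + j / S) * (1 + Dj Q p j) ^ 2 = (S + j) * (1 + Dj Q p j) ^ 2 / S := by field_simp
  rw [e, e2]
  apply div_le_div_of_nonneg_right _ hS0.le
  nlinarith [mul_nonneg (sub_nonneg.2 hS) (sub_nonneg.2 h3)]

theorem weight_le {Q p : ℕ} (hp : p ≤ Q) {j S A : ℝ} (hj : 0 ≤ j) (hjQ : j ≤ Q) (hS : 1 ≤ S)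
    (hA0 : 0 ≤ A) (hA2 : A ≤ 2) :
    (1 + j / S) ^ (-A) * (1 + Dj Q p j) ^ (-(8 : ℝ)) ≤
      (1 + p / S) ^ (-A) * (1 + ((j - p) / Real.sqrt (PSD716.dd Q p)) ^ 2)⁻¹ := by
  have hS0 : 0 < S := by linarith
  have hp0 : (0 : ℝ) ≤ p := Nat.cast_nonneg p
  have hD := Dj_nonneg Q p j
  set u := 1 + Dj Q p j with hu
  have hu1 : 1 ≤ u := by linarith
  have hj' : 0 < 1 + j / S := by positivity
  have hp' : 0 < 1 + (p : ℝ) / S := by positivity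
  have h1 : (1 + (p : ℝ) / S) ^ A ≤ (1 + j / S) ^ A * u ^ 4 := by
    calc (1 + (p : ℝ) / S) ^ A ≤ ((1 + j / S) * u ^ 2) ^ A :=
          Real.rpow_le_rpow hp'.le (ratio_le hj hS) hA0
      _ = (1 + j / S) ^ A * (u ^ 2) ^ A := Real.mul_rpow hj'.le (by positivity)
      _ ≤ (1 + j / S) ^ A * (u ^ 2) ^ (2 : ℝ) := by
          gcongr
          nlinarith
      _ = (1 + j / S) ^ A * u ^ 4 := by
          rw [Real.rpow_two]; ring
  have h2 : (1 + j / S) ^ (-A) ≤ (1 + (p : ℝ) / S) ^ (-A) * u ^ 4 := by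
    rw [Real.rpow_neg hj'.le, Real.rpow_neg hp'.le, inv_eq_one_div, inv_mul_eq_div,
      div_le_div_iff₀ (Real.rpow_pos_of_pos hj' A) (Real.rpow_pos_of_pos hp' A), one_mul]
    linarith
  have h3 : u ^ (-(8 : ℝ)) = (u ^ 8)⁻¹ := by
    rw [Real.rpow_neg (by linarith)]
    norm_num
  have h4 := sq_decay hp hj hjQ
  rw [← hu] at h4
  have hden : 0 < 1 + ((j - p) / Real.sqrt (PSD716.dd Q p)) ^ 2 := by positivity
  calc (1 + j / S) ^ (-A) * u ^ (-(8 : ℝ)) ≤ ((1 + (p : ℝ) / S) ^ (-A) * u ^ 4) * (u ^ 8)⁻¹ := by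
        rw [h3]; gcongr
    _ = (1 + (p : ℝ) / S) ^ (-A) * (u ^ 4)⁻¹ := by
        have : u ≠ 0 := by linarith
        field_simp
    _ ≤ _ := by gcongr

/-- `(Q+1) ∫ (1 + ((Q t(g) - p)/r)²)⁻¹ dhm ≤ 7 r` -/
theorem int_lorentz {Q : ℕ} (hQ : 1 ≤ Q) (p : ℝ) {r : ℝ} (hr : 0 < r) :
    ((Q : ℝ) + 1) * ∫ g : G2, (1 + ((Q * tt g - p) / r) ^ 2)⁻¹ ∂hm ≤ 7 * r := by
  have hQ1 : (1 : ℝ) ≤ Q := by exact_mod_cast hQ
  have hcont : Continuous fun x : ℝ => (1 + (((Q : ℝ) * x - p) / r) ^ 2)⁻¹ := by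
    apply Continuous.inv₀
    · fun_prop
    · intro x; positivity
  have h1 := Avg814.integral_cont_tt hcont
  rw [h1]
  have h2 : ∫ x in (0 : ℝ)..1, (1 + (((Q : ℝ) * x - p) / r) ^ 2)⁻¹ =
      (Q / r)⁻¹ • ∫ y in ((Q / r) * 0 - p / r)..((Q / r) * 1 - p / r), (1 + y ^ 2)⁻¹ := by
    rw [← intervalIntegral.integral_comp_mul_sub (fun y : ℝ => (1 + y ^ 2)⁻¹)
      (show (Q : ℝ) / r ≠ 0 by positivity) (p / r)]
    refine intervalIntegral.integral_congr fun x _ => ?_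
    have e : ((Q : ℝ) * x - p) / r = (Q : ℝ) / r * x - p / r := by field_simp
    simp only [e]
  rw [h2, integral_inv_one_add_sq, smul_eq_mul, inv_div]
  have h3 := Real.arctan_lt_pi_div_two ((Q / r) * 1 - p / r)
  have h4 := Real.neg_pi_div_two_lt_arctan ((Q / r) * 0 - p / r)
  have h5 := Real.pi_lt_d2
  have h6 : Real.arctan ((Q / r) * 1 - p / r) - Real.arctan ((Q / r) * 0 - p / r) ≤ 3.15 := by
    linarith
  calc ((Q : ℝ) + 1) * (r / Q * (Real.arctan ((Q / r) * 1 - p / r) -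
        Real.arctan ((Q / r) * 0 - p / r))) ≤ ((Q : ℝ) + 1) * (r / Q * 3.15) := by gcongr
    _ = ((Q : ℝ) + 1) / Q * 3.15 * r := by field_simp
    _ ≤ 2 * 3.15 * r := by
        gcongr
        rw [div_le_iff₀ (by linarith)]; linarith
    _ ≤ 7 * r := by nlinarith

/-! ### the sum over rings -/

theorem sum_inv_sqrt (n : ℕ) : ∑ k ∈ range n, (Real.sqrt ((k : ℝ) + 1))⁻¹ ≤ 2 * Real.sqrt n := by
  induction n with
  | zero => simp
  | succ n ih =>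
    rw [sum_range_succ]
    have h0 : (0 : ℝ) ≤ n := Nat.cast_nonneg n
    have h1 : 0 < Real.sqrt ((n : ℝ) + 1) := Real.sqrt_pos.2 (by linarith)
    have h2 : 0 ≤ Real.sqrt (n : ℝ) := Real.sqrt_nonneg _
    have e1 := Real.mul_self_sqrt h0
    have e2 := Real.mul_self_sqrt (show (0 : ℝ) ≤ n + 1 by linarith)
    have h3 : (Real.sqrt ((n : ℝ) + 1))⁻¹ ≤ 2 * (Real.sqrt ((n : ℝ) + 1) - Real.sqrt n) := by
      rw [inv_eq_one_div, div_le_iff₀ h1]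
      nlinarith [sq_nonneg (Real.sqrt ((n : ℝ) + 1) - Real.sqrt n)]
    push_cast
    linarith

theorem log_le_two_sqrt {x : ℝ} (hx : 0 < x) : Real.log x ≤ 2 * Real.sqrt x := by
  have h1 : Real.log x = 2 * Real.log (Real.sqrt x) := by
    rw [Real.log_sqrt hx.le]; ring
  rw [h1]
  have h2 := Real.log_le_sub_one_of_pos (Real.sqrt_pos.2 hx)
  linarith

theorem sum_gm_prof {Q : ℕ} (hQ : 1 ≤ Q) {S A : ℝ} (hS : 1 ≤ S) (hA0 : 0 ≤ A)
    (hA2 : A ≤ 3 / 2) :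
    ∑ p ∈ range (Q - 1), Scal725.dd (gm 3 Q) p * (PSD716.dd Q p * (1 + p / S) ^ (-A)) ≤
      80 * S ^ A * (Q : ℝ) ^ (1 / 2 - A) := by
  have hQ1 : (1 : ℝ) ≤ Q := by exact_mod_cast hQ
  have hQ0 : (0 : ℝ) < Q := by linarith
  have hS0 : 0 < S := by linarith
  have hSA : 0 < S ^ A := Real.rpow_pos_of_pos hS0 A
  have hterm : ∀ p ∈ range (Q - 1),
      Scal725.dd (gm 3 Q) p * (PSD716.dd Q p * (1 + p / S) ^ (-A)) ≤
      16 * S ^ A * (Q : ℝ) ^ (-(1 / 2) - A) * (Real.sqrt ((p : ℝ) + 1))⁻¹ +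
        24 * S ^ A * (Q : ℝ) ^ (-A) * ((Q : ℝ) - p)⁻¹ := by
    intro p hp
    have hp' := mem_range.1 hp
    have hpQ : (p : ℝ) + 2 ≤ Q := by exact_mod_cast (by omega : p + 2 ≤ Q)
    have hp0 : (0 : ℝ) ≤ p := Nat.cast_nonneg p
    have hu0 : (0 : ℝ) < (Q : ℝ) - p := by linarith
    have hgm := dd_gm_le (b := 3) hp'
    have hgm0 := dd_gm_nonneg (b := 3) hp'
    have hgm' : Scal725.dd (gm 3 Q) p ≤ 4 * (((Q : ℝ) - p) ^ 2)⁻¹ := by
      refine hgm.trans (le_of_eq ?_)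
      norm_num
    have hdd0 : 0 ≤ PSD716.dd Q p := by
      have := PSD716.one_le_dd (Q := Q) (p := p) (by omega)
      linarith
    -- (1 + p/S)^(-A) ≤ S^A (p+1)^(-A)
    have hw : (1 + (p : ℝ) / S) ^ (-A) ≤ S ^ A * ((p : ℝ) + 1) ^ (-A) := by
      have e : (1 + (p : ℝ) / S) = (S + p) / S := by field_simp
      rw [e, Real.div_rpow (by positivity) hS0.le, Real.rpow_neg hS0.le, div_inv_eq_mul, mul_comm]
      apply mul_le_mul_of_nonneg_left _ hSA.le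
      exact Real.rpow_le_rpow_of_nonpos (by linarith) (by linarith) (by linarith)
    have hw0 : 0 ≤ (1 + (p : ℝ) / S) ^ (-A) := by positivity
    have hs1 : 0 < Real.sqrt ((p : ℝ) + 1) := Real.sqrt_pos.2 (by linarith)
    rcases le_or_gt (2 * (p : ℝ)) Q with h | h
    · have h2 : (((Q : ℝ) - p) ^ 2)⁻¹ ≤ 4 / Q ^ 2 := by
        rw [inv_eq_one_div, div_le_div_iff₀ (by positivity) (by positivity)]
        nlinarith
      have h3 : PSD716.dd Q p ≤ (p : ℝ) + 1 := min_le_left _ _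
      have hsq : ((p : ℝ) + 1) ^ (1 / 2 : ℝ) = Real.sqrt ((p : ℝ) + 1) :=
        (Real.sqrt_eq_rpow _).symm
      have h4 : ((p : ℝ) + 1) * ((p : ℝ) + 1) ^ (-A) ≤
          (Q : ℝ) ^ (3 / 2 - A) * (Real.sqrt ((p : ℝ) + 1))⁻¹ := by
        have e1 : ((p : ℝ) + 1) * ((p : ℝ) + 1) ^ (-A) =
            ((p : ℝ) + 1) ^ (3 / 2 - A) * (Real.sqrt ((p : ℝ) + 1))⁻¹ := by
          have hp1 : (0 : ℝ) < (p : ℝ) + 1 := by linarith
          have e0 := Real.rpow_add hp1 1 (-A)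
          rw [Real.rpow_one] at e0
          rw [← hsq, ← Real.rpow_neg hp1.le, ← Real.rpow_add hp1, ← e0]
          congr 1; ring
        rw [e1]
        apply mul_le_mul_of_nonneg_right _ (by positivity)
        exact Real.rpow_le_rpow (by linarith) (by linarith) (by linarith)
      have h5 : 0 ≤ 24 * S ^ A * (Q : ℝ) ^ (-A) * ((Q : ℝ) - p)⁻¹ := by positivity
      have e2 : (Q : ℝ) ^ (-(1 / 2) - A) = (Q : ℝ) ^ (3 / 2 - A) / Q ^ 2 := by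
        rw [← Real.rpow_natCast, ← Real.rpow_sub hQ0]
        congr 1
        push_cast
        ring
      calc Scal725.dd (gm 3 Q) p * (PSD716.dd Q p * (1 + p / S) ^ (-A))
          ≤ (4 * (4 / Q ^ 2)) * (((p : ℝ) + 1) * (S ^ A * ((p : ℝ) + 1) ^ (-A))) := by
            apply mul_le_mul (hgm'.trans (by gcongr)) _ (by positivity) (by positivity)
            exact mul_le_mul h3 hw hw0 (by linarith)
        _ = 16 / Q ^ 2 * S ^ A * (((p : ℝ) + 1) * ((p : ℝ) + 1) ^ (-A)) := by ring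
        _ ≤ 16 / Q ^ 2 * S ^ A * ((Q : ℝ) ^ (3 / 2 - A) * (Real.sqrt ((p : ℝ) + 1))⁻¹) := by
            gcongr
        _ = 16 * S ^ A * (Q : ℝ) ^ (-(1 / 2) - A) * (Real.sqrt ((p : ℝ) + 1))⁻¹ := by
            rw [e2]; ring
        _ ≤ _ := by linarith
    · have h3 : PSD716.dd Q p ≤ (Q : ℝ) - p + 1 := min_le_right _ _
      have h4 : ((p : ℝ) + 1) ^ (-A) ≤ 4 * (Q : ℝ) ^ (-A) := by
        have h5 : ((p : ℝ) + 1) ^ (-A) ≤ ((Q : ℝ) / 2) ^ (-A) :=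
          Real.rpow_le_rpow_of_nonpos (by positivity) (by linarith) (by linarith)
        refine h5.trans ?_
        rw [Real.div_rpow hQ0.le (by norm_num), Real.rpow_neg (by norm_num : (0:ℝ) ≤ 2),
          div_inv_eq_mul, mul_comm]
        apply mul_le_mul_of_nonneg_right _ (by positivity)
        calc (2 : ℝ) ^ A ≤ (2 : ℝ) ^ (2 : ℝ) :=
              Real.rpow_le_rpow_of_exponent_le (by norm_num) (by linarith)
          _ = 4 := by norm_num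
      have h6 : 0 ≤ 16 * S ^ A * (Q : ℝ) ^ (-(1 / 2) - A) * (Real.sqrt ((p : ℝ) + 1))⁻¹ := by
        positivity
      calc Scal725.dd (gm 3 Q) p * (PSD716.dd Q p * (1 + p / S) ^ (-A))
          ≤ (4 * (((Q : ℝ) - p) ^ 2)⁻¹) *
              ((3 / 2 * ((Q : ℝ) - p)) * (S ^ A * (4 * (Q : ℝ) ^ (-A)))) := by
            apply mul_le_mul hgm' _ (by positivity) (by positivity)
            apply mul_le_mul (by linarith) _ hw0 (by positivity)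
            exact hw.trans (by gcongr)
        _ = 24 * S ^ A * (Q : ℝ) ^ (-A) * ((Q : ℝ) - p)⁻¹ := by
            field_simp
            ring
        _ ≤ _ := by linarith
  refine (sum_le_sum hterm).trans ?_
  rw [sum_add_distrib, ← mul_sum, ← mul_sum]
  have hs1 : ∑ p ∈ range (Q - 1), (Real.sqrt ((p : ℝ) + 1))⁻¹ ≤ 2 * Real.sqrt Q := by
    refine (sum_inv_sqrt (Q - 1)).trans ?_
    gcongr
    exact Nat.sub_le _ _
  have hs2 : ∑ p ∈ range (Q - 1), ((Q : ℝ) - p)⁻¹ ≤ 2 * Real.sqrt Q := by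
    rw [sum_reflect Q (fun x => x⁻¹)]
    refine (sum_inv_le_log (Q - 1)).trans ?_
    have e : ((Q - 1 : ℕ) : ℝ) + 1 = Q := by
      rw [Nat.cast_sub (by omega)]; push_cast; ring
    rw [e]
    exact log_le_two_sqrt hQ0
  have hsQ : Real.sqrt (Q : ℝ) = (Q : ℝ) ^ (1 / 2 : ℝ) := Real.sqrt_eq_rpow _
  have e3 : (Q : ℝ) ^ (-(1 / 2) - A) * Real.sqrt Q ≤ (Q : ℝ) ^ (1 / 2 - A) := by
    rw [hsQ, ← Real.rpow_add hQ0]
    apply Real.rpow_le_rpow_of_exponent_le hQ1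
    linarith
  have e4 : (Q : ℝ) ^ (-A) * Real.sqrt Q = (Q : ℝ) ^ (1 / 2 - A) := by
    rw [hsQ, ← Real.rpow_add hQ0]
    congr 1; ring
  calc 16 * S ^ A * (Q : ℝ) ^ (-(1 / 2) - A) * ∑ p ∈ range (Q - 1), (Real.sqrt ((p : ℝ) + 1))⁻¹ +
        24 * S ^ A * (Q : ℝ) ^ (-A) * ∑ p ∈ range (Q - 1), ((Q : ℝ) - p)⁻¹
      ≤ 16 * S ^ A * (Q : ℝ) ^ (-(1 / 2) - A) * (2 * Real.sqrt Q) +
        24 * S ^ A * (Q : ℝ) ^ (-A) * (2 * Real.sqrt Q) := by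
        gcongr
    _ = 32 * S ^ A * ((Q : ℝ) ^ (-(1 / 2) - A) * Real.sqrt Q) +
        48 * S ^ A * ((Q : ℝ) ^ (-A) * Real.sqrt Q) := by ring
    _ ≤ 32 * S ^ A * (Q : ℝ) ^ (1 / 2 - A) + 48 * S ^ A * (Q : ℝ) ^ (1 / 2 - A) := by
        rw [e4]
        gcongr
    _ = 80 * S ^ A * (Q : ℝ) ^ (1 / 2 - A) := by ring

end Crest.Agent.R340.CrsY874
end

-- ▼ part R340/CrsY_874
section

/-!
# R340, strong pass (helper874): the crude error `eY` (free leaf (b) of helper875)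

* `crs_T_le` : for the averaged local operator `((Q+1) • ∫ T g dhm)` of (TZ), for EVERY admissible
  metric `t` and every sector,
  `|crs (TT (gm 3 Q)) Z (((Q+1) • ∫ T)) ψ| ≤ 560 KZ K S^A Q^(-(A+3/2)) ‖ψ‖²`   [from (RZ)];
* `crs_Y_le` : for `Y` with `Dy nW Q C Y`,
  `|crs (TT (gm 3 Q)) Z Y ψ| ≤ 48 KX C / Q² ‖ψ‖²`                              [from (RX)].
-/

set_option autoImplicit false

namespace Crest.Agent.R340.CrsY874

open Finset MeasureTheory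
open scoped InnerProductSpace
open Crest.Agent.R340.Fock649 Crest.Agent.R340.Emb596 Crest.Agent.R340.Geo986
  Crest.Agent.R340.Peel596 Crest.Agent.R340.Step596 Crest.Agent.R340.PathStep880
open Crest.Agent.R340.PeelX596 (RC2 RX2)
open Crest.Agent.R340.FX963 (DY)
open Crest.Agent.R340.PV341 (Adm)
open Crest.Agent.R340.Rot303 (cj cj_smul cj_cj cj_id cj_zero)
open Crest.Agent.R340.Avg814 (G2 hm tt)
open Crest.Agent.R340.Defs150
open Crest.Agent.R340.Str875 (crs)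

theorem Dr_eq_Dj (Q p : ℕ) (j : ℝ) : Dr Q p j = Dj Q p j := rfl

/-! ### scaling of the class -/

theorem dy_smul {n Q : ℕ} {C : ℝ} {X : Op (Fin (Q + 1))} (h : Dy n Q C X) (r : ℝ) :
    Dy n Q (|r| * C) ((r : ℂ) • X) := by
  refine ⟨?_, ?_⟩
  · rw [IsSelfAdjoint, star_smul, h.1.star_eq]
    congr 1
    exact Complex.conj_ofReal r
  · have := h.2.smul (r : ℂ)
    rwa [Complex.norm_real, Real.norm_eq_abs] at this

theorem dyG_smul {n Q : ℕ} {C : ℝ} {g : G2} {X : Op (Fin (Q + 1))} (h : DyG n Q C g X) (r : ℝ) :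
    DyG n Q (|r| * C) g ((r : ℂ) • X) := by
  unfold DyG at h ⊢
  rw [cj_smul]
  exact dy_smul h r

theorem dyG_eq_zero {n Q : ℕ} {C : ℝ} {g : G2} {X : Op (Fin (Q + 1))} (h : DyG n Q C g X)
    (hC : C ≤ 0) : X = 0 := by
  have h1 : cj (star (g : Matrix (Fin 2) (Fin 2) ℂ)) X = 0 := by
    have h2 := h.2.norm_le
    exact norm_le_zero_iff.1 (h2.trans hC)
  have h3 : cj (g : Matrix (Fin 2) (Fin 2) ℂ) (cj (star (g : Matrix (Fin 2) (Fin 2) ℂ)) X) = X := by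
    rw [cj_cj, Matrix.mem_unitaryGroup_iff.1 g.2, cj_id]
  rw [h1, cj_zero] at h3
  exact h3.symm

theorem dy_eq_zero {n Q : ℕ} {C : ℝ} {X : Op (Fin (Q + 1))} (h : Dy n Q C X) (hC : C ≤ 0) :
    X = 0 := norm_le_zero_iff.1 (h.2.norm_le.trans hC)

/-- scaling of the off-diagonal pairing -/
theorem norm_pair_smul {Q : ℕ} (Z : Submodule ℂ (Fk (Fin (Q + 1)))) (v : Fk (Fin (Q + 1)))
    (X : Op (Fin (Q + 1))) (r : ℝ) (φ : Fk (Fin (Q + 1))) :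
    ‖⟪v, off Z (((r : ℂ) • X) φ)⟫_ℂ‖ = |r| * ‖⟪v, off Z (X φ)⟫_ℂ‖ := by
  rw [smul_ap, map_smul, inner_smul_right, norm_mul, Complex.norm_real, Real.norm_eq_abs]

theorem rz_scaled {nW : ℕ} {KZ : ℝ} (hRZ : RZ nW KZ) {Q : ℕ} (hQ : 1 ≤ Q) {t : Fin 3 → ℝ}
    (ht : Adm t) (n : ℕ) {C : ℝ} {g : G2} {T : Op (Fin (Q + 1))} (hT : DyG nW Q C g T)
    {ψ : Fk (Fin (Q + 1))} (hψ : ψ ∈ Zn (nuT t Q) Q n) {p : ℕ} (hp : p < Q - 1) :
    ‖⟪off (Zn (nuT t Q) Q n) (TT Q (kink (p + 1)) ψ), off (Zn (nuT t Q) Q n) (T ψ)⟫_ℂ‖ ≤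
      C * (KZ * Real.sqrt (PSD716.dd Q p) * (1 + Dr Q p (Q * tt g)) ^ (-(8 : ℝ)) *
        (‖ψ‖ * ‖ψ‖)) := by
  have hC0 : 0 ≤ C := hT.2.nonneg
  rcases hC0.eq_or_lt with h | h
  · have h1 := dyG_eq_zero hT h.ge
    rw [h1, zero_ap, map_zero, inner_zero_right, norm_zero, ← h, zero_mul]
  · have h1 : DyG nW Q 1 g (((C⁻¹ : ℝ) : ℂ) • T) := by
      have h2 := dyG_smul hT C⁻¹
      rwa [abs_of_pos (inv_pos.2 h), inv_mul_cancel₀ h.ne'] at h2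
    have h3 := hRZ.2 Q hQ t ht n g _ h1 ψ hψ ψ hψ p hp
    rw [norm_pair_smul, abs_of_pos (inv_pos.2 h), inv_mul_le_iff₀ h] at h3
    exact h3

theorem rx_scaled {nW : ℕ} {KX : ℝ} (hRX : RX nW KX) {Q : ℕ} (hQ : 1 ≤ Q) {t : Fin 3 → ℝ}
    (ht : Adm t) (n : ℕ) {C : ℝ} {Y : Op (Fin (Q + 1))} (hY : Dy nW Q C Y)
    {ψ : Fk (Fin (Q + 1))} (hψ : ψ ∈ Zn (nuT t Q) Q n) {p : ℕ} (hp : p < Q - 1) :
    ‖⟪off (Zn (nuT t Q) Q n) (TT Q (kink (p + 1)) ψ), off (Zn (nuT t Q) Q n) (Y ψ)⟫_ℂ‖ ≤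
      C * (KX * (((p : ℝ) + 1) ^ 2)⁻¹ * (‖ψ‖ * ‖ψ‖)) := by
  have hC0 : 0 ≤ C := hY.2.nonneg
  rcases hC0.eq_or_lt with h | h
  · have h1 := dy_eq_zero hY h.ge
    rw [h1, zero_ap, map_zero, inner_zero_right, norm_zero, ← h, zero_mul]
  · have h1 : Dy nW Q 1 (((C⁻¹ : ℝ) : ℂ) • Y) := by
      have h2 := dy_smul hY C⁻¹
      rwa [abs_of_pos (inv_pos.2 h), inv_mul_cancel₀ h.ne'] at h2
    have h3 := hRX.2 Q hQ t ht n _ h1 ψ hψ ψ hψ p hp
    rw [norm_pair_smul, abs_of_pos (inv_pos.2 h), inv_mul_le_iff₀ h] at h3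
    exact h3

/-! ### the averaged operator -/

theorem pair_off {Q : ℕ} (Z : Submodule ℂ (Fk (Fin (Q + 1)))) (x y : Fk (Fin (Q + 1))) :
    ⟪off Z x, off Z y⟫_ℂ = ⟪off Z x, y⟫_ℂ := by
  rw [← inner_conj_symm, inner_off_off, inner_conj_symm]

theorem ring_avg {nW : ℕ} {KZ : ℝ} (hRZ : RZ nW KZ) {Q : ℕ} (hQ : 1 ≤ Q) {t : Fin 3 → ℝ}
    (ht : Adm t) (n : ℕ) {S A K : ℝ} (hS : 1 ≤ S) (hA0 : 0 ≤ A) (hA2 : A ≤ 2) (hK : 0 ≤ K)
    {T : G2 → Op (Fin (Q + 1))} (hTc : Continuous T)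
    (hT : ∀ g, DyG nW Q (K / ((Q : ℝ) + 1) ^ 2 * (1 + Q * tt g / S) ^ (-A)) g (T g))
    {ψ : Fk (Fin (Q + 1))} (hψ : ψ ∈ Zn (nuT t Q) Q n) {p : ℕ} (hp : p < Q - 1) :
    ‖⟪off (Zn (nuT t Q) Q n) (TT Q (kink (p + 1)) ψ),
        off (Zn (nuT t Q) Q n) ((((Q : ℝ) + 1) • ∫ g, T g ∂hm) ψ)⟫_ℂ‖ ≤
      7 * KZ * K / ((Q : ℝ) + 1) ^ 2 * (PSD716.dd Q p * (1 + p / S) ^ (-A)) * ‖ψ‖ ^ 2 := by
  set Z := Zn (nuT t Q) Q n with hZ
  set v := off Z (TT Q (kink (p + 1)) ψ) with hv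
  have hQ1 : (1 : ℝ) ≤ Q := by exact_mod_cast hQ
  have hS0 : 0 < S := by linarith
  have hd := PSD716.one_le_dd (Q := Q) (p := p) (by omega)
  have hd0 : 0 ≤ PSD716.dd Q p := by linarith
  have hr : 0 < Real.sqrt (PSD716.dd Q p) := Real.sqrt_pos.2 (by linarith)
  have hKZ := hRZ.1
  -- pairing and integral
  have hint : Integrable T hm := Crest.Agent.R124.Haar.integrable_of_cont hTc
  have e1 : ⟪v, off Z ((((Q : ℝ) + 1) • ∫ g, T g ∂hm) ψ)⟫_ℂ =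
      (((Q : ℝ) + 1 : ℝ) : ℂ) * ∫ g, ⟪v, T g ψ⟫_ℂ ∂hm := by
    rw [hv, pair_off]
    have e2 : (((Q : ℝ) + 1) • ∫ g, T g ∂hm) ψ =
        (((Q : ℝ) + 1 : ℝ) : ℂ) • (∫ g, T g ∂hm) ψ := rfl
    rw [e2, inner_smul_right, Avg814.inner_integral_ap hint]
  -- pointwise bound
  have hpt : ∀ g : G2, ‖⟪v, T g ψ⟫_ℂ‖ ≤
      (KZ * K / ((Q : ℝ) + 1) ^ 2 * Real.sqrt (PSD716.dd Q p) * (1 + p / S) ^ (-A) * ‖ψ‖ ^ 2) *
        (1 + ((Q * tt g - p) / Real.sqrt (PSD716.dd Q p)) ^ 2)⁻¹ := by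
    intro g
    have h1 := rz_scaled hRZ hQ ht n (hT g) hψ hp
    rw [← hZ, ← hv] at h1
    rw [hv, pair_off, ← hv] at h1
    refine h1.trans ?_
    have hj0 : 0 ≤ (Q : ℝ) * tt g := mul_nonneg (by linarith) (Avg814.tt_nonneg g)
    have hjQ : (Q : ℝ) * tt g ≤ Q := mul_le_of_le_one_right (by linarith) (Avg814.tt_le_one g)
    have h2 := weight_le (p := p) (by omega) hj0 hjQ hS hA0 hA2
    rw [Dr_eq_Dj]
    calc K / ((Q : ℝ) + 1) ^ 2 * (1 + Q * tt g / S) ^ (-A) *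
          (KZ * Real.sqrt (PSD716.dd Q p) * (1 + Dj Q p (Q * tt g)) ^ (-(8 : ℝ)) * (‖ψ‖ * ‖ψ‖))
        = (KZ * K / ((Q : ℝ) + 1) ^ 2 * Real.sqrt (PSD716.dd Q p) * ‖ψ‖ ^ 2) *
          ((1 + Q * tt g / S) ^ (-A) * (1 + Dj Q p (Q * tt g)) ^ (-(8 : ℝ))) := by ring
      _ ≤ (KZ * K / ((Q : ℝ) + 1) ^ 2 * Real.sqrt (PSD716.dd Q p) * ‖ψ‖ ^ 2) *
          ((1 + p / S) ^ (-A) *
            (1 + ((Q * tt g - p) / Real.sqrt (PSD716.dd Q p)) ^ 2)⁻¹) := by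
          apply mul_le_mul_of_nonneg_left h2 (by positivity)
      _ = _ := by ring
  have hcont : Continuous fun g : G2 =>
      (1 + ((Q * tt g - p) / Real.sqrt (PSD716.dd Q p)) ^ 2)⁻¹ := by
    have hc : Continuous fun x : ℝ =>
        (1 + (((Q : ℝ) * x - p) / Real.sqrt (PSD716.dd Q p)) ^ 2)⁻¹ := by
      apply Continuous.inv₀
      · fun_prop
      · intro x; positivity
    exact hc.comp Avg814.continuous_tt
  set M := KZ * K / ((Q : ℝ) + 1) ^ 2 * Real.sqrt (PSD716.dd Q p) * (1 + p / S) ^ (-A) * ‖ψ‖ ^ 2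
    with hM
  have hM0 : 0 ≤ M := by positivity
  have h5 : ‖∫ g, ⟪v, T g ψ⟫_ℂ ∂hm‖ ≤
      M * ∫ g : G2, (1 + ((Q * tt g - p) / Real.sqrt (PSD716.dd Q p)) ^ 2)⁻¹ ∂hm := by
    rw [← integral_const_mul]
    exact norm_integral_le_of_norm_le (Crest.Agent.R124.Haar.integrable_of_cont (continuous_const.mul hcont))
      (Filter.Eventually.of_forall hpt)
  rw [e1, norm_mul, Complex.norm_real, Real.norm_eq_abs, abs_of_nonneg (by linarith)]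
  calc ((Q : ℝ) + 1) * ‖∫ g, ⟪v, T g ψ⟫_ℂ ∂hm‖
      ≤ ((Q : ℝ) + 1) * (M * ∫ g : G2,
          (1 + ((Q * tt g - p) / Real.sqrt (PSD716.dd Q p)) ^ 2)⁻¹ ∂hm) := by
        apply mul_le_mul_of_nonneg_left h5 (by linarith)
    _ = M * (((Q : ℝ) + 1) * ∫ g : G2,
          (1 + ((Q * tt g - p) / Real.sqrt (PSD716.dd Q p)) ^ 2)⁻¹ ∂hm) := by ring
    _ ≤ M * (7 * Real.sqrt (PSD716.dd Q p)) := by
        apply mul_le_mul_of_nonneg_left (int_lorentz hQ p hr) hM0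
    _ = 7 * KZ * K / ((Q : ℝ) + 1) ^ 2 *
          ((Real.sqrt (PSD716.dd Q p) * Real.sqrt (PSD716.dd Q p)) * (1 + p / S) ^ (-A)) *
            ‖ψ‖ ^ 2 := by rw [hM]; ring
    _ = _ := by rw [Real.mul_self_sqrt hd0]

/-- expansion of `v(gm 3 Q)` in rings -/
theorem crs_le_sum {Q n : ℕ} {ν : ℕ → ℝ} (X : Fk (Fin (Q + 1)) →L[ℂ] Fk (Fin (Q + 1)))
    {ψ : Fk (Fin (Q + 1))} (hψ : ψ ∈ Zn ν Q n) {B : ℕ → ℝ}
    (hB : ∀ p < Q - 1, ‖⟪off (Zn ν Q n) (TT Q (kink (p + 1)) ψ), off (Zn ν Q n) (X ψ)⟫_ℂ‖ ≤ B p) :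
    |crs (TT Q (gm 3 Q)) (Zn ν Q n) X ψ| ≤
      ∑ p ∈ range (Q - 1), Scal725.dd (gm 3 Q) p * B p := by
  have hT : ∀ f g : ℕ → ℝ, (∀ j ≤ Q, f j = g j) → TT Q f = TT Q g := fun f g h => TT_congr h
  unfold crs
  rw [off_eq_sum (TT Q) hT (Zn ν Q n) (TT_one_mem_Zn hψ) (TT_lin_mem_Zn hψ) (gm 3 Q), sum_inner,
    Complex.re_sum]
  refine (abs_sum_le_sum_abs _ _).trans (sum_le_sum fun p hp => ?_)
  have hp' := mem_range.1 hp
  rw [inner_smul_left, Complex.conj_ofReal, Complex.re_ofReal_mul, abs_mul,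
    abs_of_nonneg (dd_gm_nonneg hp')]
  apply mul_le_mul_of_nonneg_left _ (dd_gm_nonneg hp')
  exact (Complex.abs_re_le_norm _).trans (hB p hp')

/-- **(b) eY**: the crude bound of `crs` for the averaged local operator of (TZ). -/
theorem crs_T_le {nW : ℕ} {KZ : ℝ} (hRZ : RZ nW KZ) {Q : ℕ} (hQ : 1 ≤ Q) {t : Fin 3 → ℝ}
    (ht : Adm t) (n : ℕ) {S A K : ℝ} (hS : 1 ≤ S) (hA0 : 0 ≤ A) (hA2 : A ≤ 3 / 2) (hK : 0 ≤ K)
    {T : G2 → Op (Fin (Q + 1))} (hTc : Continuous T)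
    (hT : ∀ g, DyG nW Q (K / ((Q : ℝ) + 1) ^ 2 * (1 + Q * tt g / S) ^ (-A)) g (T g))
    {ψ : Fk (Fin (Q + 1))} (hψ : ψ ∈ Zn (nuT t Q) Q n) :
    |crs (TT Q (gm 3 Q)) (Zn (nuT t Q) Q n) (((Q : ℝ) + 1) • ∫ g, T g ∂hm : Op _).ap ψ| ≤
      560 * KZ * K * S ^ A * (Q : ℝ) ^ (-(A + 3 / 2)) * ‖ψ‖ ^ 2 := by
  have hQ1 : (1 : ℝ) ≤ Q := by exact_mod_cast hQ
  have hQ0 : (0 : ℝ) < Q := by linarith
  have hS0 : 0 < S := by linarith
  have hKZ := hRZ.1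
  have h1 := crs_le_sum (((Q : ℝ) + 1) • ∫ g, T g ∂hm : Op _).ap hψ
    (fun p hp => ring_avg hRZ hQ ht n hS hA0 (by linarith) hK hTc hT hψ hp)
  refine h1.trans ?_
  have e1 : ∑ p ∈ range (Q - 1), Scal725.dd (gm 3 Q) p *
      (7 * KZ * K / ((Q : ℝ) + 1) ^ 2 * (PSD716.dd Q p * (1 + p / S) ^ (-A)) * ‖ψ‖ ^ 2) =
      7 * KZ * K / ((Q : ℝ) + 1) ^ 2 * ‖ψ‖ ^ 2 *
        ∑ p ∈ range (Q - 1), Scal725.dd (gm 3 Q) p * (PSD716.dd Q p * (1 + p / S) ^ (-A)) := by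
    rw [mul_sum]
    exact sum_congr rfl fun p _ => by ring
  rw [e1]
  have h2 := sum_gm_prof hQ hS hA0 hA2
  have e2 : (Q : ℝ) ^ (-(A + 3 / 2)) = (Q : ℝ) ^ (1 / 2 - A) / Q ^ 2 := by
    rw [← Real.rpow_natCast, ← Real.rpow_sub hQ0]
    congr 1
    push_cast
    ring
  calc 7 * KZ * K / ((Q : ℝ) + 1) ^ 2 * ‖ψ‖ ^ 2 *
        ∑ p ∈ range (Q - 1), Scal725.dd (gm 3 Q) p * (PSD716.dd Q p * (1 + p / S) ^ (-A))
      ≤ 7 * KZ * K / (Q : ℝ) ^ 2 * ‖ψ‖ ^ 2 * (80 * S ^ A * (Q : ℝ) ^ (1 / 2 - A)) := by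
        apply mul_le_mul _ h2 _ (by positivity)
        · gcongr
          linarith
        · exact sum_nonneg fun p hp => mul_nonneg (dd_gm_nonneg (mem_range.1 hp)) (by
            have := PSD716.one_le_dd (Q := Q) (p := p) (by have := mem_range.1 hp; omega)
            have : 0 ≤ PSD716.dd Q p := by linarith
            positivity)
    _ = 560 * KZ * K * S ^ A * ((Q : ℝ) ^ (1 / 2 - A) / Q ^ 2) * ‖ψ‖ ^ 2 := by ring
    _ = _ := by rw [e2]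

/-- the crude bound of `crs` for an operator of the class about the north pole. -/
theorem crs_Y_le {nW : ℕ} {KX : ℝ} (hRX : RX nW KX) {Q : ℕ} (hQ : 1 ≤ Q) {t : Fin 3 → ℝ}
    (ht : Adm t) (n : ℕ) {C : ℝ} {Y : Op (Fin (Q + 1))} (hY : Dy nW Q C Y)
    {ψ : Fk (Fin (Q + 1))} (hψ : ψ ∈ Zn (nuT t Q) Q n) :
    |crs (TT Q (gm 3 Q)) (Zn (nuT t Q) Q n) Y.ap ψ| ≤ 48 * KX * C / (Q : ℝ) ^ 2 * ‖ψ‖ ^ 2 := by
  have hKX := hRX.1
  have hC0 : 0 ≤ C := hY.2.nonneg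
  have h1 := crs_le_sum Y.ap hψ (fun p hp => rx_scaled hRX hQ ht n hY hψ hp)
  refine h1.trans ?_
  have e1 : ∑ p ∈ range (Q - 1), Scal725.dd (gm 3 Q) p *
      (C * (KX * (((p : ℝ) + 1) ^ 2)⁻¹ * (‖ψ‖ * ‖ψ‖))) =
      C * KX * ‖ψ‖ ^ 2 *
        ∑ p ∈ range (Q - 1), Scal725.dd (gm 3 Q) p * (((p : ℝ) + 1) ^ 2)⁻¹ := by
    rw [mul_sum]
    exact sum_congr rfl fun p _ => by ring
  rw [e1]
  have h2 := sum_X 3 Q
  calc C * KX * ‖ψ‖ ^ 2 * ∑ p ∈ range (Q - 1), Scal725.dd (gm 3 Q) p * (((p : ℝ) + 1) ^ 2)⁻¹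
      ≤ C * KX * ‖ψ‖ ^ 2 * (16 * (3 : ℕ) / (Q : ℝ) ^ 2) := by gcongr
    _ = 48 * KX * C / (Q : ℝ) ^ 2 * ‖ψ‖ ^ 2 := by push_cast; ring

end Crest.Agent.R340.CrsY874
end

-- ▼ part R340/W2_725
section

/-!
R340 (S0532), strong pass (helper725): the cross number of `Y` (input `hY` of `W0725.strong_move`) and
the vacuum scalar `s1` of `Str875.move_strong`.
-/

set_option autoImplicit false

open Matrix Finset MeasureTheory

namespace Crest.Agent.R340.W0725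

open Crest.Agent.R340.Fock649 Crest.Agent.R340.Gam303 Crest.Agent.R340.Rot303
open Crest.Agent.R340.Avg814 Crest.Agent.R340.CS809 Crest.Agent.R124.Haar
open Crest.Agent.R340.DomF735 Crest.Agent.R340.Scal725 Crest.Agent.R340.AvgG725
open Crest.Agent.R340.Geo986 Crest.Agent.R340.Peel596 Crest.Agent.R340.Conv102
open Crest.Agent.R340.Step596 Crest.Agent.R340.PathStep880 Crest.Agent.R340.Emb596
open Crest.Agent.R340.Defs150 Crest.Agent.R340.FX963 Crest.Agent.R340.Str875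
open Crest.Agent.R340.Vac467 (IsRef vac_scalar)
open Crest.Agent.R340.Str735 (Cls)
open Crest.Agent.R340.PV341 (Adm)
open scoped InnerProductSpace

noncomputable section

/-- `eY` -/
def eYc (KZ KRX KT KX A C : ℝ) (Q Q2 : ℕ) : ℝ :=
  3 * C * (560 * KZ * KT * (Q2 : ℝ) ^ A * (Q : ℝ) ^ (-(A + 3 / 2))) +
    48 * KRX * (KX / ((Q : ℝ) + 1) ^ 2) / (Q : ℝ) ^ 2

theorem abs_cr_YY_le {nW : ℕ} {KZ KRX KT KX A C : ℝ} (hRZ : RZ nW KZ) (hRX : RX nW KRX) {Q : ℕ}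
    (hQ : 1 ≤ Q) {Q2 : ℕ} (h2 : 1 ≤ Q2) (hA0 : 0 ≤ A) (hA2 : A ≤ 3 / 2) (hKT : 0 ≤ KT)
    (hC : 0 ≤ C) {T : G2 → Op (Fin (Q + 1))} (hTc : Continuous T)
    (hT : ∀ g, DyG nW Q (KT / ((Q : ℝ) + 1) ^ 2 * (1 + Q * tt g / Q2) ^ (-A)) g (T g))
    {YX : Op (Fin (Q + 1))} (hYX : Dy nW Q (KX / ((Q : ℝ) + 1) ^ 2) YX) {θ : ℝ}
    (hθ : θ ∈ Set.Ioc (0 : ℝ) 1) (k : ℕ) {ψ : Fk (Fin (Q + 1))}
    (hψ : ψ ∈ Zn (nuT (tA θ) Q) Q k) (h1 : ‖ψ‖ = 1) :
    |Str875.cr Q k θ (YY C Q T YX).ap ψ| ≤ eYc KZ KRX KT KX A C Q Q2 := by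
  have ht : Adm (tA θ) := adm_tA ⟨hθ.1.le, hθ.2⟩
  have hS : (1 : ℝ) ≤ Q2 := by exact_mod_cast h2
  have k1 := CrsY874.crs_T_le hRZ hQ ht k hS hA0 hA2 hKT hTc hT hψ
  have k2 := CrsY874.crs_Y_le hRX hQ ht k hYX hψ
  rw [h1, one_pow, mul_one] at k1 k2
  have e : Str875.cr Q k θ (YY C Q T YX).ap ψ =
      3 * C * crs (TT Q (gm 3 Q)) (Zn (nuT (tA θ) Q) Q k)
        (((Q : ℝ) + 1) • ∫ g, T g ∂hm : Op _).ap ψ +
      crs (TT Q (gm 3 Q)) (Zn (nuT (tA θ) Q) Q k) YX.ap ψ := by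
    unfold Str875.cr crs YY
    have e1 : (((3 * C : ℝ) : ℂ) • (((Q : ℝ) + 1) • ∫ g, T g ∂hm) + YX : Op (Fin (Q + 1))).ap ψ =
        ((3 * C : ℝ) : ℂ) • (((Q : ℝ) + 1) • ∫ g, T g ∂hm : Op (Fin (Q + 1))).ap ψ + YX.ap ψ := rfl
    rw [e1, map_add, map_smul, inner_add_right, inner_smul_right, Complex.add_re,
      Complex.re_ofReal_mul]
  rw [e]
  refine (abs_add_le _ _).trans ?_
  unfold eYc
  rw [abs_mul, abs_of_nonneg (show (0 : ℝ) ≤ 3 * C by positivity)]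
  exact add_le_add (mul_le_mul_of_nonneg_left k1 (by positivity)) k2


end

end Crest.Agent.R340.W0725
end

-- ▼ part R340/SPb_735
section

/-!
# R340 / S0532: strong pass, the crude errors of the strong step are absorbed (helper735)
-/

set_option autoImplicit false
set_option linter.unusedSectionVars false

namespace Crest.Agent.R340.SP735

open Finset
open Crest.Agent.R340.Scal725
open Crest.Agent.R340.W0725 (eC C3 C3_pos eYc)
open Crest.Agent.R340.RecE735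

/-- the size of the class: `e(S)` -/
noncomputable def eS (a A R CW KT KX : ℝ) (S : ℕ) : ℝ :=
  4 * CW * KT * (C3 a A * (S * prof a R S)) + 2 * CW * KX

/-- constant of `e(S) ≤ C1 S^(1-a)` -/
noncomputable def c1 (a A R CW KT KX : ℝ) : ℝ :=
  4 * CW * KT * (C3 a A * (R + 1) ^ a) + 2 * CW * KX

variable {a A R CW KT KX : ℝ}

theorem c1_nonneg (ha0 : 0 < a) (ha1 : a < 1) (hA : 1 < A) (hR : 0 ≤ R) (hCW : 0 ≤ CW)
    (hKT : 0 ≤ KT) (hKX : 0 ≤ KX) : 0 ≤ c1 a A R CW KT KX := by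
  have := (C3_pos ha0 ha1 hA).le
  unfold c1
  positivity

theorem eS_nonneg (ha0 : 0 < a) (ha1 : a < 1) (hA : 1 < A) (hR : 0 ≤ R) (hCW : 0 ≤ CW)
    (hKT : 0 ≤ KT) (hKX : 0 ≤ KX) (S : ℕ) : 0 ≤ eS a A R CW KT KX S := by
  have := (C3_pos ha0 ha1 hA).le
  have := (prof_pos hR (by linarith : a < R + 1) S).le
  unfold eS
  positivity

theorem S_prof_le (ha0 : 0 < a) (ha1 : a < 1) (hR : 0 ≤ R) {S : ℕ} (hS : 1 ≤ S) :
    (S : ℝ) * prof a R S ≤ (R + 1) ^ a * (S : ℝ) ^ (1 - a) := by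
  have hS0 : (0 : ℝ) < S := by exact_mod_cast hS
  have h1 := prof_le_rpow hR ha0.le (by linarith : a < R + 1) S
  have h2 : ((R + 1) / (R + 1 + S)) ^ a ≤ ((R + 1) / S) ^ a := by
    apply Real.rpow_le_rpow (by positivity) _ ha0.le
    apply div_le_div_of_nonneg_left (by positivity) hS0
    linarith
  have h3 : ((R + 1) / (S : ℝ)) ^ a = (R + 1) ^ a * (S : ℝ) ^ (-a) := by
    rw [Real.div_rpow (by positivity) hS0.le, Real.rpow_neg hS0.le]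
    rfl
  have h4 : (S : ℝ) ^ (1 - a) = S * (S : ℝ) ^ (-a) := by
    rw [sub_eq_add_neg, Real.rpow_add hS0, Real.rpow_one]
  rw [h4]
  calc (S : ℝ) * prof a R S ≤ S * ((R + 1) ^ a * (S : ℝ) ^ (-a)) := by
        rw [← h3]
        exact mul_le_mul_of_nonneg_left (h1.trans h2) hS0.le
    _ = _ := by ring

theorem eS_le (ha0 : 0 < a) (ha1 : a < 1) (hA : 1 < A) (hR : 0 ≤ R) (hCW : 0 ≤ CW)
    (hKT : 0 ≤ KT) (hKX : 0 ≤ KX) {S : ℕ} (hS : 1 ≤ S) :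
    eS a A R CW KT KX S ≤ c1 a A R CW KT KX * (S : ℝ) ^ (1 - a) := by
  have h3 := (C3_pos ha0 ha1 hA).le
  have h1 := S_prof_le ha0 ha1 hR hS
  have hS1 : (1 : ℝ) ≤ S := by exact_mod_cast hS
  have h2 : (1 : ℝ) ≤ (S : ℝ) ^ (1 - a) := Real.one_le_rpow hS1 (by linarith)
  unfold eS c1
  have h4 : 4 * CW * KT * (C3 a A * (S * prof a R S)) ≤
      4 * CW * KT * (C3 a A * ((R + 1) ^ a * (S : ℝ) ^ (1 - a))) := by
    gcongr
  have h5 : 2 * CW * KX * 1 ≤ 2 * CW * KX * (S : ℝ) ^ (1 - a) := by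
    gcongr
  calc 4 * CW * KT * (C3 a A * (S * prof a R S)) + 2 * CW * KX
      ≤ 4 * CW * KT * (C3 a A * ((R + 1) ^ a * (S : ℝ) ^ (1 - a))) +
        2 * CW * KX * (S : ℝ) ^ (1 - a) := by linarith
    _ = _ := by ring

/-- the size of a ring cross term, see `CrsH_757` -/
noncomputable def cz (a : ℝ) (S : ℝ) (Q : ℕ) : ℝ := (S + Q) * prof a S Q / ((Q : ℝ) + 2) ^ 2

theorem cz_nonneg {S : ℝ} (hS : 0 ≤ S) (ha : a < S + 1) (Q : ℕ) : 0 ≤ cz a S Q := by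
  have := (prof_pos hS ha Q).le
  unfold cz
  positivity

/-- term `eT` -/
theorem eT_le (ha0 : 0 < a) (ha1 : a < 1) (hA : 1 < A) (hR : 0 ≤ R) (hCW : 0 ≤ CW)
    (hKT : 0 ≤ KT) (hKX : 0 ≤ KX) {S Q : ℕ} (hS : 1 ≤ S) (hQ : 1 ≤ Q) {C K : ℝ} (hC : 0 ≤ C)
    (hK : 0 ≤ K) :
    eC K a Q S (C * (eS a A R CW KT KX S / ((Q + 3 : ℕ) : ℝ))) ≤
      C * ((2952 * K / (1 - a)) * (c1 a A R CW KT KX * (S : ℝ) ^ (1 - a) / Q) * cz a S Q) := by
  have h1a : 0 < 1 - a := by linarith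
  have hQ0 : (0 : ℝ) < Q := by exact_mod_cast hQ
  have hcz := cz_nonneg (a := a) (Nat.cast_nonneg S) (by
    have : (0 : ℝ) ≤ S := Nat.cast_nonneg S
    linarith) Q
  have he := eS_le ha0 ha1 hA hR hCW hKT hKX hS
  have he0 := eS_nonneg ha0 ha1 hA hR hCW hKT hKX S
  have h1 : eS a A R CW KT KX S / ((Q + 3 : ℕ) : ℝ) ≤
      c1 a A R CW KT KX * (S : ℝ) ^ (1 - a) / Q := by
    apply div_le_div₀ (he0.trans he) he hQ0
    push_cast; linarith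
  unfold eC
  have e1 : 984 * ((3 : ℕ) : ℝ) * K * (C * (eS a A R CW KT KX S / ((Q + 3 : ℕ) : ℝ))) / (1 - a) *
      (((S : ℝ) + Q) * prof a S Q / ((Q : ℝ) + 2) ^ 2) =
      C * ((2952 * K / (1 - a)) * (eS a A R CW KT KX S / ((Q + 3 : ℕ) : ℝ)) * cz a S Q) := by
    unfold cz
    push_cast; ring
  rw [e1]
  gcongr


/-- term `eY` -/
theorem eY_le {KZ KRX C : ℝ} (hKRX : 0 ≤ KRX) (hKX : 0 ≤ KX) (hC : 1 ≤ C) {S Q : ℕ}
    (hQ : 1 ≤ Q) :
    eYc KZ KRX KT KX A C Q S ≤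
      C * ((1680 * KZ * KT) * (S : ℝ) ^ A * (Q : ℝ) ^ (-(A + 3 / 2)) +
        (48 * KRX * KX) * (S : ℝ) ^ 0 / (Q : ℝ) ^ 4) := by
  have hQ0 : (0 : ℝ) < Q := by exact_mod_cast hQ
  have h1 : 48 * KRX * (KX / ((Q : ℝ) + 1) ^ 2) / (Q : ℝ) ^ 2 ≤
      (48 * KRX * KX) * (S : ℝ) ^ 0 / (Q : ℝ) ^ 4 := by
    rw [pow_zero, mul_one]
    have e : 48 * KRX * (KX / ((Q : ℝ) + 1) ^ 2) / (Q : ℝ) ^ 2 =
        (48 * KRX * KX) / (((Q : ℝ) + 1) ^ 2 * (Q : ℝ) ^ 2) := by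
      field_simp
    rw [e]
    apply div_le_div_of_nonneg_left (by positivity) (by positivity)
    have : (Q : ℝ) ^ 4 = (Q : ℝ) ^ 2 * (Q : ℝ) ^ 2 := by ring
    rw [this]
    gcongr
    linarith
  have h2 : 0 ≤ (48 * KRX * KX) * (S : ℝ) ^ 0 / (Q : ℝ) ^ 4 := by positivity
  unfold eYc
  nlinarith [mul_nonneg (by linarith : 0 ≤ C - 1) h2]

end Crest.Agent.R340.SP735
end

-- ▼ part R340/Str4_875
section

/-!
# R340, strong pass, operator side, part 4 (helper875): the absorption move with all inputs plugged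

`move_full` : from `RC`, `TZ`, `TX`, `WP` and the bound `eY` for the cross number of
`YY = 3 C (Q+1) ∫ T + YX`, the move of `move_strong` for the profile `F = C prof A S - Ψ`,
`Ψ ∈ Cls (prof a S) (C e'/(Q+3))`, with the explicit profile `ep` of W0_725.
-/

set_option autoImplicit false
set_option linter.unusedSectionVars false

open scoped InnerProductSpace

namespace Crest.Agent.R340.Str875

open Set MeasureTheory
open Crest.Agent.R340.PathStep880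
open Crest.Agent.R340.Fock649
open Crest.Agent.R340.Geo986 Crest.Agent.R340.Peel596 Crest.Agent.R340.Step596
open Crest.Agent.R340.Vac467 (IsRef)
open Crest.Agent.R340.Scal725 (cs prof prof_pos dd)
open Crest.Agent.R340.Defs150
open Crest.Agent.R340.Avg814 (G2 hm tt)
open Crest.Agent.R340.W0725 (YY ep star_YY W0 Cls_ep')
open Crest.Agent.R340.Str735 (Cls)
open Crest.Agent.R340.Conv102 (DD)

/-- the error of one cross number of a profile of class `M * prof a S` (CrsH_757, `b = 3`) -/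
noncomputable def eH (K1 a S M : ℝ) (Q : ℕ) : ℝ :=
  984 * (3 : ℕ) * K1 * M / (1 - a) * ((S + Q) * prof a S Q / ((Q : ℝ) + 2) ^ 2)

/-- cross number of a profile of class `Cls (prof a S) M` -/
theorem abs_cr_le {K1 : ℝ} (hRC : RC K1) {Q : ℕ} (hQ : 1 ≤ Q) {a S M : ℝ} (hM : 0 ≤ M)
    (ha0 : 0 ≤ a) (ha1 : a < 1) (hS : 0 ≤ S) {H : ℕ → ℝ} {Q' : ℕ} (hQ' : Q ≤ Q')
    (hH : Cls (prof a S) M Q' H) {θ : ℝ} (hθ : θ ∈ Icc (0 : ℝ) 1) (k : ℕ)
    {ψ : Fk (Fin (Q + 1))} (hψ : ψ ∈ Zn (nuT (tA θ) Q) Q k) (h1 : ‖ψ‖ = 1) :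
    |cr Q k θ (TT Q H) ψ| ≤ eH K1 a S M Q := by
  have h := CrsH757.abs_crs_le hRC hQ (adm_tA hθ) k 3 hψ hM ha0 ha1 hS
    (CrsH757.abs_dd_le_of_DD (f := prof a S) fun j hj => hH 2 le_rfl j (by omega))
  rw [h1, one_pow, mul_one] at h
  exact h

/-- the profile `C f - Ψ` -/
theorem TT_lin_sub (Q : ℕ) (C : ℝ) (f Ψ : ℕ → ℝ) :
    TT Q (fun j => C * f j - Ψ j) = ((C : ℝ) : ℂ) • TT Q f - TT Q Ψ := by
  have h : TT Q (C • f - Ψ) = C • TT Q f - TT Q Ψ := by rw [map_sub, map_smul]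
  have h2 : (C • f - Ψ) = fun j => C * f j - Ψ j := rfl
  have h3 : C • TT Q f = ((C : ℝ) : ℂ) • TT Q f := (Complex.coe_smul C (TT Q f)).symm
  rw [← h2, h, h3]

theorem cr_lin_sub (Q k : ℕ) (θ C : ℝ) (f Ψ : ℕ → ℝ) (ψ : Fk (Fin (Q + 1))) :
    cr Q k θ (TT Q (fun j => C * f j - Ψ j)) ψ =
      C * cr Q k θ (TT Q f) ψ - cr Q k θ (TT Q Ψ) ψ := by
  rw [TT_lin_sub]
  have h1 := crs_sub (TT Q (gm 3 Q)) (Zn (nuT (tA θ) Q) Q k) (((C : ℝ) : ℂ) • TT Q f) (TT Q Ψ) ψ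
  rw [crs_smul] at h1
  exact h1

theorem re_inner_YY (C : ℝ) (Q : ℕ) (T : G2 → Op (Fin (Q + 1))) (YX : Op (Fin (Q + 1)))
    (ψ : Fk (Fin (Q + 1))) : (inner ℂ ψ (YY C Q T YX ψ)).re =
      3 * C * (inner ℂ ψ ((((Q : ℝ) + 1) • ∫ g, T g ∂hm) ψ)).re + (inner ℂ ψ (YX ψ)).re := by
  unfold W0725.YY
  rw [add_ap, smul_ap, inner_add_right, inner_smul_right, Complex.add_re,
    Complex.re_ofReal_mul]

/-- **the absorption move, inputs plugged.** -/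
theorem move_full {nW nS : ℕ} {a A R0 CW θ0 K1 KT KX R C e eY : ℝ} (hRC : RC K1)
    (hTZ : TZ nW A KT) (hTX : TX nS nW KX) (hWP : WP nW a R0 CW θ0) (hCW : 0 ≤ CW)
    (hθ0 : 0 ≤ θ0) (hKT : 0 < KT) (hKX : 0 < KX) (ha0 : 0 < a) (ha1 : a < 1) (hA : 1 < A)
    {S : ℕ} (hS2 : 2 ≤ S) (hR : R0 ≤ R) (hR0 : 0 ≤ R) (haR : a < R + 1) (hRS : R ≤ S)
    (hC : 0 < C) (he0 : 0 ≤ e)
    (he : 4 * CW * KT * (W0725.C3 a A * (S * prof a R S)) + 2 * CW * KX / C ≤ e)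
    {Q n n0 : ℕ} (hQ : 1 ≤ Q) (hn1 : 1 ≤ n0) (hn0 : Q = 3 * (n0 - 1)) (hn : n ≤ n0)
    {Φ : Fk (Fin (Q + 1))} (hΦ : IsRef (nu0 Q) Q n0 Φ) {Ψ : ℕ → ℝ}
    (hΨ : Cls (prof a S) (C * (e / ((Q + 3 : ℕ) : ℝ))) (Q + 3) Ψ)
    {X : Op (Fin (Q + 1))} (hX : Dy nS Q 1 X)
    (hEY : ∀ T : G2 → Op (Fin (Q + 1)), Continuous T →
      (∀ g, DyG nW Q (KT / ((Q : ℝ) + 1) ^ 2 * (1 + Q * tt g / S) ^ (-A)) g (T g)) →
      ∀ YX : Op (Fin (Q + 1)), Dy nW Q (KX / ((Q : ℝ) + 1) ^ 2) YX →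
      ∀ θ' ∈ Ioc (0 : ℝ) 1, ∀ k, ∀ ψ ∈ Zn (nuT (tA θ') Q) Q k, ‖ψ‖ = 1 →
        |cr Q k θ' (YY C Q T YX).ap ψ| ≤ eY)
    (m : ℝ)
    (h0 : LB (nu0 Q) Q n (Dop Q (3 * cs (fun j => C * prof A S j - (Ψ j +
        ep a A Q S R S (3 * C * CW * (KT / ((Q : ℝ) + 1) ^ 2)) (CW * (KX / ((Q : ℝ) + 1) ^ 2)) j)) Q
          + (inner ℂ Φ (X Φ)).re) 3
      (fun j => C * prof A S j - (Ψ j +
        ep a A Q S R S (3 * C * CW * (KT / ((Q : ℝ) + 1) ^ 2)) (CW * (KX / ((Q : ℝ) + 1) ^ 2)) j))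
      X) m) :
    LB (nu0 (Q + 3)) Q n
      (Dop Q (s1 Q Φ (fun j => C * prof A S j - Ψ j) X) 3 (fun j => C * prof A S j - Ψ j) X)
      (m - (12 * eH K1 a S (C * (3 * e / ((Q + 3 : ℕ) : ℝ) ^ 2)) Q + 2 * eY +
        2 * (3 * eH K1 a S (C * (e / ((Q + 3 : ℕ) : ℝ))) Q))) := by
  have hS0 : (0 : ℝ) < S := by
    have : 0 < S := by omega
    exact_mod_cast this
  have hS2' : (2 : ℝ) ≤ S := by exact_mod_cast hS2
  have hS1 : 1 ≤ S := by omega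
  set E : ℕ → ℝ := ep a A Q S R S (3 * C * CW * (KT / ((Q : ℝ) + 1) ^ 2))
    (CW * (KX / ((Q : ℝ) + 1) ^ 2)) with hE
  have hcls : Cls (prof a S) (C * (3 * e / ((Q + 3 : ℕ) : ℝ) ^ 2)) Q E :=
    Cls_ep' ha0 ha1 hA hQ hS1 hR0 haR hRS hC hCW hKT.le hKX.le he
  have eF : (fun j => C * prof A S j - (Ψ j + E j)) =
      fun j => (fun j => C * prof A S j - Ψ j) j - E j := by
    funext j
    simp only
    ring
  rw [eF] at h0
  refine move_strong hn1 hn0 hΦ (fun j => C * prof A S j - Ψ j) E X hX.1 ?_ ?_ h0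
  · intro θ hθ k ψ hψ h1
    have hθ' : θ ∈ Icc (0 : ℝ) 1 := ⟨hθ.1.le, hθ.2⟩
    exact abs_cr_le hRC hQ (by positivity) ha0.le ha1 hS0.le le_rfl hcls hθ' k hψ h1
  · intro θ hθ
    have hθ' : θ ∈ Icc (0 : ℝ) 1 := ⟨hθ.1.le, hθ.2⟩
    obtain ⟨T, hTc, hTD, hTi⟩ := hTZ.2 Q hQ θ hθ' S hS2'
    obtain ⟨YX, hYX, hYi⟩ := hTX.2 Q hQ θ hθ' X hX
    refine ⟨YY C Q T YX, star_YY hTD hYX.1, ?_, ?_, ?_⟩
    · intro k ψ hψ h1
      have e1 : cr Q k θ (TT Q (prof A S)) ψ =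
          (inner ℂ ψ ((((Q : ℝ) + 1) • ∫ g, T g ∂hm) ψ)).re := hTi k ψ hψ
      have e2 : cr Q k θ X.ap ψ = (inner ℂ ψ (YX ψ)).re := hYi k ψ hψ
      have e3 := abs_cr_le hRC hQ (by positivity) ha0.le ha1 hS0.le (by omega) hΨ hθ' k hψ h1
      rw [cr_lin_sub, re_inner_YY, ← e1, ← e2]
      have e4 : 3 * (C * cr Q k θ (TT Q (prof A S)) ψ - cr Q k θ (TT Q Ψ) ψ) + cr Q k θ X.ap ψ -
          (3 * C * cr Q k θ (TT Q (prof A S)) ψ + cr Q k θ X.ap ψ) =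
          -(3 * cr Q k θ (TT Q Ψ) ψ) := by ring
      rw [e4, abs_neg, abs_mul, abs_of_pos (by norm_num : (0 : ℝ) < 3)]
      linarith
    · intro θ' hθ1 k ψ hψ h1
      exact hEY T hTc hTD YX hYX θ' hθ1 k ψ hψ h1
    · exact W0 hWP hCW hθ0 hR hR0 haR (hR.trans hRS) hS0.le (by linarith) hn1 hn0 hn hΦ hC.le hKT
        (by linarith) hS1 hTc hTD hKX hYX

end Crest.Agent.R340.Str875
end

-- ▼ part R340/Peel3F_924
section

/-!
# The triple peel on the Fock model (helper924, R340 block L5; docs 1283, 1315, 1331)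

* `cross_gen` : the cross term of the peeling step for a general profile `F` whose second
  differences are dominated by those of `prof α R`.
* `tC`, `nuT_C`, `Zn_C` : the round metric of flux `Q` restricted to the orbitals `≤ Q - r`,
  `r = 0, 1, 2`, is the geometry `nuT (tC r)` of flux `Q - r`.
* `triple_peel` : three nested peelings at fixed metric.
* `triple_round` : the same for the round metric, with the inputs in their final form.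
-/

set_option autoImplicit false
set_option linter.unusedSectionVars false
open scoped InnerProductSpace ComplexConjugate
open Crest.Agent.R340.Fock649 Crest.Agent.R340.Emb596 Crest.Agent.R340.Geo986
  Crest.Agent.R340.Peel596 Crest.Agent.R340.PathStep880 Crest.Agent.R340.PeelX596
  Crest.Agent.R340.Step596
open Crest.Agent.R340.Scal725 (prof dd)
open Crest.Agent.R340.PV341 (G Adm)
open Crest.Agent.R340

namespace Crest.Agent.R340.Peel3F924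

open Finset

/-! ### the cross term for a general profile -/


/-! ### the metrics of the three levels -/

/-- exponents: `1/2` for `k < r` -/
noncomputable def tC (r : ℕ) : Fin 3 → ℝ := fun k => if (k : ℕ) < r then 1 / 2 else 0

theorem adm_tC (r : ℕ) : Adm (tC r) := fun k => by
  unfold tC
  split_ifs <;> norm_num

theorem tC_two {r : ℕ} (hr : r ≤ 2) : tC r 2 = 0 := by
  unfold tC
  rw [if_neg]
  simp
  omega

theorem shT_tC (r : ℕ) : shT (tC r) = tC (r + 1) := by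
  funext k
  fin_cases k
  · simp [shT, tC]
  · simp [shT, tC]
  · by_cases h : 1 < r
    · simp [shT, tC, h, show 2 ≤ r from h]
    · simp [shT, tC, h, show ¬ 2 ≤ r from h]

theorem tC_zero : tC 0 = fun _ => 0 := by
  funext k; simp [tC]

/-- the round metric of flux `Q + r` on the orbitals `≤ Q` -/
theorem nuT_C (Q : ℕ) : ∀ r : ℕ, r ≤ 3 → ∃ a : ℝ, 0 < a ∧
    ∀ j ≤ Q, nuT (tC r) Q j = a * nu0 (Q + r) j := by
  intro r
  induction r generalizing Q with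
  | zero =>
    intro _
    refine ⟨1, one_pos, fun j _ => ?_⟩
    rw [tC_zero, Geo986.nuT_zero, one_mul, add_zero]
  | succ r ih =>
    intro hr
    obtain ⟨a, ha, h⟩ := ih (Q + 1) (by omega)
    refine ⟨√((Q : ℝ) + 1) * a, mul_pos (Real.sqrt_pos.2 (by positivity)) ha, fun j hj => ?_⟩
    have h1 := nuT_succ (t := tC r) (tC_two (by omega)) hj
    rw [shT_tC, h j (by omega)] at h1
    have h2 : (0 : ℝ) < √((Q : ℝ) + 1) := Real.sqrt_pos.2 (by positivity)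
    rw [show Q + (r + 1) = Q + 1 + r by ring, mul_assoc, h1, ← mul_assoc,
      mul_inv_cancel₀ h2.ne', one_mul]

theorem Zn_C (Q r n : ℕ) (hr : r ≤ 3) : Zn (nuT (tC r) Q) Q n = Zn (nu0 (Q + r)) Q n := by
  obtain ⟨a, ha, h⟩ := nuT_C Q r hr
  exact Zn_smul ha.ne' h n

/-! ### restriction of a lower bound to a smaller flux -/

theorem cmp_ee_ee {Q1 Q2 Q3 : ℕ} (h12 : Q1 ≤ Q2) (h23 : Q2 ≤ Q3) (h13 : Q1 ≤ Q3)
    (X : Op (Fin (Q3 + 1))) : cmp (ee h12) (cmp (ee h23) X) = cmp (ee h13) X := by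
  exact FX963.cmp_cmp _ _ X _ (fun i => rfl)

theorem LB.restrict {ν : ℕ → ℝ} {Q' Q n : ℕ} (h : Q' ≤ Q) {D : Op (Fin (Q + 1))} {lam : ℝ}
    (H : LB ν Q n D lam) : LB ν Q' n (cmp (ee h) D) lam := by
  intro ψ hψ
  have h1 := H _ ((emb_mem_Zn_iff h ν n ψ).2 hψ)
  rw [norm_emb] at h1
  rw [inner_cmp]
  exact h1

theorem cmp_selfAdjoint {Q' Q : ℕ} (h : Q' ≤ Q) {X : Op (Fin (Q + 1))} (hX : star X = X) :
    star (cmp (ee h) X) = cmp (ee h) X := by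
  rw [← cmp_star, hX]

/-! ### the triple peel -/

/-- the analytic inputs of one peeling step at flux `Q`, sector `n` -/
structure Lev (ν : ℕ → ℝ) (Q n : ℕ) (s a : ℝ) (f : ℕ → ℝ) (X : Op (Fin (Q + 1)))
    (κ δ η : ℝ) : Prop where
  G0 : ∀ ψ ∈ Zn ν Q n, (∀ φ ∈ Zn ν Q n, c (Fin.last Q) φ = 0 → ⟪φ, ψ⟫_ℂ = 0) →
    κ * ‖ψ‖ ^ 2 ≤ ‖c (Fin.last Q) ψ‖ ^ 2
  comm : ‖c (Fin.last Q) * X - X * c (Fin.last Q)‖ ≤ η
  cross : ∀ ψ ∈ Zn ν Q n, ∀ φ ∈ Zn ν Q n,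
    ‖⟪d (Fin.last Q) (c (Fin.last Q) ψ) -
        (Zn ν Q n).starProjection (d (Fin.last Q) (c (Fin.last Q) ψ)),
      Dop Q s a f X φ⟫_ℂ‖ ≤ δ * ‖ψ‖ * ‖φ‖

/-- **Triple peel** at a fixed metric `ν`. -/
theorem triple_peel {q n : ℕ} {ν : ℕ → ℝ} (hν : PosM ν (q + 5)) (s s' a : ℝ) (ha : 0 ≤ a)
    (f : ℕ → ℝ) (hf1 : f (q + 5) ≤ f (q + 4)) (hf2 : f (q + 4) ≤ f (q + 3))
    (X : Op (Fin (q + 5 + 1))) (hX : star X = X) (κ δ η m1 m2 : ℝ) (hκ : 0 < κ) (hδ : 0 ≤ δ)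
    (h0 : Lev ν (q + 5) (n + 1) s a f X κ δ η)
    (h1 : Lev ν (q + 4) (n + 1) s a f (cmp (ee (show q + 4 ≤ q + 5 by omega)) X) κ δ η)
    (h2 : Lev ν (q + 3) (n + 1) s a f (cmp (ee (show q + 3 ≤ q + 5 by omega)) X) κ δ η)
    (hA : LB ν (q + 2) n (Dop (q + 2) s' a f (cmp (ee (show q + 2 ≤ q + 5 by omega)) X)) m1)
    (hB : LB ν (q + 2) (n + 1)
      (Dop (q + 2) s' a f (cmp (ee (show q + 2 ≤ q + 5 by omega)) X)) m2) :
    LB ν (q + 5) (n + 1) (Dop (q + 5) s a f X)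
      (min (m1 + (s - a * f (q + 5) - s') - a * (f (q + 3) - f (q + 5))) (m2 + (s - s'))
        - 3 * (2 * ((δ + η) / κ))) := by
  have hη : 0 ≤ η := (norm_nonneg _).trans h0.comm
  have he : 0 ≤ 2 * ((δ + η) / κ) := by positivity
  set E : ℝ := 2 * ((δ + η) / κ) with hE
  set A : ℝ := m1 + (s - a * f (q + 5) - s') - a * (f (q + 3) - f (q + 5)) with hAdef
  set B : ℝ := m2 + (s - s') with hBdef
  have hν4 : PosM ν (q + 4) := fun j hj => hν j (by omega)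
  have hν3 : PosM ν (q + 3) := fun j hj => hν j (by omega)
  -- the occupied blocks
  have kA : ∀ Q' (hQ' : Q' ≤ q + 2) (t : ℝ), A ≤ m1 + (s - a * t - s') →
      LB ν Q' n (Dop Q' (s - a * t) a f (cmp (ee (show Q' ≤ q + 5 by omega)) X)) A := by
    intro Q' hQ' t ht
    have h3 := LB.restrict hQ' (hA.add_const (s - a * t - s'))
    rw [show s' + (s - a * t - s') = s - a * t by ring, cmp_Dop, cmp_ee_ee hQ' _ (by omega)] at h3
    exact h3.mono ht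
  have hfa1 : a * f (q + 5) ≤ a * f (q + 4) := mul_le_mul_of_nonneg_left hf1 ha
  have hfa2 : a * f (q + 4) ≤ a * f (q + 3) := mul_le_mul_of_nonneg_left hf2 ha
  -- level 2
  have hB' : LB ν (q + 2) (n + 1) (Dop (q + 2) s a f (cmp (ee (Nat.le_succ (q + 2)))
      (cmp (ee (show q + 3 ≤ q + 5 by omega)) X))) B := by
    have h3 := hB.add_const (s - s')
    rw [show s' + (s - s') = s by ring] at h3
    rw [cmp_ee_ee _ _ (show q + 2 ≤ q + 5 by omega)]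
    exact h3
  have hA2 : LB ν q n (Dop q (s - a * f (q + 3)) a f (cmp (ee (Nat.le_add_right q 3))
      (cmp (ee (show q + 3 ≤ q + 5 by omega)) X))) A := by
    rw [cmp_ee_ee _ _ (show q ≤ q + 5 by omega)]
    exact kA q (by omega) (f (q + 3)) (by rw [hAdef]; linarith)
  have L2 := peel_step hν3 s a f _ (cmp_selfAdjoint _ hX) κ δ η _ _ hκ hδ h2.G0 h2.comm h2.cross
    hB' hA2
  -- level 1
  have hB1 : LB ν (q + 3) (n + 1) (Dop (q + 3) s a f (cmp (ee (Nat.le_succ (q + 3)))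
      (cmp (ee (show q + 4 ≤ q + 5 by omega)) X))) (min A B - E) := by
    rw [cmp_ee_ee _ _ (show q + 3 ≤ q + 5 by omega)]
    exact L2
  have hA1 : LB ν (q + 1) n (Dop (q + 1) (s - a * f (q + 1 + 3)) a f
      (cmp (ee (Nat.le_add_right (q + 1) 3)) (cmp (ee (show q + 4 ≤ q + 5 by omega)) X))) A := by
    rw [cmp_ee_ee _ _ (show q + 1 ≤ q + 5 by omega)]
    exact kA (q + 1) (by omega) (f (q + 4)) (by rw [hAdef]; linarith)
  have L1 := peel_step (Q := q + 1) hν4 s a f _ (cmp_selfAdjoint _ hX) κ δ η _ _ hκ hδ h1.G0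
    h1.comm h1.cross hB1 hA1
  -- level 0
  have hA0 : LB ν (q + 2) n (Dop (q + 2) (s - a * f (q + 2 + 3)) a f
      (cmp (ee (Nat.le_add_right (q + 2) 3)) X)) A :=
    kA (q + 2) le_rfl (f (q + 5)) (by rw [hAdef]; linarith)
  have L0 := peel_step (Q := q + 2) hν s a f _ hX κ δ η _ _ hκ hδ h0.G0 h0.comm h0.cross
    L1 hA0
  rw [← hE] at L0
  refine LB.mono L0 ?_
  have e1 : min A B ≤ A := min_le_left _ _
  have e2 : min A B - E ≤ min A (min A B - E) := le_min (by linarith) le_rfl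
  have e3 : min A B - 2 * E ≤ min A (min A (min A B - E) - E) :=
    le_min (by linarith) (by linarith)
  linarith

/-! ### the triple peel of the round metric -/

theorem Lev.mono {ν : ℕ → ℝ} {Q n : ℕ} {s a : ℝ} {f : ℕ → ℝ} {X : Op (Fin (Q + 1))}
    {κ δ η δ' η' : ℝ} (h : Lev ν Q n s a f X κ δ η) (hδ : δ ≤ δ') (hη : η ≤ η') :
    Lev ν Q n s a f X κ δ' η' where
  G0 := h.G0
  comm := h.comm.trans hη
  cross := fun ψ hψ φ hφ => (h.cross ψ hψ φ hφ).trans (by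
    have := mul_le_mul_of_nonneg_right hδ (mul_nonneg (norm_nonneg ψ) (norm_nonneg φ))
    rw [← mul_assoc, ← mul_assoc] at this
    exact this)

theorem cast_last (Q : ℕ) : (((Fin.last Q : Fin (Q + 1)) : ℕ) : ℝ) = Q := by
  rw [Fin.val_last]


/-- (G0) in the geometries `nuT t`, `t 2 = 0` (output of `Geo986.G0_sector`) -/
def G0P (κ : ℝ) : Prop := ∀ t : Fin 3 → ℝ, Adm t → t 2 = 0 → ∀ Q n : ℕ,
  ∀ ψ ∈ Zn (nuT t (Q + 1)) (Q + 1) n,
    (∀ φ ∈ Zn (nuT t (Q + 1)) (Q + 1) n, c (Fin.last (Q + 1)) φ = 0 → ⟪φ, ψ⟫_ℂ = 0) →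
      κ * ‖ψ‖ ^ 2 ≤ ‖c (Fin.last (Q + 1)) ψ‖ ^ 2

theorem exists_G0P {γ : ℝ} (hγ : 0 < γ) (h : ∀ Q : ℕ, GapG (nu0 Q) Q γ) :
    ∃ κ : ℝ, 0 < κ ∧ κ ≤ 1 ∧ G0P κ := by
  obtain ⟨κ, h1, h2, h3⟩ := G0_sector hγ
  exact ⟨κ, h1, h2, h3 h⟩

theorem dd_prof_le {α R : ℝ} (hα0 : 0 ≤ α) (hαR : α ≤ R) {i j : ℕ} (h : i ≤ j) :
    dd (prof α R) j ≤ dd (prof α R) i :=
  Scal725.dd_prof_antitone (hα0.trans hαR) hα0 (by linarith) h





end Crest.Agent.R340.Peel3F924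
end

-- ▼ part R340/RX4_735
section

/-!
# R340 (helper735): cross term of the class about the pole with the ring next to the far pole

`RX4` : from `Defs150.RZ` at `g = 1`, the cross term with `kink (Q-1)` is `≤ 162 K (Q+1)⁻⁴`.
-/

set_option autoImplicit false
open scoped InnerProductSpace

namespace Crest.Agent.R340.RX4735

open Crest.Agent.R340.Fock649 Crest.Agent.R340.Emb596 Crest.Agent.R340.Geo986
  Crest.Agent.R340.Peel596 Crest.Agent.R340.Step596 Crest.Agent.R340.PathStep880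
open Crest.Agent.R340.PV341 (Adm)
open Crest.Agent.R340.Rot303 (cj Rg)
open Crest.Agent.R340.Avg814 (G2 tt)
open Crest.Agent.R340.Defs150

theorem Rg_one' (Q : ℕ) : Rg Q (1 : Matrix (Fin 2) (Fin 2) ℂ) = 1 := by
  unfold Rg
  rw [CS809.sp_one, Gam303.Gam_one]

theorem cj_one' {Q : ℕ} (X : Op (Fin (Q + 1))) :
    cj (1 : Matrix (Fin 2) (Fin 2) ℂ) X = X := by
  unfold cj
  rw [Rg_one', star_one, one_mul, mul_one]

theorem DyG_one {n Q : ℕ} {C : ℝ} {X : Op (Fin (Q + 1))} (h : Dy n Q C X) :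
    DyG n Q C (1 : G2) X := by
  unfold DyG
  have e : star ((1 : G2) : Matrix (Fin 2) (Fin 2) ℂ) = 1 := by simp
  rw [e, cj_one']
  exact h

theorem tt_one : tt (1 : G2) = 0 := by
  unfold tt
  simp

theorem weight_le {Q : ℕ} (hQ : 2 ≤ Q) :
    Real.sqrt (PSD716.dd Q (Q - 2)) * (1 + Dr Q (Q - 2) (Q * tt (1 : G2))) ^ (-(8 : ℝ)) ≤
      162 * (((Q : ℝ) + 1) ^ 4)⁻¹ := by
  have hQ' : (2 : ℝ) ≤ Q := by exact_mod_cast hQ
  have e1 : ((Q - 2 : ℕ) : ℝ) = Q - 2 := by rw [Nat.cast_sub hQ]; norm_num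
  have h1 : Real.sqrt (PSD716.dd Q (Q - 2)) ≤ 2 := by
    rw [Real.sqrt_le_left (by norm_num)]
    unfold PSD716.dd
    rw [e1]
    refine (min_le_right _ _).trans ?_
    linarith
  have h2 : Real.sqrt ((Q : ℝ) - 1) ≤ 1 + Dr Q (Q - 2) (Q * tt (1 : G2)) := by
    unfold Dr
    rw [tt_one, mul_zero, zero_add, Real.sqrt_one, e1]
    have h3 : (Q : ℝ) - 2 + 1 = Q - 1 := by ring
    rw [h3]
    have := le_abs_self (Real.sqrt ((Q : ℝ) - 1) - 1)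
    have h4 := abs_nonneg (Real.sqrt ((Q : ℝ) - ((Q : ℝ) - 2) + 1) - Real.sqrt ((Q : ℝ) - 0 + 1))
    linarith
  have hD : 0 < 1 + Dr Q (Q - 2) (Q * tt (1 : G2)) := by
    have : 0 ≤ Dr Q (Q - 2) (Q * tt (1 : G2)) := by unfold Dr; positivity
    linarith
  set D := 1 + Dr Q (Q - 2) (Q * tt (1 : G2)) with hDdef
  have h5 : (Q : ℝ) - 1 ≤ D ^ 2 := by
    have h6 := pow_le_pow_left₀ (Real.sqrt_nonneg _) h2 2
    rwa [Real.sq_sqrt (by linarith)] at h6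
  have h7 : ((Q : ℝ) + 1) / 3 ≤ D ^ 2 := by linarith
  have h8 : (((Q : ℝ) + 1) / 3) ^ 4 ≤ D ^ 8 := by
    have := pow_le_pow_left₀ (by positivity) h7 4
    rw [← pow_mul] at this
    exact this
  have h9 : D ^ (-(8 : ℝ)) = (D ^ 8)⁻¹ := by
    rw [Real.rpow_neg hD.le]
    congr 1
    exact_mod_cast Real.rpow_natCast D 8
  rw [h9]
  have h10 : (D ^ 8)⁻¹ ≤ 81 * (((Q : ℝ) + 1) ^ 4)⁻¹ := by
    rw [inv_le_comm₀ (by positivity) (by positivity), mul_inv, inv_inv]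
    refine le_trans (le_of_eq ?_) h8
    ring
  calc Real.sqrt (PSD716.dd Q (Q - 2)) * (D ^ 8)⁻¹ ≤ 2 * (81 * (((Q : ℝ) + 1) ^ 4)⁻¹) :=
        mul_le_mul h1 h10 (by positivity) (by norm_num)
    _ = _ := by ring

/-- **(RX4)** -/
theorem RX4 {nW : ℕ} {K : ℝ} (h : RZ nW K) {Q : ℕ} (hQ : 2 ≤ Q) {t : Fin 3 → ℝ} (ht : Adm t)
    (n : ℕ) {X : Op (Fin (Q + 1))} (hX : Dy nW Q 1 X) {ψ φ : Fk (Fin (Q + 1))}
    (hψ : ψ ∈ Zn (nuT t Q) Q n) (hφ : φ ∈ Zn (nuT t Q) Q n) :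
    ‖⟪off (Zn (nuT t Q) Q n) (TT Q (kink (Q - 1)) ψ), off (Zn (nuT t Q) Q n) (X φ)⟫_ℂ‖ ≤
      162 * K * (((Q : ℝ) + 1) ^ 4)⁻¹ * (‖ψ‖ * ‖φ‖) := by
  have h1 := h.2 Q (by omega) t ht n 1 X (DyG_one hX) ψ hψ φ hφ (Q - 2) (by omega)
  rw [show Q - 2 + 1 = Q - 1 by omega] at h1
  refine h1.trans ?_
  apply mul_le_mul_of_nonneg_right _ (by positivity)
  rw [mul_assoc]
  have := mul_le_mul_of_nonneg_left (weight_le hQ) h.1
  linarith

end Crest.Agent.R340.RX4735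
end

-- ▼ part R340/Str5_875
section

/-!
# R340, strong pass, operator side, part 5 (helper875): the STEP of `StrR735.strong_red`

* `cross_eX`, `lev_eX` : the inputs of one peeling level, `X` term as a free number;
* `vac_link`    : the vacuum scalar at the end of the path (467's `vac_scalar`);
* `step_strong` : one step of the strong pass, all analytic inputs are the Props of Defs_150.
-/

set_option autoImplicit false
set_option linter.unusedSectionVars false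

open scoped InnerProductSpace ComplexConjugate

namespace Crest.Agent.R340.Str875

open Finset MeasureTheory
open Crest.Agent.R340.PathStep880 Crest.Agent.R340.PeelX596
open Crest.Agent.R340.Fock649 Crest.Agent.R340.Emb596
open Crest.Agent.R340.Geo986 Crest.Agent.R340.Peel596 Crest.Agent.R340.Step596
open Crest.Agent.R340.Peel3F924 (tC adm_tC tC_two Zn_C Lev triple_peel dd_prof_le cast_last
  cmp_ee_ee cmp_selfAdjoint)
open Crest.Agent.R340.Vac467 (IsRef isRef_of_Zn vac_scalar)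
open Crest.Agent.R340.Scal725 (cs prof prof_pos dd)
open Crest.Agent.R340.Defs150
open Crest.Agent.R340.Avg814 (G2 hm tt)
open Crest.Agent.R340.W0725 (YY ep)
open Crest.Agent.R340.Str735 (Cls)
open Crest.Agent.R340.StrR735 (DS)

/-! ### 1. the cross term of one peeling level -/

/-- **The cross term of the peeling step**, general profile, free number `eX` for the `X` term. -/
theorem cross_eX {Q : ℕ} (hQ : 2 ≤ Q) (Z : Submodule ℂ (Fk (Fin (Q + 1))))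
    (hN : ∀ ψ ∈ Z, TT Q (fun _ => 1) ψ ∈ Z) (hL : ∀ ψ ∈ Z, TT Q (fun j => (j : ℝ)) ψ ∈ Z)
    {α R : ℝ} (hα0 : 0 ≤ α) (hα2 : α ≤ 2) (hαR : α ≤ R) (s a : ℝ) (ha : 0 ≤ a)
    (F : ℕ → ℝ) {M : ℝ} (hM : 0 ≤ M) (hF : ∀ p < Q - 1, |dd F p| ≤ M * dd (prof α R) p)
    (X : Op (Fin (Q + 1))) {CG eX m : ℝ} (hCG : 0 ≤ CG) (hm : 20 ≤ m)
    (hG : RC2 Q Z CG m)
    (hX : ∀ ψ ∈ Z, ∀ φ ∈ Z,
      ‖⟪off Z (TT Q (kink (Q - 1)) ψ), off Z (X φ)⟫_ℂ‖ ≤ eX * (‖ψ‖ * ‖φ‖)) :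
    ∀ ψ ∈ Z, ∀ φ ∈ Z,
      ‖⟪d (Fin.last Q) (c (Fin.last Q) ψ) -
          Z.starProjection (d (Fin.last Q) (c (Fin.last Q) ψ)),
        Dop Q s a F X φ⟫_ℂ‖ ≤
      (a * (M * (CG * (59049 * dd (prof α R) Q))) + eX) * ‖ψ‖ * ‖φ‖ := by
  intro ψ hψ φ hφ
  have hR : 0 ≤ R := hα0.trans hαR
  have hT : ∀ f g : ℕ → ℝ, (∀ j ≤ Q, f j = g j) → TT Q f = TT Q g := fun f g h => TT_congr h
  rw [n_last_eq (by omega) ψ, ← off_apply, inner_off_left, ← inner_conj_symm, RCLike.norm_conj]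
  have hD : off Z (Dop Q s a F X φ) =
      -(((a : ℝ) : ℂ) • off Z (TT Q F φ)) - off Z (X φ) := by
    rw [PeelX596.Dop_ap, map_sub, map_sub, map_smul, map_smul, off_of_mem hφ, smul_zero, zero_sub]
  rw [hD, inner_sub_left, inner_neg_left]
  refine (norm_sub_le _ _).trans ?_
  rw [norm_neg]
  have hkk : Q - 1 = (Q - 2) + 1 := by omega
  -- the radial part
  have h1 : ‖⟪((a : ℝ) : ℂ) • off Z (TT Q F φ), off Z (TT Q (kink (Q - 1)) ψ)⟫_ℂ‖ ≤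
      a * (M * (CG * (59049 * dd (prof α R) Q))) * (‖ψ‖ * ‖φ‖) := by
    rw [inner_smul_left, norm_mul, Complex.conj_ofReal, Complex.norm_real,
      Real.norm_of_nonneg ha, mul_assoc]
    apply mul_le_mul_of_nonneg_left _ ha
    rw [off_eq_sum (TT Q) hT Z (hN φ hφ) (hL φ hφ) F, sum_inner]
    refine (norm_sum_le _ _).trans ?_
    have h2 : ∀ p ∈ range (Q - 1), ‖⟪((dd F p : ℝ) : ℂ) •
        off Z (TT Q (kink (p + 1)) φ), off Z (TT Q (kink (Q - 1)) ψ)⟫_ℂ‖ ≤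
        dd (prof α R) p * ((PSD716.dd Q p * √(PSD716.dd Q p)) *
          (1 + PSD716.DD Q p (Q - 2)) ^ (-m)) * (M * (CG * (‖ψ‖ * ‖φ‖))) := by
      intro p hp
      have hp' := mem_range.1 hp
      rw [inner_smul_left, norm_mul, Complex.conj_ofReal, Complex.norm_real, Real.norm_eq_abs]
      have h3 := hG φ hφ ψ hψ p hp' (Q - 2) (by omega)
      rw [← hkk] at h3
      have h4 : 0 ≤ CG * (PSD716.dd Q p * √(PSD716.dd Q p)) *
            (1 + PSD716.DD Q p (Q - 2)) ^ (-m) * (‖φ‖ * ‖ψ‖) := (norm_nonneg _).trans h3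
      calc |dd F p| * ‖⟪off Z (TT Q (kink (p + 1)) φ), off Z (TT Q (kink (Q - 1)) ψ)⟫_ℂ‖
          ≤ (M * dd (prof α R) p) * (CG * (PSD716.dd Q p * √(PSD716.dd Q p)) *
            (1 + PSD716.DD Q p (Q - 2)) ^ (-m) * (‖φ‖ * ‖ψ‖)) :=
            mul_le_mul (hF p hp') h3 (norm_nonneg _) ((abs_nonneg _).trans (hF p hp'))
        _ = _ := by ring
    refine (sum_le_sum h2).trans ?_
    rw [← sum_mul]
    have h4 := sum_peel hα0 hα2 hαR hQ hm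
    calc _ ≤ 59049 * dd (prof α R) Q * (M * (CG * (‖ψ‖ * ‖φ‖))) :=
          mul_le_mul_of_nonneg_right h4 (by positivity)
      _ = _ := by ring
  -- the `X` part
  have h5 : ‖⟪off Z (X φ), off Z (TT Q (kink (Q - 1)) ψ)⟫_ℂ‖ ≤ eX * (‖ψ‖ * ‖φ‖) := by
    rw [← inner_conj_symm, RCLike.norm_conj]
    exact hX ψ hψ φ hφ
  calc _ ≤ a * (M * (CG * (59049 * dd (prof α R) Q))) * (‖ψ‖ * ‖φ‖) +
        eX * (‖ψ‖ * ‖φ‖) := add_le_add h1 h5
    _ = _ := by ring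

/-! ### 2. the levels of the triple peel -/

theorem Dy_mono_exp {n n' Q : ℕ} {C : ℝ} {X : Op (Fin (Q + 1))} (h : Dy n Q C X) (hn : n' ≤ n) :
    Dy n' Q C X := ⟨h.1, h.2.mono_exp hn⟩

/-- error of the cross terms -/
noncomputable def eD (M K1 K3 A S : ℝ) (Q : ℕ) : ℝ :=
  3 * (M * (K1 * (59049 * dd (prof A S) (Q + 1)))) + 162 * K3 * (((Q : ℝ) + 1) ^ 4)⁻¹

/-- error of the commutators -/
noncomputable def eN (Q : ℕ) : ℝ := 512 * (((Q : ℝ) + 1) ^ 4)⁻¹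

/-- one level: round metric of flux `Q + 3` on the orbitals `≤ Q'`, `Q' + r = Q + 3`, `r ≤ 2` -/
theorem lev_eX {Q Q' r n nW nS : ℕ} (hr : r ≤ 2) (hQ1 : 1 ≤ Q) (hQ' : Q' + r = Q + 3)
    {A S : ℝ} (hA0 : 0 ≤ A) (hA2 : A ≤ 2) (hAS : A ≤ S) (s : ℝ)
    (F : ℕ → ℝ) {M : ℝ} (hM : 0 ≤ M) (hF : ∀ p < Q + 2, |dd F p| ≤ M * dd (prof A S) p)
    {X : Op (Fin (Q' + 1))} {K1 K3 κ : ℝ} (hRC : RC K1) (hRZ : RZ nW K3) (hGZ : GZ κ)
    (hnW : nW ≤ nS) (hnS : 8 ≤ nS) (hX : Dy nS Q' 1 X) :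
    Lev (nu0 (Q + 3)) Q' n s 3 F X κ (eD M K1 K3 A S Q) (eN Q) := by
  have e := Zn_C Q' r n (by omega)
  rw [hQ'] at e
  have hQQ : Q + 1 ≤ Q' := by omega
  have hQQr : (Q : ℝ) + 1 ≤ Q' := by exact_mod_cast hQQ
  refine ⟨?_, ?_, ?_⟩
  · rw [← e]
    obtain ⟨q, rfl⟩ : ∃ q, Q' = q + 1 := ⟨Q' - 1, by omega⟩
    exact hGZ.2 _ (adm_tC r) (tC_two hr) q n
  · have h := (hX.2.mono_exp (show 2 * 4 ≤ nS by omega)).norm_lie_c_le (Fin.last Q')
    rw [cast_last, ← norm_neg, neg_sub] at h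
    refine h.trans ?_
    unfold eN
    have h1 : (((Q' : ℝ) + 1) ^ 4)⁻¹ ≤ (((Q : ℝ) + 1) ^ 4)⁻¹ := by
      apply inv_anti₀ (by positivity)
      apply pow_le_pow_left₀ (by positivity)
      linarith
    rw [mul_one, div_eq_mul_inv]
    linarith
  · rw [← e]
    have h := cross_eX (show 2 ≤ Q' by omega) (Zn (nuT (tC r) Q') Q' n)
      (fun ψ hψ => TT_one_mem_Zn hψ) (fun ψ hψ => TT_lin_mem_Zn hψ) hA0 hA2 hAS s 3 (by norm_num)
      F hM (fun p hp => hF p (by omega)) X (eX := 162 * K3 * (((Q' : ℝ) + 1) ^ 4)⁻¹) (m := 20)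
      hRC.1 le_rfl (hRC.2 Q' (by omega) _ (adm_tC r) n)
      (fun ψ hψ φ hφ => RX4735.RX4 hRZ (by omega) (adm_tC r) n (Dy_mono_exp hX hnW) hψ hφ)
    intro ψ hψ φ hφ
    refine (h ψ hψ φ hφ).trans ?_
    apply mul_le_mul_of_nonneg_right _ (norm_nonneg _)
    apply mul_le_mul_of_nonneg_right _ (norm_nonneg _)
    unfold eD
    apply add_le_add
    · have h1 := dd_prof_le (α := A) (R := S) hA0 hAS hQQ
      have h2 := hRC.1
      gcongr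
    · have h1 : (((Q' : ℝ) + 1) ^ 4)⁻¹ ≤ (((Q : ℝ) + 1) ^ 4)⁻¹ := by
        apply inv_anti₀ (by positivity)
        apply pow_le_pow_left₀ (by positivity)
        linarith
      have h2 := hRZ.1
      gcongr

/-! ### 3. the vacuum scalar -/

/-- the scalar `s1` at the end of the path against the scalars of flux `Q + 3` -/
theorem vac_link {Q n0 nW nS : ℕ} (hQ1 : 1 ≤ Q) (hn1 : 1 ≤ n0) (hn0 : Q = 3 * (n0 - 1))
    {Φ : Fk (Fin (Q + 1))} (hΦ : IsRef (nu0 Q) Q n0 Φ)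
    {Φ' : Fk (Fin (Q + 3 + 1))} (hΦ' : IsRef (nu0 (Q + 3)) (Q + 3) (n0 + 1) Φ')
    {A S : ℝ} (hA0 : 0 ≤ A) (hA2 : A ≤ 2) (hAS : A ≤ S)
    (F : ℕ → ℝ) {M : ℝ} (hM : 0 ≤ M) (hF : ∀ p < Q + 2, |dd F p| ≤ M * dd (prof A S) p)
    {X : Op (Fin (Q + 3 + 1))} {K1 K3 κ : ℝ} (hRC : RC K1) (hRZ : RZ nW K3) (hGZ : GZ κ)
    (hnW : nW ≤ nS) (hnS : 8 ≤ nS) (hX : Dy nS (Q + 3) 1 X) :
    |(3 * cs F (Q + 3) + (inner ℂ Φ' (X Φ')).re) - 3 * F (Q + 3) -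
      s1 Q Φ F (cmp (ee (Nat.le_add_right Q 3)) X)| ≤ 3 * (eD M K1 K3 A S Q + eN Q) := by
  obtain ⟨u, hu1, _, hu3, hu4⟩ := exists_vac (flow_Gm 3 Q) hΦ.ne 1
  have hu : u ∈ Zn (nu0 (Q + 3)) Q n0 := by
    rw [← Zn_A, ← MZ_A, Zn_vac_eq_span hn0 hΦ, hu3]
    exact Submodule.mem_span_singleton_self _
  have hL := lev_eX (r := 0) (n := n0 + 1) (by norm_num) hQ1 rfl hA0 hA2 hAS 0 F hM hF hRC hRZ hGZ
    hnW hnS hX
  have h := vac_scalar hn1 hn0 hΦ'.mem_Zn hΦ'.unit hu hu1 0 3 F X hL.comm hL.cross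
  unfold s1
  rw [← hu4, ← hu4]
  exact h

/-! ### 4. the step -/

/-- the crude error of one step -/
noncomputable def crudeS (K1 K3 KR KT KX κ a A C e M : ℝ) (S Q : ℕ) : ℝ :=
  12 * eH K1 a S (C * (3 * e / ((Q + 3 : ℕ) : ℝ) ^ 2)) Q +
  2 * (3 * C * (560 * K3 * KT * (S : ℝ) ^ A * (Q : ℝ) ^ (-(A + 3 / 2))) +
    48 * KR * (KX / ((Q : ℝ) + 1) ^ 2) / (Q : ℝ) ^ 2) +
  2 * (3 * eH K1 a S (C * (e / ((Q + 3 : ℕ) : ℝ))) Q) +
  (3 + 6 / κ) * (eD M K1 K3 A S Q + eN Q)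

/-- `cmp` of the identity embedding -/
theorem cmp_refl {Q : ℕ} (X : Op (Fin (Q + 1))) : cmp (ee (le_refl Q)) X = X := by
  refine Op.ext fun ψ => ?_
  refine ext_inner_left ℂ fun φ => ?_
  have hid : ∀ ψ : Fk (Fin (Q + 1)), emb (ee (le_refl Q)) ψ = ψ := by
    intro ψ
    have : (emb (ee (le_refl Q)) : Fk (Fin (Q + 1)) →L[ℂ] Fk (Fin (Q + 1))) =
        ContinuousLinearMap.id ℂ _ := by
      refine ContinuousLinearMap.ext fun ψ => ?_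
      rw [fk_eq_sum ψ, map_sum, map_sum]
      refine Finset.sum_congr rfl fun S _ => ?_
      rw [map_smul, map_smul, emb_ket, ContinuousLinearMap.id_apply]
      congr 2
      ext i
      simp only [Finset.mem_map, RelEmbedding.coe_toEmbedding]
      constructor
      · rintro ⟨j, hj, rfl⟩
        have : (ee (le_refl Q) j : Fin (Q + 1)) = j := Fin.ext rfl
        rw [this]; exact hj
      · intro hi
        exact ⟨i, hi, Fin.ext rfl⟩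
    rw [this]; rfl
  rw [inner_cmp, hid, hid]

/-- **STEP of the strong pass** (735's `hstep`), all analytic inputs are the Props of Defs_150 and
the three facts on the profile `F = C prof A S - Ψ`. -/
theorem step_strong {nW nS : ℕ} {a A R0 CW θ0 K1 K3 KR κ KT KX R C e M : ℝ} (hRC : RC K1)
    (hRZ : RZ nW K3) (hRX : RX nW KR) (hGZ : GZ κ) (hTZ : TZ nW A KT) (hTX : TX nS nW KX)
    (hWP : WP nW a R0 CW θ0) (hCW : 0 ≤ CW) (hθ0 : 0 ≤ θ0) (hKT : 0 < KT) (hKX : 0 < KX)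
    (ha0 : 0 < a) (ha1 : a < 1) (hA : 1 < A) (hA2 : A ≤ 3 / 2) {S : ℕ} (hS2 : 2 ≤ S)
    (hR : R0 ≤ R) (hR0 : 0 ≤ R) (haR : a < R + 1) (hRS : R ≤ S) (hC : 0 < C) (he0 : 0 ≤ e)
    (he : 4 * CW * KT * (W0725.C3 a A * (S * prof a R S)) + 2 * CW * KX / C ≤ e)
    (hnW : nW ≤ nS) (hnS : 8 ≤ nS) (hM : 0 ≤ M)
    {Q n : ℕ} (hQ3 : 3 ∣ Q) (hQ : 1 ≤ Q) (hn : 3 * n ≤ Q)
    {X : Op (Fin (Q + 3 + 1))} (hX : Dy nS (Q + 3) 1 X)
    {Φ : Fk (Fin (Q + 1))} (hΦ : IsVac Q Φ) {Φ' : Fk (Fin (Q + 3 + 1))} (hΦ' : IsVac (Q + 3) Φ')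
    {Ψ : ℕ → ℝ} (hΨ : Cls (prof a S) (C * (e / ((Q + 3 : ℕ) : ℝ))) (Q + 3) Ψ)
    (hF : ∀ p < Q + 2, |dd (fun j => C * prof A S j - Ψ j) p| ≤ M * dd (prof A S) p)
    (hf1 : C * prof A S (Q + 3) - Ψ (Q + 3) ≤ C * prof A S (Q + 2) - Ψ (Q + 2))
    (hf2 : C * prof A S (Q + 2) - Ψ (Q + 2) ≤ C * prof A S (Q + 1) - Ψ (Q + 1)) :
    ∃ eps : ℕ → ℝ, Cls (prof a S) (C * (3 * e / ((Q + 3 : ℕ) : ℝ) ^ 2)) Q eps ∧
      ∀ m1 m2,
        LB (nu0 Q) Q n (DS (fun j => C * prof A S j - (Ψ j + eps j))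
          (inner ℂ Φ (cmp (ee (Nat.le_add_right Q 3)) X Φ)).re Q
          (cmp (ee (Nat.le_add_right Q 3)) X)) m1 →
        LB (nu0 Q) Q (n + 1) (DS (fun j => C * prof A S j - (Ψ j + eps j))
          (inner ℂ Φ (cmp (ee (Nat.le_add_right Q 3)) X Φ)).re Q
          (cmp (ee (Nat.le_add_right Q 3)) X)) m2 →
        LB (nu0 (Q + 3)) (Q + 3) (n + 1) (DS (fun j => C * prof A S j - Ψ j)
          (inner ℂ Φ' (X Φ')).re (Q + 3) X)
          (min (m1 - 3 * ((C * prof A S (Q + 1) - Ψ (Q + 1)) -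
              (C * prof A S (Q + 3) - Ψ (Q + 3))))
            (m2 + 3 * (C * prof A S (Q + 3) - Ψ (Q + 3))) -
              crudeS K1 K3 KR KT KX κ a A C e M S Q) := by
  have hS1 : 1 ≤ S := by omega
  have hSr : (2 : ℝ) ≤ S := by exact_mod_cast hS2
  have hn0 : Q = 3 * (Q / 3 + 1 - 1) := by omega
  have hn1 : 1 ≤ Q / 3 + 1 := by omega
  have hRf : IsRef (nu0 Q) Q (Q / 3 + 1) Φ := isRef_of_Zn (posM_nu0 Q) hn0 hΦ.1 hΦ.2
  have hRf' : IsRef (nu0 (Q + 3)) (Q + 3) (Q / 3 + 1 + 1) Φ' := by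
    refine isRef_of_Zn (posM_nu0 (Q + 3)) (by omega) ?_ hΦ'.2
    have h := hΦ'.1
    rwa [show (Q + 3) / 3 + 1 = Q / 3 + 1 + 1 by omega] at h
  have hXQ : Dy nS Q 1 (cmp (ee (Nat.le_add_right Q 3)) X) := hX.cmp _
  refine ⟨ep a A Q S R S (3 * C * CW * (KT / ((Q : ℝ) + 1) ^ 2)) (CW * (KX / ((Q : ℝ) + 1) ^ 2)),
    W0725.Cls_ep' ha0 ha1 hA hQ hS1 hR0 haR hRS hC hCW hKT.le hKX.le he, fun m1 m2 hA1 hB1 => ?_⟩
  have hEY : ∀ T : G2 → Op (Fin (Q + 1)), Continuous T →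
      (∀ g, DyG nW Q (KT / ((Q : ℝ) + 1) ^ 2 * (1 + Q * tt g / S) ^ (-A)) g (T g)) →
      ∀ YX : Op (Fin (Q + 1)), Dy nW Q (KX / ((Q : ℝ) + 1) ^ 2) YX →
      ∀ θ' ∈ Set.Ioc (0 : ℝ) 1, ∀ k, ∀ ψ ∈ Zn (nuT (tA θ') Q) Q k, ‖ψ‖ = 1 →
        |cr Q k θ' (YY C Q T YX).ap ψ| ≤ W0725.eYc K3 KR KT KX A C Q S :=
    fun T hTc hT YX hYX θ' hθ' k ψ hψ h1 =>
      W0725.abs_cr_YY_le hRZ hRX hQ hS1 (by linarith) hA2 hKT.le hC.le hTc hT hYX hθ' k hψ h1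
  have mvA := move_full hRC hTZ hTX hWP hCW hθ0 hKT hKX ha0 ha1 hA hS2 hR hR0 haR hRS hC he0 he hQ
    hn1 hn0 (n := n) (by omega) hRf hΨ hXQ hEY m1 hA1
  have mvB := move_full hRC hTZ hTX hWP hCW hθ0 hKT hKX ha0 ha1 hA hS2 hR hR0 haR hRS hC he0 he hQ
    hn1 hn0 (n := n + 1) (by omega) hRf hΨ hXQ hEY m2 hB1
  -- the three levels
  have hAS : A ≤ S := by linarith
  set F : ℕ → ℝ := fun j => C * prof A S j - Ψ j with hFdef
  set s : ℝ := 3 * cs F (Q + 3) + (inner ℂ Φ' (X Φ')).re with hs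
  have lev : ∀ r ≤ 2, ∀ Q' (h : Q' ≤ Q + 3), Q' + r = Q + 3 →
      Lev (nu0 (Q + 3)) Q' (n + 1) s 3 F (cmp (ee h) X) κ (eD M K1 K3 A S Q) (eN Q) :=
    fun r hr Q' h hQ' => lev_eX hr hQ hQ' (by linarith) (by linarith) hAS s F hM hF hRC hRZ hGZ
      hnW hnS (hX.cmp h)
  have hvl := vac_link hQ hn1 hn0 hRf hRf' (A := A) (S := S) (by linarith) (by linarith) hAS F hM hF
    hRC hRZ hGZ hnW hnS hX
  rw [← hs] at hvl
  obtain ⟨q, rfl⟩ : ∃ q, Q = q + 2 := ⟨Q - 2, by omega⟩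
  have hδ : 0 ≤ eD M K1 K3 A S (q + 2) := by
    have h1 := hRC.1
    have h2 := hRZ.1
    have h3 : 0 ≤ dd (prof A S) (q + 2 + 1) :=
      Scal725.dd_prof_nonneg (by linarith) (by linarith) (by linarith) _
    unfold eD
    positivity
  have l0 := lev 0 (by omega) (q + 2 + 3) le_rfl rfl
  rw [cmp_refl] at l0
  have tp := triple_peel (posM_nu0 (q + 5)) s (s1 (q + 2) Φ F
      (cmp (ee (Nat.le_add_right (q + 2) 3)) X)) 3 (by norm_num) F hf1 hf2 X hX.1 κ _ _ _ _ hGZ.1 hδ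
    l0 (lev 1 (by omega) (q + 4) (by omega) (by omega))
    (lev 2 (by omega) (q + 3) (by omega) (by omega)) mvA mvB
  have hκ := hGZ.1
  refine LB.mono tp ?_
  set E0 : ℝ := eD M K1 K3 A S (q + 2) + eN (q + 2) with hE0
  have hv := (abs_le.1 hvl).1
  set Em : ℝ := 12 * eH K1 a S (C * (3 * e / ((q + 2 + 3 : ℕ) : ℝ) ^ 2)) (q + 2) +
    2 * W0725.eYc K3 KR KT KX A C (q + 2) S +
    2 * (3 * eH K1 a S (C * (e / ((q + 2 + 3 : ℕ) : ℝ))) (q + 2)) with hEm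
  have hcr : crudeS K1 K3 KR KT KX κ a A C e M S (q + 2) = Em + (3 + 6 / κ) * E0 := by
    rw [hEm, hE0]
    unfold crudeS W0725.eYc
    ring
  have e6 : (3 + 6 / κ) * E0 = 3 * E0 + 3 * (2 * (E0 / κ)) := by
    field_simp
    ring
  rw [hcr, e6]
  have hF1 : C * prof A S (q + 2 + 1) - Ψ (q + 2 + 1) = F (q + 3) := rfl
  have hF3 : C * prof A S (q + 2 + 3) - Ψ (q + 2 + 3) = F (q + 5) := rfl
  rw [hF1, hF3]
  have i1 : min (m1 - 3 * (F (q + 3) - F (q + 5))) (m2 + 3 * F (q + 5)) ≤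
      m1 - 3 * (F (q + 3) - F (q + 5)) := min_le_left _ _
  have i2 : min (m1 - 3 * (F (q + 3) - F (q + 5))) (m2 + 3 * F (q + 5)) ≤
      m2 + 3 * F (q + 5) := min_le_right _ _
  have hv' : -(3 * E0) ≤ s - 3 * F (q + 5) -
      s1 (q + 2) Φ F (cmp (ee (Nat.le_add_right (q + 2) 3)) X) := hv
  have i3 : min (m1 - 3 * (F (q + 3) - F (q + 5))) (m2 + 3 * F (q + 5)) - Em - 3 * E0 ≤
      min (m1 - Em + (s - 3 * F (q + 5) -
          s1 (q + 2) Φ F (cmp (ee (Nat.le_add_right (q + 2) 3)) X)) - 3 * (F (q + 3) - F (q + 5)))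
        (m2 - Em + (s - s1 (q + 2) Φ F (cmp (ee (Nat.le_add_right (q + 2) 3)) X))) :=
    le_min (by linarith) (by linarith)
  linarith

end Crest.Agent.R340.Str875
end

-- ▼ part R340/SPc_735
section

/-!
# R340 / S0532: strong pass, `hcr` for 875's crude error (helper735)
-/

set_option autoImplicit false
set_option linter.unusedSectionVars false

namespace Crest.Agent.R340.SP735

open Finset
open Crest.Agent.R340.Scal725
open Crest.Agent.R340.W0725 (eC C3 C3_pos eYc)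
open Crest.Agent.R340.Str875 (eH eD eN crudeS)
open Crest.Agent.R340.RecE735

variable {a A R CW KT KX : ℝ}

/-- the majorant of `crudeS / C` -/
noncomputable def gC (a A R CW KT KX K1 K3 KR κ : ℝ) (S : ℝ) (Q : ℕ) : ℝ :=
  18 * ((2952 * K1 / (1 - a)) * (c1 a A R CW KT KX * S ^ (1 - a) / Q) *
      ((S + Q) * prof a S Q / ((Q : ℝ) + 2) ^ 2)) +
    (2 * ((1680 * K3 * KT) * S ^ A * (Q : ℝ) ^ (-(A + 3 / 2))) +
      (2 * ((48 * KR * KX) * S ^ 0 / (Q : ℝ) ^ 4) +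
        ((3 + 6 / κ) * ((354294 * K1) * dd (prof A S) Q) +
          (3 + 6 / κ) * ((162 * K3 + 512) * S ^ 0 / (Q : ℝ) ^ 4))))

theorem Ab_gC (ha0 : 0 < a) (ha1 : a < 1) (hA : 1 < A) (_hA2 : A ≤ 3 / 2) (hAa : A < 1 + a)
    (hR : 0 ≤ R) (hCW : 0 ≤ CW) (hKT : 0 ≤ KT) (hKX : 0 ≤ KX) {K1 K3 KR κ : ℝ} (hK1 : 0 ≤ K1)
    (hκ : 0 < κ) : Ab A (gC a A R CW KT KX K1 K3 KR κ) := by
  have h1a : 0 < 1 - a := by linarith
  have hc1 := c1_nonneg (R := R) ha0 ha1 hA hR hCW hKT hKX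
  have hk : 0 ≤ 3 + 6 / κ := by positivity
  have t1 := (ab_crs (A := A) (a := a) (2952 * K1 / (1 - a)) (c1 a A R CW KT KX) (by positivity)
    hc1 ha0.le ha1 hA.le hAa).smul (show (0 : ℝ) ≤ 18 by norm_num)
  have t2 := (ab_pow (A := A) (p := A) (q := A + 3 / 2) (1680 * K3 * KT) hA.le (by linarith)
    (by linarith)).smul (show (0 : ℝ) ≤ 2 by norm_num)
  have t3 := (ab_npow (A := A) (p := 0) (q := 4) (48 * KR * KX) hA.le
    (by push_cast; linarith) (by norm_num)).smul (show (0 : ℝ) ≤ 2 by norm_num)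
  have t4 := (ab_dd (A := A) (M := 354294 * K1) (by positivity) hA.le (by linarith)).smul hk
  have t5 := (ab_npow (A := A) (p := 0) (q := 4) (162 * K3 + 512) hA.le
    (by push_cast; linarith) (by norm_num)).smul hk
  exact t1.add (t2.add (t3.add (t4.add t5)))

theorem eH_first_le {K1 S M : ℝ} {Q : ℕ} (ha1 : a < 1) (hK1 : 0 ≤ K1) (hM : 0 ≤ M)
    (hS : 0 ≤ S) (haS : a < S + 1) :
    eH K1 a S (M * (3 / ((Q + 3 : ℕ) : ℝ))) Q ≤ eH K1 a S M Q := by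
  have h1a : 0 < 1 - a := by linarith
  have hp := (prof_pos hS haS Q).le
  have h3 : (3 : ℝ) / ((Q + 3 : ℕ) : ℝ) ≤ 1 := by
    rw [div_le_one (by positivity)]
    push_cast
    linarith [(Nat.cast_nonneg Q : (0 : ℝ) ≤ Q)]
  have h4 : M * (3 / ((Q + 3 : ℕ) : ℝ)) ≤ M := by
    have := mul_le_mul_of_nonneg_left h3 hM
    linarith
  unfold eH
  gcongr

/-- **the crude error is at most `C gC`** -/
theorem crudeS_le (ha0 : 0 < a) (ha1 : a < 1) (hA : 1 < A) (hR : 0 ≤ R) (hCW : 0 ≤ CW)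
    (hKT : 0 ≤ KT) (hKX : 0 ≤ KX) {K1 K3 KR κ C : ℝ} (hK1 : 0 ≤ K1) (hK3 : 0 ≤ K3)
    (hKR : 0 ≤ KR) (hκ : 0 < κ) (hC : 1 ≤ C) {S Q : ℕ} (hSA : A < S) (hQ : 1 ≤ Q) :
    crudeS K1 K3 KR KT KX κ a A C (eS a A R CW KT KX S) (2 * C) S Q ≤
      C * gC a A R CW KT KX K1 K3 KR κ S Q := by
  have hS0 : (0 : ℝ) < S := by linarith
  have hS : 1 ≤ S := by
    have : 0 < S := by exact_mod_cast hS0
    omega
  have hQ0 : (0 : ℝ) < Q := by exact_mod_cast hQ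
  have hC0 : 0 ≤ C := by linarith
  have he0 := eS_nonneg (R := R) ha0 ha1 hA hR hCW hKT hKX S
  set e := eS a A R CW KT KX S with hedef
  -- the two ring terms
  have hT : eH K1 a S (C * (e / ((Q + 3 : ℕ) : ℝ))) Q ≤
      C * ((2952 * K1 / (1 - a)) * (c1 a A R CW KT KX * (S : ℝ) ^ (1 - a) / Q) * cz a S Q) :=
    eT_le ha0 ha1 hA hR hCW hKT hKX hS hQ hC0 hK1
  have hW : eH K1 a S (C * (3 * e / ((Q + 3 : ℕ) : ℝ) ^ 2)) Q ≤
      eH K1 a S (C * (e / ((Q + 3 : ℕ) : ℝ))) Q := by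
    have h := eH_first_le (a := a) (K1 := K1) (S := (S : ℝ)) (Q := Q)
      (M := C * (e / ((Q + 3 : ℕ) : ℝ))) ha1 hK1 (by positivity) hS0.le (by linarith)
    have e1 : C * (3 * e / ((Q + 3 : ℕ) : ℝ) ^ 2) =
        C * (e / ((Q + 3 : ℕ) : ℝ)) * (3 / ((Q + 3 : ℕ) : ℝ)) := by
      field_simp
    rw [e1]
    exact h
  -- the `Y` term
  have hY := eY_le (A := A) (KT := KT) (KZ := K3) (KRX := KR) (C := C) hKR hKX hC (S := S) hQ
  unfold eYc at hY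
  -- the peeling terms
  have hdd : dd (prof A S) (Q + 1) ≤ dd (prof A S) Q :=
    Scal725.dd_prof_antitone hS0.le (by linarith) (by linarith) (Nat.le_succ Q)
  have hd0 := Scal725.dd_prof_nonneg hS0.le (by linarith : (0 : ℝ) ≤ A) (by linarith) (Q + 1)
  have h4 : (((Q : ℝ) + 1) ^ 4)⁻¹ ≤ 1 / (Q : ℝ) ^ 4 := by
    rw [← one_div]
    apply div_le_div_of_nonneg_left (by norm_num) (by positivity)
    apply pow_le_pow_left₀ hQ0.le
    linarith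
  have hP : eD (2 * C) K1 K3 A S Q + eN Q ≤
      C * ((354294 * K1) * dd (prof A S) Q + (162 * K3 + 512) * (S : ℝ) ^ 0 / (Q : ℝ) ^ 4) := by
    unfold eD eN
    have g1 : 3 * (2 * C * (K1 * (59049 * dd (prof A S) (Q + 1)))) ≤
        C * ((354294 * K1) * dd (prof A S) Q) := by
      have : 0 ≤ C * (354294 * K1) := by positivity
      have := mul_le_mul_of_nonneg_left hdd this
      linarith
    have g2 : 162 * K3 * (((Q : ℝ) + 1) ^ 4)⁻¹ + 512 * (((Q : ℝ) + 1) ^ 4)⁻¹ ≤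
        1 * ((162 * K3 + 512) * (S : ℝ) ^ 0 / (Q : ℝ) ^ 4) := by
      have h5 : 0 ≤ 162 * K3 + 512 := by positivity
      have := mul_le_mul_of_nonneg_left h4 h5
      rw [pow_zero, mul_one, one_mul]
      calc _ = (162 * K3 + 512) * (((Q : ℝ) + 1) ^ 4)⁻¹ := by ring
        _ ≤ (162 * K3 + 512) * (1 / (Q : ℝ) ^ 4) := this
        _ = _ := by ring
    have g3 : 1 * ((162 * K3 + 512) * (S : ℝ) ^ 0 / (Q : ℝ) ^ 4) ≤
        C * ((162 * K3 + 512) * (S : ℝ) ^ 0 / (Q : ℝ) ^ 4) := by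
      apply mul_le_mul_of_nonneg_right hC
      positivity
    linarith
  have hk : 0 ≤ 3 + 6 / κ := by positivity
  have hP' := mul_le_mul_of_nonneg_left hP hk
  unfold crudeS gC
  unfold cz at hT
  linarith

/-- **hcr** -/
theorem hcr (ha0 : 0 < a) (ha1 : a < 1) (hA : 1 < A) (hA2 : A ≤ 3 / 2) (hAa : A < 1 + a)
    (hR : 0 ≤ R) (hCW : 0 ≤ CW)
    (hKT : 0 ≤ KT) (hKX : 0 ≤ KX) {K1 K3 KR κ : ℝ} (hK1 : 0 ≤ K1) (hK3 : 0 ≤ K3)
    (hKR : 0 ≤ KR) (hκ : 0 < κ) :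
    ∃ S0 : ℝ, ∀ S : ℕ, S0 ≤ S → ∀ C : ℝ, 1 ≤ C → ∀ Q : ℕ, (S : ℝ) ≤ 100 * ((Q + 3 : ℕ) : ℝ) →
      crudeS K1 K3 KR KT KX κ a A C (eS a A R CW KT KX S) (2 * C) S Q ≤
        C * (A * prof A S (Q + 3) / (S + Q + 3)) := by
  obtain ⟨S0, h⟩ := (Ab_gC (K1 := K1) (K3 := K3) (KR := KR) (κ := κ) ha0 ha1 hA hA2 hAa hR hCW hKT
    hKX hK1 hκ).margin hA.le (by linarith)
  refine ⟨max S0 600, fun S hS C hC Q hQ => ?_⟩
  have hS6 : (600 : ℝ) ≤ S := (le_max_right _ _).trans hS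
  have hQ1 : 1 ≤ Q := by
    have : (1 : ℝ) ≤ Q := by
      push_cast at hQ
      linarith
    exact_mod_cast this
  refine (crudeS_le ha0 ha1 hA hR hCW hKT hKX hK1 hK3 hKR hκ hC (by linarith) hQ1).trans ?_
  exact mul_le_mul_of_nonneg_left (h S ((le_max_left _ _).trans hS) Q hQ) (by linarith)

end Crest.Agent.R340.SP735
end

-- ▼ part R340/Vac6_467
section

/-!
# Adapters for the vacuum (helper467, R340, O5 part 6)

`IsVac` of `Defs_150`: existence, independence of the choice; the line of zero modes at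
`Q = 3 (n-1)` in every metric (`Zn_eq_span`, `inner_unique`), in particular along the path.
-/

set_option autoImplicit false
open scoped InnerProductSpace ComplexConjugate

namespace Crest.Agent.R340.Vac467

open Finset Fock649 Geo986 GG467 Emb596 Peel596 Step596 Crest.MathPhysics.Laughlin
open Br320 (wM Bp HH toFk sector)
open Defs150 (IsVac)

variable {Q : ℕ}



/-- expectation values on the line do not depend on the unit vector -/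
theorem inner_unique {ν : ℕ → ℝ} (hν : PosM ν Q) {n : ℕ} (hn : Q = 3 * (n - 1))
    {Φ Φ' : Fk (Fin (Q + 1))} (h : Φ ∈ Zn ν Q n) (h1 : ‖Φ‖ = 1) (h' : Φ' ∈ Zn ν Q n)
    (h1' : ‖Φ'‖ = 1) (T : Fk (Fin (Q + 1)) →L[ℂ] Fk (Fin (Q + 1))) :
    (inner ℂ Φ' (T Φ') : ℂ) = inner ℂ Φ (T Φ) := by
  have h3 := (isRef_of_Zn hν hn h h1).span hν hn h'
  set a := (inner ℂ Φ Φ' : ℂ)
  have h4 : ‖a‖ = 1 := by
    have h5 := congrArg norm h3
    rw [norm_smul, h1, h1', mul_one] at h5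
    exact h5.symm
  rw [h3, map_smul, inner_smul_left, inner_smul_right, ← mul_assoc,
    ← Complex.normSq_eq_conj_mul_self, Complex.normSq_eq_norm_sq, h4]
  simp

theorem isVac_Om (Q : ℕ) : IsVac Q (Om Q) := ⟨Om_mem_Zn Q, norm_Om Q⟩


theorem IsVac.inner_eq {Q : ℕ} (h3 : 3 ∣ Q) {Ω Ω' : Fk (Fin (Q + 1))} (h : IsVac Q Ω)
    (h' : IsVac Q Ω') (T : Fk (Fin (Q + 1)) →L[ℂ] Fk (Fin (Q + 1))) :
    (inner ℂ Ω' (T Ω') : ℂ) = inner ℂ Ω (T Ω) :=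
  inner_unique (posM_nu0 Q) (by omega) h.1 h.2 h'.1 h'.2 T

/-- every vacuum may be replaced by `Om Q` -/
theorem IsVac.inner_Om {Q : ℕ} (h3 : 3 ∣ Q) {Ω : Fk (Fin (Q + 1))} (h : IsVac Q Ω)
    (T : Fk (Fin (Q + 1)) →L[ℂ] Fk (Fin (Q + 1))) :
    (inner ℂ Ω (T Ω) : ℂ) = inner ℂ (Om Q) (T (Om Q)) :=
  IsVac.inner_eq h3 (isVac_Om Q) h T





/-- the vacuum line (`hvac` of 735's `strong_red`) -/
theorem IsVac.LB {Q : ℕ} (h3 : 3 ∣ Q) {Ω : Fk (Fin (Q + 1))} (h : IsVac Q Ω) {n : ℕ}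
    (hn : Q + 3 = 3 * n) (a : ℝ) (F : ℕ → ℝ) (X : Op (Fin (Q + 1))) :
    Peel596.LB (nu0 Q) Q n (Dop Q (a * Scal725.cs F Q + (⟪Ω, X Ω⟫_ℂ).re) a F X) 0 := by
  have e : n = Q / 3 + 1 := by omega
  subst e
  exact LB_vac (by omega) (by omega) h.1 h.2 a F X



end Crest.Agent.R340.Vac467
end

-- ▼ part R340/SP_735

/-!
# R340 / S0532: the strong pass `Defs150.SP` (helper735)

`SP_of` : from (RC), (RX), (RZ), (GZ), (TZ), (TX) and the weak pass `WP`.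
-/

set_option autoImplicit false
set_option linter.unusedSectionVars false

open scoped InnerProductSpace

namespace Crest.Agent.R340.SP735

open Finset
open Crest.Agent.R340.Fock649 Crest.Agent.R340.Emb596 Crest.Agent.R340.Geo986
  Crest.Agent.R340.Peel596 Crest.Agent.R340.Step596
open Crest.Agent.R340.Scal725
open Crest.Agent.R340.Defs150
open Crest.Agent.R340.Str735 (Cls Cls.zero)
open Crest.Agent.R340.StrR735 (DS strong_red base_small)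
open Crest.Agent.R340.Hstep596 (fam fam_of_le fam_top fam_cmp fam_star norm_fam_le fam_DY)
open Crest.Agent.R340.Vac467 (Om isVac_Om)
open Crest.Agent.R340.Str875 (crudeS step_strong)
open Crest.Agent.R340.RecE735 (exists_rpow_le)

/-- `Dop` with the constant inside the profile -/
theorem Dop_smul_prof (Q : ℕ) (s C : ℝ) (f : ℕ → ℝ) (X : Op (Fin (Q + 1))) :
    Dop Q s (3 * C) f X = Dop Q s 3 (fun j => C * f j) X := by
  unfold Dop
  congr 2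
  have e : (Matrix.diagonal fun j : Fin (Q + 1) => (((C * f j : ℝ)) : ℂ)) =
      ((C : ℝ) : ℂ) • Matrix.diagonal fun j : Fin (Q + 1) => ((f j : ℝ) : ℂ) := by
    rw [← Matrix.diagonal_smul]
    congr 1
    funext j
    rw [Pi.smul_apply, smul_eq_mul, Complex.ofReal_mul]
  rw [e, dG_smul, smul_smul]
  congr 1
  push_cast
  ring

theorem DS_eq (Q : ℕ) (x C : ℝ) (f : ℕ → ℝ) (X : Op (Fin (Q + 1))) :
    DS (fun j => C * f j) x Q X = Dop Q (3 * C * cs f Q + x) (3 * C) f X := by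
  rw [Dop_smul_prof]
  unfold DS
  congr 1
  rw [cs_smul]
  ring

theorem abs_vac_le {Q : ℕ} (X : Op (Fin (Q + 1))) {B : ℝ} (hX : ‖X‖ ≤ B) :
    |(⟪Om Q, X (Om Q)⟫_ℂ).re| ≤ B := by
  have h := Weak716.re_inner_le_of_norm hX (Om Q)
  rw [Vac467.norm_Om, one_pow, mul_one] at h
  exact h

theorem SP_of {nW nS : ℕ} {a A R0 CW θ0 K1 K3 KR κ KT KX : ℝ} (hRC : RC K1) (hRX : RX nW KR)
    (hRZ : RZ nW K3) (hGZ : GZ κ) (hTZ' : TZ nW A KT) (hTX' : TX nS nW KX)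
    (hWP : WP nW a R0 CW θ0) (hR0 : 0 ≤ R0) (hCW : 0 ≤ CW) (hθ0 : 0 ≤ θ0)
    (ha0 : 0 < a) (ha1 : a < 1) (hA : 1 < A) (hA2 : A ≤ 3 / 2) (hAa : A < 1 + a)
    (hnW : nW ≤ nS) (hnS : 8 ≤ nS) :
    ∃ S : ℕ, A < (S : ℝ) + 1 ∧ ∀ C : ℝ, 40 ≤ C → SP nS A S C := by
  -- positive constants
  have hTZ : TZ nW A (KT + 1) := W0725.TZ.mono hTZ' (by linarith)
  have hTX : TX nS nW (KX + 1) := W0725.TX.mono hTX' (by linarith)
  have hKT : 0 < KT + 1 := by linarith [hTZ'.1]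
  have hKX : 0 < KX + 1 := by linarith [hTX'.1]
  have hc1 := c1_nonneg (R := R0) ha0 ha1 hA hR0 hCW hKT.le hKX.le
  -- the choice of `S`
  obtain ⟨S1, hS1⟩ := hcr (R := R0) ha0 ha1 hA hA2 hAa hR0 hCW hKT.le hKX.le hRC.1 hRZ.1
    (K1 := K1) (K3 := K3) (KR := KR) (κ := κ) hRX.1 hGZ.1
  obtain ⟨S2, _, hS2⟩ := exists_rpow_le (a := a) (10000 * c1 a A R0 CW (KT + 1) (KX + 1))
    (c := 1) ha0 one_pos
  have hδ : 0 < 1 + a - A := by linarith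
  obtain ⟨S, hS⟩ := exists_nat_ge (max (max (max S1 S2) (max 4000 R0)) (2 * (A - 1) / (1 + a - A)))
  have hSa : S1 ≤ S := le_trans (le_trans (le_trans (le_max_left _ _) (le_max_left _ _))
    (le_max_left _ _)) hS
  have hSb : S2 ≤ S := le_trans (le_trans (le_trans (le_max_right _ _) (le_max_left _ _))
    (le_max_left _ _)) hS
  have hSc : (4000 : ℝ) ≤ S := le_trans (le_trans (le_trans (le_max_left _ _) (le_max_right _ _))
    (le_max_left _ _)) hS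
  have hSd : R0 ≤ S := le_trans (le_trans (le_trans (le_max_right _ _) (le_max_right _ _))
    (le_max_left _ _)) hS
  have hSe : 2 * (A - 1) ≤ (1 + a - A) * S := by
    have h : 2 * (A - 1) / (1 + a - A) ≤ S := le_trans (le_max_right _ _) hS
    rw [div_le_iff₀ hδ] at h
    linarith
  have hS0 : (0 : ℝ) < S := by linarith
  have hSn : 2 ≤ S := by
    have : (2 : ℝ) ≤ S := by linarith
    exact_mod_cast this
  set e : ℝ := eS a A R0 CW (KT + 1) (KX + 1) S with hedef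
  have he0 : 0 ≤ e := eS_nonneg ha0 ha1 hA hR0 hCW hKT.le hKX.le S
  have heS : 10000 * e ≤ S := by
    have h1 := eS_le (R := R0) ha0 ha1 hA hR0 hCW hKT.le hKX.le (show 1 ≤ S by omega)
    have h2 := hS2 S hSb
    linarith
  refine ⟨S, by linarith, fun C hC => ?_⟩
  have hC0 : 0 < C := by linarith
  intro Q n X Ω hQ3 hn hX hΩ
  rcases Nat.eq_or_lt_of_le hn with hn' | hn'
  · -- no room: the vacuum sector
    exact Vac467.IsVac.LB hQ3 hΩ hn'.symm (3 * C) (prof A S) X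
  have hnQ : 3 * n ≤ Q := by
    obtain ⟨k, rfl⟩ := hQ3
    omega
  have hxΩ : (⟪Ω, X Ω⟫_ℂ).re = (⟪Om Q, X (Om Q)⟫_ℂ).re := by
    have := Vac467.IsVac.inner_Om hQ3 hΩ X.ap
    rw [this]
  rw [hxΩ, ← DS_eq]
  have hXn : ‖X‖ ≤ 1 := hX.2.norm_le
  have hp := prof_pos hS0.le (by linarith : A < (S : ℝ) + 1) Q
  have hcastn : (3 : ℝ) * n ≤ Q := by exact_mod_cast hnQ
  rcases le_or_gt (S : ℝ) (100 * ((Q + 3 : ℕ) : ℝ)) with hbig | hsmall
  · -- large flux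
    have hred := strong_red (a := a) (A := A) (S := (S : ℝ)) (C := C) (e := e) (B := 1)
      ha0 ha1.le hA.le (by linarith) hAa hSe hSc hC0.le he0 heS (by linarith) Q
      (fam Q X) (fun q => (⟪Om q, fam Q X q (Om q)⟫_ℂ).re)
      (fun q _ => (norm_fam_le X q).trans hXn)
      (fun q _ => abs_vac_le _ ((norm_fam_le X q).trans hXn))
      (fun N => crudeS K1 K3 KR (KT + 1) (KX + 1) κ a A C e (2 * C) S (N - 3))
      (fun m q F hq hq3 hm => by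
        unfold DS
        exact Vac467.IsVac.LB hq3 (isVac_Om q) hm 3 F _)
      (fun m q Ψ hq3 hq hSq hm hΨ => by
        have hq1 : 1 ≤ q := by
          have h1 : (1 : ℝ) ≤ q := by
            push_cast at hSq
            linarith
          exact_mod_cast h1
        obtain ⟨f1, f2, f3⟩ := prof_facts ha0 ha1.le hA.le hAa hSe (by linarith) (by linarith)
          hC0.le he0 heS hSq hΨ
        have hXq : Dy nS (q + 3) 1 (fam Q X (q + 3)) := by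
          rw [fam_of_le hq]
          exact hX.cmp hq
        have hst := step_strong hRC hRZ hRX hGZ hTZ hTX hWP hCW hθ0 hKT hKX ha0 ha1 hA hA2 hSn
          le_rfl hR0 (by linarith) hSd hC0 he0
          (by
            rw [hedef]
            unfold eS
            have h1 : 2 * CW * (KX + 1) / C ≤ 2 * CW * (KX + 1) := by
              apply div_le_self (by positivity)
              linarith
            linarith)
          hnW hnS (by positivity) hq3 hq1 hm hXq (isVac_Om q) (isVac_Om (q + 3)) hΨ f1 f2 f3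
        rw [fam_cmp (Nat.le_add_right q 3) hq X] at hst
        exact hst)
      (fun q hq => hS1 S hSa C (by linarith) q hq)
    have h := hred Q n le_rfl hQ3 hnQ hbig
    rw [fam_top] at h
    refine h.mono ?_
    have : 0 ≤ (Q : ℝ) + 3 - 3 * n := by linarith
    positivity
  · -- small flux
    have hK : 3 * n + (Q + 3 - 3 * n) = Q + 3 := by omega
    have hbase := base_small (a := a) (A := A) (S := (S : ℝ)) (C := C) (e := 0) (B := 1)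
      (x := (⟪Om Q, X (Om Q)⟫_ℂ).re) (Q := Q) (Ψ := fun _ => 0) ha0 ha1.le hA.le (by linarith)
      (by linarith) hC0.le (by norm_num) (by norm_num)
      (by
        push_cast at hsmall
        linarith) (by linarith)
      (by
        refine Cls.zero (by simp) ?_
        intro r hr j
        exact Str735.DD_prof_nonneg hS0.le ha0.le (by linarith) hr j)
      (n := n) (K := Q + 3 - 3 * n) (by omega) hK (X := X) hXn (abs_vac_le X hXn)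
    simp only [sub_zero] at hbase
    refine hbase.mono ?_
    positivity

end Crest.Agent.R340.SP735
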