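import Crest.Agent.R340.Path_924
import Crest.Agent.R340.Peel_596
import Crest.Agent.R340.GeoM_986

-- ▼ part R340/K1inP_788
section

/-!
# R340, K = 1 inputs (helper788): normalised vectors along the path of geometries

* `hasDerivAt_nrm` : derivative of `f t / ‖f t‖`.
* `path_form` : quadratic form of `X` along a family `u m` with `u_m' = -(1/2) (A - a_m) u_m`.
* `GE l s` : `Gd (exp (s l))`, its derivative, and `nE l ψ s = GE l s ψ / ‖GE l s ψ‖`.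
-/

set_option autoImplicit false
set_option linter.unusedSectionVars false

namespace Crest.Agent.R340.K1in788

open Set Filter Topology Finset
open scoped InnerProductSpace ComplexConjugate
open Crest.Agent.R340.Fock649

section abstract_path

variable {E : Type*} [NormedAddCommGroup E] [InnerProductSpace ℂ E] [FiniteDimensional ℂ E]

theorem hasDerivAt_normsq {f : ℝ → E} {f' : E} {s : ℝ} (hf : HasDerivAt f f' s) :
    HasDerivAt (fun t => ‖f t‖ ^ 2) (2 * (⟪f s, f'⟫_ℂ).re) s := by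
  have h := HasDerivAt.inner ℂ hf hf
  have h2 : HasDerivAt (fun t => (⟪f t, f t⟫_ℂ).re) ((⟪f s, f'⟫_ℂ + ⟪f', f s⟫_ℂ).re) s :=
    (Complex.reCLM.hasFDerivAt).comp_hasDerivAt s h
  have e1 : (fun t => (⟪f t, f t⟫_ℂ).re) = fun t => ‖f t‖ ^ 2 := by
    funext t
    rw [inner_self_eq_norm_sq_to_K]
    norm_cast
  rw [e1] at h2
  convert h2 using 1
  rw [Complex.add_re, ← inner_conj_symm f' (f s), Complex.conj_re]
  ring

/-- the normalised vector -/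
noncomputable def nrm (v : E) : E := ((‖v‖⁻¹ : ℝ) : ℂ) • v

theorem norm_nrm {v : E} (hv : v ≠ 0) : ‖nrm v‖ = 1 := by
  unfold nrm
  rw [norm_smul, Complex.norm_real, Real.norm_of_nonneg (inv_nonneg.mpr (norm_nonneg _)),
    inv_mul_cancel₀ (norm_ne_zero_iff.mpr hv)]

theorem nrm_of_norm_one {v : E} (hv : ‖v‖ = 1) : nrm v = v := by
  unfold nrm; rw [hv]; simp

theorem hasDerivAt_nrm {f : ℝ → E} {f' : E} {s : ℝ} (hf : HasDerivAt f f' s) (h0 : f s ≠ 0) :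
    HasDerivAt (fun t => nrm (f t))
      (((‖f s‖⁻¹ : ℝ) : ℂ) • (f' - (((⟪f s, f'⟫_ℂ).re / ‖f s‖ ^ 2 : ℝ) : ℂ) • f s)) s := by
  have hn : 0 < ‖f s‖ := norm_pos_iff.mpr h0
  have h1 : HasDerivAt (fun t => ‖f t‖) ((⟪f s, f'⟫_ℂ).re / ‖f s‖) s := by
    have h2 := (hasDerivAt_normsq hf).sqrt (by positivity)
    have e : (fun t => √(‖f t‖ ^ 2)) = fun t => ‖f t‖ := by
      funext t; exact Real.sqrt_sq (norm_nonneg _)
    rw [e, Real.sqrt_sq hn.le] at h2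
    convert h2 using 1
    field_simp
  have h3 : HasDerivAt (fun t => ((‖f t‖⁻¹ : ℝ) : ℂ))
      ((-((⟪f s, f'⟫_ℂ).re / ‖f s‖) / ‖f s‖ ^ 2 : ℝ) : ℂ) s := (h1.inv hn.ne').ofReal_comp
  have h4 : HasDerivAt (fun t => nrm (f t)) _ s := h3.smul hf
  refine h4.congr_deriv ?_
  rw [smul_sub, smul_smul, sub_eq_add_neg, ← neg_smul]
  congr 2
  push_cast
  field_simp

/-- quadratic form along a family with `u_m' = -(1/2) (A - a_m) u_m`. -/
theorem path_form {κ : Type*} (J : Finset κ) (u : κ → ℝ → E) (A X : E →L[ℂ] E)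
    (a : κ → ℝ → ℝ) (hX : ∀ x y, ⟪X x, y⟫_ℂ = ⟪x, X y⟫_ℂ) (α : κ → ℂ)
    (hu : ∀ m ∈ J, ∀ s ∈ Icc (0 : ℝ) 1,
      HasDerivAt (u m) (-(1 / 2 : ℂ) • (A (u m s) - ((a m s : ℝ) : ℂ) • u m s)) s)
    {ε : ℝ} (hε : ∀ s ∈ Icc (0 : ℝ) 1,
      |(⟪∑ m ∈ J, α m • (A (u m s) - ((a m s : ℝ) : ℂ) • u m s),
        X (∑ m ∈ J, α m • u m s)⟫_ℂ).re| ≤ ε) :
    |(⟪∑ m ∈ J, α m • u m 1, X (∑ m ∈ J, α m • u m 1)⟫_ℂ).re -
      (⟪∑ m ∈ J, α m • u m 0, X (∑ m ∈ J, α m • u m 0)⟫_ℂ).re| ≤ ε := by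
  set Ψ : ℝ → E := fun s => ∑ m ∈ J, α m • u m s with hΨ
  set W : ℝ → E := fun s => ∑ m ∈ J, α m • (A (u m s) - ((a m s : ℝ) : ℂ) • u m s) with hW
  have hΨd : ∀ s ∈ Icc (0 : ℝ) 1, HasDerivAt Ψ (-(1 / 2 : ℂ) • W s) s := by
    intro s hs
    have h1 : HasDerivAt Ψ (∑ m ∈ J, α m • (-(1 / 2 : ℂ) •
        (A (u m s) - ((a m s : ℝ) : ℂ) • u m s))) s := by
      have := HasDerivAt.sum (u := J) (x := s) (A := fun m t => α m • u m t)
        (fun m hm => ((hu m hm s hs).const_smul (α m)))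
      convert this using 1
      funext t
      simp only [hΨ, Finset.sum_apply]
    convert h1 using 1
    rw [hW, smul_sum]
    refine sum_congr rfl fun m _ => ?_
    rw [smul_comm]
  have hq : ∀ s ∈ Icc (0 : ℝ) 1,
      HasDerivAt (fun t => (⟪Ψ t, X (Ψ t)⟫_ℂ).re) (-(⟪W s, X (Ψ s)⟫_ℂ).re) s := by
    intro s hs
    have h := Path924.hasDerivAt_form (hΨd s hs) (hasDerivAt_const s X) hX
    convert h using 1
    rw [inner_smul_left]
    have e : (starRingEnd ℂ) (-(1 / 2 : ℂ)) = ((-(1 / 2) : ℝ) : ℂ) := by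
      rw [← Complex.conj_ofReal]; push_cast; rfl
    rw [e, Complex.re_ofReal_mul]
    simp
  have hmain := (convex_Icc (0 : ℝ) 1).norm_image_sub_le_of_norm_hasDerivWithin_le
    (f := fun t => (⟪Ψ t, X (Ψ t)⟫_ℂ).re) (f' := fun s => -(⟪W s, X (Ψ s)⟫_ℂ).re) (C := ε)
    (fun s hs => (hq s hs).hasDerivWithinAt)
    (fun s hs => by rw [norm_neg, Real.norm_eq_abs]; exact hε s hs)
    (left_mem_Icc.mpr zero_le_one) (right_mem_Icc.mpr zero_le_one)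
  rw [sub_zero, norm_one, mul_one, Real.norm_eq_abs] at hmain
  exact hmain

end abstract_path

/-! ### Fock side -/

section fock

variable {ι : Type*} [Fintype ι] [LinearOrder ι]

/-- second quantisation of `exp (s l)` -/
noncomputable def GE (l : ι → ℝ) (s : ℝ) : Op ι :=
  diag fun S => ((Real.exp (s * ∑ i ∈ S, l i) : ℝ) : ℂ)

/-- `dΓ(l)` -/
noncomputable def dR (l : ι → ℝ) : Op ι := dG (Matrix.diagonal fun j => ((l j : ℝ) : ℂ))

theorem dR_eq (l : ι → ℝ) : dR l = diag fun S => ((∑ i ∈ S, l i : ℝ) : ℂ) := by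
  unfold dR
  rw [dG_diagonal]
  congr 1
  funext S
  push_cast
  rfl

theorem dR_apply (l : ι → ℝ) (v : Fk ι) (T : Finset ι) :
    dR l v T = ((∑ i ∈ T, l i : ℝ) : ℂ) * v T := by
  rw [dR_eq, diag_apply]

theorem GE_apply (l : ι → ℝ) (s : ℝ) (v : Fk ι) (T : Finset ι) :
    GE l s v T = ((Real.exp (s * ∑ i ∈ T, l i) : ℝ) : ℂ) * v T := diag_apply _ _ _

theorem GE_zero (l : ι → ℝ) (v : Fk ι) : GE l 0 v = v := by
  ext T
  rw [GE_apply]; simp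

theorem GE_eq_Gd (l : ι → ℝ) (s : ℝ) :
    GE l s = Gd (fun j => ((Real.exp (s * l j) : ℝ) : ℂ)) := by
  unfold GE Gd
  congr 1
  funext S
  rw [mul_sum, Real.exp_sum]
  push_cast
  rfl

theorem hasDerivAt_GE (l : ι → ℝ) (ψ : Fk ι) (s : ℝ) :
    HasDerivAt (fun t => GE l t ψ) (dR l (GE l s ψ)) s := by
  have e1 : ∀ t, GE l t ψ = ∑ S : Finset ι,
      ((Real.exp (t * ∑ i ∈ S, l i) : ℝ) : ℂ) • (ψ S • ket S) := by
    intro t
    conv_lhs => rw [fk_eq_sum (GE l t ψ)]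
    refine sum_congr rfl fun S _ => ?_
    rw [GE_apply, smul_smul]
  have e2 : dR l (GE l s ψ) = ∑ S : Finset ι,
      (((Real.exp (s * ∑ i ∈ S, l i) * (∑ i ∈ S, l i)) : ℝ) : ℂ) • (ψ S • ket S) := by
    conv_lhs => rw [fk_eq_sum (dR l (GE l s ψ))]
    refine sum_congr rfl fun S _ => ?_
    rw [dR_apply, GE_apply, smul_smul]
    congr 1
    push_cast
    ring
  have e3 : (fun t => GE l t ψ) = ∑ S : Finset ι, fun t : ℝ =>
      ((Real.exp (t * ∑ i ∈ S, l i) : ℝ) : ℂ) • (ψ S • (ket S : Fk ι)) := by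
    funext t
    rw [e1 t, Finset.sum_apply]
  rw [e3, e2]
  refine HasDerivAt.sum fun S _ => ?_
  have h1 : HasDerivAt (fun t : ℝ => t * ∑ i ∈ S, l i) (∑ i ∈ S, l i) s := by
    simpa using (hasDerivAt_id s).mul_const (∑ i ∈ S, l i)
  exact (h1.exp.ofReal_comp).smul_const _

theorem GE_ne_zero (l : ι → ℝ) (s : ℝ) {ψ : Fk ι} (h : ψ ≠ 0) : GE l s ψ ≠ 0 := by
  intro hc
  refine h ?_
  ext T
  have h1 := congrArg (fun v : Fk ι => v T) hc
  simp only [GE_apply] at h1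
  have h2 : ((Real.exp (s * ∑ i ∈ T, l i) : ℝ) : ℂ) ≠ 0 := by
    rw [Complex.ofReal_ne_zero]; exact (Real.exp_pos _).ne'
  have h3 : (0 : Fk ι) T = 0 := rfl
  rw [h3] at h1
  exact (mul_eq_zero.mp h1).resolve_left h2

/-- normalised transported vector -/
noncomputable def nE (l : ι → ℝ) (ψ : Fk ι) (s : ℝ) : Fk ι := nrm (GE l s ψ)

theorem norm_nE (l : ι → ℝ) (s : ℝ) {ψ : Fk ι} (h : ψ ≠ 0) : ‖nE l ψ s‖ = 1 :=
  norm_nrm (GE_ne_zero l s h)

theorem nE_zero (l : ι → ℝ) {ψ : Fk ι} (h : ‖ψ‖ = 1) : nE l ψ 0 = ψ := by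
  unfold nE; rw [GE_zero, nrm_of_norm_one h]

/-- mean value of an observable -/
noncomputable def mean (A : Op ι) (ψ : Fk ι) : ℝ := (⟪ψ, A ψ⟫_ℂ).re

theorem smul_ap_right (A : Op ι) (z : ℂ) (v : Fk ι) : A (z • v) = z • A v := map_smul A.ap z v

theorem hasDerivAt_nE (l : ι → ℝ) {ψ : Fk ι} (h : ψ ≠ 0) (s : ℝ) :
    HasDerivAt (nE l ψ)
      (dR l (nE l ψ s) - ((mean (dR l) (nE l ψ s) : ℝ) : ℂ) • nE l ψ s) s := by
  have h1 : HasDerivAt (nE l ψ) _ s := hasDerivAt_nrm (hasDerivAt_GE l ψ s) (GE_ne_zero l s h)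
  refine h1.congr_deriv ?_
  have e1 : mean (dR l) (nE l ψ s) =
      (⟪GE l s ψ, dR l (GE l s ψ)⟫_ℂ).re / ‖GE l s ψ‖ ^ 2 := by
    unfold mean nE nrm
    rw [smul_ap_right, inner_smul_left, inner_smul_right, Complex.conj_ofReal,
      Complex.re_ofReal_mul, Complex.re_ofReal_mul]
    field_simp
  rw [e1]
  unfold nE nrm
  rw [smul_ap_right, smul_sub, smul_comm (((‖GE l s ψ‖⁻¹ : ℝ) : ℂ))
    (((⟪GE l s ψ, dR l (GE l s ψ)⟫_ℂ).re / ‖GE l s ψ‖ ^ 2 : ℝ) : ℂ)]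

end fock

end Crest.Agent.R340.K1in788
end

-- ▼ part R340/K1inB_788
section

/-!
# R340, K = 1 inputs (helper788): the `L_z` sectors of `Zs ν Q` with `K ≤ 1` are one-dimensional

* `Ad S` : gaps at least 3.
* `exists_ad` : a zero mode with `ψ T ≠ 0` has an admissible `S` in its support, same number of
  elements, same sum.
* `ad_unique` : for `Q + 2 ≤ 3 n` an admissible set is determined by its sum.
* `Sc Q n M` : sector, `ZS ν Q n M` : zero modes of the sector, `ZS_smul` : one-dimensional.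
* `starProj_ZS` : projection on `Zs` (or `Zn`) of a vector of the sector.
-/

set_option autoImplicit false
set_option linter.unusedSectionVars false

namespace Crest.Agent.R340.K1in788

open Finset
open scoped InnerProductSpace ComplexConjugate
open Crest.Agent.R340.Fock649 Crest.Agent.R340.Geo986 Crest.Agent.R340.Peel596
  Crest.Agent.R340.Emb596

variable {Q : ℕ}

/-- gaps at least 3 -/
def Ad (S : Finset (Fin (Q + 1))) : Prop := ∀ i ∈ S, ∀ j ∈ S, i < j → (i : ℕ) + 3 ≤ j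

theorem cc_apply (i j : Fin (Q + 1)) (ψ : Fk (Fin (Q + 1))) (U : Finset (Fin (Q + 1))) :
    (c j * c i : Op (Fin (Q + 1))) ψ U =
      if j ∈ U then 0 else sg j U * (if i ∈ insert j U then 0 else
        sg i (insert j U) * ψ (insert i (insert j U))) := by
  rw [mul_ap, c_apply, c_apply]

theorem arith_sq {i j a b : ℕ} (hs : a + b = i + j) (hij : i < j) (h3 : j < i + 3) (hab : a < b)
    (hne : ¬ (a = i ∧ b = j)) : i ^ 2 + j ^ 2 < a ^ 2 + b ^ 2 := by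
  have ha : a < i := by
    by_contra hc
    have : a ≠ i := fun h => hne ⟨h, by omega⟩
    omega
  obtain ⟨t, rfl⟩ : ∃ t, i = a + (t + 1) := ⟨i - a - 1, by omega⟩
  obtain ⟨s, rfl⟩ : ∃ s, j = a + (t + 1) + (s + 1) := ⟨j - (a + (t + 1)) - 1, by omega⟩
  have : b = a + (t + 1) + (s + 1) + (t + 1) := by omega
  subst this
  nlinarith

theorem exists_ad {ν : ℕ → ℝ} (hν : PosM ν Q) {ψ : Fk (Fin (Q + 1))} (hψ : ψ ∈ Zs ν Q)
    {T : Finset (Fin (Q + 1))} (hT : ψ T ≠ 0) :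
    ∃ S : Finset (Fin (Q + 1)), ψ S ≠ 0 ∧ S.card = T.card ∧
      (∑ i ∈ S, (i : ℕ)) = ∑ i ∈ T, (i : ℕ) ∧ Ad S := by
  classical
  set F : Finset (Finset (Fin (Q + 1))) := univ.filter fun S => ψ S ≠ 0 ∧ S.card = T.card ∧
      (∑ i ∈ S, (i : ℕ)) = ∑ i ∈ T, (i : ℕ) with hF
  have hTF : T ∈ F := by simp [hF, hT]
  obtain ⟨S, hSF, hmax⟩ := F.exists_max_image (fun S => ∑ i ∈ S, (i : ℕ) ^ 2) ⟨T, hTF⟩
  obtain ⟨-, hS0, hS1, hS2⟩ := mem_filter.mp hSF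
  refine ⟨S, hS0, hS1, hS2, ?_⟩
  intro i hi j hj hij
  by_contra hc
  have hij' : (i : ℕ) < j := hij
  have h3 : (j : ℕ) < i + 3 := by omega
  set U := (S.erase j).erase i with hU
  have hiU : i ∉ U := notMem_erase _ _
  have hjU : j ∉ U := fun h => notMem_erase j S (mem_of_mem_erase h)
  have hijne : i ≠ j := ne_of_lt hij
  have hSU : insert i (insert j U) = S := by
    rw [hU, Finset.insert_comm, insert_erase (mem_erase.mpr ⟨hijne, hi⟩), insert_erase hj]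
  have h0 := congrArg (fun v : Fk (Fin (Q + 1)) => v U) (hψ ((i : ℕ) + j))
  unfold bz at h0
  rw [sum_ap] at h0
  have hz : (0 : Fk (Fin (Q + 1))) U = 0 := rfl
  simp only [hz] at h0
  have e1 : (∑ x ∈ pairs Q ((i : ℕ) + j),
      (((bcoef ν x.1 x.2 : ℝ) : ℂ) • (c x.2 * c x.1) : Op (Fin (Q + 1))) ψ) U =
      ∑ x ∈ pairs Q ((i : ℕ) + j), ((bcoef ν x.1 x.2 : ℝ) : ℂ) *
        ((c x.2 * c x.1 : Op (Fin (Q + 1))) ψ U) := by
    rw [WithLp.ofLp_sum, Finset.sum_apply]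
    rfl
  rw [e1, Finset.sum_eq_single (i, j)] at h0
  · rw [cc_apply, if_neg hjU, if_neg (by rw [mem_insert]; push Not; exact ⟨hijne, hiU⟩), hSU]
      at h0
    have hb : ((bcoef ν i j : ℝ) : ℂ) ≠ 0 := by
      rw [Complex.ofReal_ne_zero]
      exact (bcoef_pos hν (x := (i, j)) (p := (i : ℕ) + j) (mem_pairs.2 ⟨hij, rfl⟩)).ne'
    have hs1 : sg j U ≠ 0 := fun h => by have := sg_mul_self j U; rw [h] at this; simp at this
    have hs2 : sg i (insert j U) ≠ 0 := fun h => by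
      have := sg_mul_self i (insert j U); rw [h] at this; simp at this
    exact (mul_ne_zero hb (mul_ne_zero hs1 (mul_ne_zero hs2 hS0))) h0
  · rintro ⟨a, b⟩ hab hne
    obtain ⟨hab1, hab2⟩ := mem_pairs.mp hab
    simp only at hab1 hab2
    have hab1' : (a : ℕ) < b := hab1
    rw [cc_apply]
    simp only
    by_cases hbU : b ∈ U
    · rw [if_pos hbU, mul_zero]
    rw [if_neg hbU]
    by_cases haU : a ∈ insert b U
    · rw [if_pos haU, mul_zero, mul_zero]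
    rw [if_neg haU]
    have hψ0 : ψ (insert a (insert b U)) = 0 := by
      by_contra hne0
      have hcard : (insert a (insert b U)).card = S.card := by
        rw [card_insert_of_notMem haU, card_insert_of_notMem hbU, ← hSU,
          card_insert_of_notMem (by rw [mem_insert]; push Not; exact ⟨hijne, hiU⟩),
          card_insert_of_notMem hjU]
      have hsum : (∑ k ∈ insert a (insert b U), (k : ℕ)) = ∑ k ∈ S, (k : ℕ) := by
        rw [sum_insert haU, sum_insert hbU, ← hSU,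
          sum_insert (by rw [mem_insert]; push Not; exact ⟨hijne, hiU⟩), sum_insert hjU]
        omega
      have hmem : insert a (insert b U) ∈ F := by
        rw [hF, mem_filter]
        exact ⟨mem_univ _, hne0, hcard.trans hS1, hsum.trans hS2⟩
      have h4 := hmax _ hmem
      rw [sum_insert haU, sum_insert hbU] at h4
      conv_rhs at h4 => rw [← hSU]
      rw [sum_insert (by rw [mem_insert]; push Not; exact ⟨hijne, hiU⟩), sum_insert hjU] at h4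
      have h5 := arith_sq hab2 hij' h3 hab1' (fun h => hne (Prod.ext (Fin.ext h.1) (Fin.ext h.2)))
      omega
    rw [hψ0, mul_zero, mul_zero, mul_zero]
  · intro h
    exact absurd (mem_pairs.2 ⟨hij, rfl⟩) h

/-! ### admissible sets for `K ≤ 1` -/

theorem ad_emb {n : ℕ} {S : Finset (Fin (Q + 1))} (hS : Ad S) (hc : S.card = n) (d : ℕ) :
    ∀ (a : ℕ) (h : a + d < n), ((S.orderEmbOfFin hc ⟨a, by omega⟩ : Fin (Q + 1)) : ℕ) + 3 * d ≤
      (S.orderEmbOfFin hc ⟨a + d, h⟩ : Fin (Q + 1)) := by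
  induction d with
  | zero => intro a h; simp
  | succ d ih =>
    intro a h
    have h1 := ih a (by omega)
    have h2 : (S.orderEmbOfFin hc ⟨a + d, by omega⟩) < S.orderEmbOfFin hc ⟨a + (d + 1), h⟩ :=
      (S.orderEmbOfFin hc).strictMono (by
        show a + d < a + (d + 1)
        omega)
    have h3 := hS _ (S.orderEmbOfFin_mem hc _) _ (S.orderEmbOfFin_mem hc _) h2
    omega

theorem sum_eq_emb {n : ℕ} {S : Finset (Fin (Q + 1))} (hc : S.card = n) :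
    (∑ i ∈ S, (i : ℕ)) = ∑ a : Fin n, ((S.orderEmbOfFin hc a : Fin (Q + 1)) : ℕ) := by
  conv_lhs => rw [← S.map_orderEmbOfFin_univ hc]
  rw [sum_map]
  rfl

/-- for `K ≤ 1` an admissible set is determined by its sum. -/
theorem ad_unique {n : ℕ} (hQ : Q + 2 ≤ 3 * n) {S S' : Finset (Fin (Q + 1))} (hS : Ad S)
    (hS' : Ad S') (hc : S.card = n) (hc' : S'.card = n)
    (hsum : (∑ i ∈ S, (i : ℕ)) = ∑ i ∈ S', (i : ℕ)) : S = S' := by
  set s := S.orderEmbOfFin hc with hs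
  set s' := S'.orderEmbOfFin hc' with hs'
  have low : ∀ {T : Finset (Fin (Q + 1))} (hT : Ad T) (hcT : T.card = n) (a : Fin n),
      3 * (a : ℕ) ≤ (T.orderEmbOfFin hcT a : Fin (Q + 1)) ∧
      ((T.orderEmbOfFin hcT a : Fin (Q + 1)) : ℕ) ≤ 3 * a + 1 := by
    intro T hT hcT a
    have h1 := ad_emb hT hcT (a : ℕ) 0 (by omega)
    have h2 := ad_emb hT hcT (n - 1 - a) (a : ℕ) (by omega)
    have h3 := (T.orderEmbOfFin hcT ⟨(a : ℕ) + (n - 1 - a), by omega⟩).isLt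
    have e1 : (⟨0 + (a : ℕ), by omega⟩ : Fin n) = a := Fin.ext (by simp)
    rw [e1] at h1
    constructor
    · omega
    · have e2 : (⟨(a : ℕ), by omega⟩ : Fin n) = a := rfl
      rw [e2] at h2
      omega
  have mono : ∀ {T : Finset (Fin (Q + 1))} (hT : Ad T) (hcT : T.card = n) (a b : Fin n), a ≤ b →
      ((T.orderEmbOfFin hcT a : Fin (Q + 1)) : ℕ) + 3 * (b - a : ℕ) ≤
        (T.orderEmbOfFin hcT b : Fin (Q + 1)) := by
    intro T hT hcT a b hab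
    have hab' : (a : ℕ) ≤ b := hab
    have h1 := ad_emb hT hcT (b - a : ℕ) (a : ℕ) (by omega)
    have e1 : (⟨(a : ℕ) + (b - a : ℕ), by omega⟩ : Fin n) = b := Fin.ext (by simp; omega)
    rw [e1] at h1
    exact h1
  have nest : (∀ a, ((s a : Fin (Q + 1)) : ℕ) ≤ s' a) ∨ (∀ a, ((s' a : Fin (Q + 1)) : ℕ) ≤ s a) := by
    by_contra hcon
    rw [not_or] at hcon
    obtain ⟨h1, h2⟩ := hcon
    push Not at h1 h2
    obtain ⟨a, ha⟩ := h1
    obtain ⟨b, hb⟩ := h2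
    have l1 := low hS hc a
    have l2 := low hS' hc' a
    have l3 := low hS hc b
    have l4 := low hS' hc' b
    rcases le_total a b with h | h
    · have h' : (a : ℕ) ≤ b := h
      have m1 := mono hS hc a b h
      rw [← hs] at l1 l3 m1
      rw [← hs'] at l2 l4
      omega
    · have h' : (b : ℕ) ≤ a := h
      have m1 := mono hS' hc' b a h
      rw [← hs'] at l2 l4 m1
      rw [← hs] at l1 l3
      omega
  have heq : ∀ a, ((s a : Fin (Q + 1)) : ℕ) = s' a := by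
    rw [sum_eq_emb hc, sum_eq_emb hc'] at hsum
    rcases nest with h | h
    · have := (Finset.sum_eq_sum_iff_of_le (s := univ) (fun a _ => h a)).mp hsum
      exact fun a => this a (mem_univ a)
    · have := (Finset.sum_eq_sum_iff_of_le (s := univ) (fun a _ => h a)).mp hsum.symm
      exact fun a => (this a (mem_univ a)).symm
  rw [← S.map_orderEmbOfFin_univ hc, ← S'.map_orderEmbOfFin_univ hc']
  ext x
  simp only [mem_map, mem_univ, true_and]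
  constructor
  · rintro ⟨a, ha⟩
    exact ⟨a, (Fin.ext (heq a).symm : s' a = s a).trans ha⟩
  · rintro ⟨a, ha⟩
    exact ⟨a, (Fin.ext (heq a) : s a = s' a).trans ha⟩

/-! ### sectors -/

/-- particle number `n`, sum of the orbitals `M` -/
def Sc (Q n M : ℕ) : Submodule ℂ (Fk (Fin (Q + 1))) where
  carrier := {ψ | ∀ S, ψ S ≠ 0 → S.card = n ∧ (∑ i ∈ S, (i : ℕ)) = M}
  add_mem' := fun {a b} ha hb S hS => by
    by_contra hc
    have h1 : a S = 0 := by_contra fun h => hc (ha S h)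
    have h2 : b S = 0 := by_contra fun h => hc (hb S h)
    refine hS ?_
    show a S + b S = 0
    rw [h1, h2, add_zero]
  zero_mem' := fun S hS => absurd rfl hS
  smul_mem' := fun k a ha S hS => by
    by_contra hc
    have h1 : a S = 0 := by_contra fun h => hc (ha S h)
    refine hS ?_
    show k * a S = 0
    rw [h1, mul_zero]


/-- zero modes of the sector -/
def ZS (ν : ℕ → ℝ) (Q n M : ℕ) : Submodule ℂ (Fk (Fin (Q + 1))) := Zs ν Q ⊓ Sc Q n M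

theorem mem_ZS {ν : ℕ → ℝ} {n M : ℕ} {ψ : Fk (Fin (Q + 1))} :
    ψ ∈ ZS ν Q n M ↔ ψ ∈ Zs ν Q ∧ ψ ∈ Sc Q n M := Iff.rfl

theorem diag_mem_Sc {n M : ℕ} {ψ : Fk (Fin (Q + 1))} (h : ψ ∈ Sc Q n M)
    (f : Finset (Fin (Q + 1)) → ℂ) : diag f ψ ∈ Sc Q n M := by
  intro S hS
  refine h S fun h0 => hS ?_
  rw [diag_apply, h0, mul_zero]

theorem dR_mem_Sc {n M : ℕ} {ψ : Fk (Fin (Q + 1))} (h : ψ ∈ Sc Q n M)
    (l : Fin (Q + 1) → ℝ) : dR l ψ ∈ Sc Q n M := by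
  rw [dR_eq]; exact diag_mem_Sc h _

theorem ZS_coef_ne {ν : ℕ → ℝ} (hν : PosM ν Q) {n M : ℕ} (hQ : Q + 2 ≤ 3 * n)
    {ψ : Fk (Fin (Q + 1))} (h : ψ ∈ ZS ν Q n M) (h0 : ψ ≠ 0) {S : Finset (Fin (Q + 1))}
    (hS : Ad S) (hc : S.card = n) (hs : (∑ i ∈ S, (i : ℕ)) = M) : ψ S ≠ 0 := by
  obtain ⟨T, hT⟩ : ∃ T, ψ T ≠ 0 := by
    by_contra hcon
    push Not at hcon
    exact h0 (by ext T; exact hcon T)
  obtain ⟨S', h1, h2, h3, h4⟩ := exists_ad hν h.1 hT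
  have h5 := h.2 T hT
  have : S' = S := ad_unique hQ h4 hS (h2.trans h5.1) hc (by rw [h3, h5.2, hs])
  rw [← this]; exact h1

theorem ZS_exists_ad {ν : ℕ → ℝ} (hν : PosM ν Q) {n M : ℕ}
    {ψ : Fk (Fin (Q + 1))} (h : ψ ∈ ZS ν Q n M) (h0 : ψ ≠ 0) :
    ∃ S : Finset (Fin (Q + 1)), ψ S ≠ 0 ∧ S.card = n ∧ (∑ i ∈ S, (i : ℕ)) = M ∧ Ad S := by
  obtain ⟨T, hT⟩ : ∃ T, ψ T ≠ 0 := by
    by_contra hcon
    push Not at hcon
    exact h0 (by ext T; exact hcon T)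
  obtain ⟨S', h1, h2, h3, h4⟩ := exists_ad hν h.1 hT
  have h5 := h.2 T hT
  exact ⟨S', h1, h2.trans h5.1, h3.trans h5.2, h4⟩

/-- the sectors with `K ≤ 1` are at most one-dimensional. -/
theorem ZS_smul {ν : ℕ → ℝ} (hν : PosM ν Q) {n M : ℕ} (hQ : Q + 2 ≤ 3 * n)
    {ψ φ : Fk (Fin (Q + 1))} (h : ψ ∈ ZS ν Q n M) (h0 : ψ ≠ 0) (h' : φ ∈ ZS ν Q n M) :
    ∃ z : ℂ, φ = z • ψ := by
  obtain ⟨S, h1, h2, h3, h4⟩ := ZS_exists_ad hν h h0
  refine ⟨φ S / ψ S, ?_⟩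
  by_contra hne
  have h5 : φ - (φ S / ψ S) • ψ ≠ 0 := sub_ne_zero.mpr hne
  have h6 := ZS_coef_ne hν hQ ((ZS ν Q n M).sub_mem h' ((ZS ν Q n M).smul_mem _ h)) h5 h4 h2 h3
  refine h6 ?_
  show φ S - (φ S / ψ S) * ψ S = 0
  rw [div_mul_cancel₀ _ h1, sub_self]

/-! ### projections -/

/-- the projector on a sector -/
noncomputable def prSc (Q n M : ℕ) : Op (Fin (Q + 1)) :=
  diag fun S => if S.card = n ∧ (∑ i ∈ S, (i : ℕ)) = M then 1 else 0

theorem prSc_apply (n M : ℕ) (v : Fk (Fin (Q + 1))) (S : Finset (Fin (Q + 1))) :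
    prSc Q n M v S = if S.card = n ∧ (∑ i ∈ S, (i : ℕ)) = M then v S else 0 := by
  unfold prSc
  rw [diag_apply]
  split_ifs <;> simp

theorem prSc_mem (n M : ℕ) (v : Fk (Fin (Q + 1))) : prSc Q n M v ∈ Sc Q n M := by
  intro S hS
  rw [prSc_apply] at hS
  by_contra hc
  rw [if_neg hc] at hS
  exact hS rfl

theorem prSc_of_mem {n M : ℕ} {v : Fk (Fin (Q + 1))} (h : v ∈ Sc Q n M) : prSc Q n M v = v := by
  ext S
  rw [prSc_apply]
  split_ifs with hc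
  · rfl
  · by_contra hne
    exact hc (h S (Ne.symm hne))

theorem star_prSc (n M : ℕ) : star (prSc Q n M) = prSc Q n M := by
  unfold prSc
  rw [star_diag]
  congr 1
  funext S
  simp only [Pi.star_apply]
  split_ifs <;> simp

theorem inner_prSc (n M : ℕ) (v w : Fk (Fin (Q + 1))) :
    ⟪prSc Q n M v, w⟫_ℂ = ⟪v, prSc Q n M w⟫_ℂ := by
  have := inner_star_left (prSc Q n M) v w
  rw [star_prSc] at this
  exact this

/-- `bz` lowers the sector -/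
theorem bz_prSc (ν : ℕ → ℝ) (n M p : ℕ) :
    bz ν Q p * prSc Q (n + 2) (M + p) = prSc Q n M * bz ν Q p := by
  unfold bz
  rw [sum_mul, mul_sum]
  refine sum_congr rfl fun x hx => ?_
  obtain ⟨h1, h2⟩ := mem_pairs.mp hx
  rw [smul_mul_assoc, mul_smul_comm]
  congr 1
  refine Op.ext fun v => ?_
  ext U
  show (c x.2 * c x.1 : Op (Fin (Q + 1))) (prSc Q (n + 2) (M + p) v) U =
    prSc Q n M ((c x.2 * c x.1 : Op (Fin (Q + 1))) v) U
  rw [prSc_apply, cc_apply, cc_apply]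
  by_cases hb : x.2 ∈ U
  · simp [hb]
  rw [if_neg hb, if_neg hb]
  by_cases ha : x.1 ∈ insert x.2 U
  · simp [ha]
  rw [if_neg ha, if_neg ha, prSc_apply, card_insert_of_notMem ha, card_insert_of_notMem hb,
    sum_insert ha, sum_insert hb]
  by_cases hc : U.card = n ∧ (∑ i ∈ U, (i : ℕ)) = M
  · rw [if_pos hc, if_pos ⟨by omega, by omega⟩]
  · rw [if_neg hc, if_neg, mul_zero, mul_zero]
    rintro ⟨h3, h4⟩
    exact hc ⟨by omega, by omega⟩

theorem prSc_mem_Zs {ν : ℕ → ℝ} {ψ : Fk (Fin (Q + 1))} (h : ψ ∈ Zs ν Q) (n M : ℕ) :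
    prSc Q n M ψ ∈ Zs ν Q := by
  intro p
  by_cases hn : 2 ≤ n ∧ p ≤ M
  · obtain ⟨n', rfl⟩ : ∃ n', n = n' + 2 := ⟨n - 2, by omega⟩
    obtain ⟨M', rfl⟩ : ∃ M', M = M' + p := ⟨M - p, by omega⟩
    have := congrArg (fun A : Op (Fin (Q + 1)) => A ψ) (bz_prSc (Q := Q) ν n' M' p)
    simp only [mul_ap] at this
    rw [this, h p, map_zero]
  · -- the pair annihilator kills the sector
    unfold bz
    rw [sum_ap]
    refine sum_eq_zero fun x hx => ?_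
    obtain ⟨h1, h2⟩ := mem_pairs.mp hx
    rw [smul_ap]
    have : (c x.2 * c x.1 : Op (Fin (Q + 1))) (prSc Q n M ψ) = 0 := by
      ext U
      rw [cc_apply]
      by_cases hb : x.2 ∈ U
      · simp [hb]
      rw [if_neg hb]
      by_cases ha : x.1 ∈ insert x.2 U
      · simp [ha]
      rw [if_neg ha, prSc_apply, card_insert_of_notMem ha, card_insert_of_notMem hb,
        sum_insert ha, sum_insert hb, if_neg, mul_zero, mul_zero]
      · rfl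
      · rintro ⟨h3, h4⟩
        exact hn ⟨by omega, by omega⟩
    rw [this, smul_zero]

/-- projection of a vector of the sector on a graded submodule whose sector is the line of `ψ`. -/
theorem starProj_line (Z : Submodule ℂ (Fk (Fin (Q + 1)))) {n M : ℕ}
    (hZ : ∀ v ∈ Z, prSc Q n M v ∈ Z) {ψ : Fk (Fin (Q + 1))} (hψ : ψ ∈ Z) (h1 : ‖ψ‖ = 1)
    (hline : ∀ v ∈ Z, v ∈ Sc Q n M → ∃ z : ℂ, v = z • ψ) (hψS : ψ ∈ Sc Q n M)
    {v : Fk (Fin (Q + 1))} (hv : v ∈ Sc Q n M) :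
    Z.starProjection v = ⟪ψ, v⟫_ℂ • ψ := by
  refine Submodule.eq_starProjection_of_mem_orthogonal (Z.smul_mem _ hψ) ?_
  rw [Submodule.mem_orthogonal]
  intro z hz
  have hw : v - ⟪ψ, v⟫_ℂ • ψ ∈ Sc Q n M := (Sc Q n M).sub_mem hv ((Sc Q n M).smul_mem _ hψS)
  rw [← prSc_of_mem hw, ← inner_prSc]
  obtain ⟨k, hk⟩ := hline _ (hZ z hz) (prSc_mem n M z)
  rw [hk, inner_smul_left, inner_sub_right, inner_smul_right, inner_self_eq_norm_sq_to_K, h1]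
  simp


theorem Sc_Nh {n M : ℕ} {v : Fk (Fin (Q + 1))} (hv : v ∈ Sc Q n M) : Nh v = (n : ℂ) • v := by
  rw [Nh_eq]
  ext S
  rw [diag_apply]
  show _ = (n : ℂ) * v S
  by_cases h : v S = 0
  · rw [h, mul_zero, mul_zero]
  · rw [(hv S h).1]

theorem ZS_le_Zn {ν : ℕ → ℝ} {n M : ℕ} {v : Fk (Fin (Q + 1))} (hv : v ∈ ZS ν Q n M) :
    v ∈ Zn ν Q n := ⟨hv.1, Sc_Nh hv.2⟩

theorem starProj_Zn {ν : ℕ → ℝ} (hν : PosM ν Q) {n M : ℕ} (hQ : Q + 2 ≤ 3 * n)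
    {ψ : Fk (Fin (Q + 1))} (h : ψ ∈ ZS ν Q n M) (h1 : ‖ψ‖ = 1)
    {v : Fk (Fin (Q + 1))} (hv : v ∈ Sc Q n M) :
    (Zn ν Q n).starProjection v = ⟪ψ, v⟫_ℂ • ψ := by
  have h0 : ψ ≠ 0 := fun h0 => by rw [h0, norm_zero] at h1; exact zero_ne_one h1
  exact starProj_line _ (fun v hv => ZS_le_Zn ⟨prSc_mem_Zs hv.1 n M, prSc_mem n M v⟩)
    (ZS_le_Zn h) h1 (fun w hw hw2 => ZS_smul hν hQ h h0 ⟨hw.1, hw2⟩) h.2 hv

end Crest.Agent.R340.K1in788
end

-- ▼ part R340/K1inC_788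

/-!
# R340, K = 1 inputs (helper788): metrics along the path, the two moves `Q+3 → Q`, `Q+1 → Q`
-/

set_option autoImplicit false
set_option linter.unusedSectionVars false

namespace Crest.Agent.R340.K1in788

open Finset
open scoped InnerProductSpace ComplexConjugate
open Crest.Agent.R340.Fock649 Crest.Agent.R340.Geo986 Crest.Agent.R340.Peel596
  Crest.Agent.R340.Emb596

variable {Q : ℕ}

/-! ### metrics -/

/-- `∑ τ_k log (Q - j + k + 1)` -/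
noncomputable def lw (τ : Fin 3 → ℝ) (Q j : ℕ) : ℝ :=
  ∑ k : Fin 3, τ k * Real.log (((Q - j : ℕ) : ℝ) + k + 1)

/-- the same on the orbitals -/
noncomputable def lwF (τ : Fin 3 → ℝ) (Q : ℕ) : Fin (Q + 1) → ℝ := fun j => lw τ Q j

theorem nuT_path (τ : Fin 3 → ℝ) (s : ℝ) (Q j : ℕ) :
    nuT (fun k => s * τ k) Q j = nu0 Q j * Real.exp (s * lw τ Q j) := by
  show nu0 Q j * (PV341.G (fun k => s * τ k) (Q - j))⁻¹ = _
  congr 1
  unfold PV341.G lw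
  rw [← Finset.prod_inv_distrib, mul_sum, Real.exp_sum]
  refine prod_congr rfl fun k _ => ?_
  have hpos : (0 : ℝ) < ((Q - j : ℕ) : ℝ) + k + 1 := by positivity
  rw [← Real.rpow_neg hpos.le, neg_neg, Real.rpow_def_of_pos hpos]
  congr 1
  ring

theorem bz_smul_nu (ν : ℕ → ℝ) (c : ℝ) (Q p : ℕ) :
    bz (fun j => c * ν j) Q p = (((c ^ 2)⁻¹ : ℝ) : ℂ) • bz ν Q p := by
  unfold bz
  rw [smul_sum]
  refine sum_congr rfl fun x _ => ?_
  rw [smul_smul, ← Complex.ofReal_mul]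
  congr 2
  unfold bcoef
  rw [← div_eq_inv_mul, div_div]
  congr 1
  ring

theorem Zs_smul_nu {c : ℝ} (hc : c ≠ 0) (ν : ℕ → ℝ) (Q : ℕ) :
    Zs (fun j => c * ν j) Q = Zs ν Q := by
  ext ψ
  rw [mem_Zs, mem_Zs]
  refine forall_congr' fun p => ?_
  rw [bz_smul_nu, smul_ap]
  have : (((c ^ 2)⁻¹ : ℝ) : ℂ) ≠ 0 := by
    rw [Complex.ofReal_ne_zero]; positivity
  exact smul_eq_zero_iff_right this

theorem nu0_succ {Q j : ℕ} (h : j ≤ Q) :
    nu0 (Q + 1) j = (√((Q : ℝ) + 1))⁻¹ * (nu0 Q j * √(((Q - j : ℕ) : ℝ) + 1)) := by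
  unfold nu0
  have h1 : ((Q.choose j : ℕ) : ℝ) * ((Q : ℝ) + 1) =
      (((Q + 1).choose j : ℕ) : ℝ) * (((Q - j : ℕ) : ℝ) + 1) := by
    have := Nat.choose_mul_succ_eq Q j
    have e : Q + 1 - j = (Q - j) + 1 := by omega
    rw [e] at this
    exact_mod_cast this
  have hp1 : (0 : ℝ) < ((Q.choose j : ℕ) : ℝ) := by exact_mod_cast Nat.choose_pos h
  have hp2 : (0 : ℝ) < (((Q + 1).choose j : ℕ) : ℝ) := by
    exact_mod_cast Nat.choose_pos (by omega : j ≤ Q + 1)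
  have h2 := congrArg Real.sqrt h1
  rw [Real.sqrt_mul hp1.le, Real.sqrt_mul hp2.le] at h2
  have s1 : 0 < √((Q.choose j : ℕ) : ℝ) := Real.sqrt_pos.mpr hp1
  have s2 : 0 < √(((Q + 1).choose j : ℕ) : ℝ) := Real.sqrt_pos.mpr hp2
  have s3 : 0 < √((Q : ℝ) + 1) := Real.sqrt_pos.mpr (by positivity)
  have s4 : 0 < √(((Q - j : ℕ) : ℝ) + 1) := Real.sqrt_pos.mpr (by positivity)
  field_simp
  linarith

/-- direction of the A-move -/
noncomputable def tA : Fin 3 → ℝ := fun _ => 1 / 2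
/-- direction of the B-move -/
noncomputable def tB : Fin 3 → ℝ := fun k => if k = 0 then 1 / 2 else 0

theorem exp_half_log {x : ℝ} (hx : 0 < x) : Real.exp (1 / 2 * Real.log x) = √x := by
  rw [Real.sqrt_eq_rpow, Real.rpow_def_of_pos hx, mul_comm]

theorem Zs_nu0_succ (Q : ℕ) : Zs (nu0 (Q + 1)) Q = Zs (nuT (fun k => 1 * tB k) Q) Q := by
  have s3 : 0 < √((Q : ℝ) + 1) := Real.sqrt_pos.mpr (by positivity)
  rw [← Zs_smul_nu (inv_ne_zero s3.ne') (nuT (fun k => 1 * tB k) Q) Q]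
  refine Zs_congr fun j hj => ?_
  rw [nu0_succ hj, nuT_path, one_mul]
  congr 2
  unfold lw tB
  rw [Fin.sum_univ_three]
  have hpos : (0 : ℝ) < ((Q - j : ℕ) : ℝ) + 1 := by positivity
  simp only [Fin.isValue, if_true, Fin.val_zero, CharP.cast_eq_zero, add_zero, one_ne_zero,
    if_false, zero_mul]
  rw [if_neg (by decide), zero_mul, add_zero, exp_half_log hpos]

theorem Zs_nu0_add3 (Q : ℕ) : Zs (nu0 (Q + 3)) Q = Zs (nuT (fun k => 1 * tA k) Q) Q := by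
  have s1 : 0 < √((Q : ℝ) + 1) := Real.sqrt_pos.mpr (by positivity)
  have s2 : 0 < √(((Q + 1 : ℕ) : ℝ) + 1) := Real.sqrt_pos.mpr (by positivity)
  have s3 : 0 < √(((Q + 2 : ℕ) : ℝ) + 1) := Real.sqrt_pos.mpr (by positivity)
  have hne : (√((Q : ℝ) + 1))⁻¹ * (√(((Q + 1 : ℕ) : ℝ) + 1))⁻¹ * (√(((Q + 2 : ℕ) : ℝ) + 1))⁻¹ ≠ 0 := by
    positivity
  rw [← Zs_smul_nu hne (nuT (fun k => 1 * tA k) Q) Q]
  refine Zs_congr fun j hj => ?_
  have e1 : nu0 (Q + 3) j = nu0 (Q + 2 + 1) j := rfl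
  have e2 : nu0 (Q + 2) j = nu0 (Q + 1 + 1) j := rfl
  rw [e1, nu0_succ (by omega : j ≤ Q + 2), e2, nu0_succ (by omega : j ≤ Q + 1), nu0_succ hj,
    nuT_path, one_mul]
  have hlw : Real.exp (lw tA Q j) = √(((Q - j : ℕ) : ℝ) + 1) * √(((Q + 1 - j : ℕ) : ℝ) + 1) *
      √(((Q + 2 - j : ℕ) : ℝ) + 1) := by
    unfold lw tA
    rw [Fin.sum_univ_three, Real.exp_add, Real.exp_add]
    have h1 : (((Q + 1 - j : ℕ) : ℝ)) = ((Q - j : ℕ) : ℝ) + 1 := by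
      rw [Nat.sub_add_comm hj]; push_cast; ring
    have h2 : (((Q + 2 - j : ℕ) : ℝ)) = ((Q - j : ℕ) : ℝ) + 2 := by
      rw [Nat.sub_add_comm hj]; push_cast; ring
    rw [h1, h2, exp_half_log (by positivity), exp_half_log (by positivity),
      exp_half_log (by positivity)]
    simp only [Fin.isValue, Fin.val_zero, CharP.cast_eq_zero, add_zero, Fin.val_one, Nat.cast_one,
      Fin.val_two, Nat.cast_ofNat]
  rw [hlw]
  ring

theorem GE_mem_Sc {n M : ℕ} {ψ : Fk (Fin (Q + 1))} (h : ψ ∈ Sc Q n M) (l : Fin (Q + 1) → ℝ)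
    (s : ℝ) : GE l s ψ ∈ Sc Q n M := diag_mem_Sc h _

theorem GE_mem_ZS (τ : Fin 3 → ℝ) (s : ℝ) {n M : ℕ} {φ : Fk (Fin (Q + 1))}
    (h : φ ∈ ZS (nu0 Q) Q n M) : GE (lwF τ Q) s φ ∈ ZS (nuT (fun k => s * τ k) Q) Q n M := by
  refine ⟨?_, GE_mem_Sc h.2 _ _⟩
  have hr : PosM (fun j => Real.exp (s * lw τ Q j)) Q := fun j _ => Real.exp_pos _
  have h1 := Gd_mem_Zs hr h.1
  rw [GE_eq_Gd]
  have e : Zs (nuT (fun k => s * τ k) Q) Q = Zs (nu0 Q * fun j => Real.exp (s * lw τ Q j)) Q :=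
    Zs_congr fun j _ => nuT_path τ s Q j
  rw [e]
  exact h1

theorem nE_mem_ZS (τ : Fin 3 → ℝ) (s : ℝ) {n M : ℕ} {φ : Fk (Fin (Q + 1))}
    (h : φ ∈ ZS (nu0 Q) Q n M) : nE (lwF τ Q) φ s ∈ ZS (nuT (fun k => s * τ k) Q) Q n M :=
  (ZS _ Q n M).smul_mem _ (GE_mem_ZS τ s h)

/-! ### means and covariances -/

/-- covariance `Re ⟨(A - ⟨A⟩) ψ, B ψ⟩` -/
noncomputable def cov {ι : Type*} [Fintype ι] [LinearOrder ι] (A B : Op ι) (ψ : Fk ι) : ℝ :=
  (⟪A ψ - ((mean A ψ : ℝ) : ℂ) • ψ, B ψ⟫_ℂ).re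

section gen
variable {ι : Type*} [Fintype ι] [LinearOrder ι]

theorem star_dR (l : ι → ℝ) : star (dR l) = dR l := by
  rw [dR_eq, star_diag]
  congr 1
  funext S
  simp only [Pi.star_apply, Complex.star_def, Complex.conj_ofReal]

theorem mean_smul (A : Op ι) (z : ℂ) (ψ : Fk ι) : mean A (z • ψ) = ‖z‖ ^ 2 * mean A ψ := by
  unfold mean
  rw [smul_ap_right, inner_smul_left, inner_smul_right, ← mul_assoc, mul_comm (conj z) z,
    Complex.mul_conj, Complex.normSq_eq_norm_sq, Complex.re_ofReal_mul]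

theorem mean_nrm (A : Op ι) (ψ : Fk ι) : mean A (nrm ψ) = mean A ψ / ‖ψ‖ ^ 2 := by
  unfold nrm
  rw [mean_smul, Complex.norm_real, norm_inv, norm_norm]
  rw [inv_pow, div_eq_inv_mul]

theorem mean_nrm_smul (A : Op ι) {z : ℂ} (hz : z ≠ 0) {φ : Fk ι} (hφ : ‖φ‖ = 1) :
    mean A (nrm (z • φ)) = mean A φ := by
  rw [mean_nrm, mean_smul, norm_smul, hφ, mul_one]
  have : ‖z‖ ≠ 0 := norm_ne_zero_iff.mpr hz
  field_simp

/-- derivative of a mean value along the path, integrated -/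
theorem path_mean (l : ι → ℝ) (X : Op ι) (hX : star X = X) {ψ : Fk ι} (h1 : ‖ψ‖ = 1) {ε : ℝ}
    (hε : ∀ s ∈ Set.Icc (0 : ℝ) 1, |cov (dR fun j => -2 * l j) X (nE l ψ s)| ≤ ε) :
    |mean X (nE l ψ 1) - mean X ψ| ≤ ε := by
  have h0 : ψ ≠ 0 := fun h0 => by rw [h0, norm_zero] at h1; exact zero_ne_one h1
  have e2 : ∀ v : Fk ι, dR (fun j => -2 * l j) v = (-2 : ℂ) • dR l v := by
    intro v
    ext T
    show dR (fun j => -2 * l j) v T = (-2 : ℂ) * dR l v T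
    rw [dR_apply, dR_apply, ← mul_sum]
    push_cast
    ring
  have h := path_form (κ := Unit) {()} (fun _ => nE l ψ) (dR fun j => -2 * l j).ap X.ap
    (fun _ s => mean (dR fun j => -2 * l j) (nE l ψ s))
    (fun x y => by
      have := inner_star_left X x y
      rw [hX] at this
      exact this) (fun _ => 1) (ε := ε) ?_ ?_
  · simp only [sum_singleton, one_smul] at h
    rw [nE_zero l h1] at h
    exact h
  · intro _ _ s _
    refine (hasDerivAt_nE l h0 s).congr_deriv ?_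
    have e3 : mean (dR fun j => -2 * l j) (nE l ψ s) = -2 * mean (dR l) (nE l ψ s) := by
      unfold mean
      rw [e2, inner_smul_right]
      have : ((-2 : ℂ)) = ((-2 : ℝ) : ℂ) := by push_cast; rfl
      rw [this, Complex.re_ofReal_mul]
    rw [e3]
    show _ = -(1 / 2 : ℂ) • (dR (fun j => -2 * l j) (nE l ψ s) - _)
    rw [e2, smul_sub, smul_smul, smul_smul, sub_eq_add_neg, sub_eq_add_neg, ← neg_smul,
      ← neg_smul]
    congr 1
    · norm_num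
    · congr 1
      push_cast
      ring
  · intro s hs
    simp only [sum_singleton, one_smul]
    exact hε s hs

theorem c_dR (f : ι → ℝ) (k : ι) (v : Fk ι) :
    dR f (c k v) = c k (dR f v) - ((f k : ℝ) : ℂ) • c k v := by
  have h := congrArg (fun A : Op ι => A v) (c_mul_dG_diagonal (fun j => ((f j : ℝ) : ℂ)) k)
  simp only [mul_ap, add_ap, smul_ap] at h
  unfold dR
  rw [h]
  abel

theorem mean_dc (k : ι) (ψ : Fk ι) : mean (d k * c k) ψ = ‖c k ψ‖ ^ 2 := by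
  unfold mean
  rw [mul_ap, ← star_c, inner_star_right, inner_self_eq_norm_sq_to_K]
  norm_cast

/-- conditional mean -/
theorem cond_mean (f : ι → ℝ) (k : ι) (ψ : Fk ι) (h : c k ψ ≠ 0) :
    mean (dR f) (nrm (c k ψ)) =
      mean (dR f) ψ - f k + cov (d k * c k) (dR f) ψ / ‖c k ψ‖ ^ 2 := by
  have hn : 0 < ‖c k ψ‖ ^ 2 := by
    have := norm_pos_iff.mpr h
    positivity
  rw [mean_nrm]
  have e1 : mean (dR f) (c k ψ) = (⟪(d k * c k) ψ, dR f ψ⟫_ℂ).re - f k * ‖c k ψ‖ ^ 2 := by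
    unfold mean
    rw [c_dR, inner_sub_right, inner_smul_right, Complex.sub_re, Complex.re_ofReal_mul,
      inner_self_eq_norm_sq_to_K]
    congr 1
    · rw [mul_ap, ← star_c, inner_star_left]
    · norm_cast
  have e2 : cov (d k * c k) (dR f) ψ =
      (⟪(d k * c k) ψ, dR f ψ⟫_ℂ).re - ‖c k ψ‖ ^ 2 * mean (dR f) ψ := by
    unfold cov
    rw [mean_dc, inner_sub_left, inner_smul_left, Complex.conj_ofReal, Complex.sub_re,
      Complex.re_ofReal_mul]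
    rfl
  rw [e1, e2]
  field_simp
  ring

end gen

/-! ### the two moves -/

theorem c_mem_Sc {n M : ℕ} {ψ : Fk (Fin (Q + 1))} (k : Fin (Q + 1))
    (h : ψ ∈ Sc Q (n + 1) (M + k)) : c k ψ ∈ Sc Q n M := by
  intro S hS
  rw [c_apply] at hS
  by_cases hk : k ∈ S
  · rw [if_pos hk] at hS; exact absurd rfl hS
  · rw [if_neg hk] at hS
    have h1 := h _ (right_ne_zero_of_mul hS)
    rw [card_insert_of_notMem hk, sum_insert hk] at h1
    omega

theorem emb_mem_Sc_iff {Q' Q : ℕ} (h : Q' ≤ Q) {n M : ℕ} {ψ : Fk (Fin (Q' + 1))} :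
    emb (ee h) ψ ∈ Sc Q n M ↔ ψ ∈ Sc Q' n M := by
  have hsum : ∀ S : Finset (Fin (Q' + 1)),
      (∑ i ∈ S.map (ee h).toEmbedding, (i : ℕ)) = ∑ i ∈ S, (i : ℕ) := by
    intro S
    rw [sum_map]
    rfl
  constructor
  · intro H S hS
    have h1 := H (S.map (ee h).toEmbedding) (by rw [emb_apply_map]; exact hS)
    rw [card_map, hsum] at h1
    exact h1
  · intro H S hS
    by_cases hm : ∃ T : Finset (Fin (Q' + 1)), T.map (ee h).toEmbedding = S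
    · obtain ⟨T, rfl⟩ := hm
      rw [emb_apply_map] at hS
      rw [card_map, hsum]
      exact H T hS
    · refine absurd ?_ hS
      refine emb_apply_not _ _ _ ?_
      intro T hT
      exact hm ⟨T, hT⟩

/-- the mean of a one-body operator of an embedded vector -/
theorem mean_dR_emb {Q' Q : ℕ} (h : Q' ≤ Q) (f : ℕ → ℝ) (φ : Fk (Fin (Q' + 1))) :
    mean (dR fun j : Fin (Q + 1) => f j) (emb (ee h) φ) = mean (dR fun j : Fin (Q' + 1) => f j) φ := by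
  unfold mean dR
  rw [← inner_cmp, cmp_dG_diagonal]
  rfl

theorem nrm_emb {κ ι : Type*} [Fintype κ] [LinearOrder κ] [Fintype ι] [LinearOrder ι]
    (e : κ ↪o ι) (φ : Fk κ) : nrm (emb e φ) = emb e (nrm φ) := by
  unfold nrm
  rw [norm_emb, map_smul]

/-- image of the A-move -/
theorem A_image {ν : ℕ → ℝ} (hν : PosM ν (Q + 3)) {n M : ℕ} {ψ : Fk (Fin (Q + 3 + 1))}
    (hψ : ψ ∈ ZS ν (Q + 3) (n + 1) (M + (Q + 3))) :
    ∃ φ ∈ ZS ν Q n M, emb (ee (Nat.le_add_right Q 3)) φ = c (Fin.last (Q + 3)) ψ := by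
  obtain ⟨φ, h1, h2⟩ := Ablock hν (ZS_le_Zn hψ)
  refine ⟨φ, ⟨h1.1, ?_⟩, h2⟩
  refine (emb_mem_Sc_iff (Nat.le_add_right Q 3)).mp ?_
  rw [h2]
  have h3 : c (Fin.last (Q + 3)) ψ ∈ Sc (Q + 3) n M := c_mem_Sc _ (by
    rw [Fin.val_last]; exact hψ.2)
  exact h3

/-- image of the B-move -/
theorem B_image {ν : ℕ → ℝ} {n M : ℕ} {ψ : Fk (Fin (Q + 1 + 1))}
    (hψ : ψ ∈ ZS ν (Q + 1) n M) (h0 : c (Fin.last (Q + 1)) ψ = 0) :
    ∃ φ ∈ ZS ν Q n M, emb (ee (Nat.le_succ Q)) φ = ψ := by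
  obtain ⟨φ, h1, h2⟩ := Bblock (ZS_le_Zn hψ) h0
  refine ⟨φ, ⟨h1.1, ?_⟩, h2⟩
  refine (emb_mem_Sc_iff (Nat.le_succ Q)).mp ?_
  rw [h2]
  exact hψ.2


theorem posM_nu0_le {Q Q' : ℕ} (h : Q ≤ Q') : PosM (nu0 Q') Q := fun j hj =>
  posM_nu0 Q' j (hj.trans h)

/-- comparison along the path: `φ` at the round metric, `χ` at the endpoint -/
theorem path_sector (τ : Fin 3 → ℝ) {n M : ℕ} (hQ : Q + 2 ≤ 3 * n) (X : Op (Fin (Q + 1)))
    (hX : star X = X) {φ χ : Fk (Fin (Q + 1))} (hφ : φ ∈ ZS (nu0 Q) Q n M) (hφ1 : ‖φ‖ = 1)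
    (hχ : χ ∈ ZS (nuT (fun k => 1 * τ k) Q) Q n M) (hχ0 : χ ≠ 0) {ε : ℝ}
    (hε : ∀ s ∈ Set.Icc (0 : ℝ) 1, ∀ u ∈ ZS (nuT (fun k => s * τ k) Q) Q n M, ‖u‖ = 1 →
      |cov (dR fun j => -2 * lwF τ Q j) X u| ≤ ε) :
    |mean X (nrm χ) - mean X φ| ≤ ε := by
  have hφ0 : φ ≠ 0 := fun h0 => by rw [h0, norm_zero] at hφ1; exact zero_ne_one hφ1
  have h1 := path_mean (lwF τ Q) X hX hφ1 (ε := ε) fun s hs =>
    hε s hs _ (nE_mem_ZS τ s hφ) (norm_nE _ _ hφ0)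
  have h2 : nE (lwF τ Q) φ 1 ≠ 0 := fun h0 => by
    have := norm_nE (lwF τ Q) 1 hφ0
    rw [h0, norm_zero] at this
    exact zero_ne_one this
  obtain ⟨z, hz⟩ := ZS_smul (posM_nuT _ Q) hQ (nE_mem_ZS τ 1 hφ) h2 hχ
  have hz0 : z ≠ 0 := fun h0 => hχ0 (by rw [hz, h0, zero_smul])
  rw [hz, mean_nrm_smul X hz0 (norm_nE _ _ hφ0)]
  exact h1

/-- **A-move** (one-body operators). -/
theorem A_step {n M : ℕ} (hQ : Q + 2 ≤ 3 * n) (f : ℕ → ℝ)
    {ψ : Fk (Fin (Q + 3 + 1))} {φ : Fk (Fin (Q + 1))}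
    (hψ : ψ ∈ ZS (nu0 (Q + 3)) (Q + 3) (n + 1) (M + (Q + 3)))
    (hφ : φ ∈ ZS (nu0 Q) Q n M) (hφ1 : ‖φ‖ = 1) {κ δ ε : ℝ} (hκ : 0 < κ)
    (hκ' : κ ≤ ‖c (Fin.last (Q + 3)) ψ‖ ^ 2)
    (hδ : |cov (d (Fin.last (Q + 3)) * c (Fin.last (Q + 3)))
      (dR fun j : Fin (Q + 3 + 1) => f j) ψ| ≤ δ)
    (hε : ∀ s ∈ Set.Icc (0 : ℝ) 1, ∀ u ∈ ZS (nuT (fun k => s * tA k) Q) Q n M, ‖u‖ = 1 →
      |cov (dR fun j => -2 * lwF tA Q j) (dR fun j : Fin (Q + 1) => f j) u| ≤ ε) :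
    |mean (dR fun j : Fin (Q + 3 + 1) => f j) ψ - f (Q + 3) -
      mean (dR fun j : Fin (Q + 1) => f j) φ| ≤ δ / κ + ε := by
  have hc0 : c (Fin.last (Q + 3)) ψ ≠ 0 := fun h0 => by
    rw [h0, norm_zero] at hκ'; norm_num at hκ'; linarith
  obtain ⟨χ, hχ, hχ2⟩ := A_image (posM_nu0 (Q + 3)) hψ
  have hχ0 : χ ≠ 0 := fun h0 => hc0 (by rw [← hχ2, h0, map_zero])
  have hχ' : χ ∈ ZS (nuT (fun k => 1 * tA k) Q) Q n M := ⟨by rw [← Zs_nu0_add3]; exact hχ.1, hχ.2⟩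
  have h1 := path_sector tA hQ (dR fun j : Fin (Q + 1) => f j) (star_dR _) hφ hφ1 hχ' hχ0 hε
  have h2 := cond_mean (fun j : Fin (Q + 3 + 1) => f j) (Fin.last (Q + 3)) ψ hc0
  rw [← hχ2, nrm_emb, mean_dR_emb, hχ2, Fin.val_last] at h2
  have hpos : 0 < ‖c (Fin.last (Q + 3)) ψ‖ ^ 2 := hκ.trans_le hκ'
  have h3 : |cov (d (Fin.last (Q + 3)) * c (Fin.last (Q + 3)))
      (dR fun j : Fin (Q + 3 + 1) => f j) ψ / ‖c (Fin.last (Q + 3)) ψ‖ ^ 2| ≤ δ / κ := by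
    rw [abs_div, abs_of_pos hpos]
    exact div_le_div₀ ((abs_nonneg _).trans hδ) hδ hκ hκ'
  rw [h2] at h1
  rw [abs_le] at h1 h3 ⊢
  constructor <;> linarith [h1.1, h1.2, h3.1, h3.2]

/-- **B-move** (general self-adjoint operator, compressed). -/
theorem B_step {n M : ℕ} (hQ : Q + 2 ≤ 3 * n) (X : Op (Fin (Q + 1 + 1))) (hX : star X = X)
    {ψ : Fk (Fin (Q + 1 + 1))} {φ : Fk (Fin (Q + 1))}
    (hψ : ψ ∈ ZS (nu0 (Q + 1)) (Q + 1) n M) (hψ1 : ‖ψ‖ = 1)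
    (h0 : c (Fin.last (Q + 1)) ψ = 0)
    (hφ : φ ∈ ZS (nu0 Q) Q n M) (hφ1 : ‖φ‖ = 1) {ε : ℝ}
    (hε : ∀ s ∈ Set.Icc (0 : ℝ) 1, ∀ u ∈ ZS (nuT (fun k => s * tB k) Q) Q n M, ‖u‖ = 1 →
      |cov (dR fun j => -2 * lwF tB Q j) (cmp (ee (Nat.le_succ Q)) X) u| ≤ ε) :
    |mean X ψ - mean (cmp (ee (Nat.le_succ Q)) X) φ| ≤ ε := by
  obtain ⟨χ, hχ, hχ2⟩ := B_image hψ h0
  have hχ1 : ‖χ‖ = 1 := by rw [← norm_emb (ee (Nat.le_succ Q)), hχ2, hψ1]
  have hχ0 : χ ≠ 0 := fun h0 => by rw [h0, norm_zero] at hχ1; exact zero_ne_one hχ1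
  have hχ' : χ ∈ ZS (nuT (fun k => 1 * tB k) Q) Q n M := ⟨by rw [← Zs_nu0_succ]; exact hχ.1, hχ.2⟩
  have hcs : star (cmp (ee (Nat.le_succ Q)) X) = cmp (ee (Nat.le_succ Q)) X := by
    rw [← cmp_star, hX]
  have h1 := path_sector tB hQ _ hcs hφ hφ1 hχ' hχ0 hε
  rw [nrm_of_norm_one hχ1] at h1
  have h2 : mean (cmp (ee (Nat.le_succ Q)) X) χ = mean X ψ := by
    unfold mean
    rw [inner_cmp, hχ2]
  rw [h2] at h1
  exact h1

end Crest.Agent.R340.K1in788
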