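import Crest.Agent.R340.Rot3_303
import Crest.Agent.R340.Mom_814
import Crest.Agent.R340.K1inC_788
import Crest.Agent.R340.Vac3_467

-- ▼ part R340/Rot4_303
section

/-!
# R340 (helper303), rotation layer 4: the Lie algebra

`TT Q a` (helper814) = derived representation of a `2 × 2` matrix `a`.
* `hasDerivAt_Rg` : derivative of `t ↦ Rg Q (u t)` at `u 0 = 1` is `dG (TT Q X)`;
* `commute_dG_TT` : commuting with all rotations implies commuting with all `dG (TT Q a)`;
* `dG_comm_Bp` : `[dG (TT Q a), Bp p] = -(tr a • Bp p + ∑ q, TT2 Q a p q • Bp q)`;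
* `dG_comm_HH`.
-/

set_option autoImplicit false

open Matrix Polynomial

namespace Crest.Agent.R340.Rot303

open Crest.Agent.R340.CS809 Crest.MathPhysics.Laughlin Crest.Agent.R340.Fock649
  Crest.Agent.R340.Gam303 Crest.Agent.R340.Br320 Crest.Agent.R340.Mom814

noncomputable section

variable {Q : ℕ}

/-- entrywise derivative at `0` -/
def HD {m n : Type*} (u : ℝ → Matrix m n ℂ) (X : Matrix m n ℂ) : Prop :=
  ∀ i j, HasDerivAt (fun t => u t i j) (X i j) 0

/-! ## the derived representation -/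

lemma differentiableAt_sp {u : ℝ → Matrix (Fin 2) (Fin 2) ℂ} {X : Matrix (Fin 2) (Fin 2) ℂ}
    (hu : HD u X) (Q : ℕ) (j k : Fin (Q + 1)) :
    DifferentiableAt ℝ (fun t => sp Q (u t) j k) 0 := by
  simp only [sp, of_apply]
  refine (differentiableAt_const _).mul ?_
  have hlin : ∀ (a b : Fin 2) (m : ℕ), DifferentiableAt ℝ
      (fun t => ((C (u t a b) : ℂ[X])).coeff m) 0 := by
    intro a b m
    rcases Nat.eq_zero_or_pos m with rfl | hm
    · simp only [coeff_C_zero]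
      exact (hu a b).differentiableAt
    · have : (fun t => ((C (u t a b) : ℂ[X])).coeff m) = fun _ => 0 := by
        funext g; rw [coeff_C_of_ne_zero hm.ne']
      rw [this]; exact differentiableAt_const _
  have hmul : ∀ (f h : ℝ → ℂ[X]), (∀ m, DifferentiableAt ℝ (fun g => (f g).coeff m) 0) →
      (∀ m, DifferentiableAt ℝ (fun g => (h g).coeff m) 0) →
      ∀ m, DifferentiableAt ℝ (fun g => (f g * h g).coeff m) 0 := by
    intro f h hf hh m
    simp only [coeff_mul]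
    exact DifferentiableAt.fun_sum fun x _ => (hf _).mul (hh _)
  have hpow : ∀ (f : ℝ → ℂ[X]), (∀ m, DifferentiableAt ℝ (fun g => (f g).coeff m) 0) →
      ∀ n m, DifferentiableAt ℝ (fun g => (f g ^ n).coeff m) 0 := by
    intro f hf n
    induction n with
    | zero => intro m; simp only [pow_zero]; exact differentiableAt_const _
    | succ n ih => intro m; simp only [pow_succ]; exact hmul _ _ ih hf m
  have hlf : ∀ a m, DifferentiableAt ℝ (fun t => (lf (u t) a).coeff m) 0 := by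
    intro a m
    simp only [lf, coeff_add]
    refine (hlin a 0 m).add ?_
    exact hmul _ (fun _ => Polynomial.X) (hlin a 1) (fun _ => differentiableAt_const _) m
  exact hmul _ _ (hpow _ (hlf 0) _) (hpow _ (hlf 1) _) _

lemma hasDerivAt_kap_curve {v : ℝ → Fin 2 → ℂ} {η : Fin 2 → ℂ}
    (hv : ∀ i, HasDerivAt (fun t => v t i) (η i) 0) (j : Fin (Q + 1)) :
    HasDerivAt (fun t => kap Q (v t) j) (dk Q (v 0) η j) 0 := by
  have h1 := (hv 0).fun_pow (Q - (j : ℕ))
  have h2 := (hv 1).fun_pow (j : ℕ)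
  have h3 := (h1.fun_mul h2).const_mul (((sb Q j : ℝ) : ℂ))
  exact h3

/-- **The derivative of the representation at the identity.** -/
theorem hasDerivAt_sp {u : ℝ → Matrix (Fin 2) (Fin 2) ℂ} {X : Matrix (Fin 2) (Fin 2) ℂ}
    (hu : HD u X) (h0 : u 0 = 1) (Q : ℕ) : HD (fun t => sp Q (u t)) (TT Q X) := by
  set M : Matrix (Fin (Q + 1)) (Fin (Q + 1)) ℂ :=
    Matrix.of fun j k => deriv (fun t => sp Q (u t) j k) 0 with hM
  have h1 : ∀ j k, HasDerivAt (fun t => sp Q (u t) j k) (M j k) 0 := by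
    intro j k
    exact (differentiableAt_sp hu Q j k).hasDerivAt
  have h2 : M = TT Q X := by
    refine ext_kap fun ζ => ?_
    rw [TT_mulVec_kap]
    funext j
    have h3 : HasDerivAt (fun t => (sp Q (u t) *ᵥ kap Q ζ) j) ((M *ᵥ kap Q ζ) j) 0 := by
      simp only [mulVec, dotProduct]
      exact HasDerivAt.fun_sum fun k _ => (h1 j k).mul_const _
    have h4 : (fun t => (sp Q (u t) *ᵥ kap Q ζ) j) = fun t => kap Q (u t *ᵥ ζ) j := by
      funext t; rw [sp_mulVec_kap]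
    rw [h4] at h3
    have h5 : ∀ i, HasDerivAt (fun t => (u t *ᵥ ζ) i) ((X *ᵥ ζ) i) 0 := by
      intro i
      simp only [mulVec, dotProduct]
      exact HasDerivAt.fun_sum fun k _ => (hu i k).mul_const _
    have h6 := hasDerivAt_kap_curve (Q := Q) h5 j
    rw [h0, one_mulVec] at h6
    exact h3.unique h6
  intro j k
  rw [← h2]
  exact h1 j k



theorem TT_conjTranspose (a : Matrix (Fin 2) (Fin 2) ℂ) : (TT Q a)ᴴ = TT Q aᴴ := by
  ext j k
  simp only [TT, of_apply, Matrix.conjTranspose_apply, star_add, apply_ite star, star_mul', star_zero]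
  have e1 : ∀ r : ℝ, star (r : ℂ) = (r : ℂ) := fun r => Complex.conj_ofReal r
  have e2 : star ((Q : ℂ) - ((k : ℕ) : ℂ)) = (Q : ℂ) - ((k : ℕ) : ℂ) := by
    simp
  have e3 : star (((k : ℕ) : ℂ)) = ((k : ℕ) : ℂ) := by simp
  simp only [e1, e2, e3]
  rw [add_right_comm]
  congr 1
  congr 1
  by_cases h : (j : ℕ) = k
  · rw [if_pos h, if_pos h.symm, h]
  · rw [if_neg h, if_neg (Ne.symm h)]



/-- the derived representation on the pair multiplet -/
def TT2 (Q : ℕ) (a : Matrix (Fin 2) (Fin 2) ℂ) : Matrix (Fin (2 * Q - 1)) (Fin (2 * Q - 1)) ℂ :=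
  (TT (2 * Q - 2) a).submatrix cst cst

theorem TT2_conjTranspose (a : Matrix (Fin 2) (Fin 2) ℂ) : (TT2 Q a)ᴴ = TT2 Q aᴴ := by
  ext p q
  have h := congrFun (congrFun (TT_conjTranspose (Q := 2 * Q - 2) a) (cst p)) (cst q)
  exact h

theorem hasDerivAt_D2 {u : ℝ → Matrix (Fin 2) (Fin 2) ℂ} {X : Matrix (Fin 2) (Fin 2) ℂ}
    (hu : HD u X) (h0 : u 0 = 1) (Q : ℕ) : HD (fun t => D2 Q (u t)) (TT2 Q X) :=
  fun p q => hasDerivAt_sp hu h0 (2 * Q - 2) (cst p) (cst q)

/-- the straight line through the identity -/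
lemma HD_line (b : Matrix (Fin 2) (Fin 2) ℂ) : HD (fun t : ℝ => 1 + (t : ℂ) • b) b := by
  intro i j
  simp only [Matrix.add_apply, Matrix.smul_apply, smul_eq_mul]
  have h : HasDerivAt (fun t : ℝ => (t : ℂ)) 1 0 := Complex.ofRealCLM.hasDerivAt
  have h2 := (h.mul_const (b i j)).const_add ((1 : Matrix (Fin 2) (Fin 2) ℂ) i j)
  simpa using h2

/-- **Infinitesimal covariance of the pair vectors.** -/
theorem TT_PV (b : Matrix (Fin 2) (Fin 2) ℂ) (p' : Fin (2 * Q - 1)) :
    TT Q b * PV Q p' + PV Q p' * (TT Q b)ᵀ =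
      b.trace • PV Q p' + ∑ p, TT2 Q b p p' • PV Q p := by
  have h0 : (fun t : ℝ => (1 : Matrix (Fin 2) (Fin 2) ℂ) + (t : ℂ) • b) 0 = 1 := by simp
  have hs := hasDerivAt_sp (HD_line b) h0 Q
  have hD := hasDerivAt_D2 (HD_line b) h0 Q
  have hdet : HasDerivAt (fun t : ℝ => ((1 : Matrix (Fin 2) (Fin 2) ℂ) + (t : ℂ) • b).det)
      b.trace 0 := by
    have h00 := HD_line b 0 0
    have h11 := HD_line b 1 1
    have h01 := HD_line b 0 1
    have h10 := HD_line b 1 0
    have h := (h00.fun_mul h11).fun_sub (h01.fun_mul h10)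
    have e : (fun t : ℝ => ((1 : Matrix (Fin 2) (Fin 2) ℂ) + (t : ℂ) • b).det) = fun t : ℝ =>
        ((1 : Matrix (Fin 2) (Fin 2) ℂ) + (t : ℂ) • b) 0 0 *
        ((1 : Matrix (Fin 2) (Fin 2) ℂ) + (t : ℂ) • b) 1 1 -
        ((1 : Matrix (Fin 2) (Fin 2) ℂ) + (t : ℂ) • b) 0 1 *
        ((1 : Matrix (Fin 2) (Fin 2) ℂ) + (t : ℂ) • b) 1 0 := by
      funext t; rw [Matrix.det_fin_two]
    rw [e]
    refine h.congr_deriv ?_
    simp [Matrix.trace, Fin.sum_univ_two]
  ext i j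
  have hL : HasDerivAt (fun t : ℝ => (sp Q (1 + (t : ℂ) • b) * PV Q p' *
      (sp Q (1 + (t : ℂ) • b))ᵀ) i j)
      ((TT Q b * PV Q p' + PV Q p' * (TT Q b)ᵀ) i j) 0 := by
    have h1 : ∀ k, HasDerivAt (fun t : ℝ => (sp Q (1 + (t : ℂ) • b) * PV Q p') i k)
        ((TT Q b * PV Q p') i k) 0 := by
      intro k
      simp only [Matrix.mul_apply]
      exact HasDerivAt.fun_sum fun l _ => (hs i l).mul_const _
    have h2 : HasDerivAt (fun t : ℝ => (sp Q (1 + (t : ℂ) • b) * PV Q p' *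
      (sp Q (1 + (t : ℂ) • b))ᵀ) i j)
      (∑ k, ((TT Q b * PV Q p') i k * (sp Q (1 + ((0 : ℝ) : ℂ) • b))ᵀ k j +
        (sp Q (1 + ((0 : ℝ) : ℂ) • b) * PV Q p') i k * (TT Q b) j k)) 0 := by
      have e : (fun t : ℝ => (sp Q (1 + (t : ℂ) • b) * PV Q p' *
        (sp Q (1 + (t : ℂ) • b))ᵀ) i j) = fun t : ℝ => ∑ k, (sp Q (1 + (t : ℂ) • b) * PV Q p') i k *
        sp Q (1 + (t : ℂ) • b) j k := by
        funext t
        rw [Matrix.mul_apply]
        rfl
      rw [e]
      exact HasDerivAt.fun_sum fun k _ => (h1 k).fun_mul (hs j k)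
    refine h2.congr_deriv ?_
    rw [Matrix.add_apply, Finset.sum_add_distrib]
    have e1 : (1 : Matrix (Fin 2) (Fin 2) ℂ) + ((0 : ℝ) : ℂ) • b = 1 := by simp
    rw [e1, sp_one, Matrix.transpose_one, Matrix.one_mul]
    congr 1
    rw [← Matrix.mul_apply, Matrix.mul_one]
  have hR : HasDerivAt (fun t : ℝ => (((1 : Matrix (Fin 2) (Fin 2) ℂ) + (t : ℂ) • b).det •
      ∑ p, D2 Q (1 + (t : ℂ) • b) p p' • PV Q p) i j)
      ((b.trace • PV Q p' + ∑ p, TT2 Q b p p' • PV Q p) i j) 0 := by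
    have h1 : HasDerivAt (fun t : ℝ => ∑ p, D2 Q (1 + (t : ℂ) • b) p p' * PV Q p i j)
        (∑ p, TT2 Q b p p' * PV Q p i j) 0 :=
      HasDerivAt.fun_sum fun p _ => (hD p p').mul_const _
    have h2 := hdet.fun_mul h1
    have e : (fun t : ℝ => (((1 : Matrix (Fin 2) (Fin 2) ℂ) + (t : ℂ) • b).det •
      ∑ p, D2 Q (1 + (t : ℂ) • b) p p' • PV Q p) i j) = fun t : ℝ =>
      ((1 : Matrix (Fin 2) (Fin 2) ℂ) + (t : ℂ) • b).det *
        ∑ p, D2 Q (1 + (t : ℂ) • b) p p' * PV Q p i j := by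
      funext t
      rw [Matrix.smul_apply, smul_eq_mul, Matrix.sum_apply]
      rfl
    rw [e]
    refine h2.congr_deriv ?_
    have e1 : (1 : Matrix (Fin 2) (Fin 2) ℂ) + ((0 : ℝ) : ℂ) • b = 1 := by simp
    rw [e1, D2_one, Matrix.det_one, one_mul, Matrix.add_apply, Matrix.smul_apply, smul_eq_mul,
      Matrix.sum_apply]
    congr 1
    congr 1
    rw [Finset.sum_eq_single p']
    · rw [Matrix.one_apply_eq, one_mul]
    · intro q _ hq
      rw [Matrix.one_apply_ne hq, zero_mul]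
    · intro h; exact absurd (Finset.mem_univ _) h
  have heq : (fun t : ℝ => (sp Q (1 + (t : ℂ) • b) * PV Q p' *
      (sp Q (1 + (t : ℂ) • b))ᵀ) i j) = fun t : ℝ =>
      (((1 : Matrix (Fin 2) (Fin 2) ℂ) + (t : ℂ) • b).det •
      ∑ p, D2 Q (1 + (t : ℂ) • b) p p' • PV Q p) i j := by
    funext t
    rw [PV_cov]
  rw [heq] at hL
  exact hL.unique hR

/-- **The ladders on the pair annihilators.** -/
theorem dG_comm_Bp (a : Matrix (Fin 2) (Fin 2) ℂ) (p : Fin (2 * Q - 1)) :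
    dG (TT Q a) * Bp Q p - Bp Q p * dG (TT Q a) =
      -(a.trace • Bp Q p + ∑ q, TT2 Q a p q • Bp Q q) := by
  unfold Bp
  rw [dG_comm_pa]
  have h1 : (TT Q a).map (starRingEnd ℂ) = (TT Q aᴴ)ᵀ := by
    rw [← TT_conjTranspose]; rfl
  have h2 := TT_PV (Q := Q) aᴴ p
  rw [TT_conjTranspose, h1, wM_eq, h2, pa_add, pa_smul, pa_sum]
  congr 1
  congr 1
  · congr 1
    rw [Matrix.trace_conjTranspose]
    exact star_star _
  · refine Finset.sum_congr rfl fun q _ => ?_
    rw [pa_smul, ← TT2_conjTranspose, Matrix.conjTranspose_apply]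
    congr 1
    exact star_star _

/-! ## derivative of the second quantisation -/

section Gam
variable {ι : Type*} [LinearOrder ι] [Fintype ι]







end Gam


/-! ## commutants -/




























/-! ## explicit ladders -/






end

end Crest.Agent.R340.Rot303
end

-- ▼ part R340/K1inD_788

/-!
# R340, K = 1 inputs (helper788): existence of the one-hole states

For `Q + 2 = 3 n` (`K = 1`) and `i ≤ n` the sector `ZS (nu0 Q) Q n (lmin n + i)` is nonzero
(hence exactly one-dimensional): apply `dΓ(J_-)` to the reference state of 467.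
-/

set_option autoImplicit false
set_option linter.unusedSectionVars false

namespace Crest.Agent.R340.K1in788

open Finset
open scoped InnerProductSpace ComplexConjugate
open Crest.Agent.R340.Fock649 Crest.Agent.R340.Geo986 Crest.Agent.R340.Peel596
  Crest.Agent.R340.Emb596
open Crest.Agent.R340.Vac467 (Lz Lz_eq lmin two_lmin lmin_succ exists_adm adm_bounds)

variable {Q : ℕ}

/-! ### the two forms of the sectors -/

theorem Sc_Lz {n M : ℕ} {v : Fk (Fin (Q + 1))} (hv : v ∈ Sc Q n M) : Lz Q v = (M : ℂ) • v := by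
  rw [Lz_eq]
  ext S
  rw [diag_apply]
  show _ = (M : ℂ) * v S
  by_cases h : v S = 0
  · rw [h, mul_zero, mul_zero]
  · rw [(hv S h).2]

theorem mem_Sc_iff {n M : ℕ} {v : Fk (Fin (Q + 1))} :
    v ∈ Sc Q n M ↔ Nh v = (n : ℂ) • v ∧ Lz Q v = (M : ℂ) • v := by
  constructor
  · intro h
    exact ⟨Sc_Nh h, Sc_Lz h⟩
  · rintro ⟨h1, h2⟩ S hS
    constructor
    · rw [Nh_eq] at h1
      have h3 := congrArg (fun w : Fk (Fin (Q + 1)) => w S) h1
      have h4 : (S.card : ℂ) * v S = (n : ℂ) * v S := h3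
      exact Nat.cast_injective (R := ℂ) (mul_right_cancel₀ hS h4)
    · rw [Lz_eq] at h2
      have h3 := congrArg (fun w : Fk (Fin (Q + 1)) => w S) h2
      have h4 : ((∑ i ∈ S, (i : ℕ) : ℕ) : ℂ) * v S = (M : ℂ) * v S := h3
      exact Nat.cast_injective (R := ℂ) (mul_right_cancel₀ hS h4)

theorem Sec_iff {n M : ℕ} {v : Fk (Fin (Q + 1))} :
    Vac467.Sec Q n M v ↔ v ∈ Sc Q n M := mem_Sc_iff.symm


/-! ### raising and lowering -/

/-- raising of the orbital index -/
noncomputable def Ra (Q : ℕ) : Matrix (Fin (Q + 1)) (Fin (Q + 1)) ℂ := Mom814.TT Q !![0, 0; 1, 0]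
/-- lowering of the orbital index -/
noncomputable def Lo (Q : ℕ) : Matrix (Fin (Q + 1)) (Fin (Q + 1)) ℂ := Mom814.TT Q !![0, 1; 0, 0]

theorem Ra_apply (j k : Fin (Q + 1)) : Ra Q j k =
    if (j : ℕ) = k + 1 then ((Real.sqrt (((Q : ℝ) - (k : ℕ)) * ((k : ℕ) + 1)) : ℝ) : ℂ) else 0 := by
  unfold Ra Mom814.TT
  simp

theorem Lo_apply (j k : Fin (Q + 1)) : Lo Q j k =
    if (k : ℕ) = j + 1 then ((Real.sqrt (((Q : ℝ) - (j : ℕ)) * ((j : ℕ) + 1)) : ℝ) : ℂ) else 0 := by
  unfold Lo Mom814.TT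
  simp

theorem dG_TT_mem_Zs (a : Matrix (Fin 2) (Fin 2) ℂ) {ψ : Fk (Fin (Q + 1))}
    (h : ψ ∈ Zs (nu0 Q) Q) : dG (Mom814.TT Q a) ψ ∈ Zs (nu0 Q) Q := by
  rw [Vac467.mem_Zs_nu0_iff] at h ⊢
  intro p
  have h1 := congrArg (fun A : Op (Fin (Q + 1)) => A ψ) (Rot303.dG_comm_Bp (Q := Q) a p)
  simp only [sub_ap, mul_ap, neg_ap, add_ap, smul_ap, sum_ap, h, map_zero, smul_zero,
    Finset.sum_const_zero, add_zero, neg_zero, zero_sub] at h1
  exact neg_eq_zero.mp h1

theorem Lz_comm_dG {A : Matrix (Fin (Q + 1)) (Fin (Q + 1)) ℂ} {z : ℂ}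
    (hA : ∀ j k : Fin (Q + 1), (((j : ℕ) : ℂ) - ((k : ℕ) : ℂ)) * A j k = z * A j k) :
    Lz Q * dG A = dG A * Lz Q + z • dG A := by
  have h := dG_comm (Matrix.diagonal fun i : Fin (Q + 1) => ((i : ℕ) : ℂ)) A
  have e : Matrix.diagonal (fun i : Fin (Q + 1) => ((i : ℕ) : ℂ)) * A -
      A * Matrix.diagonal (fun i : Fin (Q + 1) => ((i : ℕ) : ℂ)) = z • A := by
    ext j k
    rw [Matrix.sub_apply, Matrix.diagonal_mul, Matrix.mul_diagonal, Matrix.smul_apply, smul_eq_mul,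
      ← hA j k]
    ring
  rw [e, dG_smul] at h
  unfold Lz
  rw [← h]
  abel

theorem Lz_Ra : Lz Q * dG (Ra Q) = dG (Ra Q) * Lz Q + (1 : ℂ) • dG (Ra Q) := by
  refine Lz_comm_dG fun j k => ?_
  rw [Ra_apply]
  split_ifs with h
  · rw [h]; push_cast; ring
  · simp

theorem Lz_Lo : Lz Q * dG (Lo Q) = dG (Lo Q) * Lz Q + (-1 : ℂ) • dG (Lo Q) := by
  refine Lz_comm_dG fun j k => ?_
  rw [Lo_apply]
  split_ifs with h
  · rw [h]; push_cast; ring
  · simp

/-- `[dΓ(J_+), dΓ(J_-)] = Q N - 2 L_z` -/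
theorem Lo_Ra_comm : dG (Lo Q) * dG (Ra Q) - dG (Ra Q) * dG (Lo Q) =
    (Q : ℂ) • (Nh : Op (Fin (Q + 1))) - (2 : ℂ) • Lz Q := by
  rw [dG_comm]
  have e : Lo Q * Ra Q - Ra Q * Lo Q =
      (Q : ℂ) • (1 : Matrix (Fin (Q + 1)) (Fin (Q + 1)) ℂ) -
        (2 : ℂ) • Matrix.diagonal fun i : Fin (Q + 1) => ((i : ℕ) : ℂ) := by
    ext j k
    rw [Matrix.sub_apply, Matrix.mul_apply, Matrix.mul_apply, Matrix.sub_apply, Matrix.smul_apply,
      Matrix.smul_apply, smul_eq_mul, smul_eq_mul]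
    -- first product
    have h1 : ∑ i, Lo Q j i * Ra Q i k =
        if j = k then ((((Q : ℝ) - (j : ℕ)) * ((j : ℕ) + 1) : ℝ) : ℂ) else 0 := by
      by_cases hj : (j : ℕ) + 1 < Q + 1
      · rw [Finset.sum_eq_single (⟨(j : ℕ) + 1, hj⟩ : Fin (Q + 1))]
        · rw [Lo_apply, Ra_apply, if_pos rfl]
          by_cases hjk : j = k
          · subst hjk
            rw [if_pos rfl, if_pos rfl, ← Complex.ofReal_mul, Real.mul_self_sqrt]
            have : ((j : ℕ) : ℝ) ≤ Q := by exact_mod_cast (by omega : (j : ℕ) ≤ Q)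
            exact mul_nonneg (by linarith) (by positivity)
          · rw [if_neg hjk, if_neg, mul_zero]
            intro h
            exact hjk (Fin.ext (by simpa using h))
        · intro i _ hi
          rw [Lo_apply, if_neg, zero_mul]
          intro h
          exact hi (Fin.ext h)
        · intro h; exact absurd (mem_univ _) h
      · have hjQ : (j : ℕ) = Q := by omega
        rw [Finset.sum_eq_zero]
        · by_cases hjk : j = k
          · rw [if_pos hjk, hjQ]; simp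
          · rw [if_neg hjk]
        · intro i _
          rw [Lo_apply, if_neg (by omega), zero_mul]
    have h2 : ∑ i, Ra Q j i * Lo Q i k =
        if j = k then ((((Q : ℝ) - (j : ℕ) + 1) * (j : ℕ) : ℝ) : ℂ) else 0 := by
      by_cases hj : 0 < (j : ℕ)
      · rw [Finset.sum_eq_single (⟨(j : ℕ) - 1, by omega⟩ : Fin (Q + 1))]
        · rw [Lo_apply, Ra_apply, if_pos (by show (j : ℕ) = (j : ℕ) - 1 + 1; omega)]
          by_cases hjk : j = k
          · subst hjk
            rw [if_pos rfl, if_pos (by show (j : ℕ) = (j : ℕ) - 1 + 1; omega),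
              ← Complex.ofReal_mul, Real.mul_self_sqrt]
            · congr 1
              simp only
              rw [Nat.cast_sub (by omega : 1 ≤ (j : ℕ))]
              push_cast
              ring
            · simp only
              have : ((j : ℕ) : ℝ) ≤ Q := by exact_mod_cast (by omega : (j : ℕ) ≤ Q)
              rw [Nat.cast_sub (by omega : 1 ≤ (j : ℕ))]
              have h1 : (1 : ℝ) ≤ (j : ℕ) := by exact_mod_cast hj
              push_cast
              exact mul_nonneg (by linarith) (by linarith)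
          · rw [if_neg hjk, if_neg, mul_zero]
            intro h
            have h' : (k : ℕ) = (j : ℕ) - 1 + 1 := h
            exact hjk (Fin.ext (by omega))
        · intro i _ hi
          rw [Ra_apply, if_neg, zero_mul]
          intro h
          exact hi (Fin.ext (by show (i : ℕ) = (j : ℕ) - 1; omega))
        · intro h; exact absurd (mem_univ _) h
      · have hj0 : (j : ℕ) = 0 := by omega
        rw [Finset.sum_eq_zero]
        · by_cases hjk : j = k
          · rw [if_pos hjk, hj0]; simp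
          · rw [if_neg hjk]
        · intro i _
          rw [Ra_apply, if_neg (by omega), zero_mul]
    rw [h1, h2]
    by_cases hjk : j = k
    · subst hjk
      rw [if_pos rfl, if_pos rfl, Matrix.one_apply_eq, Matrix.diagonal_apply_eq]
      push_cast
      ring
    · rw [if_neg hjk, if_neg hjk, Matrix.one_apply_ne hjk, Matrix.diagonal_apply_ne _ hjk]
      ring
  rw [e, dG_sub, dG_smul, dG_smul]
  rfl

/-- the raised vectors -/
noncomputable def raise (v : Fk (Fin (Q + 1))) : ℕ → Fk (Fin (Q + 1))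
  | 0 => v
  | i + 1 => dG (Ra Q) (raise v i)

theorem raise_mem {n : ℕ} {v : Fk (Fin (Q + 1))} (hv : v ∈ ZS (nu0 Q) Q n (lmin n)) (i : ℕ) :
    raise v i ∈ ZS (nu0 Q) Q n (lmin n + i) := by
  induction i with
  | zero => exact hv
  | succ i ih =>
    refine ⟨dG_TT_mem_Zs _ ih.1, ?_⟩
    refine mem_Sc_iff.mpr ⟨?_, ?_⟩
    · have h1 := congrArg (fun A : Op (Fin (Q + 1)) => A (raise v i)) (Nh_comm_dG (Ra Q))
      simp only [mul_ap] at h1
      show Nh (dG (Ra Q) (raise v i)) = _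
      rw [h1, Sc_Nh ih.2, map_smul]
      rfl
    · have h1 := congrArg (fun A : Op (Fin (Q + 1)) => A (raise v i)) (Lz_Ra (Q := Q))
      simp only [mul_ap, add_ap, smul_ap] at h1
      show Lz Q (dG (Ra Q) (raise v i)) = _
      rw [h1, Sc_Lz ih.2, map_smul, ← add_smul]
      congr 1
      push_cast
      ring

/-- the lowering operator kills the sector of minimal `L_z` -/
theorem Lo_min {n : ℕ} {v : Fk (Fin (Q + 1))} (hv : v ∈ ZS (nu0 Q) Q n (lmin n)) :
    dG (Lo Q) v = 0 := by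
  by_contra h0
  obtain ⟨S, hS, hadm⟩ := exists_adm (posM_nu0 Q) (dG_TT_mem_Zs (!![0, 1; 0, 0]) hv.1) h0
  have h1 := congrArg (fun A : Op (Fin (Q + 1)) => A v) (Nh_comm_dG (Lo Q))
  simp only [mul_ap] at h1
  rw [Sc_Nh hv.2, map_smul, Nh_eq] at h1
  have h2 := congrArg (fun A : Op (Fin (Q + 1)) => A v) (Lz_Lo (Q := Q))
  simp only [mul_ap, add_ap, smul_ap] at h2
  rw [Sc_Lz hv.2, map_smul, ← add_smul, Lz_eq] at h2
  have h3 := congrArg (fun w : Fk (Fin (Q + 1)) => w S) h1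
  have h4 := congrArg (fun w : Fk (Fin (Q + 1)) => w S) h2
  have h5 : (S.card : ℂ) * dG (Lo Q) v S = (n : ℂ) * dG (Lo Q) v S := h3
  have h6 : ((∑ i ∈ S, (i : ℕ) : ℕ) : ℂ) * dG (Lo Q) v S =
      ((lmin n : ℂ) + -1) * dG (Lo Q) v S := h4
  have hS' : dG (Lo Q) v S ≠ 0 := hS
  have h7 : S.card = n := Nat.cast_injective (R := ℂ) (mul_right_cancel₀ hS' h5)
  have h8 : ((∑ i ∈ S, (i : ℕ) : ℕ) : ℂ) + 1 = (lmin n : ℂ) := by
    rw [mul_right_cancel₀ hS' h6]; ring
  have h9 : (∑ i ∈ S, (i : ℕ)) + 1 = lmin n := by exact_mod_cast h8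
  have h10 := (adm_bounds n S hadm h7).1
  have h11 : lmin n = ∑ k ∈ range n, 3 * k := rfl
  omega

/-- `J_+ J_-^(i+1) v = (i+1) (Q n - 2 lmin n - i) J_-^i v` -/
theorem Lo_raise {n : ℕ} {v : Fk (Fin (Q + 1))} (hv : v ∈ ZS (nu0 Q) Q n (lmin n)) (i : ℕ) :
    dG (Lo Q) (raise v (i + 1)) =
      (((i : ℂ) + 1) * ((Q : ℂ) * n - 2 * lmin n - i)) • raise v i := by
  induction i with
  | zero =>
    have h1 := congrArg (fun A : Op (Fin (Q + 1)) => A v) (Lo_Ra_comm (Q := Q))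
    simp only [mul_ap, sub_ap, smul_ap] at h1
    rw [Lo_min hv, map_zero, sub_zero, Sc_Nh hv.2, Sc_Lz hv.2, smul_smul, smul_smul,
      ← sub_smul] at h1
    show dG (Lo Q) (dG (Ra Q) v) = _
    rw [h1]
    congr 1
    push_cast
    ring
  | succ i ih =>
    have h1 := congrArg (fun A : Op (Fin (Q + 1)) => A (raise v (i + 1))) (Lo_Ra_comm (Q := Q))
    simp only [mul_ap, sub_ap, smul_ap] at h1
    have hm := (raise_mem hv (i + 1)).2
    rw [ih, map_smul, Sc_Nh hm, Sc_Lz hm, smul_smul, smul_smul, ← sub_smul] at h1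
    have h2 : dG (Ra Q) (raise v i) = raise v (i + 1) := rfl
    rw [h2, sub_eq_iff_eq_add, ← add_smul] at h1
    show dG (Lo Q) (dG (Ra Q) (raise v (i + 1))) = _
    rw [h1]
    congr 1
    push_cast
    ring

theorem raise_ne_zero {n : ℕ} (hQ : Q + 2 = 3 * n) {v : Fk (Fin (Q + 1))}
    (hv : v ∈ ZS (nu0 Q) Q n (lmin n)) (h0 : v ≠ 0) (i : ℕ) (hi : i ≤ n) : raise v i ≠ 0 := by
  induction i with
  | zero => exact h0
  | succ i ih =>
    intro hc
    have h1 := Lo_raise hv i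
    rw [hc, map_zero] at h1
    have h2 := (smul_eq_zero.mp h1.symm).resolve_right (ih (by omega))
    have h3 : (Q : ℂ) * n - 2 * lmin n - i = ((n : ℂ) - i) := by
      have h4 := two_lmin n
      have h5 : n = (n - 1) + 1 := by omega
      have h6 : ((2 * lmin n : ℕ) : ℂ) = ((3 * (n * (n - 1)) : ℕ) : ℂ) := by rw [h4]
      push_cast [Nat.cast_sub (by omega : 1 ≤ n)] at h6
      have h7 : ((Q + 2 : ℕ) : ℂ) = ((3 * n : ℕ) : ℂ) := by rw [hQ]
      push_cast at h7
      have h8 : (Q : ℂ) = 3 * n - 2 := by rw [← h7]; ring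
      rw [h6, h8]
      ring
    rw [h3] at h2
    rcases mul_eq_zero.mp h2 with h4 | h4
    · have : ((i + 1 : ℕ) : ℂ) = 0 := by push_cast; exact h4
      rw [Nat.cast_eq_zero] at this
      omega
    · have : ((n : ℕ) : ℂ) = (i : ℕ) := sub_eq_zero.mp h4
      rw [Nat.cast_inj] at this
      omega

/-- **existence of the one-hole states.** -/
theorem exists_ZS {n : ℕ} (hQ : Q + 2 = 3 * n) (i : ℕ) (hi : i ≤ n) :
    ∃ v ∈ ZS (nu0 Q) Q n (lmin n + i), ‖v‖ = 1 := by
  obtain ⟨v, h1, h2, h3⟩ := Vac467.exists_Zn (posM_nu0 Q) (n := n) (by omega)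
  have hv : v ∈ ZS (nu0 Q) Q n (lmin n) := ⟨h1, Sec_iff.mp h2⟩
  have h4 := raise_ne_zero hQ hv h3 i hi
  exact ⟨nrm (raise v i), (ZS _ _ _ _).smul_mem _ (raise_mem hv i), norm_nrm h4⟩



theorem inner_of_ne {n M M' : ℕ} {v w : Fk (Fin (Q + 1))} (hv : v ∈ Sc Q n M)
    (hw : w ∈ Sc Q n M') (hne : M ≠ M') : ⟪v, w⟫_ℂ = 0 := by
  have h : prSc Q n M w = 0 := by
    ext S
    rw [prSc_apply]
    split_ifs with hc
    · by_contra hne'
      have := (hw S hne').2
      exact hne (hc.2.symm.trans this)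
    · rfl
  rw [← prSc_of_mem hv, inner_prSc, h, inner_zero_right]

end Crest.Agent.R340.K1in788
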