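import Crest.Agent.R340.Vac3_467
import Crest.Agent.R340.PairNorm_986
import Crest.Agent.R340.Gam_303_Mg
import Crest.Agent.R340.PeelX_596

-- ▼ part R340/Vac4_467
section

/-!
# The gap of the round metric from the statement S0533, and the vacuum `Om Q`
(helper467, R340, O7 part 2 + O5 part 4)

* `nz_nu0_eq : nz (nu0 Q) Q (p+1) = pairNorm Q (p+1)`, `Bp_eq_Bg : Bp Q p = Bg (nu0 Q) Q (p+1)`,
  `Hg_nu0 : Hg (nu0 Q) Q = HH Q`;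
* `sq_of_s0533` : the inequality of S0533 on antisymmetric coefficients (all `N`) gives
  `γ ⟪v, H v⟫ ≤ ‖H v‖²` on the whole Fock space; `GapG_of_sq`, `gap_PK_of_sq`;
* `Om Q` : the vacuum (`3 ∣ Q`), unit vector spanning `Zn (nu0 Q) Q (Q/3+1)`.
-/

set_option autoImplicit false

namespace Crest.Agent.R340.Vac467

open Finset Fock649 Geo986 GG467 Emb596 Peel596 Crest.MathPhysics.Laughlin
open Br320 (wM Bp HH toFk sector)

variable {Q : ℕ}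

/-! ### normalisation of the pair annihilators -/

theorem nz_nu0_eq (Q : ℕ) (p : Fin (2 * Q - 1)) :
    nz (nu0 Q) Q (p + 1) = pairNorm Q (p + 1) := by
  obtain ⟨p, hp⟩ := p
  obtain ⟨n, rfl⟩ : ∃ n, Q = n + 1 := ⟨Q - 1, by omega⟩
  have h1 := PV341.nrm_eq (n + 1) (p + 1)
  have h2 := Geo986.sum_sq n p
  have h3 := Rot303.pairNorm_succ n p (by omega)
  show nz (nu0 (n + 1)) (n + 1) (p + 1) = pairNorm (n + 1) (p + 1)
  rw [nz_nu0, h3]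
  have h4 : PV341.mom (n + 1) (p + 1) 2 = 2 * ((n : ℝ) + 1) * ((2 * n).choose p : ℝ) := by
    rw [← h2]
    unfold PV341.mom PV341.aa PV341.xx
    refine Finset.sum_congr rfl fun i _ => ?_
    push_cast
    ring
  rw [h4] at h1
  linarith

theorem kB_eq (Q : ℕ) (p : Fin (2 * Q - 1)) : kB Q p = (√(nz (nu0 Q) Q (p + 1)))⁻¹ := by
  have h := pairNorm_pos (q := Q) (b := p + 1) (by omega) (by omega)
  rw [nz_nu0_eq]
  unfold kB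
  rw [Real.sqrt_mul (by norm_num)]
  have h2 : √2 * √2 = (2 : ℝ) := Real.mul_self_sqrt (by norm_num)
  have h3 : (0 : ℝ) < √2 := by positivity
  have h4 : (0 : ℝ) < √(pairNorm Q (p + 1)) := by positivity
  field_simp
  nlinarith

/-- the pair annihilators of the statement are the normalised ones of the round metric -/
theorem Bp_eq_Bg (Q : ℕ) (p : Fin (2 * Q - 1)) : Bp Q p = Bg (nu0 Q) Q (p + 1) := by
  rw [Bp_eq_bz, kB_eq]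
  rfl

theorem Bg_eq_zero_of {ν : ℕ → ℝ} {p : ℕ} (h : p = 0 ∨ 2 * Q ≤ p) : Bg ν Q p = 0 := by
  unfold Bg
  rw [bz_eq_zero_of h, smul_zero]

/-- reindexing of the sums over the pair annihilators -/
theorem sum_Bg_eq {M : Type*} [AddCommMonoid M] (Q : ℕ) (F : Op (Fin (Q + 1)) → M)
    (hF : F 0 = 0) :
    ∑ p ∈ range (2 * Q), F (Bg (nu0 Q) Q p) = ∑ p : Fin (2 * Q - 1), F (Bp Q p) := by
  rcases Nat.eq_zero_or_pos Q with h0 | h0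
  · subst h0
    simp
  · obtain ⟨m, hm⟩ : ∃ m, 2 * Q = m + 1 := ⟨2 * Q - 1, by omega⟩
    have e1 : 2 * Q - 1 = m := by omega
    have e2 : range (2 * Q) = range (m + 1) := by rw [hm]
    rw [e2, Finset.sum_range_succ', Bg_eq_zero_of (Or.inl rfl), hF, add_zero,
      ← Fin.sum_univ_eq_sum_range (fun p => F (Bg (nu0 Q) Q (p + 1))) m]
    symm
    refine Fintype.sum_equiv (finCongr e1) _ _ fun p => ?_
    rw [Bp_eq_Bg]
    rfl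


theorem sum_norm_Bg (Q : ℕ) (ψ : Fk (Fin (Q + 1))) :
    ∑ p ∈ range (2 * Q), ‖Bg (nu0 Q) Q p ψ‖ ^ 2 = ∑ p, ‖Bp Q p ψ‖ ^ 2 :=
  sum_Bg_eq Q (fun B => ‖B ψ‖ ^ 2) (by rw [zero_ap]; simp)

/-! ### the gap -/

/-- a positive operator on a finite dimensional space satisfies `γ A ≤ A²` for some `γ > 0` -/
theorem exists_sq {κ : Type*} [Fintype κ] {A : Op κ} (hA : star A = A)
    (hpos : ∀ v : Fk κ, 0 ≤ (inner ℂ v (A v) : ℂ).re) :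
    ∃ γ : ℝ, 0 < γ ∧ ∀ v : Fk κ, γ * (inner ℂ v (A v) : ℂ).re ≤ ‖A v‖ ^ 2 := by
  have hT : (A.ap : Fk κ →ₗ[ℂ] Fk κ).IsSymmetric := by
    intro x y
    have h := inner_star_left A x y
    rw [hA] at h
    exact h
  set n := Module.finrank ℂ (Fk κ) with hn
  set b := hT.eigenvectorBasis hn.symm with hb
  set lam := hT.eigenvalues hn.symm with hlam
  have hev : ∀ i, A (b i) = ((lam i : ℝ) : ℂ) • b i := fun i =>
    hT.apply_eigenvectorBasis hn.symm i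
  have hnorm : ∀ i, inner ℂ (b i) (b i) = (1 : ℂ) := by
    intro i
    rw [inner_self_eq_norm_sq_to_K, b.orthonormal.1 i]; simp
  have hl0 : ∀ i, 0 ≤ lam i := by
    intro i
    have h1 := hpos (b i)
    rwa [hev, inner_smul_right, hnorm, mul_one, Complex.ofReal_re] at h1
  -- the smallest nonzero eigenvalue
  have hex : ∃ γ : ℝ, 0 < γ ∧ ∀ i, γ * lam i ≤ lam i ^ 2 := by
    classical
    set S : Finset ℝ := insert 1 ((Finset.univ.image lam).filter (fun x => 0 < x)) with hS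
    have hSne : S.Nonempty := ⟨1, Finset.mem_insert_self _ _⟩
    refine ⟨S.min' hSne, ?_, fun i => ?_⟩
    · have := S.min'_mem hSne
      rcases Finset.mem_insert.1 this with h | h
      · rw [h]; norm_num
      · exact (Finset.mem_filter.1 h).2
    · rcases eq_or_lt_of_le (hl0 i) with h | h
      · rw [← h]; simp
      · have h2 : S.min' hSne ≤ lam i := by
          refine S.min'_le _ ?_
          refine Finset.mem_insert_of_mem (Finset.mem_filter.2 ⟨?_, h⟩)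
          exact Finset.mem_image_of_mem _ (Finset.mem_univ i)
        nlinarith
  obtain ⟨γ, hγ, hγl⟩ := hex
  refine ⟨γ, hγ, fun v => ?_⟩
  have hco : ∀ i, (inner ℂ (b i) (A v) : ℂ) = ((lam i : ℝ) : ℂ) * inner ℂ (b i) v := by
    intro i
    have h1 : (inner ℂ (b i) (A v) : ℂ) = inner ℂ (A (b i)) v := (hT (b i) v).symm
    rw [h1, hev, inner_smul_left, Complex.conj_ofReal]
  have hx : inner ℂ v (A v) = ∑ i, ((lam i * ‖inner ℂ (b i) v‖ ^ 2 : ℝ) : ℂ) := by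
    rw [← b.sum_inner_mul_inner v (A v)]
    refine Finset.sum_congr rfl fun i _ => ?_
    rw [hco]
    have h2 : inner ℂ v (b i) * inner ℂ (b i) v = ((‖inner ℂ (b i) v‖ ^ 2 : ℝ) : ℂ) := by
      rw [← inner_conj_symm v (b i), ← Complex.normSq_eq_conj_mul_self,
        Complex.normSq_eq_norm_sq]
    push_cast at h2 ⊢
    linear_combination ((lam i : ℝ) : ℂ) * h2
  rw [hx, ← Complex.ofReal_sum, Complex.ofReal_re, ← b.sum_sq_norm_inner_right (A v),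
    Finset.mul_sum]
  refine Finset.sum_le_sum fun i _ => ?_
  rw [hco, norm_mul, mul_pow]
  have h3 : ‖((lam i : ℝ) : ℂ)‖ ^ 2 = lam i ^ 2 := by simp
  rw [h3, ← mul_assoc]
  exact mul_le_mul_of_nonneg_right (hγl i) (by positivity)

theorem HH_comm_Nh (Q : ℕ) : HH Q * Nh = Nh * HH Q := by
  rw [HH_eq_hs]
  exact hs_pa_comm_Nh _

/-- the coefficient form of the gap (all particle numbers) gives `γ H ≤ H²` on Fock space -/
theorem sq_of_s0533 {γ : ℝ}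
    (h : ∀ N : ℕ, ∀ ψ : (Fin N → Fin (Q + 1)) → ℂ, IsAntisymmetric ψ →
      γ * (star ψ ⬝ᵥ (interaction Q N).mulVec ψ).re ≤
      (star ψ ⬝ᵥ (interaction Q N).mulVec ((interaction Q N).mulVec ψ)).re)
    (v : Fk (Fin (Q + 1))) :
    γ * (inner ℂ v (HH Q v) : ℂ).re ≤ ‖HH Q v‖ ^ 2 :=
  sq_of_sectors (HH_comm_Nh Q)
    (fun N _ hw => Br320.sector_of_sq_ge (h N) ((Br320.mem_sector_iff_Nh).2 hw)) v

/-- `γ H ≤ H²` gives the gap inequality of the round metric (the form used by the geometries) -/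
theorem GapG_of_sq {γ : ℝ}
    (h : ∀ v : Fk (Fin (Q + 1)), γ * (inner ℂ v (HH Q v) : ℂ).re ≤ ‖HH Q v‖ ^ 2) :
    GapG (nu0 Q) Q γ := by
  intro ψ hψ
  have h1 := gap_hs (B := Bp Q) h ψ
  have h2 : PK (hs (Bp Q)) ψ = 0 := by
    have h3 : PK (hs (Bp Q)) = pj (Zs (nu0 Q) Q) := PK_HH Q
    have h4 : (inner ℂ ψ (PK (hs (Bp Q)) ψ) : ℂ) = ((‖pj (ker (hs (Bp Q))) ψ‖ : ℂ)) ^ 2 :=
      inner_pj_self _ ψ
    have h5 : (inner ℂ ψ (PK (hs (Bp Q)) ψ) : ℂ) = 0 := by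
      rw [h3, ← inner_conj_symm, hψ _ (pj_mem _ ψ), map_zero]
    rw [h5] at h4
    have h6 : ‖pj (ker (hs (Bp Q))) ψ‖ = 0 := by
      have := (pow_eq_zero_iff (two_ne_zero)).1 h4.symm
      exact_mod_cast this
    exact norm_eq_zero.1 h6
  rw [h2, sub_zero] at h1
  rw [sum_norm_Bg]
  exact h1

/-- `γ H ≤ H²` gives `γ (1 - P) ≤ H` with `P` the projection on the zero modes -/
theorem gap_PK_of_sq {γ : ℝ}
    (h : ∀ v : Fk (Fin (Q + 1)), γ * (inner ℂ v (HH Q v) : ℂ).re ≤ ‖HH Q v‖ ^ 2) :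
    (γ : ℂ) • (1 - PK (HH Q)) ≤ HH Q :=
  gap_op (star_hs (Bp Q)) (inner_hs_nonneg (Bp Q)) h

/-- vector form of `gap_PK_of_sq` -/
theorem gap_vec_of_sq {γ : ℝ}
    (h : ∀ v : Fk (Fin (Q + 1)), γ * (inner ℂ v (HH Q v) : ℂ).re ≤ ‖HH Q v‖ ^ 2)
    (v : Fk (Fin (Q + 1))) :
    γ * ‖v - PK (HH Q) v‖ ^ 2 ≤ (inner ℂ v (HH Q v) : ℂ).re :=
  GG467.gap_of_sq (star_hs (Bp Q)) (inner_hs_nonneg (Bp Q)) h v

/-- a gap at fixed `Q` always exists (finite dimension) -/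
theorem exists_gap_at (Q : ℕ) : ∃ γ : ℝ, 0 < γ ∧
    ∀ v : Fk (Fin (Q + 1)), γ * (inner ℂ v (HH Q v) : ℂ).re ≤ ‖HH Q v‖ ^ 2 :=
  exists_sq (star_hs (Bp Q)) (inner_hs_nonneg (Bp Q))

theorem inner_HH_nonneg (Q : ℕ) (v : Fk (Fin (Q + 1))) : 0 ≤ (inner ℂ v (HH Q v) : ℂ).re :=
  inner_hs_nonneg (Bp Q) v

/-- a gap for all `Q ≥ Q₀` gives a gap for all `Q` -/
theorem exists_gap_all {γ : ℝ} (hγ : 0 < γ) (Q₀ : ℕ)
    (h : ∀ Q, Q₀ ≤ Q → ∀ v : Fk (Fin (Q + 1)),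
      γ * (inner ℂ v (HH Q v) : ℂ).re ≤ ‖HH Q v‖ ^ 2) :
    ∃ γ' : ℝ, 0 < γ' ∧ γ' ≤ γ ∧ ∀ (Q : ℕ) (v : Fk (Fin (Q + 1))),
      γ' * (inner ℂ v (HH Q v) : ℂ).re ≤ ‖HH Q v‖ ^ 2 := by
  induction Q₀ generalizing γ with
  | zero => exact ⟨γ, hγ, le_rfl, fun Q v => h Q (Nat.zero_le _) v⟩
  | succ m ih =>
    obtain ⟨γm, hm, hmv⟩ := exists_gap_at m
    have key : ∀ Q, m ≤ Q → ∀ v : Fk (Fin (Q + 1)),
        (min γ γm) * (inner ℂ v (HH Q v) : ℂ).re ≤ ‖HH Q v‖ ^ 2 := by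
      intro Q hQ v
      have h0 := inner_HH_nonneg Q v
      rcases eq_or_lt_of_le hQ with h1 | h1
      · subst h1
        exact (mul_le_mul_of_nonneg_right (min_le_right _ _) h0).trans (hmv v)
      · exact (mul_le_mul_of_nonneg_right (min_le_left _ _) h0).trans (h Q h1 v)
    obtain ⟨γ', h1, h2, h3⟩ := ih (lt_min hγ hm) key
    exact ⟨γ', h1, h2.trans (min_le_left _ _), h3⟩

/-- **all forms of the gap from S0533** (hypothesis = the conclusion of S0533 at one `γ`) -/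
theorem gap_forms_of_s0533 {γ : ℝ} (hγ : 0 < γ)
    (h : ∃ Q₀ : ℕ, ∀ Q : ℕ, Q₀ ≤ Q → ∀ N : ℕ, ∀ ψ : (Fin N → Fin (Q + 1)) → ℂ,
      IsAntisymmetric ψ → γ * (star ψ ⬝ᵥ (interaction Q N).mulVec ψ).re ≤
        (star ψ ⬝ᵥ (interaction Q N).mulVec ((interaction Q N).mulVec ψ)).re) :
    ∃ γ' : ℝ, 0 < γ' ∧ γ' ≤ γ ∧
      (∀ (Q : ℕ) (v : Fk (Fin (Q + 1))), γ' * (inner ℂ v (HH Q v) : ℂ).re ≤ ‖HH Q v‖ ^ 2) ∧
      (∀ Q : ℕ, GapG (nu0 Q) Q γ') ∧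
      (∀ Q : ℕ, (γ' : ℂ) • (1 - PK (HH Q)) ≤ HH Q) ∧
      (∀ (Q : ℕ) (v : Fk (Fin (Q + 1))),
        γ' * ‖v - PK (HH Q) v‖ ^ 2 ≤ (inner ℂ v (HH Q v) : ℂ).re) := by
  obtain ⟨Q₀, hQ⟩ := h
  obtain ⟨γ', h1, h2, h3⟩ := exists_gap_all hγ Q₀ (fun Q hQQ v => sq_of_s0533 (hQ Q hQQ) v)
  exact ⟨γ', h1, h2, h3, fun Q => GapG_of_sq (h3 Q), fun Q => gap_PK_of_sq (h3 Q),
    fun Q v => gap_vec_of_sq (h3 Q) v⟩


/-! ### the vacuum -/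

/-- the vacuum (`3 ∣ Q`): unit vector spanning `Zn (nu0 Q) Q (Q/3+1)` (any `Q` gives a reference
state with `Q/3+1` particles) -/
noncomputable def Om (Q : ℕ) : Fk (Fin (Q + 1)) :=
  (exists_ref (posM_nu0 Q) (n := Q / 3 + 1) (by omega)).choose

theorem isRef_Om (Q : ℕ) : IsRef (nu0 Q) Q (Q / 3 + 1) (Om Q) :=
  (exists_ref (posM_nu0 Q) (n := Q / 3 + 1) (by omega)).choose_spec

theorem norm_Om (Q : ℕ) : ‖Om Q‖ = 1 := (isRef_Om Q).unit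

theorem Om_mem_Zn (Q : ℕ) : Om Q ∈ Zn (nu0 Q) Q (Q / 3 + 1) := (isRef_Om Q).mem_Zn








end Crest.Agent.R340.Vac467
end

-- ▼ part R340/Vac5_467

/-!
# The vacuum scalars of the peeling step (helper467, R340, O5 part 5)

`Q = 3 (n-1)`, `Φ` = vacuum of flux `Q + 3` (`n + 1` particles), `Ω` = unit vector of
`Zn (nu0 (Q+3)) Q n` (= vacuum of the end point of the path).  With `D = Dop (Q+3) s a F X`,

`|⟪Φ, D Φ⟫ - ⟪Ω, Dop Q (s - a F(Q+3)) a F X' Ω⟫| ≤ 3 (δ + η)`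

where `δ` bounds the cross term and `η` the commutator.  (`vac_peel`)
-/

set_option autoImplicit false
open scoped InnerProductSpace ComplexConjugate

namespace Crest.Agent.R340.Vac467

open Finset Fock649 Geo986 GG467 Emb596 Peel596 Crest.MathPhysics.Laughlin
open Br320 (wM Bp HH toFk sector)

variable {Q : ℕ}

/-- a unit zero mode with `n` particles at `Q = 3 (n-1)` is a reference state -/
theorem isRef_of_Zn {ν : ℕ → ℝ} (hν : PosM ν Q) {n : ℕ} (hn : Q = 3 * (n - 1))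
    {Φ : Fk (Fin (Q + 1))} (h : Φ ∈ Zn ν Q n) (h1 : ‖Φ‖ = 1) : IsRef ν Q n Φ :=
  ⟨h.1, sec_of_Zn hν hn h, h1⟩

theorem d_mul_c_eq_dG {ι : Type*} [Fintype ι] [LinearOrder ι] (k : ι) :
    (d k * c k : Op ι) = dG (Matrix.diagonal fun i => if i = k then (1 : ℂ) else 0) := by
  rw [d_mul_c, dG_diagonal]
  congr 1
  funext S
  rw [Finset.sum_ite_eq']

/-- the density of every orbital in the vacuum is `n / (Q+1)` -/
theorem IsRef.dens_orb {n : ℕ} (hn : Q = 3 * (n - 1)) {Φ : Fk (Fin (Q + 1))}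
    (h : IsRef (nu0 Q) Q n Φ) (k : Fin (Q + 1)) :
    ‖c k Φ‖ ^ 2 = (n : ℝ) / ((Q : ℝ) + 1) := by
  have h1 : (inner ℂ Φ ((d k * c k : Op (Fin (Q + 1))) Φ) : ℂ) = ((‖c k Φ‖ ^ 2 : ℝ) : ℂ) := by
    rw [← star_c, inner_star_mul_self]
    push_cast
    rfl
  rw [d_mul_c_eq_dG, h.dens hn, Matrix.trace_diagonal, Finset.sum_ite_eq' Finset.univ k] at h1
  simp only [Finset.mem_univ, if_true] at h1
  have h2 : ((‖c k Φ‖ ^ 2 : ℝ) : ℂ) = (((n : ℝ) / ((Q : ℝ) + 1) : ℝ) : ℂ) := by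
    rw [← h1]; push_cast; ring
  exact_mod_cast h2

/-- **the vacuum scalars of the peeling step** -/
theorem vac_peel {n : ℕ} (hn1 : 1 ≤ n) (hn : Q = 3 * (n - 1))
    {Φ : Fk (Fin (Q + 3 + 1))} (hΦ : Φ ∈ Zn (nu0 (Q + 3)) (Q + 3) (n + 1)) (hΦ1 : ‖Φ‖ = 1)
    {Ω : Fk (Fin (Q + 1))} (hΩ : Ω ∈ Zn (nu0 (Q + 3)) Q n) (hΩ1 : ‖Ω‖ = 1)
    (s a : ℝ) (F : ℕ → ℝ) (X : Op (Fin (Q + 3 + 1))) {δ η : ℝ}
    (hcomm : ‖c (Fin.last (Q + 3)) * X - X * c (Fin.last (Q + 3))‖ ≤ η)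
    (hcross : ∀ ψ ∈ Zn (nu0 (Q + 3)) (Q + 3) (n + 1), ∀ φ ∈ Zn (nu0 (Q + 3)) (Q + 3) (n + 1),
      ‖⟪d (Fin.last (Q + 3)) (c (Fin.last (Q + 3)) ψ) -
          (Zn (nu0 (Q + 3)) (Q + 3) (n + 1)).starProjection
            (d (Fin.last (Q + 3)) (c (Fin.last (Q + 3)) ψ)),
        Dop (Q + 3) s a F X φ⟫_ℂ‖ ≤ δ * ‖ψ‖ * ‖φ‖) :
    |(⟪Φ, Dop (Q + 3) s a F X Φ⟫_ℂ).re -
      (⟪Ω, Dop Q (s - a * F (Q + 3)) a F (cmp (ee (Nat.le_add_right Q 3)) X) Ω⟫_ℂ).re| ≤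
      3 * (δ + η) := by
  set ℓ : Fin (Q + 3 + 1) := Fin.last (Q + 3) with hℓ
  set ν : ℕ → ℝ := nu0 (Q + 3) with hν
  have hpos : PosM ν (Q + 3) := posM_nu0 (Q + 3)
  have hn' : Q + 3 = 3 * (n + 1 - 1) := by omega
  have hRΦ : IsRef ν (Q + 3) (n + 1) Φ := isRef_of_Zn hpos hn' hΦ hΦ1
  have hposQ : PosM ν Q := fun j hj => hpos j (by omega)
  have hRΩ : IsRef ν Q n Ω := isRef_of_Zn hposQ hn hΩ hΩ1
  -- the density
  set w : ℝ := ‖c ℓ Φ‖ ^ 2 with hw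
  have hwv : w = ((n + 1 : ℕ) : ℝ) / (((Q + 3 : ℕ) : ℝ) + 1) := hRΦ.dens_orb hn' ℓ
  have hQn : (Q : ℝ) = 3 * ((n : ℝ) - 1) := by
    have : ((Q : ℕ) : ℝ) = ((3 * (n - 1) : ℕ) : ℝ) := by rw [← hn]
    rw [this]; push_cast [Nat.cast_sub hn1]; ring
  have hn0 : (1 : ℝ) ≤ n := by exact_mod_cast hn1
  have hw3 : 1 / 3 ≤ w := by
    rw [hwv, div_le_div_iff₀ (by norm_num) (by positivity)]
    push_cast
    linarith
  have hw1 : w ≤ 1 := by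
    rw [hwv, div_le_one (by positivity)]
    push_cast
    linarith
  have hw0 : 0 < w := by linarith
  -- the A block
  obtain ⟨φ, hφ, hφe⟩ := Ablock hpos hΦ
  have hspan := hRΩ.span hposQ hn hφ
  set α : ℂ := (inner ℂ Ω φ : ℂ) with hα
  have hαw : ‖α‖ ^ 2 = w := by
    rw [hw, ← hφe, norm_emb, hspan, norm_smul, hΩ1, mul_one]
  set D : Op (Fin (Q + 3 + 1)) := Dop (Q + 3) s a F X with hD
  set D' : Op (Fin (Q + 3 + 1)) := Dop (Q + 3) (s - a * F (Q + 3)) a F X with hD'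
  set rD : ℝ := (⟪Φ, D Φ⟫_ℂ).re with hrD
  set rD' : ℝ := (⟪Ω, Dop Q (s - a * F (Q + 3)) a F (cmp (ee (Nat.le_add_right Q 3)) X) Ω⟫_ℂ).re
    with hrD'
  have e1 : (⟪c ℓ Φ, D' (c ℓ Φ)⟫_ℂ).re = w * rD' := by
    rw [← hφe, ← inner_cmp, hD', cmp_Dop, hspan, map_smul, inner_smul_left, inner_smul_right,
      ← mul_assoc, ← Complex.normSq_eq_conj_mul_self, Complex.normSq_eq_norm_sq,
      Complex.re_ofReal_mul, hαw]
  -- `c D = D' c - [c, X]`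
  have e2 : c ℓ * D = D' * c ℓ - (c ℓ * X - X * c ℓ) := by
    have h := c_mul_Dop (Q := Q + 3) s a F X ℓ
    rw [show (((ℓ : Fin (Q + 3 + 1)) : ℕ)) = Q + 3 from Fin.val_last _] at h
    exact h
  have e3 : D' (c ℓ Φ) = c ℓ (D Φ) + (c ℓ * X - X * c ℓ) Φ := by
    have h := congrArg (fun A : Op (Fin (Q + 3 + 1)) => A Φ) e2
    simp only [mul_ap, sub_ap] at h ⊢
    rw [h]
    abel
  -- the projection of `n_ℓ Φ`
  set nl : Fk (Fin (Q + 3 + 1)) := d ℓ (c ℓ Φ) with hnl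
  have e4 : (⟪c ℓ Φ, c ℓ (D Φ)⟫_ℂ) = ⟪nl, D Φ⟫_ℂ := by
    have h := inner_star_left (c ℓ) (c ℓ Φ) (D Φ)
    rw [star_c] at h
    exact h.symm
  have e5 : (Zn ν (Q + 3) (n + 1)).starProjection nl = ((w : ℝ) : ℂ) • Φ := by
    have hm : (Zn ν (Q + 3) (n + 1)).starProjection nl ∈ Zn ν (Q + 3) (n + 1) :=
      Submodule.starProjection_apply_mem _ _
    have h1 := hRΦ.span hpos hn' hm
    have h2 : (inner ℂ Φ ((Zn ν (Q + 3) (n + 1)).starProjection nl) : ℂ) = inner ℂ Φ nl := by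
      have h3 := Submodule.starProjection_eq_self_iff.2 hΦ
      rw [← Submodule.inner_starProjection_left_eq_right, h3]
    have h4 : (inner ℂ Φ nl : ℂ) = ((w : ℝ) : ℂ) := by
      have h5 := inner_star_mul_self (c ℓ) Φ
      rw [star_c, mul_ap] at h5
      rw [hnl, h5, hw]
      push_cast
      rfl
    rw [h2, h4] at h1
    exact h1
  have e6 : ⟪nl, D Φ⟫_ℂ = ((w : ℝ) : ℂ) * ⟪Φ, D Φ⟫_ℂ +
      ⟪nl - (Zn ν (Q + 3) (n + 1)).starProjection nl, D Φ⟫_ℂ := by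
    rw [inner_sub_left, e5, inner_smul_left, Complex.conj_ofReal]
    ring
  have key : w * rD' = w * rD + (⟪nl - (Zn ν (Q + 3) (n + 1)).starProjection nl, D Φ⟫_ℂ).re +
      (⟪c ℓ Φ, (c ℓ * X - X * c ℓ) Φ⟫_ℂ).re := by
    rw [← e1, e3, inner_add_right, e4, e6, Complex.add_re, Complex.add_re,
      Complex.re_ofReal_mul]
  have b1 : |(⟪nl - (Zn ν (Q + 3) (n + 1)).starProjection nl, D Φ⟫_ℂ).re| ≤ δ := by
    have h := hcross Φ hΦ Φ hΦ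
    rw [hΦ1, mul_one, mul_one] at h
    exact (Complex.abs_re_le_norm _).trans h
  have b2 : |(⟪c ℓ Φ, (c ℓ * X - X * c ℓ) Φ⟫_ℂ).re| ≤ η := by
    refine (Complex.abs_re_le_norm _).trans ((norm_inner_le_norm _ _).trans ?_)
    have h1 : ‖c ℓ Φ‖ ≤ 1 := by
      have : ‖c ℓ Φ‖ ^ 2 ≤ 1 := hw1
      nlinarith [norm_nonneg (c ℓ Φ)]
    have h2 : ‖(c ℓ * X - X * c ℓ) Φ‖ ≤ η := by
      refine (Op.norm_ap_le _ _).trans ?_
      rw [hΦ1, mul_one]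
      exact hcomm
    calc ‖c ℓ Φ‖ * ‖(c ℓ * X - X * c ℓ) Φ‖ ≤ 1 * η :=
          mul_le_mul h1 h2 (norm_nonneg _) zero_le_one
      _ = η := one_mul _
  have b3 : w * |rD - rD'| ≤ δ + η := by
    have e7 : w * |rD - rD'| = |w * (rD - rD')| := by rw [abs_mul, abs_of_pos hw0]
    have : w * (rD - rD') =
        -((⟪nl - (Zn ν (Q + 3) (n + 1)).starProjection nl, D Φ⟫_ℂ).re +
          (⟪c ℓ Φ, (c ℓ * X - X * c ℓ) Φ⟫_ℂ).re) := by linarith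
    rw [e7, this, abs_neg]
    exact (abs_add_le _ _).trans (add_le_add b1 b2)
  have hab := abs_nonneg (rD - rD')
  nlinarith

theorem re_inner_Dop (s a : ℝ) (F : ℕ → ℝ) (X : Op (Fin (Q + 1))) {Φ : Fk (Fin (Q + 1))}
    (h1 : ‖Φ‖ = 1) :
    (⟪Φ, Dop Q s a F X Φ⟫_ℂ).re = s - a * (⟪Φ, (dG (Matrix.diagonal
      fun j : Fin (Q + 1) => ((F j : ℝ) : ℂ))) Φ⟫_ℂ).re - (⟪Φ, X Φ⟫_ℂ).re := by
  unfold Dop
  rw [sub_ap, sub_ap, smul_ap, smul_ap, one_ap, inner_sub_right, inner_sub_right,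
    inner_smul_right, inner_smul_right, inner_self_eq_norm_sq_to_K, h1, Complex.sub_re,
    Complex.sub_re, Complex.re_ofReal_mul, Complex.re_ofReal_mul]
  simp

/-- vacuum scalars: for `3 ∣ Q` and every profile, `3 cs F Q + x - 3 dΓ(F) - X` vanishes -/
theorem re_inner_Dop_vac {n : ℕ} (hn1 : 1 ≤ n) (hn : Q = 3 * (n - 1)) {Φ : Fk (Fin (Q + 1))}
    (hΦ : Φ ∈ Zn (nu0 Q) Q n) (h1 : ‖Φ‖ = 1) (a : ℝ) (F : ℕ → ℝ) (X : Op (Fin (Q + 1))) :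
    (⟪Φ, Dop Q (a * Scal725.cs F Q + (⟪Φ, X Φ⟫_ℂ).re) a F X Φ⟫_ℂ).re = 0 := by
  have hR := isRef_of_Zn (posM_nu0 Q) hn hΦ h1
  rw [re_inner_Dop _ _ _ _ h1, hR.dens_diag hn1 hn F, Complex.ofReal_re]
  ring

/-- **the vacuum line** (735's `hvac`): any profile, any `X` -/
theorem LB_vac {n : ℕ} (hn1 : 1 ≤ n) (hn : Q = 3 * (n - 1)) {Φ : Fk (Fin (Q + 1))}
    (hΦ : Φ ∈ Zn (nu0 Q) Q n) (h1 : ‖Φ‖ = 1) (a : ℝ) (F : ℕ → ℝ) (X : Op (Fin (Q + 1))) :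
    LB (nu0 Q) Q n (Dop Q (a * Scal725.cs F Q + (⟪Φ, X Φ⟫_ℂ).re) a F X) 0 := by
  rw [LB_vac_iff (posM_nu0 Q) hn (isRef_of_Zn (posM_nu0 Q) hn hΦ h1),
    re_inner_Dop_vac hn1 hn hΦ h1]

/-- **vacuum scalars of STEP** (924's `|s - a F(Q+3) - s'|`): `s = a cs F (Q+3) + x_{Q+3}`,
`s' = a ⟨dΓ F⟩_Ω + ⟨X'⟩_Ω`, `Ω` unit vector of `Zn (nu0 (Q+3)) Q n`, `Q = 3 (n-1)`. -/
theorem vac_scalar {n : ℕ} (hn1 : 1 ≤ n) (hn : Q = 3 * (n - 1))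
    {Φ : Fk (Fin (Q + 3 + 1))} (hΦ : Φ ∈ Zn (nu0 (Q + 3)) (Q + 3) (n + 1)) (hΦ1 : ‖Φ‖ = 1)
    {Ω : Fk (Fin (Q + 1))} (hΩ : Ω ∈ Zn (nu0 (Q + 3)) Q n) (hΩ1 : ‖Ω‖ = 1)
    (s₀ a : ℝ) (F : ℕ → ℝ) (X : Op (Fin (Q + 3 + 1))) {δ η : ℝ}
    (hcomm : ‖c (Fin.last (Q + 3)) * X - X * c (Fin.last (Q + 3))‖ ≤ η)
    (hcross : ∀ ψ ∈ Zn (nu0 (Q + 3)) (Q + 3) (n + 1), ∀ φ ∈ Zn (nu0 (Q + 3)) (Q + 3) (n + 1),
      ‖⟪d (Fin.last (Q + 3)) (c (Fin.last (Q + 3)) ψ) -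
          (Zn (nu0 (Q + 3)) (Q + 3) (n + 1)).starProjection
            (d (Fin.last (Q + 3)) (c (Fin.last (Q + 3)) ψ)),
        Dop (Q + 3) s₀ a F X φ⟫_ℂ‖ ≤ δ * ‖ψ‖ * ‖φ‖) :
    |(a * Scal725.cs F (Q + 3) + (⟪Φ, X Φ⟫_ℂ).re) - a * F (Q + 3) -
      (a * (⟪Ω, (dG (Matrix.diagonal fun j : Fin (Q + 1) => ((F j : ℝ) : ℂ))) Ω⟫_ℂ).re +
        (⟪Ω, cmp (ee (Nat.le_add_right Q 3)) X Ω⟫_ℂ).re)| ≤ 3 * (δ + η) := by
  have h := vac_peel hn1 hn hΦ hΦ1 hΩ hΩ1 s₀ a F X hcomm hcross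
  have hn' : Q + 3 = 3 * (n + 1 - 1) := by omega
  have hR := isRef_of_Zn (posM_nu0 (Q + 3)) hn' hΦ hΦ1
  rw [re_inner_Dop _ _ _ _ hΦ1, re_inner_Dop _ _ _ _ hΩ1, hR.dens_diag (by omega) hn' F,
    Complex.ofReal_re] at h
  rw [← abs_neg]
  refine le_trans (le_of_eq ?_) h
  congr 1
  ring

end Crest.Agent.R340.Vac467
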