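import Mathlib
import Crest.Agent.R340.Scal_725
import Crest.Agent.R340.PSD_716
import Crest.Agent.R340.K1inD_788
import Crest.Agent.R340.Rev_716
import Crest.Agent.R340.PathStep4_880
import Crest.Agent.R340.PeelX_596
import Crest.Agent.R340.DomF_735
import Crest.Agent.R340.Weak1_716
import Crest.Agent.R340.K1top_716
import Crest.Agent.R340.Vac1_467
import Crest.Agent.R340.Hstep2_596
import Crest.Agent.R340.Defs_150
import Crest.Agent.R340.Vac2_467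
import Crest.Agent.R340.Vac5_467

-- ▼ part R340/K1rad_716
section

/-!
# R340 / S0532: the one-hole sector, radial part (PLAN-S6, helper716)

`H n k f = 3 (cs f (3n+1) - e n k f)`, `e n k f` = expectation of `dG f` in the one-hole zero mode
with `n+1` particles on flux `3n+1`, `k` of them inside the hole ring (`0 ≤ k ≤ n+1`).
From the peel/path steps at `s` and (by reflection) at `x`, with *absolute* error bounds, and the
dominance bound we get `H n k (prof a R) ≥ (1 - C a) prof a R (3k)`.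
-/

set_option autoImplicit false

namespace Crest.Agent.R340.K1rad716

open Finset Crest.Agent.R340.Scal725 Crest.Agent.R340.Dom735
open Crest.Agent.R340.PSD716 (om)

/-! ## elementary -/

/-- `om Q p ≤ 4 (p+1)^2/(Q+2)^2`. -/
theorem om_le {Q p : ℕ} (hp : p ≤ Q) : om Q p ≤ 4 * ((p : ℝ) + 1) ^ 2 / ((Q : ℝ) + 2) ^ 2 := by
  have hpQ : (p : ℝ) ≤ Q := by exact_mod_cast hp
  have h0 : (0 : ℝ) ≤ p := Nat.cast_nonneg p
  have hy : 0 < (Q : ℝ) - p + 1 := by linarith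
  have hd := PSD716.one_le_dd hp
  unfold om
  have key : PSD716.dd Q p / ((Q : ℝ) - p + 1) ≤ 2 * ((p : ℝ) + 1) / ((Q : ℝ) + 2) := by
    rw [div_le_div_iff₀ hy (by positivity)]
    unfold PSD716.dd
    rcases le_total ((p : ℝ) + 1) ((Q : ℝ) - p + 1) with h | h
    · rw [min_eq_left h]; nlinarith
    · rw [min_eq_right h]; nlinarith
  have h1 : 0 ≤ PSD716.dd Q p / ((Q : ℝ) - p + 1) := div_nonneg (by linarith) hy.le
  calc (PSD716.dd Q p / ((Q : ℝ) - p + 1)) ^ 2 ≤ (2 * ((p : ℝ) + 1) / ((Q : ℝ) + 2)) ^ 2 := by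
        gcongr
    _ = 4 * ((p : ℝ) + 1) ^ 2 / ((Q : ℝ) + 2) ^ 2 := by rw [div_pow]; ring


/-- scalar of the step at `x`: `g` flat on `0,1,2`. -/
theorem cs_north (g : ℕ → ℝ) (h1 : g 1 = g 0) (h2 : g 2 = g 0) (hg : ∀ j, g j ≤ g 0) (Q : ℕ) :
    0 ≤ 3 * (cs g (Q + 3) - g 0 - cs (fun j => g (j + 3)) Q) := by
  unfold cs
  have hs : ∑ j ∈ range (Q + 3 + 1), g j = ∑ j ∈ range (Q + 1), g (j + 3) + 3 * g 0 := by
    rw [sum_range_succ', sum_range_succ', sum_range_succ']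
    simp only [Nat.zero_add]
    rw [h1, h2]
    ring
  rw [hs]
  have hb : ∑ j ∈ range (Q + 1), g (j + 3) ≤ (Q + 1) * g 0 := by
    calc ∑ j ∈ range (Q + 1), g (j + 3) ≤ ∑ _j ∈ range (Q + 1), g 0 :=
          sum_le_sum fun j _ => hg _
      _ = (Q + 1) * g 0 := by rw [sum_const, card_range, nsmul_eq_mul]; push_cast; ring
  have e : 3 * (w (Q + 3) * (∑ j ∈ range (Q + 1), g (j + 3) + 3 * g 0) - g 0 -
      w Q * ∑ j ∈ range (Q + 1), g (j + 3)) =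
      6 / (((Q : ℝ) + 1) * (Q + 4)) * ((Q + 1) * g 0 - ∑ j ∈ range (Q + 1), g (j + 3)) := by
    unfold w
    push_cast
    field_simp
    ring
  rw [e]
  apply mul_nonneg (by positivity)
  linarith

/-- scalar of the last step at `x`. -/
theorem cs_north_one (g : ℕ → ℝ) (hg : ∀ j, g j ≤ g 0) (Q : ℕ) :
    g 0 ≤ 3 * (cs g (Q + 1) - cs (fun j => g (j + 1)) Q) := by
  unfold cs
  have hs : ∑ j ∈ range (Q + 1 + 1), g j = ∑ j ∈ range (Q + 1), g (j + 1) + g 0 := by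
    rw [sum_range_succ']
  rw [hs]
  have hb : ∑ j ∈ range (Q + 1), g (j + 1) ≤ (Q + 1) * g 0 := by
    calc ∑ j ∈ range (Q + 1), g (j + 1) ≤ ∑ _j ∈ range (Q + 1), g 0 :=
          sum_le_sum fun j _ => hg _
      _ = (Q + 1) * g 0 := by rw [sum_const, card_range, nsmul_eq_mul]; push_cast; ring
  have e : 3 * (w (Q + 1) * (∑ j ∈ range (Q + 1), g (j + 1) + g 0) -
      w Q * ∑ j ∈ range (Q + 1), g (j + 1)) =
      g 0 + 2 / (((Q : ℝ) + 1) * (Q + 2)) * ((Q + 1) * g 0 - ∑ j ∈ range (Q + 1), g (j + 1)) := by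
    unfold w
    push_cast
    field_simp
    ring
  rw [e]
  have : 0 ≤ 2 / (((Q : ℝ) + 1) * (Q + 2)) * ((Q + 1) * g 0 - ∑ j ∈ range (Q + 1), g (j + 1)) :=
    mul_nonneg (by positivity) (by linarith)
  linarith

/-! ## profiles -/

section prof

variable {a R : ℝ}

/-- `∑_{j<Q} (j+2)^2 f''_j ≤ 2 a Q f_Q` (for `a ≤ 1/4`). -/
theorem sum_sq_dd_prof (hR : 1 ≤ R) (ha0 : 0 < a) (ha : a ≤ 1 / 4) (Q : ℕ) :
    ∑ j ∈ range Q, ((j : ℝ) + 2) ^ 2 * |dd (prof a R) j| ≤ 2 * a * Q * prof a R Q := by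
  have hR0 : 0 ≤ R := by linarith
  have haR : a < R + 1 := by linarith
  have h1 : ∀ j : ℕ, ((j : ℝ) + 2) ^ 2 * |dd (prof a R) j| ≤ a * (1 + a) * prof a R j := by
    intro j
    rw [abs_of_nonneg (dd_prof_nonneg hR0 ha0.le haR j), dd_prof hR0, mul_div_assoc',
      div_le_iff₀ (by positivity)]
    have hp := prof_pos hR0 haR j
    have h2 : ((j : ℝ) + 2) ^ 2 ≤ (R + j + 1) * (R + j + 2) := by
      have : (0 : ℝ) ≤ j := Nat.cast_nonneg j
      nlinarith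
    have h3 : 0 ≤ a * (1 + a) * prof a R j := by positivity
    nlinarith
  have h2 : ∑ j ∈ range Q, ((j : ℝ) + 2) ^ 2 * |dd (prof a R) j| ≤
      a * (1 + a) * ∑ j ∈ range Q, prof a R j := by
    rw [mul_sum]; exact sum_le_sum fun j _ => h1 j
  have h3 := sum_prof (a := a) hR0 Q
  have hp := prof_pos hR0 haR Q
  have h4 : prof a R Q ≤ 1 := prof_le_one hR0 ha0.le haR Q
  have h5 : (1 - a) * ∑ j ∈ range Q, prof a R j ≤ Q * prof a R Q := by
    rw [h3]; nlinarith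
  have h6 : ∑ j ∈ range Q, prof a R j ≤ 4 / 3 * (Q * prof a R Q) := by
    have : 0 ≤ ∑ j ∈ range Q, prof a R j := sum_nonneg fun j _ => (prof_pos hR0 haR j).le
    nlinarith
  have h7 : a * (1 + a) ≤ 5 / 4 * a := by nlinarith
  have h8 : 0 ≤ (Q : ℝ) * prof a R Q := by positivity
  have h9 : 0 ≤ ∑ j ∈ range Q, prof a R j := sum_nonneg fun j _ => (prof_pos hR0 haR j).le
  calc _ ≤ a * (1 + a) * ∑ j ∈ range Q, prof a R j := h2
    _ ≤ 5 / 4 * a * (4 / 3 * (Q * prof a R Q)) := by gcongr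
    _ ≤ 2 * a * Q * prof a R Q := by nlinarith

/-- difference of the profile. -/
theorem prof_sub_succ_le (hR : 1 ≤ R) (ha0 : 0 < a) (ha : a ≤ 1 / 4) (M : ℕ) :
    ((M : ℝ) + 1) * (prof a R M - prof a R (M + 1)) ≤ a * prof a R M := by
  have hR0 : 0 ≤ R := by linarith
  have haR : a < R + 1 := by linarith
  have h := prof_diff (a := a) (R := R) M
  have hp := prof_pos hR0 haR M
  rw [h, mul_div_assoc', div_le_iff₀ (by positivity)]
  have : 0 ≤ a * prof a R M := by positivity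
  nlinarith

/-- the inner part of the profile: `f_j - f_{max j M}`. -/
noncomputable def inn (a R : ℝ) (M : ℕ) (j : ℕ) : ℝ := prof a R j - prof a R (max j M)

/-- the (shifted) outer part. -/
noncomputable def out (a R : ℝ) (M s : ℕ) (j : ℕ) : ℝ := prof a R (max (j + s) M)

theorem inn_add_out (M j : ℕ) : inn a R M j + out a R M 0 j = prof a R j := by
  unfold inn out; simp

theorem inn_of_le {M j : ℕ} (h : M ≤ j) : inn a R M j = 0 := by
  unfold inn; rw [max_eq_left h]; ring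

theorem inn_of_le' {M j : ℕ} (h : j ≤ M) : inn a R M j = prof a R j - prof a R M := by
  unfold inn; rw [max_eq_right h]

theorem inn_nonneg (hR : 0 ≤ R) (ha0 : 0 ≤ a) (ha : a < R + 1) (M j : ℕ) : 0 ≤ inn a R M j :=
  sub_nonneg.2 (prof_antitone hR ha0 ha (le_max_left _ _))

theorem inn_antitone (hR : 0 ≤ R) (ha0 : 0 ≤ a) (ha : a < R + 1) (M : ℕ) :
    Antitone (inn a R M) := by
  intro i j hij
  rcases le_total M j with h | h
  · rw [inn_of_le h]; exact inn_nonneg hR ha0 ha M i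
  · rw [inn_of_le' h, inn_of_le' (hij.trans h)]
    have := prof_antitone hR ha0 ha hij
    linarith

theorem inn_cvx (hR : 0 ≤ R) (ha0 : 0 ≤ a) (ha : a < R + 1) (M : ℕ) : Cvx (inn a R M) := by
  intro j
  rcases Nat.lt_or_ge (j + 1) M with h | h
  · rw [inn_of_le' (by omega : j + 2 ≤ M), inn_of_le' (by omega : j + 1 ≤ M),
      inn_of_le' (by omega : j ≤ M)]
    have := prof_cvx hR ha0 ha j
    linarith
  · rw [inn_of_le (by omega : M ≤ j + 2), inn_of_le (by omega : M ≤ j + 1)]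
    have := inn_nonneg hR ha0 ha M j
    linarith

theorem sum_inn_le (hR : 1 ≤ R) (ha0 : 0 < a) (ha : a ≤ 1 / 4) (M N : ℕ) :
    ∑ j ∈ range N, inn a R M j ≤ 4 / 3 * a * M * prof a R M := by
  have hR0 : 0 ≤ R := by linarith
  have haR : a < R + 1 := by linarith
  have h1 : ∑ j ∈ range N, inn a R M j ≤ ∑ j ∈ range M, inn a R M j := by
    calc ∑ j ∈ range N, inn a R M j ≤ ∑ j ∈ range (N + M), inn a R M j := by
          apply sum_le_sum_of_subset_of_nonneg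
          · exact range_subset_range.2 (by omega)
          · intro j _ _; exact inn_nonneg hR0 ha0.le haR M j
      _ = ∑ j ∈ range (M + N), inn a R M j := by rw [add_comm]
      _ = ∑ j ∈ range M, inn a R M j := by
          rw [sum_range_add]
          have : ∑ j ∈ range N, inn a R M (M + j) = 0 :=
            sum_eq_zero fun j _ => inn_of_le (by omega)
          rw [this, add_zero]
  have h2 : ∑ j ∈ range M, inn a R M j = ∑ j ∈ range M, (prof a R j - prof a R M) :=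
    sum_congr rfl fun j hj => inn_of_le' (mem_range.1 hj).le
  have h3 := sum_prof_sub_le (a := a) (by linarith : 0 < R) ha0.le (by linarith) M
  have hp := prof_pos hR0 haR M
  have h4 : (M : ℝ) ^ 2 * prof a R M / (M + R) ≤ M * prof a R M := by
    rw [div_le_iff₀ (by positivity)]
    have : 0 ≤ (M : ℝ) * prof a R M := by positivity
    nlinarith
  have h5 : a / (1 - a) ≤ 4 / 3 * a := by
    rw [div_le_iff₀ (by linarith)]; nlinarith
  have h6 : 0 ≤ a / (1 - a) := div_nonneg ha0.le (by linarith)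
  calc ∑ j ∈ range N, inn a R M j ≤ ∑ j ∈ range M, (prof a R j - prof a R M) := by
        rw [← h2]; exact h1
    _ ≤ a / (1 - a) * (M ^ 2 * prof a R M / (M + R)) := h3
    _ ≤ 4 / 3 * a * (M * prof a R M) := by gcongr
    _ = _ := by ring

theorem dd_inn_of_lt {M j : ℕ} (h : j + 2 ≤ M) : dd (inn a R M) j = dd (prof a R) j := by
  unfold dd
  rw [inn_of_le' (by omega : j + 2 ≤ M), inn_of_le' (by omega : j + 1 ≤ M),
      inn_of_le' (by omega : j ≤ M)]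
  ring

theorem sum_sq_dd_inn (hR : 1 ≤ R) (ha0 : 0 < a) (ha : a ≤ 1 / 4) (M N : ℕ) :
    ∑ j ∈ range N, ((j : ℝ) + 2) ^ 2 * |dd (inn a R (M + 1)) j| ≤
      12 * a * (M + 1) * prof a R (M + 1) := by
  have hR0 : 0 ≤ R := by linarith
  have haR : a < R + 1 := by linarith
  set φ : ℕ → ℝ := fun j => ((j : ℝ) + 2) ^ 2 * |dd (inn a R (M + 1)) j| with hφ
  have hφ0 : ∀ j, 0 ≤ φ j := fun j => by rw [hφ]; positivity
  have h1 : ∑ j ∈ range N, φ j ≤ ∑ j ∈ range (M + 1 + N), φ j := by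
    apply sum_le_sum_of_subset_of_nonneg
    · exact range_subset_range.2 (by omega)
    · intro j _ _; exact hφ0 j
  have h2 : ∑ j ∈ range (M + 1 + N), φ j = ∑ j ∈ range (M + 1), φ j := by
    rw [sum_range_add]
    have : ∑ j ∈ range N, φ (M + 1 + j) = 0 := by
      apply sum_eq_zero
      intro j _
      rw [hφ]
      simp only
      have : dd (inn a R (M + 1)) (M + 1 + j) = 0 := by
        unfold dd
        rw [inn_of_le (by omega), inn_of_le (by omega), inn_of_le (by omega)]; ring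
      rw [this]; simp
    rw [this, add_zero]
  have h3 : ∑ j ∈ range (M + 1), φ j = ∑ j ∈ range M, φ j + φ M := sum_range_succ _ _
  have h4 : ∑ j ∈ range M, φ j ≤ 2 * a * M * prof a R M := by
    refine le_trans (sum_le_sum fun j hj => ?_) (sum_sq_dd_prof hR ha0 ha M)
    rw [hφ]
    simp only
    have hj' : j < M := mem_range.1 hj
    rw [dd_inn_of_lt (by omega : j + 2 ≤ M + 1)]
  have hd := prof_sub_succ_le hR ha0 ha M
  have hp := prof_pos hR0 haR M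
  have hp1 := prof_pos hR0 haR (M + 1)
  have hmul : prof a R M ≤ 4 / 3 * prof a R (M + 1) := by
    rw [prof_succ]
    have : a / (R + M + 1) ≤ 1 / 4 := by
      rw [div_le_iff₀ (by positivity)]
      have : (0 : ℝ) ≤ M := Nat.cast_nonneg M
      nlinarith
    nlinarith
  have h5 : φ M ≤ 4 * (M + 1) * (a * prof a R M) := by
    rw [hφ]
    simp only
    have e : dd (inn a R (M + 1)) M = prof a R M - prof a R (M + 1) := by
      unfold dd
      rw [inn_of_le (by omega : M + 1 ≤ M + 2), inn_of_le (le_refl (M + 1)),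
        inn_of_le' (by omega : M ≤ M + 1)]
      ring
    have hnn : 0 ≤ prof a R M - prof a R (M + 1) :=
      sub_nonneg.2 (prof_antitone hR0 ha0.le haR (Nat.le_succ M))
    rw [e, abs_of_nonneg hnn]
    have h6 : ((M : ℝ) + 2) ^ 2 ≤ 4 * (M + 1) * (M + 1) := by nlinarith [(Nat.cast_nonneg M : (0:ℝ) ≤ M)]
    calc ((M : ℝ) + 2) ^ 2 * (prof a R M - prof a R (M + 1))
        ≤ 4 * (M + 1) * (M + 1) * (prof a R M - prof a R (M + 1)) := by gcongr
      _ = 4 * (M + 1) * (((M : ℝ) + 1) * (prof a R M - prof a R (M + 1))) := by ring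
      _ ≤ 4 * (M + 1) * (a * prof a R M) := by gcongr
  have hM0 : (0 : ℝ) ≤ M := Nat.cast_nonneg M
  calc ∑ j ∈ range N, φ j ≤ ∑ j ∈ range M, φ j + φ M := by rw [← h3, ← h2]; exact h1
    _ ≤ 2 * a * M * prof a R M + 4 * (M + 1) * (a * prof a R M) := add_le_add h4 h5
    _ ≤ 6 * a * (M + 1) * prof a R M := by nlinarith [mul_pos ha0 hp]
    _ ≤ 6 * a * (M + 1) * (4 / 3 * prof a R (M + 1)) := by gcongr
    _ ≤ 12 * a * (M + 1) * prof a R (M + 1) := by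
        have : 0 ≤ a * (M + 1) * prof a R (M + 1) := by positivity
        nlinarith

/-! the outer part -/

theorem out_shift (M s j : ℕ) : out a R M s (j + 3) = out a R M (s + 3) j := by
  unfold out; congr 2; omega

theorem out_shift_one (M s j : ℕ) : out a R M s (j + 1) = out a R M (s + 1) j := by
  unfold out; congr 2; omega

theorem out_of_le {M s j : ℕ} (h : j + s ≤ M) : out a R M s j = prof a R M := by
  unfold out; rw [max_eq_right h]

theorem out_le (hR : 0 ≤ R) (ha0 : 0 ≤ a) (ha : a < R + 1) (M s j : ℕ) :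
    out a R M s j ≤ prof a R M :=
  prof_antitone hR ha0 ha (le_max_right _ _)

theorem sum_dd_out (hR : 0 ≤ R) (ha0 : 0 ≤ a) (ha : a < R + 1) (M s L : ℕ) :
    (L + s < M → ∑ j ∈ range L, |dd (out a R M s) j| = 0) ∧
    (M ≤ L + s → s ≤ M → ∑ j ∈ range L, |dd (out a R M s) j| ≤
      2 * (prof a R M - prof a R (M + 1)) - (prof a R (L + s) - prof a R (L + s + 1))) := by
  have hcv := prof_cvx hR ha0 ha
  have hanti := prof_antitone hR ha0 ha
  induction L with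
  | zero =>
    refine ⟨fun _ => by simp, fun h1 h2 => ?_⟩
    have : s = M := by omega
    subst this
    simp
    have := hanti (Nat.le_succ s)
    simp at this
    linarith
  | succ L ih =>
    obtain ⟨ih1, ih2⟩ := ih
    refine ⟨fun h => ?_, fun h1 h2 => ?_⟩
    · rw [sum_range_succ, ih1 (by omega)]
      have : dd (out a R M s) L = 0 := by
        unfold dd
        rw [out_of_le (by omega), out_of_le (by omega), out_of_le (by omega)]; ring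
      rw [this]; simp
    · rw [sum_range_succ]
      rcases Nat.lt_or_ge (L + s) M with h | h
      · -- L + 1 + s = M
        have hM : M = L + 1 + s := by omega
        rw [ih1 h]
        have e : dd (out a R M s) L = -(prof a R M - prof a R (M + 1)) := by
          unfold dd
          rw [out_of_le (by omega : L + s ≤ M), out_of_le (by omega : L + 1 + s ≤ M)]
          have : out a R M s (L + 2) = prof a R (M + 1) := by
            unfold out; congr 1; omega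
          rw [this]; ring
        have hnn : 0 ≤ prof a R M - prof a R (M + 1) := sub_nonneg.2 (hanti (Nat.le_succ M))
        rw [e, abs_neg, abs_of_nonneg hnn, ← hM]
        linarith
      · have h3 := ih2 h h2
        have e : dd (out a R M s) L = (prof a R (L + s) - prof a R (L + s + 1)) -
            (prof a R (L + 1 + s) - prof a R (L + 1 + s + 1)) := by
          unfold dd
          have e0 : out a R M s L = prof a R (L + s) := by unfold out; rw [max_eq_left h]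
          have e1 : out a R M s (L + 1) = prof a R (L + s + 1) := by
            unfold out; congr 1; omega
          have e2 : out a R M s (L + 2) = prof a R (L + s + 2) := by
            unfold out; congr 1; omega
          have e3 : L + 1 + s = L + s + 1 := by omega
          have e4 : L + 1 + s + 1 = L + s + 2 := by omega
          rw [e0, e1, e2, e3]
          ring
        have hnn : 0 ≤ (prof a R (L + s) - prof a R (L + s + 1)) -
            (prof a R (L + 1 + s) - prof a R (L + 1 + s + 1)) := by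
          have := hcv (L + s)
          have e3 : L + 1 + s = L + s + 1 := by omega
          rw [e3]
          linarith
        rw [e, abs_of_nonneg hnn]
        linarith

theorem sum_dd_out_le (hR : 0 ≤ R) (ha0 : 0 ≤ a) (ha : a < R + 1) (M s L : ℕ) (hs : s ≤ M) :
    ∑ j ∈ range L, |dd (out a R M s) j| ≤ 2 * (prof a R M - prof a R (M + 1)) := by
  have hanti := prof_antitone hR ha0 ha
  have hnn : 0 ≤ prof a R M - prof a R (M + 1) := sub_nonneg.2 (hanti (Nat.le_succ M))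
  rcases Nat.lt_or_ge (L + s) M with h | h
  · rw [(sum_dd_out hR ha0 ha M s L).1 h]; linarith
  · have h1 := (sum_dd_out hR ha0 ha M s L).2 h hs
    have h2 : 0 ≤ prof a R (L + s) - prof a R (L + s + 1) := sub_nonneg.2 (hanti (Nat.le_succ _))
    linarith

end prof


/-! ## the recursion data -/

/-- `e n k f` = expectation of `dG f` in the one-hole zero mode with `n+1` particles on flux `3n+1`,
`k ≤ n+1` of them inside the hole ring. -/
structure Data (e : ℕ → ℕ → (ℕ → ℝ) → ℝ) (C1 : ℝ) (n0 : ℕ) : Prop where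
  add : ∀ n k f g, e n k (fun j => f j + g j) = e n k f + e n k g
  As : ∀ n, n0 ≤ n → ∀ k ≤ n + 1, ∀ f : ℕ → ℝ, |e (n + 1) k f - f (3 * n + 4) - e n k f| ≤
    C1 * ∑ j ∈ range (3 * n + 3), |dd f j| * om (3 * n + 4) (j + 1)
  Bs : ∀ n, n0 ≤ n → ∀ f : ℕ → ℝ, |e n (n + 1) f - cs f (3 * n)| ≤
    C1 * ∑ j ∈ range (3 * n), |dd f j| * om (3 * n + 1) (j + 1)
  Ax : ∀ n, n0 ≤ n → ∀ k ≤ n + 1, ∀ f : ℕ → ℝ,
    |e (n + 1) (k + 1) f - f 0 - e n k (fun j => f (j + 3))| ≤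
    C1 * ∑ j ∈ range (3 * n + 3), |dd f j|
  Bx : ∀ n, n0 ≤ n → ∀ f : ℕ → ℝ, |e n 0 f - cs (fun j => f (j + 1)) (3 * n)| ≤
    C1 * ∑ j ∈ range (3 * n), |dd f j|
  Dm : ∀ n, ∀ k ≤ n + 1, ∀ f : ℕ → ℝ, Cvx f → Antitone f →
    f (3 * n + 1) - 2 * (f 0 - f (3 * n + 1)) ≤ 3 * (cs f (3 * n + 1) - e n k f)

/-- the same with the reflection instead of the statements at `x`. -/
structure DataR (e : ℕ → ℕ → (ℕ → ℝ) → ℝ) (C1 : ℝ) (n0 : ℕ) : Prop where
  add : ∀ n k f g, e n k (fun j => f j + g j) = e n k f + e n k g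
  congr : ∀ n k f g, (∀ j ≤ 3 * n + 1, f j = g j) → e n k f = e n k g
  As : ∀ n, n0 ≤ n → ∀ k ≤ n + 1, ∀ f : ℕ → ℝ, |e (n + 1) k f - f (3 * n + 4) - e n k f| ≤
    C1 * ∑ j ∈ range (3 * n + 3), |dd f j| * om (3 * n + 4) (j + 1)
  Bs : ∀ n, n0 ≤ n → ∀ f : ℕ → ℝ, |e n (n + 1) f - cs f (3 * n)| ≤
    C1 * ∑ j ∈ range (3 * n), |dd f j| * om (3 * n + 1) (j + 1)
  R : ∀ n, ∀ k ≤ n + 1, ∀ f : ℕ → ℝ, e n k f = e n (n + 1 - k) (fun j => f (3 * n + 1 - j))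
  Dm : ∀ n, ∀ k ≤ n + 1, ∀ f : ℕ → ℝ, Cvx f → Antitone f →
    f (3 * n + 1) - 2 * (f 0 - f (3 * n + 1)) ≤ 3 * (cs f (3 * n + 1) - e n k f)

/-- `H n k f = 3 (cs f (3n+1) - e n k f)`. -/
noncomputable def H (e : ℕ → ℕ → (ℕ → ℝ) → ℝ) (n k : ℕ) (f : ℕ → ℝ) : ℝ :=
  3 * (cs f (3 * n + 1) - e n k f)

variable {e : ℕ → ℕ → (ℕ → ℝ) → ℝ} {C1 : ℝ} {n0 : ℕ}

theorem dd_reflect (f : ℕ → ℝ) (N j : ℕ) (hj : j + 2 ≤ N) :
    dd (fun i => f (N - i)) j = dd f (N - 2 - j) := by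
  unfold dd
  have e1 : N - 2 - j + 1 = N - (j + 1) := by omega
  have e2 : N - 2 - j + 2 = N - j := by omega
  have e3 : N - 2 - j = N - (j + 2) := by omega
  simp only [e1, e2]
  rw [e3]
  ring

theorem DataR.toData (h : DataR e C1 n0) (hC1 : 0 ≤ C1) : Data e C1 n0 where
  add := h.add
  As := h.As
  Bs := h.Bs
  Dm := h.Dm
  Ax := by
    intro n hn k hk f
    rw [h.R (n + 1) (k + 1) (by omega) f]
    have h1 := h.As n hn (n + 1 - k) (by omega) (fun j => f (3 * (n + 1) + 1 - j))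
    have e0 : n + 1 + 1 - (k + 1) = n + 1 - k := by omega
    rw [e0]
    have e1 : 3 * (n + 1) + 1 - (3 * n + 4) = 0 := by omega
    simp only [e1] at h1
    have e2 : e n (n + 1 - k) (fun j => f (3 * (n + 1) + 1 - j)) = e n k (fun j => f (j + 3)) := by
      rw [h.R n k hk (fun j => f (j + 3))]
      apply h.congr
      intro j hj
      have : 3 * (n + 1) + 1 - j = 3 * n + 1 - j + 3 := by omega
      simp only [this]
    rw [e2] at h1
    refine h1.trans ?_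
    apply mul_le_mul_of_nonneg_left _ hC1
    calc ∑ j ∈ range (3 * n + 3), |dd (fun j => f (3 * (n + 1) + 1 - j)) j| * om (3 * n + 4) (j + 1)
        ≤ ∑ j ∈ range (3 * n + 3), |dd f (3 * n + 3 - 1 - j)| := by
          apply sum_le_sum
          intro j hj
          have hj' := mem_range.1 hj
          have h2 := PSD716.om_le_one (Q := 3 * n + 4) (q := j + 1) (by omega)
          rw [dd_reflect f (3 * (n + 1) + 1) j (by omega)]
          have e3 : 3 * (n + 1) + 1 - 2 - j = 3 * n + 3 - 1 - j := by omega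
          rw [e3]
          have := abs_nonneg (dd f (3 * n + 3 - 1 - j))
          have h3 := PSD716.om_nonneg (3 * n + 4) (j + 1)
          nlinarith
      _ = ∑ j ∈ range (3 * n + 3), |dd f j| := sum_range_reflect (fun j => |dd f j|) (3 * n + 3)
  Bx := by
    intro n hn f
    rw [h.R n 0 (by omega) f]
    have h1 := h.Bs n hn (fun j => f (3 * n + 1 - j))
    rw [Nat.sub_zero]
    have e2 : cs (fun j => f (3 * n + 1 - j)) (3 * n) = cs (fun j => f (j + 1)) (3 * n) := by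
      unfold cs
      congr 1
      rw [← sum_range_reflect]
      apply sum_congr rfl
      intro j hj
      have hj' := mem_range.1 hj
      congr 1
      omega
    rw [e2] at h1
    refine h1.trans ?_
    apply mul_le_mul_of_nonneg_left _ hC1
    rcases Nat.eq_zero_or_pos n with h0 | h0
    · subst h0; simp
    calc ∑ j ∈ range (3 * n), |dd (fun j => f (3 * n + 1 - j)) j| * om (3 * n + 1) (j + 1)
        ≤ ∑ j ∈ range (3 * n), |dd f (3 * n - 1 - j)| := by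
          apply sum_le_sum
          intro j hj
          have hj' := mem_range.1 hj
          have h2 := PSD716.om_le_one (Q := 3 * n + 1) (q := j + 1) (by omega)
          rw [dd_reflect f (3 * n + 1) j (by omega)]
          have e3 : 3 * n + 1 - 2 - j = 3 * n - 1 - j := by omega
          rw [e3]
          have := abs_nonneg (dd f (3 * n - 1 - j))
          have h3 := PSD716.om_nonneg (3 * n + 1) (j + 1)
          nlinarith
      _ = ∑ j ∈ range (3 * n), |dd f j| := sum_range_reflect (fun j => |dd f j|) (3 * n)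

theorem H_add (h : Data e C1 n0) (n k : ℕ) (f g : ℕ → ℝ) :
    H e n k (fun j => f j + g j) = H e n k f + H e n k g := by
  unfold H
  rw [h.add, cs_add]; ring

/-- error of a step at `s` in terms of the moments `(j+2)^2 |f''_j|`. -/
theorem sum_om_le (f : ℕ → ℝ) (Q N : ℕ) (hN : N ≤ Q) :
    ∑ j ∈ range N, |dd f j| * om (Q + 1) (j + 1) ≤
      4 / ((Q : ℝ) + 3) ^ 2 * ∑ j ∈ range N, ((j : ℝ) + 2) ^ 2 * |dd f j| := by
  rw [mul_sum]
  apply sum_le_sum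
  intro j hj
  have hj' := mem_range.1 hj
  have h1 := om_le (Q := Q + 1) (p := j + 1) (by omega)
  push_cast at h1
  have e1 : (j : ℝ) + 1 + 1 = j + 2 := by ring
  have e2 : (Q : ℝ) + 1 + 2 = Q + 3 := by ring
  rw [e1, e2] at h1
  calc |dd f j| * om (Q + 1) (j + 1) ≤ |dd f j| * (4 * ((j : ℝ) + 2) ^ 2 / ((Q : ℝ) + 3) ^ 2) := by
        gcongr
    _ = _ := by ring

theorem stepS (h : Data e C1 n0) (hC1 : 0 ≤ C1) {n k : ℕ} (hn : n0 ≤ n) (hk : k ≤ n + 1)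
    (f : ℕ → ℝ) :
    H e n k f + 3 * (cs f (3 * n + 4) - f (3 * n + 4) - cs f (3 * n + 1)) -
      12 * C1 / (3 * (n : ℝ) + 6) ^ 2 * ∑ j ∈ range (3 * n + 3), ((j : ℝ) + 2) ^ 2 * |dd f j| ≤
      H e (n + 1) k f := by
  have h1 := h.As n hn k hk f
  have h2 := sum_om_le f (3 * n + 3) (3 * n + 3) le_rfl
  have h3 := (abs_le.1 h1).2
  have h4 := mul_le_mul_of_nonneg_left h2 hC1
  push_cast at h4
  have e2 : (3 * (n : ℝ) + 3 + 3) = 3 * n + 6 := by ring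
  rw [e2] at h4
  unfold H
  have e3 : 3 * (n + 1) + 1 = 3 * n + 4 := by ring
  rw [e3]
  have e4 : 12 * C1 / (3 * (n : ℝ) + 6) ^ 2 * ∑ j ∈ range (3 * n + 3), ((j : ℝ) + 2) ^ 2 * |dd f j| =
    3 * (C1 * (4 / (3 * (n : ℝ) + 6) ^ 2 *
      ∑ j ∈ range (3 * n + 3), ((j : ℝ) + 2) ^ 2 * |dd f j|)) := by ring
  rw [e4]
  linarith

theorem bottomS (h : Data e C1 n0) (hC1 : 0 ≤ C1) {n : ℕ} (hn : n0 ≤ n) (f : ℕ → ℝ) :
    3 * (cs f (3 * n + 1) - cs f (3 * n)) -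
      12 * C1 / (3 * (n : ℝ) + 3) ^ 2 * ∑ j ∈ range (3 * n), ((j : ℝ) + 2) ^ 2 * |dd f j| ≤
      H e n (n + 1) f := by
  have h1 := h.Bs n hn f
  have h2 := sum_om_le f (3 * n) (3 * n) le_rfl
  have h3 := (abs_le.1 h1).2
  have h4 := mul_le_mul_of_nonneg_left h2 hC1
  push_cast at h4
  unfold H
  have e4 : 12 * C1 / (3 * (n : ℝ) + 3) ^ 2 * ∑ j ∈ range (3 * n), ((j : ℝ) + 2) ^ 2 * |dd f j| =
    3 * (C1 * (4 / (3 * (n : ℝ) + 3) ^ 2 *
      ∑ j ∈ range (3 * n), ((j : ℝ) + 2) ^ 2 * |dd f j|)) := by ring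
  rw [e4]
  linarith

section main

variable {a R : ℝ}

/-- outer part: peeling at `x`. -/
theorem outer_step (h : Data e C1 n0) (hC1 : 0 ≤ C1) (hR : 1 ≤ R) (ha0 : 0 < a) (ha : a ≤ 1 / 4)
    (M n' k' : ℕ) (hn : n0 ≤ n') (hk : k' ≤ n' + 1) (i : ℕ) :
    ∀ s, s + 3 * i ≤ M →
    H e n' k' (out a R M (s + 3 * i)) - 6 * C1 * i * (prof a R M - prof a R (M + 1)) ≤
      H e (n' + i) (k' + i) (out a R M s) := by
  have hR0 : 0 ≤ R := by linarith
  have haR : a < R + 1 := by linarith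
  induction i with
  | zero => intro s _; simp
  | succ i ih =>
    intro s hs
    have h1 := ih (s + 3) (by omega)
    have e1 : s + 3 + 3 * i = s + 3 * (i + 1) := by ring
    rw [e1] at h1
    have h2 := h.Ax (n' + i) (by omega) (k' + i) (by omega) (out a R M s)
    have e2 : (fun j => out a R M s (j + 3)) = out a R M (s + 3) := by
      funext j; exact out_shift M s j
    have h3 := (abs_le.1 h2).2
    rw [e2] at h3
    have h4 := sum_dd_out_le (a := a) hR0 ha0.le haR M s (3 * (n' + i) + 3) (by omega)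
    have h5 := cs_north (out a R M s)
      (by rw [out_of_le (by omega), out_of_le (by omega)])
      (by rw [out_of_le (by omega), out_of_le (by omega)])
      (by
        intro j
        rw [out_of_le (by omega : 0 + s ≤ M)]
        exact out_le hR0 ha0.le haR M s j) (3 * (n' + i) + 1)
    rw [e2] at h5
    have h6 := mul_le_mul_of_nonneg_left h4 hC1
    unfold H at h1 ⊢
    have e3 : 3 * (n' + (i + 1)) + 1 = 3 * (n' + i) + 1 + 3 := by ring
    have e4 : n' + (i + 1) = n' + i + 1 := by ring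
    have e5 : k' + (i + 1) = k' + i + 1 := by ring
    rw [e3, e4, e5]
    push_cast
    nlinarith

theorem outer (h : Data e C1 n0) (hC1 : 0 ≤ C1) (hR : 1 ≤ R) (ha0 : 0 < a) (ha : a ≤ 1 / 4)
    (M n' k : ℕ) (hn : n0 ≤ n') (hk : 3 * k ≤ M) :
    (1 - 6 * C1 * a) * prof a R M ≤ H e (n' + k) k (out a R M 0) := by
  have hR0 : 0 ≤ R := by linarith
  have haR : a < R + 1 := by linarith
  have h1 := outer_step h hC1 hR ha0 ha M n' 0 hn (by omega) k 0 (by omega)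
  have h2 := h.Bx n' hn (out a R M (0 + 3 * k))
  have e2 : (fun j => out a R M (0 + 3 * k) (j + 1)) = out a R M (0 + 3 * k + 1) := by
    funext j; exact out_shift_one M _ j
  have h3 := (abs_le.1 h2).2
  have h4 := sum_dd_out_le (a := a) hR0 ha0.le haR M (0 + 3 * k) (3 * n') (by omega)
  have h5 := cs_north_one (out a R M (0 + 3 * k)) (by
        intro j
        rw [out_of_le (by omega : 0 + (0 + 3 * k) ≤ M)]
        exact out_le hR0 ha0.le haR M _ j) (3 * n')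
  rw [out_of_le (by omega : 0 + (0 + 3 * k) ≤ M)] at h5
  have h6 := mul_le_mul_of_nonneg_left h4 hC1
  have h7 : prof a R M - 6 * C1 * (prof a R M - prof a R (M + 1)) ≤
      H e n' 0 (out a R M (0 + 3 * k)) := by
    unfold H
    linarith
  have h8 := prof_sub_succ_le hR ha0 ha M
  have hanti := prof_antitone hR0 ha0.le haR
  have hnn : 0 ≤ prof a R M - prof a R (M + 1) := sub_nonneg.2 (hanti (Nat.le_succ M))
  have hkM : (k : ℝ) ≤ M := by exact_mod_cast (by omega : k ≤ M)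
  have h9 : ((k : ℝ) + 1) * (prof a R M - prof a R (M + 1)) ≤ a * prof a R M := by
    refine le_trans ?_ h8
    gcongr
  have h10 := mul_le_mul_of_nonneg_left h9 (by positivity : 0 ≤ 6 * C1)
  simp only [Nat.zero_add] at h1 h7 ⊢
  linarith

theorem cs_inn_step (hR : 1 ≤ R) (ha0 : 0 < a) (ha : a ≤ 1 / 4) (M Q : ℕ) (hM : M ≤ Q + 3) :
    -(8 * a * M * prof a R M / (((Q : ℝ) + 4) * (Q + 1))) ≤
      3 * (cs (inn a R M) (Q + 3) - inn a R M (Q + 3) - cs (inn a R M) Q) := by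
  have hR0 : 0 ≤ R := by linarith
  have haR : a < R + 1 := by linarith
  rw [cs_step, inn_of_le hM]
  have h1 := sum_inn_le hR ha0 ha M (Q + 1)
  have h2 := inn_nonneg hR0 ha0.le haR M (Q + 1)
  have h3 := inn_nonneg hR0 ha0.le haR M (Q + 2)
  have h4 := w_pos (Q + 3)
  simp only [sub_zero]
  have h5 : 0 ≤ w (Q + 3) * (inn a R M (Q + 1) + inn a R M (Q + 2)) := by positivity
  have h6 : 3 * (2 / (((Q : ℝ) + 4) * (Q + 1)) * ∑ j ∈ range (Q + 1), inn a R M j) ≤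
      8 * a * M * prof a R M / (((Q : ℝ) + 4) * (Q + 1)) := by
    calc 3 * (2 / (((Q : ℝ) + 4) * (Q + 1)) * ∑ j ∈ range (Q + 1), inn a R M j)
        ≤ 3 * (2 / (((Q : ℝ) + 4) * (Q + 1)) * (4 / 3 * a * M * prof a R M)) := by gcongr
      _ = _ := by ring
  linarith

/-- inner part: peeling at `s` down to the level `n1`, `M = 3 n1 + 3`. -/
theorem inner_step (h : Data e C1 n0) (hC1 : 0 ≤ C1) (hR : 1 ≤ R) (ha0 : 0 < a) (ha : a ≤ 1 / 4)
    (n1 k : ℕ) (hn : n0 ≤ n1) (hk : k ≤ n1 + 1) (i : ℕ) :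
    H e n1 k (inn a R (3 * n1 + 3)) -
      8 / 3 * a * (3 * (n1 : ℝ) + 3) * prof a R (3 * n1 + 3) *
        (1 / (3 * (n1 : ℝ) + 2) - 1 / (3 * ((n1 : ℝ) + i) + 2)) -
      48 * C1 * a * (3 * (n1 : ℝ) + 3) * prof a R (3 * n1 + 3) *
        (1 / (3 * (n1 : ℝ) + 3) - 1 / (3 * ((n1 : ℝ) + i) + 3)) ≤
      H e (n1 + i) k (inn a R (3 * n1 + 3)) := by
  have hR0 : 0 ≤ R := by linarith
  have haR : a < R + 1 := by linarith
  have hp := prof_pos hR0 haR (3 * n1 + 3)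
  induction i with
  | zero => simp
  | succ i ih =>
    have h1 := stepS h hC1 (n := n1 + i) (k := k) (by omega) (by omega) (inn a R (3 * n1 + 3))
    have h2 := cs_inn_step hR ha0 ha (3 * n1 + 3) (3 * (n1 + i) + 1) (by omega)
    have h3 := sum_sq_dd_inn hR ha0 ha (3 * n1 + 2) (3 * (n1 + i) + 3)
    have e1 : 3 * (n1 + i) + 1 + 3 = 3 * (n1 + i) + 4 := by ring
    have e2 : 3 * n1 + 2 + 1 = 3 * n1 + 3 := by ring
    rw [e1] at h2
    rw [e2] at h3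
    push_cast at h1 h2 h3 ⊢
    set P := prof a R (3 * n1 + 3) with hP
    set x : ℝ := (n1 : ℝ) + i with hx
    have hx0 : 0 ≤ x := by positivity
    have e3 : 3 * x + 1 + 4 = 3 * x + 5 := by ring
    have e4 : 3 * x + 1 + 1 = 3 * x + 2 := by ring
    rw [e3, e4] at h2
    have h4 : 8 * a * (3 * (n1 : ℝ) + 3) * P / ((3 * x + 5) * (3 * x + 2)) =
        8 / 3 * a * (3 * (n1 : ℝ) + 3) * P * (1 / (3 * x + 2) - 1 / (3 * (x + 1) + 2)) := by
      have : 3 * (x + 1) + 2 = 3 * x + 5 := by ring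
      rw [this]
      field_simp
      ring
    have h5 : 12 * C1 / (3 * x + 6) ^ 2 *
        ∑ j ∈ range (3 * (n1 + i) + 3), ((j : ℝ) + 2) ^ 2 * |dd (inn a R (3 * n1 + 3)) j| ≤
        48 * C1 * a * (3 * (n1 : ℝ) + 3) * P * (1 / (3 * x + 3) - 1 / (3 * (x + 1) + 3)) := by
      have e5 : 3 * (n1 : ℝ) + 2 + 1 = 3 * n1 + 3 := by ring
      rw [e5] at h3
      calc 12 * C1 / (3 * x + 6) ^ 2 *
        ∑ j ∈ range (3 * (n1 + i) + 3), ((j : ℝ) + 2) ^ 2 * |dd (inn a R (3 * n1 + 3)) j|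
          ≤ 12 * C1 / (3 * x + 6) ^ 2 * (12 * a * (3 * (n1 : ℝ) + 3) * P) := by gcongr
        _ = 48 * C1 * a * (3 * (n1 : ℝ) + 3) * P * (3 / (3 * x + 6) ^ 2) := by ring
        _ ≤ 48 * C1 * a * (3 * (n1 : ℝ) + 3) * P * (1 / (3 * x + 3) - 1 / (3 * (x + 1) + 3)) := by
            gcongr
            have : 1 / (3 * x + 3) - 1 / (3 * (x + 1) + 3) = 3 / ((3 * x + 3) * (3 * x + 6)) := by
              have : 3 * (x + 1) + 3 = 3 * x + 6 := by ring
              rw [this]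
              field_simp
              ring
            rw [this, sq]
            gcongr
            linarith
    have e6 : n1 + (i + 1) = n1 + i + 1 := by ring
    rw [e6]
    have e7 : (n1 : ℝ) + (i + 1) = x + 1 := by rw [hx]; ring
    rw [e7]
    have h6 : 48 * C1 * a * (3 * (n1 : ℝ) + 3) * P * (1 / (3 * (n1 : ℝ) + 3) - 1 / (3 * (x + 1) + 3))
        = 48 * C1 * a * (3 * (n1 : ℝ) + 3) * P * (1 / (3 * (n1 : ℝ) + 3) - 1 / (3 * x + 3)) +
          48 * C1 * a * (3 * (n1 : ℝ) + 3) * P * (1 / (3 * x + 3) - 1 / (3 * (x + 1) + 3)) := by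
      ring
    have h7 : 8 / 3 * a * (3 * (n1 : ℝ) + 3) * P * (1 / (3 * (n1 : ℝ) + 2) - 1 / (3 * (x + 1) + 2))
        = 8 / 3 * a * (3 * (n1 : ℝ) + 3) * P * (1 / (3 * (n1 : ℝ) + 2) - 1 / (3 * x + 2)) +
          8 / 3 * a * (3 * (n1 : ℝ) + 3) * P * (1 / (3 * x + 2) - 1 / (3 * (x + 1) + 2)) := by
      ring
    rw [h6, h7]
    linarith

theorem inner (h : Data e C1 n0) (hC1 : 0 ≤ C1) (hR : 1 ≤ R) (ha0 : 0 < a) (ha : a ≤ 1 / 4)
    (n1 k : ℕ) (hn : n0 ≤ n1) (hk : k ≤ n1 + 1) (i : ℕ) :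
    H e n1 k (inn a R (3 * n1 + 3)) - (4 + 48 * C1) * a * prof a R (3 * n1 + 3) ≤
      H e (n1 + i) k (inn a R (3 * n1 + 3)) := by
  have hR0 : 0 ≤ R := by linarith
  have haR : a < R + 1 := by linarith
  have hp := prof_pos hR0 haR (3 * n1 + 3)
  refine le_trans ?_ (inner_step h hC1 hR ha0 ha n1 k hn hk i)
  set P := prof a R (3 * n1 + 3) with hP
  have h1 : 8 / 3 * a * (3 * (n1 : ℝ) + 3) * P *
      (1 / (3 * (n1 : ℝ) + 2) - 1 / (3 * ((n1 : ℝ) + i) + 2)) ≤ 4 * a * P := by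
    have h2 : 1 / (3 * (n1 : ℝ) + 2) - 1 / (3 * ((n1 : ℝ) + i) + 2) ≤ 1 / (3 * (n1 : ℝ) + 2) := by
      have : 0 ≤ 1 / (3 * ((n1 : ℝ) + i) + 2) := by positivity
      linarith
    calc _ ≤ 8 / 3 * a * (3 * (n1 : ℝ) + 3) * P * (1 / (3 * (n1 : ℝ) + 2)) := by gcongr
      _ = 8 / 3 * a * P * ((3 * (n1 : ℝ) + 3) / (3 * (n1 : ℝ) + 2)) := by ring
      _ ≤ 8 / 3 * a * P * (3 / 2) := by
          have h0 : (0 : ℝ) ≤ n1 := Nat.cast_nonneg _
          have h5 : (3 * (n1 : ℝ) + 3) / (3 * (n1 : ℝ) + 2) ≤ 3 / 2 := by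
            rw [div_le_iff₀ (by positivity)]
            linarith
          exact mul_le_mul_of_nonneg_left h5 (by positivity)
      _ = 4 * a * P := by ring
  have h3 : 48 * C1 * a * (3 * (n1 : ℝ) + 3) * P *
        (1 / (3 * (n1 : ℝ) + 3) - 1 / (3 * ((n1 : ℝ) + i) + 3)) ≤ 48 * C1 * a * P := by
    have h2 : 1 / (3 * (n1 : ℝ) + 3) - 1 / (3 * ((n1 : ℝ) + i) + 3) ≤ 1 / (3 * (n1 : ℝ) + 3) := by
      have : 0 ≤ 1 / (3 * ((n1 : ℝ) + i) + 3) := by positivity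
      linarith
    calc _ ≤ 48 * C1 * a * (3 * (n1 : ℝ) + 3) * P * (1 / (3 * (n1 : ℝ) + 3)) := by gcongr
      _ = 48 * C1 * a * P := by field_simp
  linarith

/-- one step at `s` for the full profile costs `O(a) f_M / M`. -/
theorem full_step (h : Data e C1 n0) (hC1 : 0 ≤ C1) (hR : 1 ≤ R) (ha0 : 0 < a) (ha : a ≤ 1 / 4)
    (n1 k : ℕ) (hn : n0 ≤ n1) (hk : k ≤ n1 + 1) (i : ℕ) :
    H e n1 k (prof a R) - i * ((16 + 24 * C1) * a * prof a R (3 * n1 + 3) / (3 * (n1 : ℝ) + 3)) ≤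
      H e (n1 + i) k (prof a R) := by
  have hR0 : 0 ≤ R := by linarith
  have haR : a < R + 1 := by linarith
  have hanti := prof_antitone hR0 ha0.le haR
  induction i with
  | zero => simp
  | succ i ih =>
    have h1 := stepS h hC1 (n := n1 + i) (k := k) (by omega) (by omega) (prof a R)
    have h2 := A_step_weak (a := a) (by linarith : 0 < R) ha0.le (by linarith) (3 * (n1 + i) + 1)
    have h3 := sum_sq_dd_prof hR ha0 ha (3 * (n1 + i) + 3)
    have e1 : 3 * (n1 + i) + 1 + 3 = 3 * (n1 + i) + 4 := by ring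
    rw [e1] at h2
    have e6 : n1 + (i + 1) = n1 + i + 1 := by ring
    rw [e6]
    have hp4 := prof_pos hR0 haR (3 * (n1 + i) + 4)
    have hp3 := prof_pos hR0 haR (3 * (n1 + i) + 3)
    have hpM := prof_pos hR0 haR (3 * n1 + 3)
    have m4 : prof a R (3 * (n1 + i) + 4) ≤ prof a R (3 * n1 + 3) := hanti (by omega)
    have m3 : prof a R (3 * (n1 + i) + 3) ≤ prof a R (3 * n1 + 3) := hanti (by omega)
    push_cast at h1 h2 h3 ⊢
    set P := prof a R (3 * n1 + 3) with hP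
    set x : ℝ := (n1 : ℝ) + i with hx
    have hx0 : (n1 : ℝ) ≤ x := by rw [hx]; linarith [(Nat.cast_nonneg i : (0:ℝ) ≤ i)]
    have hn0 : (0 : ℝ) ≤ n1 := Nat.cast_nonneg _
    have hx00 : 0 ≤ x := hn0.trans hx0
    -- first cost
    have c1 : a * prof a R (3 * (n1 + i) + 4) / (3 * x + 1 + 3 + R) *
        (6 / (1 - a) * ((3 * x + 1 + 3) ^ 2 / ((3 * x + 1 + 4) * (3 * x + 1 + 1))) - 3) ≤
        16 * a * P / (3 * (n1 : ℝ) + 3) := by
      have d1 : 6 / (1 - a) ≤ 8 := by rw [div_le_iff₀ (by linarith)]; linarith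
      have d2 : (3 * x + 1 + 3) ^ 2 / ((3 * x + 1 + 4) * (3 * x + 1 + 1)) ≤ 2 := by
        rw [div_le_iff₀ (by positivity)]; nlinarith
      have d0 : 0 ≤ (3 * x + 1 + 3) ^ 2 / ((3 * x + 1 + 4) * (3 * x + 1 + 1)) := by positivity
      have d3 : 6 / (1 - a) * ((3 * x + 1 + 3) ^ 2 / ((3 * x + 1 + 4) * (3 * x + 1 + 1))) - 3 ≤
          16 := by nlinarith
      calc _ ≤ a * prof a R (3 * (n1 + i) + 4) / (3 * x + 1 + 3 + R) * 16 := by gcongr
        _ ≤ a * P / (3 * (n1 : ℝ) + 3) * 16 := by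
            have d4 : 3 * (n1 : ℝ) + 3 ≤ 3 * x + 1 + 3 + R := by linarith
            have d5 : a * prof a R (3 * (n1 + i) + 4) ≤ a * P := by gcongr
            have d6 : a * prof a R (3 * (n1 + i) + 4) / (3 * x + 1 + 3 + R) ≤
                a * P / (3 * (n1 : ℝ) + 3) :=
              div_le_div₀ (by positivity) d5 (by positivity) d4
            exact mul_le_mul_of_nonneg_right d6 (by norm_num)
        _ = _ := by ring
    have c2 : 12 * C1 / (3 * x + 6) ^ 2 *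
        ∑ j ∈ range (3 * (n1 + i) + 3), ((j : ℝ) + 2) ^ 2 * |dd (prof a R) j| ≤
        24 * C1 * a * P / (3 * (n1 : ℝ) + 3) := by
      calc 12 * C1 / (3 * x + 6) ^ 2 *
        ∑ j ∈ range (3 * (n1 + i) + 3), ((j : ℝ) + 2) ^ 2 * |dd (prof a R) j|
          ≤ 12 * C1 / (3 * x + 6) ^ 2 * (2 * a * (3 * x + 3) * prof a R (3 * (n1 + i) + 3)) := by
            gcongr
        _ ≤ 12 * C1 / (3 * x + 6) ^ 2 * (2 * a * (3 * x + 6) * P) := by
            gcongr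
            linarith
        _ = 24 * C1 * a * P / (3 * x + 6) := by
            field_simp
            ring
        _ ≤ 24 * C1 * a * P / (3 * (n1 : ℝ) + 3) := by
            gcongr
            linarith
    have e8 : ((i : ℝ) + 1) * ((16 + 24 * C1) * a * P / (3 * (n1 : ℝ) + 3)) =
        i * ((16 + 24 * C1) * a * P / (3 * (n1 : ℝ) + 3)) +
        (16 * a * P / (3 * (n1 : ℝ) + 3) + 24 * C1 * a * P / (3 * (n1 : ℝ) + 3)) := by ring
    rw [e8]
    linarith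

theorem prof_le_four_thirds (hR : 1 ≤ R) (ha0 : 0 < a) (ha : a ≤ 1 / 4) (M : ℕ) :
    prof a R M ≤ 4 / 3 * prof a R (M + 1) := by
  have hR0 : 0 ≤ R := by linarith
  have haR : a < R + 1 := by linarith
  have hp := prof_pos hR0 haR M
  rw [prof_succ]
  have : a / (R + M + 1) ≤ 1 / 4 := by
    rw [div_le_iff₀ (by positivity)]
    have : (0 : ℝ) ≤ M := Nat.cast_nonneg M
    nlinarith
  nlinarith

/-- bottom: the hole at `s` (`k = n1 + 1`). -/
theorem bottom_inn (h : Data e C1 n0) (hC1 : 0 ≤ C1) (hR : 1 ≤ R) (ha0 : 0 < a) (ha : a ≤ 1 / 4)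
    (n1 : ℕ) (hn : n0 ≤ n1) (hn1 : 1 ≤ n1) :
    -((4 + 48 * C1) * a * prof a R (3 * n1 + 3)) ≤ H e n1 (n1 + 1) (inn a R (3 * n1 + 3)) := by
  have hR0 : 0 ≤ R := by linarith
  have haR : a < R + 1 := by linarith
  have h1 := bottomS h hC1 hn (inn a R (3 * n1 + 3))
  have h3 := sum_sq_dd_inn hR ha0 ha (3 * n1 + 2) (3 * n1)
  have e2 : 3 * n1 + 2 + 1 = 3 * n1 + 3 := by ring
  rw [e2] at h3
  have h4 := sum_inn_le hR ha0 ha (3 * n1 + 3) (3 * n1 + 1)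
  have h5 := cs_step_one (inn a R (3 * n1 + 3)) (3 * n1)
  have h6 := inn_nonneg hR0 ha0.le haR (3 * n1 + 3) (3 * n1 + 1)
  have hp := prof_pos hR0 haR (3 * n1 + 3)
  push_cast at h1 h3 h4 h5
  set P := prof a R (3 * n1 + 3) with hP
  have hn0 : (1 : ℝ) ≤ n1 := by exact_mod_cast hn1
  have h7 : 2 / ((3 * (n1 : ℝ) + 1) * (3 * n1 + 2)) *
      ∑ j ∈ range (3 * n1 + 1), (inn a R (3 * n1 + 3) j - inn a R (3 * n1 + 3) (3 * n1 + 1)) ≤
      4 * a * P := by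
    have h8 : ∑ j ∈ range (3 * n1 + 1),
        (inn a R (3 * n1 + 3) j - inn a R (3 * n1 + 3) (3 * n1 + 1)) ≤
        4 / 3 * a * (3 * n1 + 3) * P := by
      refine le_trans (sum_le_sum fun j _ => ?_) h4
      linarith
    calc _ ≤ 2 / ((3 * (n1 : ℝ) + 1) * (3 * n1 + 2)) * (4 / 3 * a * (3 * n1 + 3) * P) := by gcongr
      _ = 8 / 3 * a * P * ((3 * n1 + 3) / ((3 * (n1 : ℝ) + 1) * (3 * n1 + 2))) := by ring
      _ ≤ 8 / 3 * a * P * 1 := by
          gcongr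
          rw [div_le_one (by positivity)]
          nlinarith
      _ ≤ 4 * a * P := by
          have : 0 ≤ a * P := by positivity
          linarith
  have h9 : 12 * C1 / (3 * (n1 : ℝ) + 3) ^ 2 *
      ∑ j ∈ range (3 * n1), ((j : ℝ) + 2) ^ 2 * |dd (inn a R (3 * n1 + 3)) j| ≤ 48 * C1 * a * P := by
    have e5 : 3 * (n1 : ℝ) + 2 + 1 = 3 * n1 + 3 := by ring
    rw [e5] at h3
    calc _ ≤ 12 * C1 / (3 * (n1 : ℝ) + 3) ^ 2 * (12 * a * (3 * (n1 : ℝ) + 3) * P) := by gcongr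
      _ = 144 * C1 * a * P / (3 * (n1 : ℝ) + 3) := by field_simp; ring
      _ ≤ 144 * C1 * a * P / 3 := by gcongr; linarith
      _ = 48 * C1 * a * P := by ring
  linarith

theorem bottom_prof (h : Data e C1 n0) (hC1 : 0 ≤ C1) (hR : 1 ≤ R) (ha0 : 0 < a) (ha : a ≤ 1 / 4)
    (n1 : ℕ) (hn : n0 ≤ n1) :
    (1 - (3 + 24 * C1) * a) * prof a R (3 * n1 + 3) ≤ H e n1 (n1 + 1) (prof a R) := by
  have hR0 : 0 ≤ R := by linarith
  have haR : a < R + 1 := by linarith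
  have hanti := prof_antitone hR0 ha0.le haR
  have h1 := bottomS h hC1 hn (prof a R)
  have h2 := B_step_weak (a := a) (by linarith : 0 < R) ha0.le (by linarith) (3 * n1)
  have h3 := sum_sq_dd_prof hR ha0 ha (3 * n1)
  have hp := prof_pos hR0 haR (3 * n1 + 3)
  have hp0 := prof_pos hR0 haR (3 * n1)
  have hp1 := prof_pos hR0 haR (3 * n1 + 1)
  have q0 := prof_le_four_thirds hR ha0 ha (3 * n1)
  have q1 := prof_le_four_thirds hR ha0 ha (3 * n1 + 1)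
  have q2 := prof_le_four_thirds hR ha0 ha (3 * n1 + 2)
  have m1 : prof a R (3 * n1 + 3) ≤ prof a R (3 * n1 + 1) := hanti (by omega)
  have e2 : 3 * n1 + 1 + 1 = 3 * n1 + 2 := rfl
  have e3 : 3 * n1 + 2 + 1 = 3 * n1 + 3 := rfl
  rw [e2] at q1
  rw [e3] at q2
  push_cast at h1 h2 h3
  have hn0 : (0 : ℝ) ≤ n1 := Nat.cast_nonneg _
  have c1 : (1 - 3 * a) * prof a R (3 * n1 + 3) ≤
      prof a R (3 * n1 + 1) * (1 - 2 * a / (1 - a) / (3 * n1 + 1 + R)) := by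
    have d1 : 2 * a / (1 - a) / (3 * (n1 : ℝ) + 1 + R) ≤ 3 * a := by
      rw [div_div, div_le_iff₀ (mul_pos (by linarith) (by positivity))]
      have h1b : 1 ≤ 3 * (n1 : ℝ) + 1 + R := by linarith
      have h1a : 3 / 4 ≤ 1 - a := by linarith
      have h1c : 3 / 4 ≤ (1 - a) * (3 * (n1 : ℝ) + 1 + R) := by
        calc (3 : ℝ) / 4 = 3 / 4 * 1 := by ring
          _ ≤ (1 - a) * (3 * (n1 : ℝ) + 1 + R) := mul_le_mul h1a h1b (by norm_num) (by linarith)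
      calc 2 * a ≤ 3 * a * (3 / 4) := by linarith
        _ ≤ 3 * a * ((1 - a) * (3 * (n1 : ℝ) + 1 + R)) :=
            mul_le_mul_of_nonneg_left h1c (by linarith)
    calc (1 - 3 * a) * prof a R (3 * n1 + 3) ≤ (1 - 3 * a) * prof a R (3 * n1 + 1) :=
          mul_le_mul_of_nonneg_left m1 (by linarith)
      _ ≤ (1 - 2 * a / (1 - a) / (3 * n1 + 1 + R)) * prof a R (3 * n1 + 1) := by
          gcongr
      _ = _ := mul_comm _ _
  have c2 : 12 * C1 / (3 * (n1 : ℝ) + 3) ^ 2 *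
      ∑ j ∈ range (3 * n1), ((j : ℝ) + 2) ^ 2 * |dd (prof a R) j| ≤
      24 * C1 * a * prof a R (3 * n1 + 3) := by
    calc _ ≤ 12 * C1 / (3 * (n1 : ℝ) + 3) ^ 2 * (2 * a * (3 * n1) * prof a R (3 * n1)) := by gcongr
      _ ≤ 12 * C1 / (3 * (n1 : ℝ) + 3) ^ 2 * (2 * a * (3 * n1 + 3) * (3 * prof a R (3 * n1 + 3))) := by
          gcongr
          · linarith
          · nlinarith
      _ = 72 * C1 * a * prof a R (3 * n1 + 3) / (3 * (n1 : ℝ) + 3) := by field_simp; ring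
      _ ≤ 72 * C1 * a * prof a R (3 * n1 + 3) / 3 := by gcongr; linarith
      _ = _ := by ring
  have hH : H e n1 (n1 + 1) (prof a R) ≥ 3 * (cs (prof a R) (3 * n1 + 1) - cs (prof a R) (3 * n1)) -
      24 * C1 * a * prof a R (3 * n1 + 3) := by linarith
  nlinarith

/-- combination of the inner and outer parts, and of the short recursion. -/
theorem combine (h : Data e C1 n0) (hC1 : 0 ≤ C1) (hR : 1 ≤ R) (ha0 : 0 < a) (ha : a ≤ 1 / 4)
    (n1 k : ℕ) (hn : n0 ≤ n1) (hk : k ≤ n1 + 1) {b : ℝ}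
    (hbi : -(b * a * prof a R (3 * n1 + 3)) ≤ H e n1 k (inn a R (3 * n1 + 3)))
    (hbp : (1 - b * a) * prof a R (3 * n1 + 3) ≤ H e n1 k (prof a R))
    (n : ℕ) (hnn : n1 ≤ n) (hnk : n < k + n0 → n ≤ n1 + n1) :
    (1 - (b + 16 + 54 * C1) * a) * prof a R (3 * n1 + 3) ≤ H e n k (prof a R) := by
  have hR0 : 0 ≤ R := by linarith
  have haR : a < R + 1 := by linarith
  have hp := prof_pos hR0 haR (3 * n1 + 3)
  rcases Nat.lt_or_ge n (k + n0) with hc | hc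
  · -- short recursion
    obtain ⟨i, rfl⟩ := Nat.exists_eq_add_of_le hnn
    have h1 := full_step h hC1 hR ha0 ha n1 k hn hk i
    have h2 := hnk hc
    have hi : (i : ℝ) ≤ n1 := by exact_mod_cast (by omega : i ≤ n1)
    have hn0 : (0 : ℝ) ≤ n1 := Nat.cast_nonneg _
    have h3 : (i : ℝ) * ((16 + 24 * C1) * a * prof a R (3 * n1 + 3) / (3 * (n1 : ℝ) + 3)) ≤
        (16 + 24 * C1) * a * prof a R (3 * n1 + 3) := by
      rw [mul_div_assoc', div_le_iff₀ (by positivity)]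
      have : 0 ≤ (16 + 24 * C1) * a * prof a R (3 * n1 + 3) := by positivity
      nlinarith
    have h4 : 0 ≤ C1 * a * prof a R (3 * n1 + 3) := by positivity
    nlinarith
  · obtain ⟨n', rfl⟩ := Nat.exists_eq_add_of_le hc
    have h1 := outer h hC1 hR ha0 ha (3 * n1 + 3) (n0 + n') k (by omega) (by omega)
    obtain ⟨i, hi⟩ := Nat.exists_eq_add_of_le hnn
    have h2 := inner h hC1 hR ha0 ha n1 k hn hk i
    rw [← hi] at h2
    have h3 := H_add h (k + n0 + n') k (inn a R (3 * n1 + 3)) (out a R (3 * n1 + 3) 0)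
    have e1 : (fun j => inn a R (3 * n1 + 3) j + out a R (3 * n1 + 3) 0 j) = prof a R := by
      funext j; exact inn_add_out _ _
    rw [e1] at h3
    have e2 : n0 + n' + k = k + n0 + n' := by ring
    rw [e2] at h1
    rw [h3]
    have h4 : 0 ≤ C1 * a * prof a R (3 * n1 + 3) := by positivity
    have h5 : 0 ≤ a * prof a R (3 * n1 + 3) := by positivity
    nlinarith

/-- **K1rad**: radial part of the one-hole sector. -/
theorem K1rad (h : Data e C1 n0) (hC1 : 0 ≤ C1) (ha0 : 0 < a) (ha : a ≤ 1 / 4)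
    (hR : 3 * (n0 : ℝ) + 10 ≤ R) (n k : ℕ) (hk : k ≤ n + 1) :
    (1 - (90 + 102 * C1) * a) * prof a R (3 * k) ≤
      3 * (cs (prof a R) (3 * n + 1) - e n k (prof a R)) := by
  have hn00 : (0 : ℝ) ≤ n0 := Nat.cast_nonneg _
  have hR1 : 1 ≤ R := by linarith
  have hR0 : 0 ≤ R := by linarith
  have haR : a < R + 1 := by linarith
  have hanti := prof_antitone hR0 ha0.le haR
  have hcv := prof_cvx hR0 ha0.le haR
  have hk0 := prof_pos hR0 haR (3 * k)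
  have hk1 := prof_le_one hR0 ha0.le haR (3 * k)
  change _ ≤ H e n k (prof a R)
  -- the level N0
  obtain ⟨N0, hN1, hN2⟩ : ∃ N0 : ℕ, 3 * (N0 : ℝ) + 1 ≤ R ∧ R < 3 * (N0 : ℝ) + 4 := by
    refine ⟨⌊(R - 1) / 3⌋₊, ?_, ?_⟩
    · have := Nat.floor_le (show 0 ≤ (R - 1) / 3 by linarith)
      linarith
    · have := Nat.lt_floor_add_one ((R - 1) / 3)
      linarith
  have hN0 : n0 + 2 ≤ N0 := by
    have : (n0 : ℝ) + 2 ≤ N0 := by linarith
    exact_mod_cast this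
  -- dominance at levels `≤ N0`
  have hdom : ∀ m : ℕ, m ≤ N0 → k ≤ m + 1 → 1 - 3 * a ≤ H e m k (prof a R) := by
    intro m hm hkm
    have h1 := h.Dm m k hkm (prof a R) hcv hanti
    have h2 := one_sub_prof_le hR0 ha0.le haR (3 * m + 1)
    have h3 : a * ((3 * m + 1 : ℕ) : ℝ) / (R + 1) ≤ a := by
      rw [div_le_iff₀ (by linarith)]
      have : ((3 * m + 1 : ℕ) : ℝ) ≤ R + 1 := by
        push_cast
        have : (m : ℝ) ≤ N0 := by exact_mod_cast hm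
        linarith
      gcongr
    rw [prof_zero] at h1
    unfold H
    linarith
  rcases Nat.lt_or_ge n N0 with hc | hc
  · -- case A
    have h1 := hdom n hc.le hk
    have h2 : (1 - 3 * a) * prof a R (3 * k) ≤ 1 - 3 * a := by
      have : 0 ≤ 1 - 3 * a := by linarith
      nlinarith
    have h3 : 0 ≤ C1 * a * prof a R (3 * k) := by positivity
    have h4 : 0 ≤ a * prof a R (3 * k) := by positivity
    nlinarith
  · rcases Nat.lt_or_ge N0 k with hkN | hkN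
    · -- bottom = hole at `s`, n1 = k - 1
      obtain ⟨n1, rfl⟩ : ∃ n1, k = n1 + 1 := ⟨k - 1, by omega⟩
      have hb1 := bottom_inn h hC1 hR1 ha0 ha n1 (by omega) (by omega)
      have hb2 := bottom_prof h hC1 hR1 ha0 ha n1 (by omega)
      have hp := prof_pos hR0 haR (3 * n1 + 3)
      have hq : 0 ≤ C1 * a * prof a R (3 * n1 + 3) := by positivity
      have hq' : 0 ≤ a * prof a R (3 * n1 + 3) := by positivity
      have h1 := combine h hC1 hR1 ha0 ha n1 (n1 + 1) (by omega) le_rfl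
        (b := 4 + 48 * C1) (by linarith) (by nlinarith) n (by omega) (by omega)
      have e1 : 3 * (n1 + 1) = 3 * n1 + 3 := by ring
      rw [e1]
      refine le_trans ?_ h1
      nlinarith
    · -- bottom = dominance at `N0`
      have hdN := hdom N0 le_rfl (by omega)
      set M := 3 * N0 + 3 with hM
      have hp := prof_pos hR0 haR M
      have hfM : 1 - 2 * a ≤ prof a R M := by
        have h2 := one_sub_prof_le hR0 ha0.le haR M
        have h3 : a * (M : ℝ) / (R + 1) ≤ 2 * a := by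
          rw [div_le_iff₀ (by linarith)]
          have : (M : ℝ) ≤ 2 * (R + 1) := by
            rw [hM]; push_cast; linarith
          nlinarith
        linarith
      have hp1 := prof_le_one hR0 ha0.le haR M
      have hbi : -(8 * a * prof a R M) ≤ H e N0 k (inn a R M) := by
        have h1 := h.Dm N0 k (by omega) (inn a R M) (inn_cvx hR0 ha0.le haR M)
          (inn_antitone hR0 ha0.le haR M)
        have h2 : inn a R M 0 ≤ 2 * a := by
          rw [inn_of_le' (Nat.zero_le M), prof_zero]; linarith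
        have h3 := inn_nonneg hR0 ha0.le haR M (3 * N0 + 1)
        have h4 : 1 / 2 ≤ prof a R M := by linarith
        have h5 : 4 * a ≤ 8 * a * prof a R M := by nlinarith
        unfold H
        linarith
      have h1 := combine h hC1 hR1 ha0 ha N0 k (by omega) (by omega)
        (b := 8) hbi (by nlinarith) n hc (by omega)
      refine le_trans ?_ h1
      rw [← hM]
      have hkM : prof a R M ≤ prof a R (3 * k) := hanti (by omega)
      rcases le_total 0 (1 - (8 + 16 + 54 * C1) * a) with hs | hs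
      · calc (1 - (90 + 102 * C1) * a) * prof a R (3 * k)
            ≤ ((1 - (8 + 16 + 54 * C1) * a) * (1 - 2 * a)) * prof a R (3 * k) := by
              apply mul_le_mul_of_nonneg_right _ hk0.le
              have : 0 ≤ C1 * a := by positivity
              have : 0 ≤ C1 * a * a := by positivity
              nlinarith
          _ = (1 - (8 + 16 + 54 * C1) * a) * ((1 - 2 * a) * prof a R (3 * k)) := by ring
          _ ≤ (1 - (8 + 16 + 54 * C1) * a) * prof a R M := by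
              apply mul_le_mul_of_nonneg_left _ hs
              have : 0 ≤ 1 - 2 * a := by linarith
              nlinarith
      · calc (1 - (90 + 102 * C1) * a) * prof a R (3 * k)
            ≤ (1 - (8 + 16 + 54 * C1) * a) * prof a R (3 * k) := by
              apply mul_le_mul_of_nonneg_right _ hk0.le
              have : 0 ≤ C1 * a := by positivity
              nlinarith
          _ ≤ (1 - (8 + 16 + 54 * C1) * a) * prof a R M :=
              mul_le_mul_of_nonpos_left hkM hs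

theorem K1rad' (h : DataR e C1 n0) (hC1 : 0 ≤ C1) (ha0 : 0 < a) (ha : a ≤ 1 / 4)
    (hR : 3 * (n0 : ℝ) + 10 ≤ R) (n k : ℕ) (hk : k ≤ n + 1) :
    (1 - (90 + 102 * C1) * a) * prof a R (3 * k) ≤
      3 * (cs (prof a R) (3 * n + 1) - e n k (prof a R)) :=
  K1rad (h.toData hC1) hC1 ha0 ha hR n k hk

end main

end Crest.Agent.R340.K1rad716
end

-- ▼ part R340/K1inE_788
section

/-!
# R340, K = 1 inputs (helper788): the literal `K1rad716.DataR`

`st Q n i` : canonical unit vector of the sector `ZS (nu0 Q) Q n (lmin n + i)` (positive coefficient on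
the admissible set), `Q + 2 = 3 n`, `i = n - k`.
`dataR` : `DataR (fun n k f => mean (dΓ f) (st (3n+1) (n+1) (n+1-k))) C1 n0`.
-/

set_option autoImplicit false
set_option linter.unusedSectionVars false

namespace Crest.Agent.R340.K1in788

open Finset
open scoped InnerProductSpace ComplexConjugate
open Crest.Agent.R340.Fock649 Crest.Agent.R340.Geo986 Crest.Agent.R340.Peel596
  Crest.Agent.R340.Emb596
open Crest.Agent.R340.Vac467 (Lz Lz_eq lmin two_lmin lmin_succ exists_adm adm_bounds)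
open Crest.Agent.R340.PathStep880 (off off_apply TT kink gm off_eq_sum TT_congr dd_gm_le
  dd_gm_nonneg inner_off_off TT_one_mem_Zn TT_lin_mem_Zn)
open Crest.Agent.R340.PeelX596 (RC2 RX2 n_last_eq inner_off_left)
open Crest.Agent.R340.Scal725 (cs dd)
open Crest.Agent.R340.PSD716 (om)
open Crest.Agent.R340.PV341 (Adm)

variable {Q : ℕ}

/-! ### covariances and `off` -/


theorem inner_self_real {ι : Type*} [Fintype ι] [LinearOrder ι] {A : Op ι} (hA : star A = A)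
    (ψ : Fk ι) : ⟪ψ, A ψ⟫_ℂ = ((mean A ψ : ℝ) : ℂ) := by
  have h : conj (⟪ψ, A ψ⟫_ℂ) = ⟪ψ, A ψ⟫_ℂ := by
    rw [inner_conj_symm]
    have := inner_star_left A ψ ψ
    rw [hA] at this
    exact this
  unfold mean
  exact (Complex.conj_eq_iff_re.mp h).symm

theorem off_ZS {ν : ℕ → ℝ} (hν : PosM ν Q) {n M : ℕ} (hQ : Q + 2 ≤ 3 * n)
    {ψ : Fk (Fin (Q + 1))} (h : ψ ∈ ZS ν Q n M) (h1 : ‖ψ‖ = 1) {A : Op (Fin (Q + 1))}
    (hA : star A = A) (hAS : A ψ ∈ Sc Q n M) :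
    off (Zn ν Q n) (A ψ) = A ψ - ((mean A ψ : ℝ) : ℂ) • ψ := by
  rw [off_apply, starProj_Zn hν hQ h h1 hAS, inner_self_real hA]

theorem cov_eq {ν : ℕ → ℝ} (hν : PosM ν Q) {n M : ℕ} (hQ : Q + 2 ≤ 3 * n)
    {ψ : Fk (Fin (Q + 1))} (h : ψ ∈ ZS ν Q n M) (h1 : ‖ψ‖ = 1) {A : Op (Fin (Q + 1))}
    (hA : star A = A) (hAS : A ψ ∈ Sc Q n M) (B : Op (Fin (Q + 1))) :
    cov A B ψ = (⟪off (Zn ν Q n) (A ψ), off (Zn ν Q n) (B ψ)⟫_ℂ).re := by
  unfold cov
  rw [← off_ZS hν hQ h h1 hA hAS, inner_off_left]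

/-! ### the cross terms -/

theorem om_le_of {Q' q Q p : ℕ} (hq : q ≤ Q') (hp : p ≤ Q) (hx : q ≤ p) {r : ℝ} (hr : 1 ≤ r)
    (hy : (Q : ℝ) - p + 1 ≤ r * ((Q' : ℝ) - q + 1)) : om Q' q ≤ r ^ 2 * om Q p := by
  have hqQ : (q : ℝ) ≤ Q' := by exact_mod_cast hq
  have hpQ : (p : ℝ) ≤ Q := by exact_mod_cast hp
  have hqp : (q : ℝ) ≤ p := by exact_mod_cast hx
  have h0 : (0 : ℝ) ≤ q := Nat.cast_nonneg q
  have hy0 : 0 < (Q' : ℝ) - q + 1 := by linarith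
  have hy1 : 0 < (Q : ℝ) - p + 1 := by linarith
  unfold om PSD716.dd
  rw [← mul_pow]
  refine pow_le_pow_left₀ (div_nonneg (le_min (by linarith) hy0.le) hy0.le) ?_ 2
  rw [mul_div_assoc', div_le_div_iff₀ hy0 hy1]
  rcases le_total ((p : ℝ) + 1) ((Q : ℝ) - p + 1) with h | h
  · rw [min_eq_left h]
    calc min ((q : ℝ) + 1) ((Q' : ℝ) - q + 1) * ((Q : ℝ) - p + 1)
        ≤ ((p : ℝ) + 1) * (r * ((Q' : ℝ) - q + 1)) := by
          refine mul_le_mul ((min_le_left _ _).trans (by linarith)) hy hy1.le (by linarith)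
      _ = _ := by ring
  · rw [min_eq_right h]
    calc min ((q : ℝ) + 1) ((Q' : ℝ) - q + 1) * ((Q : ℝ) - p + 1)
        ≤ ((Q' : ℝ) - q + 1) * ((Q : ℝ) - p + 1) :=
          mul_le_mul_of_nonneg_right (min_le_right _ _) hy1.le
      _ ≤ _ := by nlinarith [mul_pos hy0 hy1]

theorem dd_kink_last {Q p : ℕ} (hp : p < Q - 1) :
    |dd (kink (Q - 1)) p| ≤ 9 / ((Q : ℝ) - p + 1) ^ 2 := by
  have hpQ : (p : ℝ) + 2 ≤ Q := by exact_mod_cast (by omega : p + 2 ≤ Q)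
  have h0 : 0 < (Q : ℝ) - p + 1 := by linarith
  unfold dd kink
  rcases Nat.lt_or_ge (p + 2) Q with h | h
  · have e1 : p - (Q - 1) = 0 := by omega
    have e2 : p + 1 - (Q - 1) = 0 := by omega
    have e3 : p + 2 - (Q - 1) = 0 := by omega
    rw [e1, e2, e3]
    simp only [Nat.cast_zero, mul_zero, sub_zero, add_zero, abs_zero]
    positivity
  · have hQ : Q = p + 2 := by omega
    subst hQ
    have e1 : p - (p + 2 - 1) = 0 := by omega
    have e2 : p + 1 - (p + 2 - 1) = 0 := by omega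
    have e3 : p + 2 - (p + 2 - 1) = 1 := by omega
    rw [e1, e2, e3]
    push_cast
    norm_num

theorem dd_gm_le' {b Q p : ℕ} (hp : p < Q - 1) :
    |dd (gm b Q) p| ≤ 3 * b / ((Q : ℝ) - p + 1) ^ 2 := by
  have hpQ : (p : ℝ) + 2 ≤ Q := by exact_mod_cast (by omega : p + 2 ≤ Q)
  rw [abs_of_nonneg (dd_gm_nonneg hp)]
  refine (dd_gm_le hp).trans ?_
  have h0 : 0 < (Q : ℝ) - p + 1 := by linarith
  have h1 : 0 < (Q : ℝ) - p := by linarith
  rw [le_div_iff₀ (by positivity), mul_assoc, ← div_eq_inv_mul, mul_div_assoc',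
    div_le_iff₀ (by positivity)]
  have hb : (0 : ℝ) ≤ b := Nat.cast_nonneg b
  have h2 : ((Q : ℝ) - p + 1) ^ 2 ≤ 9 / 4 * ((Q : ℝ) - p) ^ 2 := by nlinarith
  calc 4 / 3 * (b : ℝ) * ((Q : ℝ) - p + 1) ^ 2
      ≤ 4 / 3 * (b : ℝ) * (9 / 4 * ((Q : ℝ) - p) ^ 2) := by gcongr
    _ = 3 * b * ((Q : ℝ) - p) ^ 2 := by ring

/-- cross term of two one-body operators in a zero mode -/
theorem cross_bd {ν : ℕ → ℝ} {n : ℕ} {CG : ℝ} (hCG : 0 ≤ CG) (hG : RC2 Q (Zn ν Q n) CG 20)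
    {ψ : Fk (Fin (Q + 1))} (hψ : ψ ∈ Zn ν Q n) (h1 : ‖ψ‖ = 1) (g f : ℕ → ℝ) {A : ℝ} (hA : 0 ≤ A)
    (hF : ∀ p < Q - 1, |dd g p| ≤ A / ((Q : ℝ) - p + 1) ^ 2) :
    ‖⟪off (Zn ν Q n) (TT Q g ψ), off (Zn ν Q n) (TT Q f ψ)⟫_ℂ‖ ≤
      41 * A * CG * ∑ q ∈ range (Q - 1), |dd f q| * om Q q := by
  have hT : ∀ f g : ℕ → ℝ, (∀ j ≤ Q, f j = g j) → TT Q f = TT Q g := fun f g h => TT_congr h
  rw [off_eq_sum (TT Q) hT _ (TT_one_mem_Zn hψ) (TT_lin_mem_Zn hψ) g,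
    off_eq_sum (TT Q) hT _ (TT_one_mem_Zn hψ) (TT_lin_mem_Zn hψ) f]
  refine PSD716.cross_abs (Q := Q) (range (Q - 1)) (range (Q - 1))
    (fun p hp => by have := mem_range.1 hp; omega) (fun p hp => by have := mem_range.1 hp; omega)
    (fun p => off (Zn ν Q n) (TT Q (kink (p + 1)) ψ)) (dd g) (dd f) A CG hA hCG 20 (by norm_num)
    (fun p hp q hq => ?_) (fun p hp => hF p (mem_range.1 hp))
  have h2 := hG ψ hψ ψ hψ q (mem_range.1 hq) p (mem_range.1 hp)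
  rw [h1, mul_one, mul_one, PSD716.DD_symm, ← inner_conj_symm, RCLike.norm_conj] at h2
  exact h2

/-! ### density of the last orbital -/

theorem kappa_le {κ : ℝ}
    (hG0 : ∀ Q n : ℕ, ∀ ψ ∈ Zn (nu0 (Q + 1)) (Q + 1) n,
      (∀ φ ∈ Zn (nu0 (Q + 1)) (Q + 1) n, c (Fin.last (Q + 1)) φ = 0 → ⟪φ, ψ⟫_ℂ = 0) →
        κ * ‖ψ‖ ^ 2 ≤ ‖c (Fin.last (Q + 1)) ψ‖ ^ 2)
    {n i : ℕ} (hQ : Q + 2 = 3 * n) {ψ : Fk (Fin (Q + 3 + 1))}
    (hψ : ψ ∈ ZS (nu0 (Q + 3)) (Q + 3) (n + 1) (lmin (n + 1) + (i + 1))) (h1 : ‖ψ‖ = 1) :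
    κ ≤ ‖c (Fin.last (Q + 3)) ψ‖ ^ 2 := by
  have h := hG0 (Q + 2) (n + 1) ψ (ZS_le_Zn hψ) ?_
  · rw [h1, one_pow, mul_one] at h
    exact h
  intro φ hφ h0
  obtain ⟨χ, hχ, hχ2⟩ := Bblock (Q := Q + 2) hφ h0
  have hs := Vac467.sec_of_Zn (posM_nu0_le (by omega : Q + 2 ≤ Q + 3)) (by omega) hχ
  have h3 : φ ∈ Sc (Q + 3) (n + 1) (lmin (n + 1)) := by
    rw [← hχ2]
    exact (emb_mem_Sc_iff _).mpr (Sec_iff.mp hs)
  exact inner_of_ne h3 hψ.2 (by omega)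

/-! ### canonical vectors -/

/-- unit vector of the sector with positive coefficient on the admissible set -/
def Can (Q n i : ℕ) (ψ : Fk (Fin (Q + 1))) : Prop :=
  ψ ∈ ZS (nu0 Q) Q n (lmin n + i) ∧ ‖ψ‖ = 1 ∧
    ∀ S : Finset (Fin (Q + 1)), Ad S → S.card = n → (∑ i ∈ S, (i : ℕ)) = lmin n + i →
      ∃ r : ℝ, 0 < r ∧ ψ S = ((r : ℝ) : ℂ)

theorem exists_Can {n i : ℕ} (hQ : Q + 2 = 3 * n) (hi : i ≤ n) : ∃ ψ, Can Q n i ψ := by
  obtain ⟨v, hv, h1⟩ := exists_ZS hQ i hi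
  have h0 : v ≠ 0 := fun h0 => by rw [h0, norm_zero] at h1; exact zero_ne_one h1
  obtain ⟨S, hS, hc, hs, had⟩ := ZS_exists_ad (posM_nu0 Q) hv h0
  have hn : ‖v S‖ ≠ 0 := norm_ne_zero_iff.mpr hS
  refine ⟨(((‖v S‖ : ℝ) : ℂ) / v S) • v, (ZS _ _ _ _).smul_mem _ hv, ?_, ?_⟩
  · rw [norm_smul, norm_div, Complex.norm_real, norm_norm, div_self hn, one_mul, h1]
  · intro S' h2 h3 h4
    have : S' = S := ad_unique (by omega) h2 had h3 hc (h4.trans hs.symm)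
    subst this
    refine ⟨‖v S'‖, norm_pos_iff.mpr hS, ?_⟩
    show ((‖v S'‖ : ℝ) : ℂ) / v S' * v S' = _
    rw [div_mul_cancel₀ _ hS]

open Classical in
/-- the canonical vector (`0` if it does not exist) -/
noncomputable def st (Q n i : ℕ) : Fk (Fin (Q + 1)) :=
  if h : ∃ ψ, Can Q n i ψ then h.choose else 0

theorem st_can {n i : ℕ} (hQ : Q + 2 = 3 * n) (hi : i ≤ n) : Can Q n i (st Q n i) := by
  have h := exists_Can hQ hi
  unfold st
  rw [dif_pos h]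
  exact h.choose_spec

theorem st_mem {n i : ℕ} (hQ : Q + 2 = 3 * n) (hi : i ≤ n) :
    st Q n i ∈ ZS (nu0 Q) Q n (lmin n + i) := (st_can hQ hi).1

theorem norm_st {n i : ℕ} (hQ : Q + 2 = 3 * n) (hi : i ≤ n) : ‖st Q n i‖ = 1 := (st_can hQ hi).2.1

/-- the mean value of a one-body operator in a vector of a one-dimensional sector -/
theorem mean_congr_ZS {ν : ℕ → ℝ} (hν : PosM ν Q) {n M : ℕ} (hQ : Q + 2 ≤ 3 * n)
    {ψ φ : Fk (Fin (Q + 1))} (h : ψ ∈ ZS ν Q n M) (h1 : ‖ψ‖ = 1) (h' : φ ∈ ZS ν Q n M)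
    (h1' : ‖φ‖ = 1) (A : Op (Fin (Q + 1))) : mean A φ = mean A ψ := by
  have h0 : ψ ≠ 0 := fun h0 => by rw [h0, norm_zero] at h1; exact zero_ne_one h1
  obtain ⟨z, hz⟩ := ZS_smul hν hQ h h0 h'
  have hz1 : ‖z‖ = 1 := by
    rw [hz, norm_smul, h1, mul_one] at h1'
    exact h1'
  rw [hz, mean_smul, hz1, one_pow, one_mul]

/-! ### the metrics of the path in the notation of 596 -/

theorem tA_path (s : ℝ) : (fun k => s * tA k) = Step596.tA s := by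
  funext k
  unfold tA Step596.tA
  ring

theorem tB_path (s : ℝ) : (fun k => s * tB k) = Step596.tB s := by
  funext k
  fin_cases k
  · show s * (if (0 : Fin 3) = 0 then 1 / 2 else 0) = s / 2
    rw [if_pos rfl]; ring
  · show s * (if (1 : Fin 3) = 0 then 1 / 2 else 0) = 0
    rw [if_neg (by decide), mul_zero]
  · show s * (if (2 : Fin 3) = 0 then 1 / 2 else 0) = 0
    rw [if_neg (by decide), mul_zero]

theorem gmA (j : Fin (Q + 1)) : -2 * lwF tA Q j = gm 3 Q j := by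
  unfold lwF lw tA gm
  rw [Finset.mul_sum, ← Finset.sum_neg_distrib,
    ← Fin.sum_univ_eq_sum_range (fun k : ℕ => -Real.log ((Q : ℝ) - (j : ℕ) + k + 1)) 3]
  refine Finset.sum_congr rfl fun k _ => ?_
  rw [Nat.cast_sub (by omega : (j : ℕ) ≤ Q)]
  ring

theorem gmB (j : Fin (Q + 1)) : -2 * lwF tB Q j = gm 1 Q j := by
  unfold lwF lw tB gm
  rw [Fin.sum_univ_three, Finset.sum_range_one, Nat.cast_sub (by omega : (j : ℕ) ≤ Q)]
  simp only [Fin.isValue, if_true, Fin.val_zero, CharP.cast_eq_zero, add_zero, one_ne_zero,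
    if_false, zero_mul]
  rw [if_neg (by decide), zero_mul]
  ring

/-- covariance along the path, from the ring clustering -/
theorem cov_path_A {n M : ℕ} (hQ : Q + 2 ≤ 3 * n) {CG : ℝ} (hCG : 0 ≤ CG)
    (hG : ∀ t : Fin 3 → ℝ, Adm t → RC2 Q (Zn (nuT t Q) Q n) CG 20) (f : ℕ → ℝ) :
    ∀ s ∈ Set.Icc (0 : ℝ) 1, ∀ u ∈ ZS (nuT (fun k => s * tA k) Q) Q n M, ‖u‖ = 1 →
      |cov (dR fun j => -2 * lwF tA Q j) (dR fun j : Fin (Q + 1) => f j) u| ≤
        41 * 9 * CG * ∑ q ∈ range (Q - 1), |dd f q| * om Q q := by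
  intro s hs u hu hu1
  rw [tA_path] at hu
  have e : (fun j : Fin (Q + 1) => -2 * lwF tA Q j) = fun j : Fin (Q + 1) => gm 3 Q j :=
    funext gmA
  rw [e, cov_eq (posM_nuT _ Q) hQ hu hu1 (star_dR _) (dR_mem_Sc hu.2 _)]
  have h := cross_bd hCG (hG _ (PathStep880.adm_tA hs)) (ZS_le_Zn hu) hu1 (gm 3 Q) f
    (A := 9) (by norm_num) (fun p hp => by
      have := dd_gm_le' (b := 3) hp
      refine this.trans (le_of_eq ?_)
      push_cast
      norm_num)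
  exact (Complex.abs_re_le_norm _).trans h

theorem cov_path_B {n M : ℕ} (hQ : Q + 2 ≤ 3 * n) {CG : ℝ} (hCG : 0 ≤ CG)
    (hG : ∀ t : Fin 3 → ℝ, Adm t → RC2 Q (Zn (nuT t Q) Q n) CG 20) (f : ℕ → ℝ) :
    ∀ s ∈ Set.Icc (0 : ℝ) 1, ∀ u ∈ ZS (nuT (fun k => s * tB k) Q) Q n M, ‖u‖ = 1 →
      |cov (dR fun j => -2 * lwF tB Q j) (dR fun j : Fin (Q + 1) => f j) u| ≤
        41 * 3 * CG * ∑ q ∈ range (Q - 1), |dd f q| * om Q q := by
  intro s hs u hu hu1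
  rw [tB_path] at hu
  have e : (fun j : Fin (Q + 1) => -2 * lwF tB Q j) = fun j : Fin (Q + 1) => gm 1 Q j :=
    funext gmB
  rw [e, cov_eq (posM_nuT _ Q) hQ hu hu1 (star_dR _) (dR_mem_Sc hu.2 _)]
  have h := cross_bd hCG (hG _ (PathStep880.adm_tB hs)) (ZS_le_Zn hu) hu1 (gm 1 Q) f
    (A := 3) (by norm_num) (fun p hp => by
      have := dd_gm_le' (b := 1) hp
      refine this.trans (le_of_eq ?_)
      push_cast
      norm_num)
  exact (Complex.abs_re_le_norm _).trans h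

/-- the peel term -/
theorem cov_last {n M : ℕ} (hQ : Q + 2 ≤ 3 * n) (hQ1 : 1 ≤ Q) {CG : ℝ} (hCG : 0 ≤ CG)
    (hG : RC2 Q (Zn (nu0 Q) Q n) CG 20) (f : ℕ → ℝ) {ψ : Fk (Fin (Q + 1))}
    (hψ : ψ ∈ ZS (nu0 Q) Q n M) (h1 : ‖ψ‖ = 1) :
    |cov (d (Fin.last Q) * c (Fin.last Q)) (dR fun j : Fin (Q + 1) => f j) ψ| ≤
      41 * 9 * CG * ∑ q ∈ range (Q - 1), |dd f q| * om Q q := by
  have hst : star (d (Fin.last Q) * c (Fin.last Q) : Op (Fin (Q + 1))) =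
      d (Fin.last Q) * c (Fin.last Q) := by rw [star_mul, star_c, star_d]
  have hSc : (d (Fin.last Q) * c (Fin.last Q)) ψ ∈ Sc Q n M := by
    rw [d_mul_c]; exact diag_mem_Sc hψ.2 _
  rw [cov_eq (posM_nu0 Q) hQ hψ h1 hst hSc, mul_ap, n_last_eq hQ1]
  have h := cross_bd hCG hG (ZS_le_Zn hψ) h1 (kink (Q - 1)) f (A := 9) (by norm_num)
    (fun p hp => dd_kink_last hp)
  exact (Complex.abs_re_le_norm _).trans h

/-! ### sums -/

theorem sum_om_shift (f : ℕ → ℝ) {Q' N Q : ℕ} (hN : Q' - 1 ≤ N) {r : ℝ} (hr : 1 ≤ r)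
    (h : ∀ q < Q' - 1, q + 1 ≤ Q ∧ (Q : ℝ) - ((q + 1 : ℕ) : ℝ) + 1 ≤ r * ((Q' : ℝ) - q + 1)) :
    ∑ q ∈ range (Q' - 1), |dd f q| * om Q' q ≤
      r ^ 2 * ∑ j ∈ range N, |dd f j| * om Q (j + 1) := by
  rw [mul_sum]
  calc ∑ q ∈ range (Q' - 1), |dd f q| * om Q' q
      ≤ ∑ q ∈ range (Q' - 1), r ^ 2 * (|dd f q| * om Q (q + 1)) := by
        refine sum_le_sum fun q hq => ?_
        have hq' := mem_range.1 hq
        have h1 := om_le_of (Q' := Q') (q := q) (Q := Q) (p := q + 1) (by omega) (h q hq').1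
          (by omega) hr (h q hq').2
        calc |dd f q| * om Q' q ≤ |dd f q| * (r ^ 2 * om Q (q + 1)) :=
              mul_le_mul_of_nonneg_left h1 (abs_nonneg _)
          _ = _ := by ring
    _ ≤ ∑ q ∈ range N, r ^ 2 * (|dd f q| * om Q (q + 1)) := by
        refine sum_le_sum_of_subset_of_nonneg (range_subset_range.mpr hN) fun q _ _ => ?_
        have := PSD716.om_nonneg Q (q + 1)
        positivity

/-! ### the fields of `DataR` -/

/-- expectation of `dΓ(f)` in the one-hole state with `n+1` particles on flux `3n+1`, `k` particles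
inside the hole ring -/
noncomputable def ee1 (n k : ℕ) (f : ℕ → ℝ) : ℝ :=
  mean (dR fun j : Fin (3 * n + 1 + 1) => f j) (st (3 * n + 1) (n + 1) (n + 1 - k))

theorem dR_add' (f g : ℕ → ℝ) :
    (dR fun j : Fin (Q + 1) => f j + g j) =
      (dR fun j : Fin (Q + 1) => f j) + dR fun j : Fin (Q + 1) => g j := by
  unfold dR
  rw [← dG_add, Matrix.diagonal_add]
  congr 2
  funext j
  push_cast
  rfl

theorem mean_add_op {ι : Type*} [Fintype ι] [LinearOrder ι] (A B : Op ι) (ψ : Fk ι) :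
    mean (A + B) ψ = mean A ψ + mean B ψ := by
  unfold mean
  rw [add_ap, inner_add_right, Complex.add_re]

/-- literal inputs -/
structure Inp (κ CG : ℝ) (Qc : ℕ) : Prop where
  κpos : 0 < κ
  CGn : 0 ≤ CG
  G : ∀ Q : ℕ, Qc ≤ Q → ∀ t : Fin 3 → ℝ, Adm t → ∀ n, RC2 Q (Zn (nuT t Q) Q n) CG 20
  G0 : ∀ Q n : ℕ, ∀ ψ ∈ Zn (nu0 (Q + 1)) (Q + 1) n,
    (∀ φ ∈ Zn (nu0 (Q + 1)) (Q + 1) n, c (Fin.last (Q + 1)) φ = 0 → ⟪φ, ψ⟫_ℂ = 0) →
      κ * ‖ψ‖ ^ 2 ≤ ‖c (Fin.last (Q + 1)) ψ‖ ^ 2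

theorem Inp.G_round {κ CG : ℝ} {Qc : ℕ} (h : Inp κ CG Qc) {Q : ℕ} (hQ : Qc ≤ Q) (n : ℕ) :
    RC2 Q (Zn (nu0 Q) Q n) CG 20 := by
  have := h.G Q hQ (fun _ => 0) (fun _ => ⟨le_rfl, by norm_num⟩) n
  rwa [Step596.nuT_of_zero Q _ (fun _ => rfl)] at this

/-- constant in `DataR` -/
noncomputable def C1 (κ CG : ℝ) : ℝ := 41 * CG * (9 / κ + 25)

theorem C1_nonneg {κ CG : ℝ} (hκ : 0 < κ) (hG : 0 ≤ CG) : 0 ≤ C1 κ CG := by
  unfold C1; positivity

theorem As_gen {κ CG : ℝ} {Qc : ℕ} (h : Inp κ CG Qc) {n i : ℕ} (hQ : Q + 2 = 3 * n)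
    (hQc : Qc ≤ Q) (hi : i ≤ n) (f : ℕ → ℝ) :
    |mean (dR fun j : Fin (Q + 3 + 1) => f j) (st (Q + 3) (n + 1) (i + 1)) - f (Q + 3) -
      mean (dR fun j : Fin (Q + 1) => f j) (st Q n i)| ≤
      C1 κ CG * ∑ j ∈ range (Q + 2), |dd f j| * om (Q + 3) (j + 1) := by
  have hQ3 : Q + 3 + 2 = 3 * (n + 1) := by omega
  have hm1 := st_mem hQ3 (show i + 1 ≤ n + 1 by omega)
  have hn1 := norm_st hQ3 (show i + 1 ≤ n + 1 by omega)
  have hm2 := st_mem hQ hi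
  have hn2 := norm_st hQ hi
  have hκ := kappa_le h.G0 hQ hm1 hn1
  have e : lmin (n + 1) + (i + 1) = lmin n + i + (Q + 3) := by
    rw [lmin_succ]; omega
  have hm1' : st (Q + 3) (n + 1) (i + 1) ∈
      ZS (nu0 (Q + 3)) (Q + 3) (n + 1) (lmin n + i + (Q + 3)) := by rw [← e]; exact hm1
  have hδ := cov_last (Q := Q + 3) (by omega) (by omega) h.CGn (h.G_round (by omega) (n + 1)) f
    hm1 hn1
  have hε := cov_path_A (Q := Q) (n := n) (M := lmin n + i) (by omega) h.CGn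
    (fun t ht => h.G Q hQc t ht n) f
  have hA := A_step (by omega) f hm1' hm2 hn2 h.κpos hκ hδ hε
  refine hA.trans ?_
  have hs1 := sum_om_shift f (Q' := Q + 3) (N := Q + 2) (Q := Q + 3) (by omega) (r := 1) le_rfl
    (fun q hq => ⟨by omega, by push_cast; linarith⟩)
  have hs2 := sum_om_shift f (Q' := Q) (N := Q + 2) (Q := Q + 3) (by omega) (r := 5 / 3)
    (by norm_num) (fun q hq => ⟨by omega, by
      have : (q : ℝ) + 2 ≤ Q := by exact_mod_cast (by omega : q + 2 ≤ Q)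
      push_cast; linarith⟩)
  rw [one_pow, one_mul] at hs1
  set S := ∑ j ∈ range (Q + 2), |dd f j| * om (Q + 3) (j + 1) with hS
  have hS0 : 0 ≤ S := sum_nonneg fun j _ => mul_nonneg (abs_nonneg _) (PSD716.om_nonneg _ _)
  have hκ0 := h.κpos
  have hG0 := h.CGn
  have e1 : 41 * 9 * CG * (∑ q ∈ range (Q + 3 - 1), |dd f q| * om (Q + 3) q) / κ ≤
      41 * 9 * CG * S / κ := by gcongr
  have e2 : 41 * 9 * CG * (∑ q ∈ range (Q - 1), |dd f q| * om Q q) ≤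
      41 * 9 * CG * ((5 / 3) ^ 2 * S) := by gcongr
  have e3 : C1 κ CG * S = 41 * 9 * CG * S / κ + 41 * 9 * CG * ((5 / 3) ^ 2 * S) := by
    unfold C1
    field_simp
    ring
  rw [e3]
  exact add_le_add e1 e2

theorem Bs_gen {κ CG : ℝ} {Qc : ℕ} (h : Inp κ CG Qc) {n : ℕ} (hQ : Q + 3 = 3 * n)
    (hQc : Qc ≤ Q) (f : ℕ → ℝ) :
    |mean (dR fun j : Fin (Q + 1 + 1) => f j) (st (Q + 1) n 0) - cs f Q| ≤
      C1 κ CG * ∑ j ∈ range Q, |dd f j| * om (Q + 1) (j + 1) := by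
  have hQ1 : Q + 1 + 2 = 3 * n := by omega
  have hm1 := st_mem hQ1 (Nat.zero_le n)
  have hn1 := norm_st hQ1 (Nat.zero_le n)
  rw [add_zero] at hm1
  obtain ⟨Φ, hΦ⟩ := Vac467.exists_ref (posM_nu0 Q) (n := n) (by omega)
  have hΦm : Φ ∈ ZS (nu0 Q) Q n (lmin n) := ⟨hΦ.mem, Sec_iff.mp hΦ.sec⟩
  have h0 : c (Fin.last (Q + 1)) (st (Q + 1) n 0) = 0 :=
    Vac467.c_eq_zero (posM_nu0 (Q + 1)) hm1.1 (Sec_iff.mpr hm1.2) _ (by rw [Fin.val_last]; omega)
  have hcmp : cmp (ee (Nat.le_succ Q)) (dR fun j : Fin (Q + 1 + 1) => f j) =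
      dR fun j : Fin (Q + 1) => f j := by
    unfold dR
    rw [cmp_dG_diagonal]
    rfl
  have hε := cov_path_B (Q := Q) (n := n) (M := lmin n) (by omega) h.CGn
    (fun t ht => h.G Q hQc t ht n) f
  have hB := B_step (by omega) (dR fun j : Fin (Q + 1 + 1) => f j) (star_dR _) hm1 hn1 h0 hΦm
    hΦ.unit (ε := 41 * 3 * CG * ∑ q ∈ range (Q - 1), |dd f q| * om Q q)
    (fun s hs u hu hu1 => by rw [hcmp]; exact hε s hs u hu hu1)
  rw [hcmp] at hB
  have hcs : mean (dR fun j : Fin (Q + 1) => f j) Φ = cs f Q := by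
    have h2 := hΦ.dens_diag (by omega) (by omega) f
    unfold mean dR
    rw [h2, Complex.ofReal_re]
  rw [hcs] at hB
  refine hB.trans ?_
  have hs2 := sum_om_shift f (Q' := Q) (N := Q) (Q := Q + 1) (by omega) (r := 1)
    le_rfl (fun q hq => ⟨by omega, by push_cast; linarith⟩)
  rw [one_pow, one_mul] at hs2
  set S := ∑ j ∈ range Q, |dd f j| * om (Q + 1) (j + 1) with hS
  have hS0 : 0 ≤ S := sum_nonneg fun j _ => mul_nonneg (abs_nonneg _) (PSD716.om_nonneg _ _)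
  have hκ0 := h.κpos
  have hG0 := h.CGn
  calc 41 * 3 * CG * (∑ q ∈ range (Q - 1), |dd f q| * om Q q) ≤ 41 * 3 * CG * S := by gcongr
    _ ≤ C1 κ CG * S := by
        apply mul_le_mul_of_nonneg_right _ hS0
        unfold C1
        have : 0 ≤ 9 / κ := by positivity
        nlinarith

theorem dataR {κ CG : ℝ} {Qc : ℕ} (h : Inp κ CG Qc) {n0 : ℕ} (hn0 : Qc ≤ 3 * n0) :
    K1rad716.DataR ee1 (C1 κ CG) n0 where
  add n k f g := by
    unfold ee1
    rw [dR_add', mean_add_op]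
  congr n k f g hfg := by
    unfold ee1
    congr 2
    funext j
    exact hfg j (by omega)
  As n hn k hk f := by
    have h1 := As_gen (Q := 3 * n + 1) (n := n + 1) (i := n + 1 - k) h (by omega) (by omega)
      (by omega) f
    have e : n + 1 + 1 - k = n + 1 - k + 1 := by omega
    unfold ee1
    rw [e]
    exact h1
  Bs n hn f := by
    have h1 := Bs_gen (Q := 3 * n) (n := n + 1) h (by omega) (by omega) f
    unfold ee1
    rw [Nat.sub_self]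
    exact h1
  R n k hk f := by
    have hQ : 3 * n + 1 + 2 = 3 * (n + 1) := by omega
    have hm := st_mem hQ (show n + 1 - k ≤ n + 1 by omega)
    have hn := norm_st hQ (show n + 1 - k ≤ n + 1 by omega)
    have hm' := st_mem hQ (show n + 1 - (n + 1 - k) ≤ n + 1 by omega)
    have hn' := norm_st hQ (show n + 1 - (n + 1 - k) ≤ n + 1 by omega)
    obtain ⟨φ, h1, h2, h3⟩ := Rev716.reflect hm
    have e : (n + 1) * (3 * n + 1) - (lmin (n + 1) + (n + 1 - k)) =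
        lmin (n + 1) + (n + 1 - (n + 1 - k)) := by
      have := two_lmin (n + 1)
      rw [Nat.add_sub_cancel] at this
      have h5 : 2 * ((n + 1) * (3 * n + 1)) = 3 * ((n + 1) * n) * 2 + 2 * (n + 1) := by ring
      omega
    rw [e] at h1
    unfold ee1
    rw [h3 f]
    exact mean_congr_ZS (posM_nu0 _) (by omega) hm' hn' h1 (h2.trans hn) _
  Dm n k hk f hf hanti := by
    have hQ : 3 * n + 1 + 2 = 3 * (n + 1) := by omega
    have hm := st_mem hQ (show n + 1 - k ≤ n + 1 by omega)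
    have hn := norm_st hQ (show n + 1 - k ≤ n + 1 by omega)
    have h1 := DomF735.base_fock' (posM_nu0 (3 * n + 1)) hm.1 (n := n + 1)
      (fun S hS => (hm.2 S hS).1) hf hanti
    rw [hn, one_pow, mul_one, mul_one] at h1
    have e1 : (((3 * n + 1 : ℕ) : ℝ) + 3 - 3 * ((n + 1 : ℕ) : ℝ)) = 1 := by push_cast; ring
    rw [e1, one_mul] at h1
    exact h1

end Crest.Agent.R340.K1in788
end

-- ▼ part R340/K1dec_716
section

/-!
# R340 / S0532: the one-hole sector, decomposition into `L_z` lines (helper716)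

* `K1V ψ`: unit vectors `ψ n k` (`k ≤ n+1`) of the lines of `Zn (nu0 (3n+1)) (3n+1) (n+1)`.
* `K1B ψ`: orthonormal basis which diagonalizes all `dGf f`; `K1V.toK1B`.
* `form_diag`, `norm_sq_sum`, `hf_sum`.
* `en_refl`: the field `R` of `K1rad716.DataR`, `en_Dm`: the field `Dm`.
-/

set_option autoImplicit false
set_option linter.unusedSectionVars false
open scoped InnerProductSpace ComplexConjugate

namespace Crest.Agent.R340.K1dec716

open Finset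
open Crest.Agent.R340.Fock649 Crest.Agent.R340.Emb596 Crest.Agent.R340.Geo986
  Crest.Agent.R340.Peel596 Crest.Agent.R340.Step596
open Crest.Agent.R340.Scal725 Crest.Agent.R340.DomF735 Crest.Agent.R340.DomG735
open Crest.Agent.R340.Weak716 Crest.Agent.R340.K1in788 Crest.Agent.R340.Rev716
open Crest.Agent.R340.Vac467 (lmin two_lmin)

/-! ### sectors with `K = 1` -/

section sectors
variable {Q : ℕ}

theorem lmin_le_Ad {n : ℕ} {S : Finset (Fin (Q + 1))} (hS : Ad S) (hc : S.card = n) :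
    lmin n ≤ ∑ i ∈ S, (i : ℕ) := by
  rw [sum_eq_emb hc]
  have e : lmin n = ∑ a : Fin n, 3 * (a : ℕ) := by
    unfold lmin
    rw [← Fin.sum_univ_eq_sum_range (fun k => 3 * k) n]
  rw [e]
  refine sum_le_sum fun a _ => ?_
  have h1 := ad_emb hS hc (a : ℕ) 0 (by omega)
  have e1 : (⟨0 + (a : ℕ), by omega⟩ : Fin n) = a := Fin.ext (by simp)
  rw [e1] at h1
  omega

theorem lmin_le_ZS {ν : ℕ → ℝ} (hν : PosM ν Q) {n M : ℕ} {ψ : Fk (Fin (Q + 1))}
    (h : ψ ∈ ZS ν Q n M) (h0 : ψ ≠ 0) : lmin n ≤ M := by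
  obtain ⟨S, h1, h2, h3, h4⟩ := ZS_exists_ad hν h h0
  rw [← h3]
  exact lmin_le_Ad h4 h2

theorem rv_ne_zero {ψ : Fk (Fin (Q + 1))} (h0 : ψ ≠ 0) : rv ψ ≠ 0 := by
  intro h
  have := norm_rv ψ
  rw [h, norm_zero] at this
  exact h0 (norm_eq_zero.1 this.symm)

theorem sum_le_card_mul (S : Finset (Fin (Q + 1))) : ∑ i ∈ S, (i : ℕ) ≤ S.card * Q := by
  calc ∑ i ∈ S, (i : ℕ) ≤ ∑ _i ∈ S, Q := sum_le_sum fun i _ => by omega
    _ = S.card * Q := by rw [sum_const, smul_eq_mul]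

theorem le_sub_lmin {n M : ℕ} {ψ : Fk (Fin (Q + 1))}
    (h : ψ ∈ ZS (nu0 Q) Q n M) (h0 : ψ ≠ 0) : M + lmin n ≤ n * Q := by
  have h1 := lmin_le_ZS (posM_nu0 Q) (rv_mem_ZS h) (rv_ne_zero h0)
  obtain ⟨S, h2, h3, h4, h5⟩ := ZS_exists_ad (posM_nu0 Q) h h0
  have h6 := sum_le_card_mul S
  rw [h3, h4] at h6
  omega

end sectors

/-- the angular momentum of the `k`-th line -/
def Mk (n k : ℕ) : ℕ := lmin (n + 1) + (n + 1 - k)

theorem Mk_bounds (n M : ℕ) (h1 : lmin (n + 1) ≤ M) (h2 : M + lmin (n + 1) ≤ (n + 1) * (3 * n + 1)) :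
    ∃ k ≤ n + 1, M = Mk n k := by
  have h3 := two_lmin (n + 1)
  have h4 : (n + 1) * (3 * n + 1) = 3 * ((n + 1) * (n + 1 - 1)) + (n + 1) := by
    rw [Nat.add_sub_cancel]; ring
  refine ⟨n + 1 - (M - lmin (n + 1)), by omega, ?_⟩
  unfold Mk
  omega


theorem Mk_inj {n k l : ℕ} (hk : k ≤ n + 1) (hl : l ≤ n + 1) (h : Mk n k = Mk n l) : k = l := by
  unfold Mk at h
  omega

/-- unit vectors of the lines -/
def K1V (ψ : (n k : ℕ) → Fk (Fin (3 * n + 1 + 1))) : Prop :=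
  ∀ n, ∀ k ≤ n + 1, ψ n k ∈ ZS (nu0 (3 * n + 1)) (3 * n + 1) (n + 1) (Mk n k) ∧ ‖ψ n k‖ = 1

/-- basis of the one-hole sectors. -/
structure K1B (ψ : (n k : ℕ) → Fk (Fin (3 * n + 1 + 1))) : Prop where
  mem : ∀ n, ∀ k ≤ n + 1, ψ n k ∈ Zn (nu0 (3 * n + 1)) (3 * n + 1) (n + 1)
  unit : ∀ n, ∀ k ≤ n + 1, ‖ψ n k‖ = 1
  orth : ∀ n, ∀ k ≤ n + 1, ∀ l ≤ n + 1, k ≠ l → ⟪ψ n k, ψ n l⟫_ℂ = 0
  diag : ∀ n, ∀ k ≤ n + 1, ∀ l ≤ n + 1, k ≠ l → ∀ f : ℕ → ℝ,
    ⟪ψ n k, dGf f (3 * n + 1) (ψ n l)⟫_ℂ = 0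
  span : ∀ n, ∀ φ ∈ Zn (nu0 (3 * n + 1)) (3 * n + 1) (n + 1),
    ∃ α : ℕ → ℂ, φ = ∑ k ∈ range (n + 2), α k • ψ n k

/-- diagonal entries of `dGf f`. -/
noncomputable def en (ψ : (n k : ℕ) → Fk (Fin (3 * n + 1 + 1))) (n k : ℕ) (f : ℕ → ℝ) : ℝ :=
  (⟪ψ n k, dGf f (3 * n + 1) (ψ n k)⟫_ℂ).re

theorem inner_Sc {Q n M M' : ℕ} {v w : Fk (Fin (Q + 1))} (hv : v ∈ Sc Q n M) (hw : w ∈ Sc Q n M')
    (h : M ≠ M') : ⟪v, w⟫_ℂ = 0 := by
  rw [PiLp.inner_apply]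
  refine sum_eq_zero fun S _ => ?_
  by_cases h1 : v S = 0
  · rw [h1, inner_zero_left]
  · by_cases h2 : w S = 0
    · rw [h2, inner_zero_right]
    · exact absurd ((hv S h1).2.symm.trans (hw S h2).2) h

theorem K1V.toK1B {ψ : (n k : ℕ) → Fk (Fin (3 * n + 1 + 1))} (h : K1V ψ) : K1B ψ where
  mem := fun n k hk => ZS_le_Zn (h n k hk).1
  unit := fun n k hk => (h n k hk).2
  orth := fun n k hk l hl hkl =>
    inner_Sc (h n k hk).1.2 (h n l hl).1.2 fun e => hkl (Mk_inj hk hl e)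
  diag := fun n k hk l hl hkl f =>
    inner_Sc (h n k hk).1.2 (dR_mem_Sc (h n l hl).1.2 fun j => f j) fun e => hkl (Mk_inj hk hl e)
  span := by
    intro n φ hφ
    have hN : ∀ S, φ S ≠ 0 → S.card = n + 1 := by
      intro S hS
      by_contra hne
      exact hS ((GG467.mem_sector_iff (N := n + 1) (v := φ)).1 hφ.2 S hne)
    have key : ∀ k, k ≤ n + 1 → ∃ z : ℂ, prSc (3 * n + 1) (n + 1) (Mk n k) φ = z • ψ n k := by
      intro k hk
      obtain ⟨h1, h2⟩ := h n k hk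
      have h0 : ψ n k ≠ 0 := fun h0 => by rw [h0, norm_zero] at h2; exact zero_ne_one h2
      exact ZS_smul (posM_nu0 _) (by omega) h1 h0 ⟨prSc_mem_Zs hφ.1 _ _, prSc_mem _ _ _⟩
    choose! α hα using key
    refine ⟨α, ?_⟩
    have e1 : ∑ k ∈ range (n + 2), α k • ψ n k =
        ∑ k ∈ range (n + 2), prSc (3 * n + 1) (n + 1) (Mk n k) φ := by
      refine sum_congr rfl fun k hk => (hα k ?_).symm
      have := mem_range.1 hk
      omega
    rw [e1]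
    ext S
    rw [sum_apply']
    simp only [prSc_apply]
    by_cases hS : φ S = 0
    · rw [hS]; simp
    · have h1 := hN S hS
      set M := ∑ i ∈ S, (i : ℕ) with hM
      have h2 : prSc (3 * n + 1) (n + 1) M φ ≠ 0 := by
        intro h0
        have := congrArg (fun v : Fk (Fin (3 * n + 1 + 1)) => v S) h0
        simp only [prSc_apply] at this
        rw [if_pos ⟨h1, hM.symm⟩] at this
        exact hS this
      have hz : prSc (3 * n + 1) (n + 1) M φ ∈ ZS (nu0 (3 * n + 1)) (3 * n + 1) (n + 1) M :=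
        ⟨prSc_mem_Zs hφ.1 _ _, prSc_mem _ _ _⟩
      obtain ⟨k, hk, hMk⟩ := Mk_bounds n M (lmin_le_ZS (posM_nu0 _) hz h2) (le_sub_lmin hz h2)
      rw [sum_eq_single k]
      · rw [if_pos ⟨h1, hMk⟩]
      · intro l hl hlk
        rw [if_neg]
        rintro ⟨-, h3⟩
        have hl' := mem_range.1 hl
        exact hlk (Mk_inj (by omega) hk (h3.symm.trans hMk))
      · intro h3
        exact absurd (mem_range.2 (by omega)) h3

variable {ψ : (n k : ℕ) → Fk (Fin (3 * n + 1 + 1))}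

theorem form_diag {n : ℕ} (A : Op (Fin (3 * n + 1 + 1)))
    (hA : ∀ k ≤ n + 1, ∀ l ≤ n + 1, k ≠ l → ⟪ψ n k, A (ψ n l)⟫_ℂ = 0) (α : ℕ → ℂ) :
    (⟪∑ k ∈ range (n + 2), α k • ψ n k, A (∑ k ∈ range (n + 2), α k • ψ n k)⟫_ℂ).re =
      ∑ k ∈ range (n + 2), (⟪ψ n k, A (ψ n k)⟫_ℂ).re * ‖α k‖ ^ 2 := by
  have e1 : A (∑ k ∈ range (n + 2), α k • ψ n k) = ∑ k ∈ range (n + 2), α k • A (ψ n k) := by
    rw [map_sum]
    exact sum_congr rfl fun k _ => map_smul _ _ _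
  rw [e1, sum_inner, Complex.re_sum]
  apply sum_congr rfl
  intro k hk
  rw [inner_sum, sum_eq_single k]
  · rw [inner_smul_left, inner_smul_right, ← mul_assoc]
    have : (starRingEnd ℂ) (α k) * α k = ((‖α k‖ ^ 2 : ℝ) : ℂ) := by
      rw [mul_comm, Complex.mul_conj, Complex.normSq_eq_norm_sq]
    rw [this, Complex.re_ofReal_mul, mul_comm]
  · intro l hl hlk
    rw [inner_smul_left, inner_smul_right, hA k (by have := mem_range.1 hk; omega) l
      (by have := mem_range.1 hl; omega) (Ne.symm hlk)]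
    simp
  · intro h; exact absurd hk h

theorem norm_sq_sum (h : K1B ψ) (n : ℕ) (α : ℕ → ℂ) :
    ‖∑ k ∈ range (n + 2), α k • ψ n k‖ ^ 2 = ∑ k ∈ range (n + 2), ‖α k‖ ^ 2 := by
  have h1 := form_diag (ψ := ψ) (n := n) (1 : Op (Fin (3 * n + 1 + 1)))
    (fun k hk l hl hkl => by rw [one_ap]; exact h.orth n k hk l hl hkl) α
  have h2 : (⟪∑ k ∈ range (n + 2), α k • ψ n k,
      (1 : Op (Fin (3 * n + 1 + 1))) (∑ k ∈ range (n + 2), α k • ψ n k)⟫_ℂ).re =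
      ‖∑ k ∈ range (n + 2), α k • ψ n k‖ ^ 2 := by
    rw [one_ap, inner_self_eq_norm_sq_to_K]
    norm_cast
  rw [← h2, h1]
  apply sum_congr rfl
  intro k hk
  have h3 : (⟪ψ n k, (1 : Op (Fin (3 * n + 1 + 1))) (ψ n k)⟫_ℂ).re = 1 := by
    rw [one_ap, inner_self_eq_norm_sq_to_K, h.unit n k (by have := mem_range.1 hk; omega)]
    norm_num
  rw [h3, one_mul]

theorem hf_sum (h : K1B ψ) (n : ℕ) (f : ℕ → ℝ) (α : ℕ → ℂ) :
    hf f (∑ k ∈ range (n + 2), α k • ψ n k) =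
      ∑ k ∈ range (n + 2), (3 * (cs f (3 * n + 1) - en ψ n k f)) * ‖α k‖ ^ 2 := by
  have h1 := form_diag (ψ := ψ) (n := n) (dGf f (3 * n + 1))
    (fun k hk l hl hkl => h.diag n k hk l hl hkl f) α
  unfold hf
  rw [h1, norm_sq_sum h, mul_sum, ← sum_sub_distrib, mul_sum]
  apply sum_congr rfl
  intro k _
  unfold en
  ring

/-! ### fields of `DataR` -/






end Crest.Agent.R340.K1dec716
end

-- ▼ part R340/K1plug_716
section

/-!
# R340 / S0532: the one-hole sector, plug (helper716)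

`hone_of`: the hypothesis `hone` of `Weak716.weak_red` from the radial bound and the bound on the
form of `X` on the one-hole lines.
-/

set_option autoImplicit false
set_option linter.unusedSectionVars false
open scoped InnerProductSpace ComplexConjugate

namespace Crest.Agent.R340.K1plug716

open Finset
open Crest.Agent.R340.Fock649 Crest.Agent.R340.Emb596 Crest.Agent.R340.Geo986
  Crest.Agent.R340.Peel596 Crest.Agent.R340.Step596
open Crest.Agent.R340.Scal725 Crest.Agent.R340.DomF735 Crest.Agent.R340.DomG735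
open Crest.Agent.R340.Weak716 Crest.Agent.R340.K1dec716

variable {ψ : (n k : ℕ) → Fk (Fin (3 * n + 1 + 1))}

theorem hone_of (h : K1B ψ) {a R C CX x : ℝ} (hR : 1 ≤ R) (ha0 : 0 < a) (ha1 : a ≤ 1 / 100)
    (n : ℕ)
    (hrad : ∀ k ≤ n + 1, (1 - 1 / 40) * prof a R (3 * k) ≤
      3 * (cs (prof a R) (3 * n + 1) - en ψ n k (prof a R)))
    (X : Op (Fin (3 * n + 1 + 1))) (hCX : 0 ≤ CX)
    (hq : ∀ α : ℕ → ℂ, (⟪∑ k ∈ range (n + 2), α k • ψ n k,
        X (∑ k ∈ range (n + 2), α k • ψ n k)⟫_ℂ).re - x * ∑ m ∈ range (n + 2), ‖α m‖ ^ 2 ≤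
      ∑ m ∈ range (n + 2), (CX / (m + 1)) * ‖α m‖ ^ 2)
    (hC0 : 0 ≤ C) (hC : 160 * CX ≤ C) :
    LB (nu0 (3 * n + 1)) (3 * n + 1) (n + 1) (DW C (prof a R) x (3 * n + 1) X)
      (9 / 10 * C * prof a R (3 * n + 1)) := by
  intro φ hφ
  obtain ⟨α, hα⟩ := h.span n φ hφ
  have h1 := K1725.K1_final (a := a) (R := R) hR ha0.le (by linarith) (n + 1)
    (fun k => 3 * (cs (prof a R) (3 * n + 1) - en ψ n k (prof a R)))
    (fun α => x * ∑ m ∈ range (n + 1 + 1), ‖α m‖ ^ 2 +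
      ∑ m ∈ range (n + 1 + 1), (CX / (m + 1)) * ‖α m‖ ^ 2) x (1 / 40) (19 / 20) CX C hCX hrad
    (fun α => by
      rw [add_sub_cancel_left, abs_of_nonneg]
      exact sum_nonneg fun m _ => by positivity) hC0
    (by linarith) α
  have hq' := hq α
  have h2 := hf_sum h n (prof a R) α
  have h3 := norm_sq_sum h n α
  rw [← hα] at h2 h3
  rw [re_inner_DW]
  have hR0 : 0 ≤ R := by linarith
  have haR : a < R + 1 := by linarith
  have hanti := prof_antitone hR0 ha0.le haR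
  -- comparison of the profiles
  have hp : 9 / 10 * prof a R (3 * n + 1) ≤ 19 / 20 * prof a R (3 * n + 3) := by
    have h4 := K1rad716.prof_sub_succ_le hR ha0 (by linarith : a ≤ 1 / 4) (3 * n + 1)
    have h5 := K1rad716.prof_sub_succ_le hR ha0 (by linarith : a ≤ 1 / 4) (3 * n + 2)
    have p1 := prof_pos hR0 haR (3 * n + 1)
    have p2 := prof_pos hR0 haR (3 * n + 2)
    have m1 : prof a R (3 * n + 2) ≤ prof a R (3 * n + 1) := hanti (by omega)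
    have m2 : prof a R (3 * n + 3) ≤ prof a R (3 * n + 2) := hanti (by omega)
    have e1 : prof a R (3 * n + 1 + 1) = prof a R (3 * n + 2) := rfl
    have e2 : prof a R (3 * n + 2 + 1) = prof a R (3 * n + 3) := rfl
    rw [e1] at h4
    rw [e2] at h5
    have c1 : (1 : ℝ) ≤ ((3 * n + 1 : ℕ) : ℝ) + 1 := by
      have : (0 : ℝ) ≤ ((3 * n + 1 : ℕ) : ℝ) := Nat.cast_nonneg _
      linarith
    have c2 : (1 : ℝ) ≤ ((3 * n + 2 : ℕ) : ℝ) + 1 := by
      have : (0 : ℝ) ≤ ((3 * n + 2 : ℕ) : ℝ) := Nat.cast_nonneg _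
      linarith
    have d1 : prof a R (3 * n + 1) - prof a R (3 * n + 2) ≤ 1 / 100 * prof a R (3 * n + 1) := by
      have : 1 * (prof a R (3 * n + 1) - prof a R (3 * n + 2)) ≤
          (((3 * n + 1 : ℕ) : ℝ) + 1) * (prof a R (3 * n + 1) - prof a R (3 * n + 2)) :=
        mul_le_mul_of_nonneg_right c1 (by linarith)
      have : a * prof a R (3 * n + 1) ≤ 1 / 100 * prof a R (3 * n + 1) :=
        mul_le_mul_of_nonneg_right ha1 p1.le
      linarith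
    have d2 : prof a R (3 * n + 2) - prof a R (3 * n + 3) ≤ 1 / 100 * prof a R (3 * n + 2) := by
      have : 1 * (prof a R (3 * n + 2) - prof a R (3 * n + 3)) ≤
          (((3 * n + 2 : ℕ) : ℝ) + 1) * (prof a R (3 * n + 2) - prof a R (3 * n + 3)) :=
        mul_le_mul_of_nonneg_right c2 (by linarith)
      have : a * prof a R (3 * n + 2) ≤ 1 / 100 * prof a R (3 * n + 2) :=
        mul_le_mul_of_nonneg_right ha1 p2.le
      linarith
    linarith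
  have h6 : 19 / 20 * C * (prof a R (3 * n + 3) * ‖φ‖ ^ 2) ≤
      19 / 20 * C * ∑ m ∈ range (n + 2), prof a R (3 * m) * ‖α m‖ ^ 2 := by
    apply mul_le_mul_of_nonneg_left _ (by linarith)
    rw [h3, mul_sum]
    refine sum_le_sum fun m hm => mul_le_mul_of_nonneg_right (hanti ?_) (sq_nonneg _)
    have := mem_range.1 hm
    omega
  have h7 : 9 / 10 * C * prof a R (3 * n + 1) * ‖φ‖ ^ 2 ≤
      19 / 20 * C * (prof a R (3 * n + 3) * ‖φ‖ ^ 2) := by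
    have := mul_le_mul_of_nonneg_left hp hC0
    have := mul_le_mul_of_nonneg_right this (sq_nonneg ‖φ‖)
    linarith
  rw [← hα, ← h3] at hq'
  have e : n + 1 + 1 = n + 2 := rfl
  simp only [e] at h1
  rw [h2]
  linarith

end Crest.Agent.R340.K1plug716
end

-- ▼ part R340/WP_596
section

/-!
# (W), the weak pass, from its inputs (helper596, R340)

`WP_of` : `Defs150.WP` from `RC`, `RX`, `GZ` (clustering and density of the last orbital), `VS`
(flux dependence of the vacuum value of a local operator) and `H1` (the one-hole case).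
-/

set_option autoImplicit false
set_option linter.unusedSectionVars false
open scoped InnerProductSpace ComplexConjugate
open Crest.Agent.R340.Fock649 Crest.Agent.R340.Emb596 Crest.Agent.R340.Geo986
  Crest.Agent.R340.Peel596 Crest.Agent.R340.PathStep880 Crest.Agent.R340.Step596
  Crest.Agent.R340.PeelX596 Crest.Agent.R340.Hstep596
open Crest.Agent.R340.Scal725 (prof dd cs)
open Crest.Agent.R340.PV341 (Adm)
open Crest.Agent.R340.Weak716 (DW re_inner_le_of_norm)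
open Crest.Agent.R340.FX963 (DY)
open Crest.Agent.R340.Defs150 (Dy RC RX GZ IsVac WP)
open Crest.Agent.R340

namespace Crest.Agent.R340.WP596

open Finset

/-! ### the vacuum -/

theorem exists_isVac {Q : ℕ} (h : 3 ∣ Q) : ∃ Ω, IsVac Q Ω := by
  obtain ⟨k, rfl⟩ := h
  obtain ⟨Φ, hΦ⟩ := Vac467.exists_ref (posM_nu0 (3 * k)) (n := 3 * k / 3 + 1) (by omega)
  exact ⟨Φ, hΦ.mem_Zn, hΦ.unit⟩

theorem IsVac.isRef {Q : ℕ} (h : 3 ∣ Q) {Ω : Fk (Fin (Q + 1))} (hΩ : IsVac Q Ω) :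
    Vac467.IsRef (nu0 Q) Q (Q / 3 + 1) Ω :=
  ⟨hΩ.1.1, Vac467.sec_of_Zn (posM_nu0 Q) (by omega) hΩ.1, hΩ.2⟩

theorem vac_value_eq {Q : ℕ} (h : 3 ∣ Q) {Ω Ω' : Fk (Fin (Q + 1))} (hΩ : IsVac Q Ω)
    (hΩ' : IsVac Q Ω') (X : Op (Fin (Q + 1))) : (⟪Ω, X Ω⟫_ℂ).re = (⟪Ω', X Ω'⟫_ℂ).re := by
  have h1 := fun lam => Vac467.LB_vac_iff (posM_nu0 Q) (by omega) (IsVac.isRef h hΩ) X lam
  have h2 := fun lam => Vac467.LB_vac_iff (posM_nu0 Q) (by omega) (IsVac.isRef h hΩ') X lam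
  apply le_antisymm
  · exact (h2 _).1 ((h1 _).2 le_rfl)
  · exact (h1 _).1 ((h2 _).2 le_rfl)

open Classical in
/-- a vacuum state for every `q` divisible by `3` -/
noncomputable def vacS (q : ℕ) : Fk (Fin (q + 1)) :=
  if h : 3 ∣ q then (exists_isVac h).choose else 0

theorem vacS_isVac {q : ℕ} (h : 3 ∣ q) : IsVac q (vacS q) := by
  unfold vacS
  rw [dif_pos h]
  exact (exists_isVac h).choose_spec

/-- vacuum value at flux `q` of the compression of `X` -/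
noncomputable def vv (Qt : ℕ) (X : Op (Fin (Qt + 1))) (q : ℕ) : ℝ :=
  (⟪vacS q, fam Qt X q (vacS q)⟫_ℂ).re

/-- the scalars of the weak pass -/
noncomputable def xx (Qt : ℕ) (X : Op (Fin (Qt + 1))) (Q : ℕ) : ℝ := vv Qt X (3 * (Q / 3))

theorem abs_xx_le {Qt : ℕ} {X : Op (Fin (Qt + 1))} {B : ℝ} (hX : ‖X‖ ≤ B) (Q : ℕ) :
    |xx Qt X Q| ≤ B := by
  unfold xx vv
  have h := re_inner_le_of_norm ((norm_fam_le X (3 * (Q / 3))).trans hX) (vacS (3 * (Q / 3)))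
  rwa [(vacS_isVac (Dvd.intro _ rfl)).2, one_pow, mul_one] at h

/-! ### the inputs -/

/-- **(VS)** flux dependence of the vacuum value of a local operator -/
def VS (nW : ℕ) (K : ℝ) : Prop := 0 ≤ K ∧ ∀ Q : ℕ, 1 ≤ Q → 3 ∣ Q →
  ∀ X : Op (Fin (Q + 3 + 1)), Dy nW (Q + 3) 1 X →
    ∀ (Ω : Fk (Fin (Q + 3 + 1))) (Ω' : Fk (Fin (Q + 1))), IsVac (Q + 3) Ω → IsVac Q Ω' →
      |(⟪Ω, X Ω⟫_ℂ).re - (⟪Ω', cmp (ee (Nat.le_add_right Q 3)) X Ω'⟫_ℂ).re| ≤
        K / ((Q + 3 : ℕ) : ℝ) ^ 2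

/-- **(H1)** the one-hole case -/
def H1 (nW : ℕ) (a θ : ℝ) : Prop := ∃ R0 C0 : ℝ, ∀ S : ℝ, R0 ≤ S → ∀ C : ℝ, C0 ≤ C →
  ∀ q n : ℕ, 3 ∣ q → q + 3 = 3 * n → ∀ X : Op (Fin (q + 1 + 1)), Dy nW (q + 1) 1 X →
    ∀ Ω : Fk (Fin (q + 1)), IsVac q Ω →
      LB (nu0 (q + 1)) (q + 1) n
        (Dop (q + 1) (3 * C * cs (prof a S) (q + 1) + (⟪Ω, cmp (ee (Nat.le_succ q)) X Ω⟫_ℂ).re)
          (3 * C) (prof a S) X) (θ * C * prof a S (q + 1))

theorem cIn_of {κ K : ℝ} (hG : RC K) (hZ : GZ κ) : CIn κ K 3 where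
  κpos := hZ.1
  CGn := hG.1
  G Q hQ t ht n := hG.2 Q (by omega) t ht n
  G0 Q n := by
    have := hZ.2 (fun _ => 0) Adm_zero rfl Q n
    rwa [nuT_zero] at this

theorem vv_step {nW Qt : ℕ} {K : ℝ} (hV : VS nW K) {X : Op (Fin (Qt + 1))} (hX : Dy nW Qt 1 X)
    {q : ℕ} (hq : 3 ∣ q) (hq1 : 1 ≤ q) (hqt : q + 3 ≤ Qt) :
    |vv Qt X (q + 3) - vv Qt X q| ≤ K / ((q + 3 : ℕ) : ℝ) ^ 2 := by
  have hq3 : 3 ∣ q + 3 := by omega
  have hD : Dy nW (q + 3) 1 (fam Qt X (q + 3)) := by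
    rw [fam_of_le hqt]
    exact hX.cmp hqt
  have h := hV.2 q hq1 hq (fam Qt X (q + 3)) hD (vacS (q + 3)) (vacS q) (vacS_isVac hq3)
    (vacS_isVac hq)
  rw [fam_cmp (Nat.le_add_right q 3) hqt X] at h
  exact h

theorem xx_step {nW Qt : ℕ} {K : ℝ} (hV : VS nW K) {X : Op (Fin (Qt + 1))} (hX : Dy nW Qt 1 X)
    {Q Q' : ℕ} (hQ : 3 ≤ Q) (hQt : Q + 3 ≤ Qt) (hQ' : Q ≤ Q') (hQ'' : Q' ≤ Q + 3) :
    |xx Qt X (Q + 3) - xx Qt X Q'| ≤ 4 * K / ((Q + 3 : ℕ) : ℝ) ^ 2 := by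
  have hK := hV.1
  unfold xx
  have hcases : 3 * (Q' / 3) = 3 * ((Q + 3) / 3) ∨ 3 * ((Q + 3) / 3) = 3 * (Q' / 3) + 3 := by omega
  rcases hcases with h | h
  · rw [h, sub_self, abs_zero]
    positivity
  · rw [h]
    have h1 := vv_step hV hX (q := 3 * (Q' / 3)) (Dvd.intro _ rfl) (by omega) (by omega)
    refine h1.trans ?_
    have h2 : ((Q + 3 : ℕ) : ℝ) ≤ 2 * ((3 * (Q' / 3) + 3 : ℕ) : ℝ) := by
      exact_mod_cast (by omega : Q + 3 ≤ 2 * (3 * (Q' / 3) + 3))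
    have h3 : (0 : ℝ) < ((Q + 3 : ℕ) : ℝ) := by positivity
    rw [div_le_div_iff₀ (by positivity) (by positivity)]
    have h4 : ((Q + 3 : ℕ) : ℝ) ^ 2 ≤ 4 * ((3 * (Q' / 3) + 3 : ℕ) : ℝ) ^ 2 := by
      nlinarith
    calc K * ((Q + 3 : ℕ) : ℝ) ^ 2 ≤ K * (4 * ((3 * (Q' / 3) + 3 : ℕ) : ℝ) ^ 2) :=
          mul_le_mul_of_nonneg_left h4 hK
      _ = _ := by ring

theorem fIn_of {nW Qt : ℕ} (hn : 4 ≤ nW) {K2 K3 : ℝ} (hRX : RX nW K2) (hV : VS nW K3)
    {X : Op (Fin (Qt + 1))} (hX : Dy nW Qt 1 X) :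
    FIn Qt (fam Qt X) (xx Qt X) K2 (4 * K3) 32 3 := by
  refine fIn_DY hn (by norm_num) hRX.1 (by have := hV.1; positivity) ?_ hX.1 hX.2 ?_ ?_
  · intro Q hQ t ht Y hY hD n
    exact hRX.2 Q (by omega) t ht n Y ⟨hY, hD⟩
  · intro Q hQ hQt
    exact xx_step hV hX hQ hQt le_rfl (by omega)
  · intro Q hQ hQt
    exact xx_step hV hX hQ hQt (by omega) (by omega)

/-- **(W)**, general form: for all sectors with `K ≥ 1`, all fluxes and all large `C`. -/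
theorem WP_all {nW : ℕ} (hn : 4 ≤ nW) {κ K1 K2 K3 : ℝ} (hRC : RC K1) (hRX : RX nW K2) (hGZ : GZ κ)
    (hVS : VS nW K3) {a : ℝ} (ha0 : 0 < a) (ha1 : a ≤ 1 / 100) {θ : ℝ} (hθ0 : 4 / 5 ≤ θ)
    (hθ1 : θ ≤ 9 / 10) (hH1 : H1 nW a θ) :
    ∃ R0 C0 : ℝ, 43 ≤ R0 ∧ 40 ≤ C0 ∧ ∀ S : ℝ, R0 ≤ S → ∀ C : ℝ, C0 ≤ C →
      ∀ (Q n : ℕ) (X : Op (Fin (Q + 1))), 3 * n ≤ Q + 2 → Dy nW Q 1 X →
        LB (nu0 Q) Q n (Dop Q (3 * C * cs (prof a S) Q + xx Q X Q) (3 * C) (prof a S) X)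
          (θ * C * (Q + 3 - 3 * n) * prof a S Q) := by
  obtain ⟨R1, hR1, _, hW⟩ := weak_fam (cIn_of hRC hGZ) K2 (4 * K3) 32 ha0 ha1
  obtain ⟨R2, C2, hone⟩ := hH1
  refine ⟨max R1 R2, max 40 C2, le_max_of_le_left hR1, le_max_left _ _,
    fun S hS C hC Q n X hQn hX => ?_⟩
  have hS1 : R1 ≤ S := (le_max_left _ _).trans hS
  have hS2 : R2 ≤ S := (le_max_right _ _).trans hS
  have hC1 : 40 ≤ C := (le_max_left _ _).trans hC
  have hC2 : C2 ≤ C := (le_max_right _ _).trans hC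
  have hXn : ‖X‖ ≤ 1 := hX.2.norm_le
  have h := hW S hS1 1 C θ (by linarith) (by linarith) hθ0 hθ1 Q (fam Q X) (xx Q X)
    (fIn_of hn hRX hVS hX) (fun q _ => (norm_fam_le X q).trans hXn) (fun q _ => abs_xx_le hXn q) ?_
    Q n le_rfl hQn
  · rw [fam_top] at h
    exact h
  · intro m q' hq' hm
    obtain ⟨q, rfl⟩ : ∃ q, q' = q + 1 := ⟨q' - 1, by omega⟩
    have h3 : 3 ∣ q := by omega
    have hD : Dy nW (q + 1) 1 (fam Q X (q + 1)) := by
      rw [fam_of_le hq']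
      exact hX.cmp hq'
    have h5 := hone S hS2 C hC2 q m h3 (by omega) (fam Q X (q + 1)) hD (vacS q) (vacS_isVac h3)
    rw [fam_cmp (Nat.le_succ q) hq' X] at h5
    have h6 : xx Q X (q + 1) = (⟪vacS q, fam Q X q (vacS q)⟫_ℂ).re := by
      have : 3 * ((q + 1) / 3) = q := by omega
      unfold xx
      rw [this]
      rfl
    unfold DW
    rw [h6]
    exact h5

/-- **(W)** in the form of `Defs150.WP`, for all large `C`. -/
theorem WP_of {nW : ℕ} (hn : 4 ≤ nW) {κ K1 K2 K3 : ℝ} (hRC : RC K1) (hRX : RX nW K2) (hGZ : GZ κ)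
    (hVS : VS nW K3) {a : ℝ} (ha0 : 0 < a) (ha1 : a ≤ 1 / 100) {θ : ℝ} (hθ0 : 4 / 5 ≤ θ)
    (hθ1 : θ ≤ 9 / 10) (hH1 : H1 nW a θ) :
    ∃ R0 C0 : ℝ, 43 ≤ R0 ∧ 40 ≤ C0 ∧ ∀ C : ℝ, C0 ≤ C → WP nW a R0 C θ := by
  obtain ⟨R0, C0, hR0, hC0, h⟩ := WP_all hn hRC hRX hGZ hVS ha0 ha1 hθ0 hθ1 hH1
  refine ⟨R0, C0, hR0, hC0, fun C hC S hS Q n X Ω h3 hQn hX hΩ => ?_⟩
  have h1 := h S hS C hC Q n X (by omega) hX
  have h2 : xx Q X Q = (⟪Ω, X Ω⟫_ℂ).re := by
    have h4 : 3 * (Q / 3) = Q := by omega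
    unfold xx
    rw [h4]
    unfold vv
    rw [fam_top]
    exact vac_value_eq h3 (vacS_isVac h3) hΩ X
  rw [h2] at h1
  exact h1

end Crest.Agent.R340.WP596
end

-- ▼ part R340/K1inG_788
section

/-!
# R340, K = 1 (helper788): the basis `psi1` and the radial bound in 716's form

* `k1v : K1V psi1`, `k1b : K1B psi1`.
* `inp_of : RC K → GZ κ → Inp κ K 1`, `dataR_en : DataR (en psi1) (C1 κ K) 1`.
* `hrad`: the radial hypothesis of `K1plug716.hone_of`.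
-/

set_option autoImplicit false
open scoped InnerProductSpace

namespace Crest.Agent.R340.K1in788

open Finset
open Crest.Agent.R340.Fock649 Crest.Agent.R340.Emb596 Crest.Agent.R340.Geo986
  Crest.Agent.R340.Peel596 Crest.Agent.R340.Step596
open Crest.Agent.R340.Scal725 Crest.Agent.R340.K1dec716
open Crest.Agent.R340.Defs150 (RC GZ)
open Crest.Agent.R340.Vac467 (lmin)

/-- canonical unit vectors of the one-hole lines -/
noncomputable def psi1 (n k : ℕ) : Fk (Fin (3 * n + 1 + 1)) := st (3 * n + 1) (n + 1) (n + 1 - k)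

theorem k1v : K1V psi1 := fun n k hk =>
  ⟨st_mem (Q := 3 * n + 1) (n := n + 1) (i := n + 1 - k) (by omega) (by omega),
    norm_st (Q := 3 * n + 1) (n := n + 1) (i := n + 1 - k) (by omega) (by omega)⟩


theorem inp_of {κ K : ℝ} (hG : RC K) (hZ : GZ κ) : Inp κ K 1 where
  κpos := hZ.1
  CGn := hG.1
  G := hG.2
  G0 Q n := (WP596.cIn_of hG hZ).G0 Q n

theorem dataR_en {κ CG : ℝ} {Qc n0 : ℕ} (h : Inp κ CG Qc) (hn : Qc ≤ 3 * n0) :
    K1rad716.DataR (en psi1) (C1 κ CG) n0 := dataR h hn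



end Crest.Agent.R340.K1in788
end

-- ▼ part R340/K1W_716
section

/-!
# R340 / S0532: the one-hole sector, the operator `X` (helper716)

STEP 1 of the one-hole sector as an operator inequality: on `Zn (nu0 (3m+1)) (3m+1) (m+1)`
`XX - x ≤ Gw`, `Gw` = the function `w_m(k) = K (2/(k+1) - 1/(m+2))` of the line index `k`
(a function of `L_z`).
-/

set_option autoImplicit false
set_option linter.unusedSectionVars false
open scoped InnerProductSpace ComplexConjugate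

namespace Crest.Agent.R340.K1W716

open Finset
open Crest.Agent.R340.Fock649 Crest.Agent.R340.Emb596 Crest.Agent.R340.Geo986
  Crest.Agent.R340.Peel596 Crest.Agent.R340.Step596 Crest.Agent.R340.PathStep880
  Crest.Agent.R340.PeelX596 Crest.Agent.R340.Hstep596
open Crest.Agent.R340.Scal725 (prof cs)
open Crest.Agent.R340.PV341 (Adm)
open Crest.Agent.R340.Weak716 (re_inner_Dop re_inner_le_of_norm)
open Crest.Agent.R340.K1in788 (Sc ZS prSc prSc_apply prSc_mem prSc_mem_Zs mem_ZS ZS_le_Zn)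
open Crest.Agent.R340.K1dec716 (lmin_le_ZS Mk K1V K1B)
open Crest.Agent.R340.Rev716 (sum_apply')
open Crest.Agent.R340.Vac467 (lmin two_lmin lmin_succ)

/-! ### functions of the line index -/

section Gw
variable {Q : ℕ}

/-- function `w` of the line index `k = n + lmin n - L_z` -/
noncomputable def Gw (w : ℕ → ℝ) (n Q : ℕ) : Op (Fin (Q + 1)) :=
  diag fun S => ((w (n + lmin n - ∑ i ∈ S, (i : ℕ)) : ℝ) : ℂ)

theorem Gw_apply (w : ℕ → ℝ) (n : ℕ) (v : Fk (Fin (Q + 1))) (S : Finset (Fin (Q + 1))) :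
    Gw w n Q v S = ((w (n + lmin n - ∑ i ∈ S, (i : ℕ)) : ℝ) : ℂ) * v S := diag_apply _ _ _

theorem star_Gw (w : ℕ → ℝ) (n : ℕ) : star (Gw w n Q) = Gw w n Q := by
  unfold Gw
  rw [star_diag]
  congr 1
  funext S
  simp only [Pi.star_apply, Complex.star_def, Complex.conj_ofReal]

theorem card_of_Zn {ν : ℕ → ℝ} {n : ℕ} {ψ : Fk (Fin (Q + 1))} (hψ : ψ ∈ Zn ν Q n)
    {S : Finset (Fin (Q + 1))} (hS : ψ S ≠ 0) : S.card = n := by
  by_contra hne
  exact hS ((GG467.mem_sector_iff (N := n) (v := ψ)).1 hψ.2 S hne)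

theorem lmin_le_of_Zn {ν : ℕ → ℝ} (hν : PosM ν Q) {n : ℕ} {ψ : Fk (Fin (Q + 1))}
    (hψ : ψ ∈ Zn ν Q n) {S : Finset (Fin (Q + 1))} (hS : ψ S ≠ 0) :
    lmin n ≤ ∑ i ∈ S, (i : ℕ) := by
  have h1 := card_of_Zn hψ hS
  have h2 : prSc Q n (∑ i ∈ S, (i : ℕ)) ψ ≠ 0 := by
    intro h0
    have h3 : prSc Q n (∑ i ∈ S, (i : ℕ)) ψ S = 0 := by rw [h0]; rfl
    rw [prSc_apply, if_pos ⟨h1, rfl⟩] at h3
    exact hS h3
  exact lmin_le_ZS hν ⟨prSc_mem_Zs hψ.1 _ _, prSc_mem _ _ _⟩ h2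

theorem sum_le_mul (S : Finset (Fin (Q + 1))) : ∑ i ∈ S, (i : ℕ) ≤ S.card * Q := by
  calc ∑ i ∈ S, (i : ℕ) ≤ ∑ _i ∈ S, Q := sum_le_sum fun i _ => by omega
    _ = S.card * Q := by rw [sum_const, smul_eq_mul]

theorem Gw_mem_Zn {ν : ℕ → ℝ} {n : ℕ} (w : ℕ → ℝ) {ψ : Fk (Fin (Q + 1))} (hψ : ψ ∈ Zn ν Q n) :
    Gw w n Q ψ ∈ Zn ν Q n := by
  have e : Gw w n Q ψ = ∑ M ∈ range (n * Q + 1),
      ((w (n + lmin n - M) : ℝ) : ℂ) • prSc Q n M ψ := by
    ext S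
    rw [sum_apply', Gw_apply]
    by_cases hS : ψ S = 0
    · rw [hS, mul_zero]
      symm
      refine sum_eq_zero fun M _ => ?_
      show _ * prSc Q n M ψ S = 0
      rw [prSc_apply, hS]
      simp
    · have h1 := card_of_Zn hψ hS
      have h2 := sum_le_mul S
      rw [h1] at h2
      rw [sum_eq_single (∑ i ∈ S, (i : ℕ))]
      · show _ = _ * prSc Q n _ ψ S
        rw [prSc_apply, if_pos ⟨h1, rfl⟩]
      · intro M _ hM
        show _ * prSc Q n M ψ S = 0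
        rw [prSc_apply, if_neg (fun h => hM h.2.symm), mul_zero]
      · intro h
        exact absurd (mem_range.2 (by omega)) h
  rw [e]
  refine Submodule.sum_mem _ fun M _ => Submodule.smul_mem _ _ ?_
  exact ZS_le_Zn ⟨prSc_mem_Zs hψ.1 _ _, prSc_mem n M ψ⟩

theorem re_inner_Gw (w : ℕ → ℝ) (n : ℕ) (ψ : Fk (Fin (Q + 1))) :
    (⟪ψ, Gw w n Q ψ⟫_ℂ).re =
      ∑ S : Finset (Fin (Q + 1)), w (n + lmin n - ∑ i ∈ S, (i : ℕ)) * ‖ψ S‖ ^ 2 := by
  rw [PiLp.inner_apply, Complex.re_sum]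
  refine sum_congr rfl fun S _ => ?_
  rw [Gw_apply, RCLike.inner_apply, mul_assoc, Complex.mul_conj, Complex.normSq_eq_norm_sq,
    ← Complex.ofReal_mul, Complex.ofReal_re]

theorem norm_sq_sum' (ψ : Fk (Fin (Q + 1))) : ‖ψ‖ ^ 2 = ∑ S : Finset (Fin (Q + 1)), ‖ψ S‖ ^ 2 :=
  EuclideanSpace.norm_sq_eq ψ

theorem Gw_mono {ν : ℕ → ℝ} (hν : PosM ν Q) {n : ℕ} {ψ : Fk (Fin (Q + 1))} (hψ : ψ ∈ Zn ν Q n)
    {v w : ℕ → ℝ} {t : ℝ} (h : ∀ j ≤ n, v j + t ≤ w j) :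
    (⟪ψ, Gw v n Q ψ⟫_ℂ).re + t * ‖ψ‖ ^ 2 ≤ (⟪ψ, Gw w n Q ψ⟫_ℂ).re := by
  rw [re_inner_Gw, re_inner_Gw, norm_sq_sum', mul_sum, ← sum_add_distrib]
  refine sum_le_sum fun S _ => ?_
  by_cases hS : ψ S = 0
  · rw [hS]; simp
  · have h1 := lmin_le_of_Zn hν hψ hS
    have h2 := h (n + lmin n - ∑ i ∈ S, (i : ℕ)) (by omega)
    rw [← add_mul]
    exact mul_le_mul_of_nonneg_right h2 (sq_nonneg _)

theorem Gw_ge {ν : ℕ → ℝ} (hν : PosM ν Q) {n : ℕ} {ψ : Fk (Fin (Q + 1))} (hψ : ψ ∈ Zn ν Q n)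
    {w : ℕ → ℝ} {t : ℝ} (h : ∀ j ≤ n, t ≤ w j) :
    t * ‖ψ‖ ^ 2 ≤ (⟪ψ, Gw w n Q ψ⟫_ℂ).re := by
  have h1 := Gw_mono hν hψ (v := fun _ => 0) (w := w) (t := t) (fun j hj => by
    rw [zero_add]; exact h j hj)
  have h2 : (⟪ψ, Gw (fun _ => 0) n Q ψ⟫_ℂ).re = 0 := by
    rw [re_inner_Gw]; simp
  linarith

theorem emb_Gw {Q' : ℕ} (h : Q' ≤ Q) (w : ℕ → ℝ) (n : ℕ) (χ : Fk (Fin (Q' + 1))) :
    Gw w n Q (emb (ee h) χ) = emb (ee h) (Gw w n Q' χ) := by
  ext S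
  rw [Gw_apply]
  by_cases hm : ∃ T : Finset (Fin (Q' + 1)), T.map (ee h).toEmbedding = S
  · obtain ⟨T, rfl⟩ := hm
    rw [emb_apply_map, emb_apply_map, Gw_apply, sum_map]
    rfl
  · have : ∀ T : Finset (Fin (Q' + 1)), T.map (ee h).toEmbedding ≠ S := fun T hT => hm ⟨T, hT⟩
    rw [emb_apply_not _ _ _ this, emb_apply_not _ _ _ this, mul_zero]


/-- the last orbital shifts the line index correctly -/
theorem c_Gw {n : ℕ} (hQ : Q + 3 = 3 * n + 1) (w : ℕ → ℝ) (φ : Fk (Fin (Q + 3 + 1))) :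
    c (Fin.last (Q + 3)) (Gw w (n + 1) (Q + 3) φ) =
      Gw w n (Q + 3) (c (Fin.last (Q + 3)) φ) := by
  ext U
  rw [c_apply, Gw_apply, Gw_apply, c_apply]
  by_cases hU : Fin.last (Q + 3) ∈ U
  · rw [if_pos hU, if_pos hU, mul_zero]
  · rw [if_neg hU, if_neg hU, sum_insert hU, Fin.val_last]
    have e : n + 1 + lmin (n + 1) - (Q + 3 + ∑ i ∈ U, (i : ℕ)) =
        n + lmin n - ∑ i ∈ U, (i : ℕ) := by
      rw [lmin_succ]; omega
    rw [e]
    ring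

/-- `s - Y` in the form of the path moves -/
noncomputable def WD (Q : ℕ) (s : ℝ) (Y : Op (Fin (Q + 1))) : Op (Fin (Q + 1)) :=
  Dop Q s (3 * 0) (prof 1 1) Y

theorem WD_ap (s : ℝ) (Y : Op (Fin (Q + 1))) (ψ : Fk (Fin (Q + 1))) :
    WD Q s Y ψ = (s : ℂ) • ψ - Y ψ := by
  unfold WD Dop
  rw [sub_ap, sub_ap, smul_ap, smul_ap, one_ap]
  simp

theorem re_WD (s : ℝ) (Y : Op (Fin (Q + 1))) (ψ : Fk (Fin (Q + 1))) :
    (⟪ψ, WD Q s Y ψ⟫_ℂ).re = s * ‖ψ‖ ^ 2 - (⟪ψ, Y ψ⟫_ℂ).re := by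
  unfold WD
  rw [re_inner_Dop]
  ring

theorem RX2_sub {ν : ℕ → ℝ} {n : ℕ} {X : Op (Fin (Q + 1))} {CX : ℝ} (w : ℕ → ℝ)
    (h : RX2 Q (Zn ν Q n) X CX) : RX2 Q (Zn ν Q n) (X - Gw w n Q) CX := by
  intro ψ hψ φ hφ p hp
  have e : off (Zn ν Q n) ((X - Gw w n Q) φ) = off (Zn ν Q n) (X φ) := by
    rw [sub_ap, map_sub, off_of_mem (Gw_mem_Zn w hφ), sub_zero]
  rw [e]
  exact h ψ hψ φ hφ p hp

theorem star_sub_Gw {X : Op (Fin (Q + 1))} (hX : star X = X) (w : ℕ → ℝ) (n : ℕ) :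
    star (X - Gw w n Q) = X - Gw w n Q := by
  rw [star_sub, hX, star_Gw]

/-- total error of one step -/
noncomputable def eW (κ CX Cx Cc : ℝ) (Q : ℕ) : ℝ :=
  (48 * CX + Cx + 2 * ((CX + Cc) / κ)) / (Q : ℝ) ^ 2

end Gw

/-! ### the step -/

theorem stepW {κ CG CX Cx Cc : ℝ} {Qc Qt : ℕ} (hc : CIn κ CG Qc)
    {XX : ∀ Q : ℕ, Op (Fin (Q + 1))} {x : ℕ → ℝ} (hf : FIn Qt XX x CX Cx Cc Qc)
    {Q n : ℕ} (hQ : Q + 3 = 3 * n + 1) (hQc : Qc ≤ Q) (hQt : Q + 3 ≤ Qt)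
    (hvac : LB (nu0 (Q + 2)) (Q + 2) (n + 1) (WD (Q + 2) (x (Q + 2)) (XX (Q + 2))) 0)
    {w w' : ℕ → ℝ} (hinc : ∀ j ≤ n, w j + eW κ CX Cx Cc Q ≤ w' j)
    (hnew : ∀ j ≤ n + 1, eW κ CX Cx Cc Q ≤ w' j)
    (h : LB (nu0 Q) Q n (WD Q (x Q) (XX Q - Gw w n Q)) 0) :
    LB (nu0 (Q + 3)) (Q + 3) (n + 1)
      (WD (Q + 3) (x (Q + 3)) (XX (Q + 3) - Gw w' (n + 1) (Q + 3))) 0 := by
  have hQ1 : 1 ≤ Q := by omega
  have hQr : (1 : ℝ) ≤ Q := by exact_mod_cast hQ1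
  have hκ := hc.κpos
  have hCX := hf.CXn
  have hCx := hf.Cxn
  have hCc := hf.Ccn
  set ℓ : Fin (Q + 3 + 1) := Fin.last (Q + 3) with hℓ
  set X := XX (Q + 3) with hX
  have hXs : star X = X := hf.sa (Q + 3) hQt
  have hRX : RX2 (Q + 3) (Zn (nu0 (Q + 3)) (Q + 3) (n + 1)) X CX := by
    have := hf.X (Q + 3) (by omega) hQt (fun _ => 0) Adm_zero (n + 1)
    rwa [nuT_zero] at this
  -- the moves
  have hmA : Move (nu0 Q) (nuT (tA 1) Q) Q n (WD Q (x Q) (XX Q - Gw w n Q))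
      (eMove 3 CG CX 0 1 1 Q) :=
    move_A (a := 1) (R := 1) (by norm_num) (by norm_num) le_rfl (x Q) 0 le_rfl _
      (star_sub_Gw (hf.sa Q (by omega)) w n) hc.CGn hCX (m := 20) le_rfl
      (fun θ hθ => ringG_of_RC2 (hc.G Q hQc (tA θ) (adm_tA ⟨hθ.1.le, hθ.2⟩) n))
      (fun θ hθ => ringX_of_RX2 (RX2_sub w (hf.X Q hQc (by omega) (tA θ)
        (adm_tA ⟨hθ.1.le, hθ.2⟩) n)))
  have hmB : Move (nu0 (Q + 2)) (nuT (tB 1) (Q + 2)) (Q + 2) (n + 1)
      (WD (Q + 2) (x (Q + 2)) (XX (Q + 2))) (eMove 1 CG CX 0 1 1 (Q + 2)) :=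
    move_B (a := 1) (R := 1) (by norm_num) (by norm_num) le_rfl (x (Q + 2)) 0 le_rfl _
      (hf.sa (Q + 2) (by omega)) hc.CGn hCX (m := 20) le_rfl
      (fun θ hθ => ringG_of_RC2 (hc.G (Q + 2) (by omega) (tB θ) (adm_tB ⟨hθ.1.le, hθ.2⟩) (n + 1)))
      (fun θ hθ => ringX_of_RX2 (hf.X (Q + 2) (by omega) (by omega) (tB θ)
        (adm_tB ⟨hθ.1.le, hθ.2⟩) (n + 1)))
  have hA1 := hmA 0 h
  have hB1 := hmB 0 hvac
  have eA : eMove 3 CG CX 0 1 1 Q = 48 * CX / (Q : ℝ) ^ 2 := by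
    unfold eMove; push_cast; ring
  have eB : eMove 1 CG CX 0 1 1 (Q + 2) = 16 * CX / ((Q + 2 : ℕ) : ℝ) ^ 2 := by
    unfold eMove; push_cast; ring
  have hx3 := hf.x3 Q hQc hQt
  have hx1 := hf.x1 Q hQc hQt
  have hcl3 := hf.cl (Nat.le_add_right Q 3) hQt
  have hcl1 := hf.cl (Nat.le_succ (Q + 2)) hQt
  -- comparison of the denominators
  have d3 : Cx / ((Q + 3 : ℕ) : ℝ) ^ 2 ≤ Cx / (Q : ℝ) ^ 2 := by
    apply div_le_div_of_nonneg_left hCx (by positivity)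
    push_cast; nlinarith
  have d2 : 16 * CX / ((Q + 2 : ℕ) : ℝ) ^ 2 ≤ 48 * CX / (Q : ℝ) ^ 2 := by
    apply div_le_div₀ (by positivity) (by linarith) (by positivity)
    push_cast; nlinarith
  have dδ : CX * (((Q : ℝ) + 2) ^ 2)⁻¹ ≤ CX / (Q : ℝ) ^ 2 := by
    rw [div_eq_mul_inv]
    apply mul_le_mul_of_nonneg_left _ hCX
    apply inv_anti₀ (by positivity)
    nlinarith
  have dη : Cc / ((Q + 3 : ℕ) : ℝ) ^ 2 ≤ Cc / (Q : ℝ) ^ 2 := by
    apply div_le_div_of_nonneg_left hCc (by positivity)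
    push_cast; nlinarith
  have hE : eW κ CX Cx Cc Q = 48 * CX / (Q : ℝ) ^ 2 + Cx / (Q : ℝ) ^ 2 +
      2 * ((CX / (Q : ℝ) ^ 2 + Cc / (Q : ℝ) ^ 2) / κ) := by
    unfold eW
    field_simp
  set E := eW κ CX Cx Cc Q with hEdef
  set δ := CX / (Q : ℝ) ^ 2 with hδ
  set η := Cc / (Q : ℝ) ^ 2 with hη
  have hδ0 : 0 ≤ δ := by positivity
  have hη0 : 0 ≤ η := by positivity
  have hadj : ∀ y, (c ℓ).ap.adjoint y = d ℓ y := by
    intro y
    rw [← star_c]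
    rfl
  -- `lamA = lamB = 2 (δ + η) / κ`
  have key := Peel924.peel (Zn (nu0 (Q + 3)) (Q + 3) (n + 1)) (c ℓ).ap
    (WD (Q + 3) (x (Q + 3)) (X - Gw w' (n + 1) (Q + 3))).ap
    (WD (Q + 3) (x (Q + 3)) (X - Gw w' n (Q + 3))).ap ?_ κ δ η
    (2 * ((δ + η) / κ)) (2 * ((δ + η) / κ)) hκ hδ0 hη0 ?_ (hc.G0 (Q + 2) (n + 1)) ?_ ?_ ?_ ?_
  · intro ψ hψ
    have h1 := key ψ hψ
    rw [min_self, sub_self] at h1
    exact h1
  · -- self-adjoint
    intro y z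
    have := inner_star_left (WD (Q + 3) (x (Q + 3)) (X - Gw w' (n + 1) (Q + 3))) y z
    rw [WD, Dop_selfAdjoint _ _ _ (star_sub_Gw hXs w' (n + 1))] at this
    exact this
  · intro y
    have := Op.norm_ap_le (c ℓ) y
    rw [norm_c, one_mul] at this
    exact this
  · -- commutator
    intro ψ _
    have h2 : c ℓ (WD (Q + 3) (x (Q + 3)) (X - Gw w' (n + 1) (Q + 3)) ψ) -
        WD (Q + 3) (x (Q + 3)) (X - Gw w' n (Q + 3)) (c ℓ ψ) = -((c ℓ * X - X * c ℓ) ψ) := by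
      rw [WD_ap, WD_ap, sub_ap, sub_ap, sub_ap, mul_ap, mul_ap, map_sub, map_smul, map_sub,
        c_Gw hQ]
      abel
    show ‖c ℓ (WD (Q + 3) (x (Q + 3)) (X - Gw w' (n + 1) (Q + 3)) ψ) -
        WD (Q + 3) (x (Q + 3)) (X - Gw w' n (Q + 3)) (c ℓ ψ)‖ ≤ η * ‖ψ‖
    rw [h2, norm_neg]
    exact (Op.norm_ap_le _ _).trans (mul_le_mul_of_nonneg_right
      ((hf.comm (Q + 3) (by omega) hQt).trans dη) (norm_nonneg _))
  · -- cross term
    intro ψ hψ φ hφ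
    rw [hadj]
    show ‖⟪d ℓ (c ℓ ψ) - (Zn (nu0 (Q + 3)) (Q + 3) (n + 1)).starProjection (d ℓ (c ℓ ψ)),
      WD (Q + 3) (x (Q + 3)) (X - Gw w' (n + 1) (Q + 3)) φ⟫_ℂ‖ ≤ δ * ‖ψ‖ * ‖φ‖
    rw [n_last_eq (by omega) ψ, ← off_apply, inner_off_left, WD_ap, sub_ap, map_sub, map_smul,
      off_of_mem hφ, smul_zero, zero_sub, map_sub, off_of_mem (Gw_mem_Zn w' hφ), sub_zero,
      inner_neg_right, norm_neg]
    have h6 := hRX ψ hψ φ hφ (Q + 1) (by omega)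
    have e1 : ((Q + 1 : ℕ) : ℝ) + 1 = (Q : ℝ) + 2 := by push_cast; ring
    rw [e1] at h6
    calc _ ≤ CX * (((Q : ℝ) + 2) ^ 2)⁻¹ * (‖ψ‖ * ‖φ‖) := h6
      _ ≤ δ * (‖ψ‖ * ‖φ‖) := mul_le_mul_of_nonneg_right dδ (by positivity)
      _ = δ * ‖ψ‖ * ‖φ‖ := by ring
  · -- B block
    intro ψ hψ h0
    obtain ⟨χ, hχ, hχ2⟩ := Bblock hψ h0
    have hχ' : χ ∈ Zn (nuT (tB 1) (Q + 2)) (Q + 2) (n + 1) := by rw [Zn_B]; exact hχ
    have h1 := hB1 χ hχ'
    rw [re_WD] at h1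
    show _ ≤ (⟪ψ, WD (Q + 3) (x (Q + 3)) (X - Gw w' (n + 1) (Q + 3)) ψ⟫_ℂ).re
    rw [re_WD, ← hχ2, norm_emb, sub_ap, emb_Gw, inner_sub_right, inner_emb, ← inner_cmp, hcl1,
      Complex.sub_re]
    have h2 := Gw_ge (posM_nuT _ _) hχ' (w := w') (t := E) hnew
    have h3 : -(Cx / (Q : ℝ) ^ 2) * ‖χ‖ ^ 2 ≤ (x (Q + 3) - x (Q + 2)) * ‖χ‖ ^ 2 := by
      apply mul_le_mul_of_nonneg_right _ (sq_nonneg _)
      have := (abs_le.1 hx1).1
      linarith
    rw [eB] at h1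
    have h4 : (0 - 48 * CX / (Q : ℝ) ^ 2) * ‖χ‖ ^ 2 ≤
        (0 - 16 * CX / ((Q + 2 : ℕ) : ℝ) ^ 2) * ‖χ‖ ^ 2 :=
      mul_le_mul_of_nonneg_right (by linarith) (sq_nonneg _)
    rw [hE] at h2
    linarith
  · -- A block
    intro ψ hψ
    obtain ⟨χ, hχ, hχ2⟩ := Ablock (posM_nu0 (Q + 3)) hψ
    have hχ' : χ ∈ Zn (nuT (tA 1) Q) Q n := by rw [Zn_A]; exact hχ
    have h1 := hA1 χ hχ'
    rw [re_WD, sub_ap, inner_sub_right, Complex.sub_re] at h1
    show 2 * ((δ + η) / κ) * ‖c ℓ ψ‖ ^ 2 ≤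
      (⟪c ℓ ψ, WD (Q + 3) (x (Q + 3)) (X - Gw w' n (Q + 3)) (c ℓ ψ)⟫_ℂ).re
    rw [re_WD, ← hχ2, norm_emb, sub_ap, emb_Gw, inner_sub_right, inner_emb, ← inner_cmp, hcl3,
      Complex.sub_re]
    have h2 := Gw_mono (posM_nuT _ _) hχ' (v := w) (w := w') (t := E) hinc
    have h3 : -(Cx / (Q : ℝ) ^ 2) * ‖χ‖ ^ 2 ≤ (x (Q + 3) - x Q) * ‖χ‖ ^ 2 := by
      apply mul_le_mul_of_nonneg_right _ (sq_nonneg _)
      have := (abs_le.1 hx3).1
      linarith
    rw [eA] at h1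
    rw [hE] at h2
    linarith

/-! ### the induction -/

/-- the weights -/
noncomputable def wm (K : ℝ) (m j : ℕ) : ℝ := K * (2 / ((j : ℝ) + 1) - 1 / ((m : ℝ) + 2))

theorem wm_ge {K : ℝ} (hK : 0 ≤ K) {m j : ℕ} (hj : j ≤ m + 1) : K / ((m : ℝ) + 2) ≤ wm K m j := by
  unfold wm
  rw [div_eq_mul_one_div]
  apply mul_le_mul_of_nonneg_left _ hK
  have h1 : (j : ℝ) + 1 ≤ m + 2 := by
    have : (j : ℝ) ≤ ((m + 1 : ℕ) : ℝ) := by exact_mod_cast hj
    push_cast at this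
    linarith
  have h2 : 2 / ((m : ℝ) + 2) ≤ 2 / ((j : ℝ) + 1) :=
    div_le_div_of_nonneg_left (by norm_num) (by positivity) h1
  have h3 : (2 : ℝ) / ((m : ℝ) + 2) = 1 / ((m : ℝ) + 2) + 1 / ((m : ℝ) + 2) := by ring
  linarith

theorem wm_le {K : ℝ} (hK : 0 ≤ K) (m j : ℕ) : wm K m j ≤ 2 * K / ((j : ℝ) + 1) := by
  unfold wm
  have h1 : 0 ≤ K * (1 / ((m : ℝ) + 2)) := by positivity
  have h2 : K * (2 / ((j : ℝ) + 1) - 1 / ((m : ℝ) + 2)) =
      2 * K / ((j : ℝ) + 1) - K * (1 / ((m : ℝ) + 2)) := by ring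
  rw [h2]
  linarith

theorem wm_succ (K : ℝ) (m j : ℕ) :
    wm K (m + 1) j = wm K m j + K / (((m : ℝ) + 2) * (m + 3)) := by
  unfold wm
  push_cast
  have : (m : ℝ) + 2 ≠ 0 := by positivity
  have : (m : ℝ) + 3 ≠ 0 := by positivity
  have : (m : ℝ) + 1 + 2 ≠ 0 := by positivity
  field_simp
  ring

theorem eW_le {κ CX Cx Cc K : ℝ} (hκ : 0 < κ) (hCX : 0 ≤ CX) (hCx : 0 ≤ Cx) (hCc : 0 ≤ Cc)
    (hK : 6 * (48 * CX + Cx + 2 * ((CX + Cc) / κ)) ≤ K) (m : ℕ) :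
    eW κ CX Cx Cc (3 * m + 1) ≤ K / (((m : ℝ) + 2) * (m + 3)) := by
  unfold eW
  have hA : 0 ≤ 48 * CX + Cx + 2 * ((CX + Cc) / κ) := by positivity
  set A := 48 * CX + Cx + 2 * ((CX + Cc) / κ)
  have hm : (0 : ℝ) ≤ m := Nat.cast_nonneg m
  rw [div_le_div_iff₀ (by positivity) (by positivity)]
  push_cast
  have h1 : ((m : ℝ) + 2) * (m + 3) ≤ 6 * (3 * (m : ℝ) + 1) ^ 2 := by nlinarith
  calc A * (((m : ℝ) + 2) * (m + 3)) ≤ A * (6 * (3 * (m : ℝ) + 1) ^ 2) :=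
        mul_le_mul_of_nonneg_left h1 hA
    _ = 6 * A * (3 * (m : ℝ) + 1) ^ 2 := by ring
    _ ≤ K * (3 * (m : ℝ) + 1) ^ 2 := mul_le_mul_of_nonneg_right hK (by positivity)

/-- **(W1)** : `XX - x ≤ Gw` on the one-hole sectors. -/
theorem W1_LB {κ CG CX Cx Cc B K : ℝ} {Qc Qt : ℕ} (hc : CIn κ CG Qc)
    {XX : ∀ Q : ℕ, Op (Fin (Q + 1))} {x : ℕ → ℝ} (hf : FIn Qt XX x CX Cx Cc Qc) (hB : 0 ≤ B)
    (hXB : ∀ Q ≤ Qt, ‖XX Q‖ ≤ B) (hxB : ∀ Q ≤ Qt, |x Q| ≤ B)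
    (hvac : ∀ k, 3 * k ≤ Qt → LB (nu0 (3 * k)) (3 * k) (k + 1) (WD (3 * k) (x (3 * k)) (XX (3 * k))) 0)
    (hK : 6 * (48 * CX + Cx + 2 * ((CX + Cc) / κ)) ≤ K) (hK2 : 2 * B * (Qc + 3) ≤ K) :
    ∀ m, 3 * m + 1 ≤ Qt → LB (nu0 (3 * m + 1)) (3 * m + 1) (m + 1)
      (WD (3 * m + 1) (x (3 * m + 1)) (XX (3 * m + 1) - Gw (wm K m) (m + 1) (3 * m + 1))) 0 := by
  have hκ := hc.κpos
  have hCX := hf.CXn
  have hCx := hf.Cxn
  have hCc := hf.Ccn
  have hK0 : 0 ≤ K := by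
    refine le_trans ?_ hK
    positivity
  -- base
  have base : ∀ m, 3 * m + 1 ≤ Qt → 3 * m + 1 < Qc + 3 → LB (nu0 (3 * m + 1)) (3 * m + 1) (m + 1)
      (WD (3 * m + 1) (x (3 * m + 1)) (XX (3 * m + 1) - Gw (wm K m) (m + 1) (3 * m + 1))) 0 := by
    intro m hm hmQ ψ hψ
    rw [re_WD, sub_ap, inner_sub_right, Complex.sub_re, zero_mul]
    have h1 := (abs_le.1 (re_inner_le_of_norm (hXB _ hm) ψ)).2
    have h2 := (abs_le.1 (hxB _ hm)).1
    have h3 : -B * ‖ψ‖ ^ 2 ≤ x (3 * m + 1) * ‖ψ‖ ^ 2 :=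
      mul_le_mul_of_nonneg_right (by linarith) (sq_nonneg _)
    have h4 := Gw_ge (posM_nu0 (3 * m + 1)) hψ (w := wm K m) (t := 2 * B) (fun j hj => by
      refine le_trans ?_ (wm_ge hK0 hj)
      rw [le_div_iff₀ (by positivity)]
      refine le_trans ?_ hK2
      apply mul_le_mul_of_nonneg_left _ (by positivity)
      have : ((m : ℕ) : ℝ) + 2 ≤ ((Qc + 3 : ℕ) : ℝ) := by
        exact_mod_cast (by omega : m + 2 ≤ Qc + 3)
      push_cast at this
      linarith)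
    linarith
  intro m
  induction m with
  | zero =>
    intro h
    exact base 0 h (by omega)
  | succ m ih =>
    intro hm
    rcases Nat.lt_or_ge (3 * (m + 1) + 1) (Qc + 3) with hlt | hge
    · exact base (m + 1) hm hlt
    · have h1 := ih (by omega)
      have hE := eW_le hκ hCX hCx hCc hK m
      have e3 : 3 * (m + 1) + 1 = 3 * m + 1 + 3 := by ring
      have hv := hvac (m + 1) (by omega)
      exact stepW (Q := 3 * m + 1) (n := m + 1) hc hf (by ring) (by omega) (by omega) hv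
        (w := wm K m) (w' := wm K (m + 1))
        (fun j _ => by rw [wm_succ]; linarith)
        (fun j hj => by
          refine hE.trans (le_trans ?_ (wm_ge hK0 (m := m + 1) hj))
          push_cast
          apply div_le_div_of_nonneg_left hK0 (by positivity)
          have : (0 : ℝ) ≤ m := Nat.cast_nonneg m
          nlinarith) h1

/-! ### on the lines -/

theorem Gw_Sc {Q n M : ℕ} (w : ℕ → ℝ) {v : Fk (Fin (Q + 1))} (hv : v ∈ Sc Q n M) :
    Gw w n Q v = ((w (n + lmin n - M) : ℝ) : ℂ) • v := by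
  ext S
  rw [Gw_apply]
  show _ = _ * v S
  by_cases hS : v S = 0
  · rw [hS, mul_zero, mul_zero]
  · rw [(hv S hS).2]

theorem Gw_line {ψ : (n k : ℕ) → Fk (Fin (3 * n + 1 + 1))} (h : K1V ψ) (w : ℕ → ℝ) {n k : ℕ}
    (hk : k ≤ n + 1) :
    Gw w (n + 1) (3 * n + 1) (ψ n k) = ((w k : ℝ) : ℂ) • ψ n k := by
  rw [Gw_Sc w (h n k hk).1.2]
  have : n + 1 + lmin (n + 1) - Mk n k = k := by
    unfold Mk
    omega
  rw [this]

theorem Gw_lines {ψ : (n k : ℕ) → Fk (Fin (3 * n + 1 + 1))} (h : K1V ψ) (w : ℕ → ℝ) (n : ℕ)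
    (α : ℕ → ℂ) :
    (⟪∑ k ∈ range (n + 2), α k • ψ n k,
      Gw w (n + 1) (3 * n + 1) (∑ k ∈ range (n + 2), α k • ψ n k)⟫_ℂ).re =
      ∑ k ∈ range (n + 2), w k * ‖α k‖ ^ 2 := by
  have h1 := K1dec716.form_diag (ψ := ψ) (n := n) (Gw w (n + 1) (3 * n + 1))
    (fun k hk l hl hkl => by
      rw [Gw_line h w hl, inner_smul_right, (h.toK1B).orth n k hk l hl hkl, mul_zero]) α
  rw [h1]
  refine sum_congr rfl fun k hk => ?_
  have hk' : k ≤ n + 1 := by have := mem_range.1 hk; omega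
  rw [Gw_line h w hk', inner_smul_right, inner_self_eq_norm_sq_to_K, (h n k hk').2,
    Complex.re_ofReal_mul]
  norm_num

end Crest.Agent.R340.K1W716
end

-- ▼ part R340/H1_716
section

/-!
# R340 / S0532: the one-hole case `H1` of the weak pass (helper716)

`H1_of`: `WP596.H1 nW a (9/10)` from `RC`, `RX`, `GZ`, `VS`, the lines `K1V ψ` and the radial data
`K1rad716.DataR (en ψ)`.
-/

set_option autoImplicit false
set_option linter.unusedSectionVars false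
open scoped InnerProductSpace ComplexConjugate

namespace Crest.Agent.R340.H1716

open Finset
open Crest.Agent.R340.Fock649 Crest.Agent.R340.Emb596 Crest.Agent.R340.Geo986
  Crest.Agent.R340.Peel596 Crest.Agent.R340.Step596 Crest.Agent.R340.PathStep880
  Crest.Agent.R340.PeelX596 Crest.Agent.R340.Hstep596
open Crest.Agent.R340.Scal725 (prof cs)
open Crest.Agent.R340.Weak716 (DW re_inner_Dop re_inner_le_of_norm)
open Crest.Agent.R340.Defs150 (Dy RC RX GZ IsVac WP)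
open Crest.Agent.R340.K1dec716 Crest.Agent.R340.K1W716 Crest.Agent.R340.K1plug716
open Crest.Agent.R340.WP596

/-- the vacuum bound of the family -/
theorem hvac_fam {Qt : ℕ} (X : Op (Fin (Qt + 1))) (k : ℕ) :
    LB (nu0 (3 * k)) (3 * k) (k + 1) (WD (3 * k) (xx Qt X (3 * k)) (fam Qt X (3 * k))) 0 := by
  have h3 : 3 ∣ 3 * k := Dvd.intro _ rfl
  have hr := IsVac.isRef h3 (vacS_isVac h3)
  have e : 3 * k / 3 + 1 = k + 1 := by omega
  rw [e] at hr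
  rw [Vac467.LB_vac_iff (posM_nu0 (3 * k)) (by omega) hr, re_WD, hr.unit]
  have e2 : xx Qt X (3 * k) = (⟪vacS (3 * k), fam Qt X (3 * k) (vacS (3 * k))⟫_ℂ).re := by
    have : 3 * (3 * k / 3) = 3 * k := by omega
    unfold xx
    rw [this]
    rfl
  rw [e2]
  simp

theorem H1_of {nW : ℕ} (hn : 4 ≤ nW) {κ K1 K2 K3 : ℝ} (hRC : RC K1) (hRX : RX nW K2)
    (hGZ : GZ κ) (hVS : VS nW K3) {ψ : (n k : ℕ) → Fk (Fin (3 * n + 1 + 1))} (hV : K1V ψ)
    {C1 : ℝ} {n0 : ℕ} (hC1 : 0 ≤ C1) (hD : K1rad716.DataR (en ψ) C1 n0) {a : ℝ} (ha0 : 0 < a)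
    (ha1 : a ≤ 1 / 100) (haC : (90 + 102 * C1) * a ≤ 1 / 40) : H1 nW a (9 / 10) := by
  have hκ := hGZ.1
  have hK2 := hRX.1
  have hK3 := hVS.1
  set K : ℝ := 6 * (48 * K2 + 4 * K3 + 2 * ((K2 + 32) / κ)) + 12 with hK
  have hK0 : 0 ≤ K := by positivity
  refine ⟨3 * (n0 : ℝ) + 10, 160 * (2 * K), ?_⟩
  intro S hS C hC q n hq hqn X hX Ω hΩ
  obtain ⟨m, rfl⟩ := hq
  obtain rfl : n = m + 1 := by omega
  have hn00 : (0 : ℝ) ≤ n0 := Nat.cast_nonneg _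
  have hC0 : 0 ≤ C := by linarith
  have hXn : ‖X‖ ≤ 1 := hX.2.norm_le
  have hc := cIn_of hRC hGZ
  have hf := fIn_of hn hRX hVS hX
  have hW := W1_LB (B := 1) (K := K) hc hf zero_le_one
    (fun Q _ => (norm_fam_le X Q).trans hXn) (fun Q _ => abs_xx_le hXn Q)
    (fun k _ => hvac_fam X k) (by rw [hK]; linarith) (by
      rw [hK]
      have : 0 ≤ 6 * (48 * K2 + 4 * K3 + 2 * ((K2 + 32) / κ)) := by positivity
      push_cast
      linarith) m le_rfl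
  rw [fam_top] at hW
  -- the scalar
  have hx : xx (3 * m + 1) X (3 * m + 1) =
      (⟪Ω, cmp (ee (Nat.le_succ (3 * m))) X Ω⟫_ℂ).re := by
    have e1 : 3 * ((3 * m + 1) / 3) = 3 * m := by omega
    have h3 : 3 ∣ 3 * m := Dvd.intro _ rfl
    unfold xx
    rw [e1]
    unfold vv
    rw [vac_value_eq h3 (vacS_isVac h3) hΩ, fam_of_le (Nat.le_succ (3 * m))]
  have hone := hone_of (hV.toK1B) (a := a) (R := S) (C := C) (CX := 2 * K)
    (x := xx (3 * m + 1) X (3 * m + 1)) (by linarith) ha0 ha1 m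
    (fun k hk => by
      have h1 := K1rad716.K1rad' hD hC1 ha0 (by linarith) hS m k hk
      refine le_trans ?_ h1
      apply mul_le_mul_of_nonneg_right (by linarith)
      exact (Scal725.prof_pos (by linarith) (by linarith) _).le) X (by positivity) ?_ hC0 hC
  · rw [hx] at hone
    unfold DW at hone
    have e : (9 / 10 * C * prof a S (3 * m + 1)) = 9 / 10 * C * prof a S (3 * m + 1) := rfl
    exact hone
  · intro α
    have hmem : (∑ k ∈ range (m + 2), α k • ψ m k) ∈ Zn (nu0 (3 * m + 1)) (3 * m + 1) (m + 1) :=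
      Submodule.sum_mem _ fun k hk => Submodule.smul_mem _ _ ((hV.toK1B).mem m k (by
        have := mem_range.1 hk
        omega))
    have h1 := hW _ hmem
    rw [re_WD, sub_ap, inner_sub_right, Complex.sub_re, zero_mul, Gw_lines hV,
      norm_sq_sum hV.toK1B] at h1
    have h2 : ∑ k ∈ range (m + 2), wm K m k * ‖α k‖ ^ 2 ≤
        ∑ k ∈ range (m + 2), (2 * K / ((k : ℝ) + 1)) * ‖α k‖ ^ 2 :=
      sum_le_sum fun k _ => mul_le_mul_of_nonneg_right (wm_le hK0 m k) (sq_nonneg _)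
    linarith

/-- **(W)** of `Defs150` from `RC`, `RX`, `GZ`, `VS` and the one-hole data. -/
theorem WP_final {nW : ℕ} (hn : 4 ≤ nW) {κ K1 K2 K3 : ℝ} (hRC : RC K1) (hRX : RX nW K2)
    (hGZ : GZ κ) (hVS : VS nW K3) {ψ : (n k : ℕ) → Fk (Fin (3 * n + 1 + 1))} (hV : K1V ψ)
    {C1 : ℝ} {n0 : ℕ} (hC1 : 0 ≤ C1) (hD : K1rad716.DataR (en ψ) C1 n0) :
    ∃ a0 : ℝ, 0 < a0 ∧ ∀ a : ℝ, 0 < a → a ≤ a0 →
      ∃ R0 C0 : ℝ, 43 ≤ R0 ∧ 40 ≤ C0 ∧ ∀ C : ℝ, C0 ≤ C → WP nW a R0 C (9 / 10) := by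
  have hpos : 0 < 90 + 102 * C1 := by linarith
  refine ⟨min (1 / 100) (1 / (40 * (90 + 102 * C1))), lt_min (by norm_num) (by positivity),
    fun a ha0 ha => ?_⟩
  have ha1 : a ≤ 1 / 100 := ha.trans (min_le_left _ _)
  have ha2 : a ≤ 1 / (40 * (90 + 102 * C1)) := ha.trans (min_le_right _ _)
  have ha3 : (90 + 102 * C1) * a ≤ 1 / 40 := by
    calc (90 + 102 * C1) * a ≤ (90 + 102 * C1) * (1 / (40 * (90 + 102 * C1))) :=
          mul_le_mul_of_nonneg_left ha2 hpos.le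
      _ = 1 / 40 := by field_simp
  exact WP_of hn hRC hRX hGZ hVS ha0 ha1 (by norm_num) le_rfl
    (H1_of hn hRC hRX hGZ hVS hV hC1 hD ha0 ha1 ha3)

end Crest.Agent.R340.H1716
end

-- ▼ part R340/VS_596
section

/-!
# (VS): flux dependence of the vacuum value of a local operator (helper596, R340)

Path from the round metric of flux `Q` to that of flux `Q + 3` on the one-dimensional vacuum space
(`move_A` with `C = 0`), then the exact peeling identity `Vac467.vac_scalar`.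
-/

set_option autoImplicit false
set_option linter.unusedSectionVars false
open scoped InnerProductSpace ComplexConjugate
open Crest.Agent.R340.Fock649 Crest.Agent.R340.Emb596 Crest.Agent.R340.Geo986
  Crest.Agent.R340.Peel596 Crest.Agent.R340.PathStep880 Crest.Agent.R340.Step596
  Crest.Agent.R340.PeelX596 Crest.Agent.R340.Hstep596
open Crest.Agent.R340.Scal725 (prof dd cs)
open Crest.Agent.R340.PV341 (Adm)
open Crest.Agent.R340.FX963 (DY)
open Crest.Agent.R340.Defs150 (Dy RC RX GZ IsVac WP)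
open Crest.Agent.R340

namespace Crest.Agent.R340.WP596

open Finset

/-! ### `X ↦ -X` -/

theorem RX2.neg {Q : ℕ} {Z : Submodule ℂ (Fk (Fin (Q + 1)))} {X : Op (Fin (Q + 1))} {K : ℝ}
    (h : RX2 Q Z X K) : RX2 Q Z (-X) K := by
  intro ψ hψ φ hφ p hp
  have h1 : ((-X) φ : Fk (Fin (Q + 1))) = -(X φ) := rfl
  rw [h1, map_neg, inner_neg_right, norm_neg]
  exact h ψ hψ φ hφ p hp

theorem re_inner_vac_Dop {Q : ℕ} (s : ℝ) (f : ℕ → ℝ) (X : Op (Fin (Q + 1)))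
    {Φ : Fk (Fin (Q + 1))} (h1 : ‖Φ‖ = 1) :
    (⟪Φ, Dop Q s 0 f X Φ⟫_ℂ).re = s - (⟪Φ, X Φ⟫_ℂ).re := by
  rw [Vac467.re_inner_Dop _ _ _ _ h1, zero_mul, sub_zero]

/-- one-sided bound for the change of the vacuum value along the path -/
theorem vac_move_le {Q n : ℕ} (hQ : Q = 3 * (n - 1)) {K1 K2 : ℝ} (hRC : RC K1) (hQ1 : 1 ≤ Q)
    (hK2 : 0 ≤ K2) {X : Op (Fin (Q + 1))} (hX : star X = X)
    (hRX : ∀ t : Fin 3 → ℝ, Adm t → ∀ n : ℕ, RX2 Q (Zn (nuT t Q) Q n) X K2)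
    {Φ : Fk (Fin (Q + 1))} (hΦ : Φ ∈ Zn (nu0 Q) Q n) (hΦ1 : ‖Φ‖ = 1)
    {Ω : Fk (Fin (Q + 1))} (hΩ : Ω ∈ Zn (nu0 (Q + 3)) Q n) (hΩ1 : ‖Ω‖ = 1) :
    (⟪Ω, X Ω⟫_ℂ).re ≤ (⟪Φ, X Φ⟫_ℂ).re + 48 * K2 / (Q : ℝ) ^ 2 := by
  have hm := move_A (Q := Q) (n := n) (a := 1) (R := 1) (by norm_num) (by norm_num) le_rfl 0 0
    le_rfl X hX hRC.1 hK2 (le_refl (20 : ℝ))
    (fun θ hθ => ringG_of_RC2 (hRC.2 Q hQ1 (tA θ) (adm_tA ⟨hθ.1.le, hθ.2⟩) n))
    (fun θ hθ => ringX_of_RX2 (hRX (tA θ) (adm_tA ⟨hθ.1.le, hθ.2⟩) n))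
  have hposQ : PosM (nu0 (Q + 3)) Q := fun j hj => posM_nu0 (Q + 3) j (by omega)
  have hR0 := Vac467.isRef_of_Zn (posM_nu0 Q) hQ hΦ hΦ1
  have hR1 := Vac467.isRef_of_Zn hposQ hQ hΩ hΩ1
  have h0 : LB (nu0 Q) Q n (Dop Q 0 (3 * 0) (prof 1 1) X) (-(⟪Φ, X Φ⟫_ℂ).re) := by
    rw [mul_zero, Vac467.LB_vac_iff (posM_nu0 Q) hQ hR0, re_inner_vac_Dop _ _ _ hΦ1]
    linarith
  have h1 := hm _ h0
  have h2 : LB (nu0 (Q + 3)) Q n (Dop Q 0 (3 * 0) (prof 1 1) X)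
      (-(⟪Φ, X Φ⟫_ℂ).re - eMove 3 K1 K2 0 1 1 Q) := by
    unfold LB at h1 ⊢
    rw [Zn_A] at h1
    exact h1
  rw [mul_zero, Vac467.LB_vac_iff hposQ hQ hR1, re_inner_vac_Dop _ _ _ hΩ1] at h2
  have h3 : eMove 3 K1 K2 0 1 1 Q = 48 * K2 / (Q : ℝ) ^ 2 := by
    unfold eMove
    push_cast
    ring
  rw [h3] at h2
  linarith

theorem vac_move {Q n : ℕ} (hQ : Q = 3 * (n - 1)) {K1 K2 : ℝ} (hRC : RC K1) (hQ1 : 1 ≤ Q)
    (hK2 : 0 ≤ K2) {X : Op (Fin (Q + 1))} (hX : star X = X)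
    (hRX : ∀ t : Fin 3 → ℝ, Adm t → ∀ n : ℕ, RX2 Q (Zn (nuT t Q) Q n) X K2)
    {Φ : Fk (Fin (Q + 1))} (hΦ : Φ ∈ Zn (nu0 Q) Q n) (hΦ1 : ‖Φ‖ = 1)
    {Ω : Fk (Fin (Q + 1))} (hΩ : Ω ∈ Zn (nu0 (Q + 3)) Q n) (hΩ1 : ‖Ω‖ = 1) :
    |(⟪Ω, X Ω⟫_ℂ).re - (⟪Φ, X Φ⟫_ℂ).re| ≤ 48 * K2 / (Q : ℝ) ^ 2 := by
  have h1 := vac_move_le hQ hRC hQ1 hK2 hX hRX hΦ hΦ1 hΩ hΩ1
  have hX' : star (-X) = -X := by rw [star_neg, hX]
  have h2 := vac_move_le hQ hRC hQ1 hK2 hX' (fun t ht n => RX2.neg (hRX t ht n)) hΦ hΦ1 hΩ hΩ1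
  have e : ∀ v : Fk (Fin (Q + 1)), (⟪v, (-X) v⟫_ℂ).re = -(⟪v, X v⟫_ℂ).re := by
    intro v
    have : ((-X) v : Fk (Fin (Q + 1))) = -(X v) := rfl
    rw [this, inner_neg_right, Complex.neg_re]
  rw [e, e] at h2
  rw [abs_le]
  constructor <;> linarith

/-- **(VS)** from ring clustering. -/
theorem VS_of {nW : ℕ} (hn : 4 ≤ nW) {K1 K2 : ℝ} (hRC : RC K1) (hRX : RX nW K2) :
    VS nW (204 * K2 + 96) := by
  have hK2 := hRX.1
  refine ⟨by positivity, fun Q hQ1 h3 X hX Φ Φ' hΦ hΦ' => ?_⟩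
  obtain ⟨k, hQdef⟩ := h3
  have hk : 1 ≤ k := by omega
  have hQn : Q = 3 * ((k + 1) - 1) := by omega
  have hd : Q / 3 + 1 = k + 1 := by omega
  have hd3 : (Q + 3) / 3 + 1 = (k + 1) + 1 := by omega
  have hΦm : Φ ∈ Zn (nu0 (Q + 3)) (Q + 3) ((k + 1) + 1) := by
    have := hΦ.1
    rwa [hd3] at this
  have hΦ'm : Φ' ∈ Zn (nu0 Q) Q (k + 1) := by
    have := hΦ'.1
    rwa [hd] at this
  -- the vacuum in the restricted metric
  have hposQ : PosM (nu0 (Q + 3)) Q := fun j hj => posM_nu0 (Q + 3) j (by omega)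
  obtain ⟨Ω, hΩ⟩ := Vac467.exists_ref hposQ (n := k + 1) (by omega)
  have hΩm := hΩ.mem_Zn
  set X' := cmp (ee (Nat.le_add_right Q 3)) X with hX'def
  have hX' : Dy nW Q 1 X' := hX.cmp _
  -- peeling
  have hcomm := DY_comm_last hX.2 hn (show 1 ≤ Q + 3 by omega)
  have hRX0 : RX2 (Q + 3) (Zn (nu0 (Q + 3)) (Q + 3) ((k + 1) + 1)) X K2 := by
    have := hRX.2 (Q + 3) (by omega) (fun _ => 0) Adm_zero ((k + 1) + 1) X hX
    rwa [nuT_zero] at this
  have hRC0 : RC2 (Q + 3) (Zn (nu0 (Q + 3)) (Q + 3) ((k + 1) + 1)) K1 20 := by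
    have := hRC.2 (Q + 3) (by omega) (fun _ => 0) Adm_zero ((k + 1) + 1)
    rwa [nuT_zero] at this
  have hcross := cross_le (Q := Q + 3) (by omega) (Zn (nu0 (Q + 3)) (Q + 3) ((k + 1) + 1))
    (fun ψ hψ => TT_one_mem_Zn hψ) (fun ψ hψ => TT_lin_mem_Zn hψ) (α := 1) (R := 1) (by norm_num)
    (by norm_num) le_rfl 0 0 le_rfl X hRC.1 (le_refl (20 : ℝ)) hRC0 hRX0
  have h1 := Vac467.vac_scalar (n := k + 1) (by omega) hQn hΦm hΦ.2 hΩm hΩ.unit 0 0 (prof 1 1) X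
    hcomm hcross
  have h2 := vac_move hQn hRC hQ1 hK2 hX'.1
    (fun t ht n => hRX.2 Q hQ1 t ht n X' hX') hΦ'm hΦ'.2 hΩm hΩ.unit
  rw [← hX'def] at h1
  simp only [zero_mul, zero_add, sub_zero] at h1
  set N : ℝ := ((Q + 3 : ℕ) : ℝ) with hN
  have hNQ : N = (Q : ℝ) + 3 := by rw [hN]; push_cast; ring
  have hQr : (3 : ℝ) ≤ Q := by exact_mod_cast (by omega : 3 ≤ Q)
  have e1 : K2 * ((N - 1) ^ 2)⁻¹ ≤ 4 * K2 / N ^ 2 := by
    rw [← div_eq_mul_inv, div_le_div_iff₀ (by nlinarith) (by nlinarith)]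
    have : N ^ 2 ≤ 4 * (N - 1) ^ 2 := by nlinarith
    nlinarith
  have e2 : 48 * K2 / (Q : ℝ) ^ 2 ≤ 192 * K2 / N ^ 2 := by
    rw [div_le_div_iff₀ (by positivity) (by nlinarith)]
    have : N ^ 2 ≤ 4 * (Q : ℝ) ^ 2 := by nlinarith
    nlinarith
  have h3 : |(⟪Φ, X Φ⟫_ℂ).re - (⟪Ω, X' Ω⟫_ℂ).re| ≤ 12 * K2 / N ^ 2 + 96 / N ^ 2 := by
    refine h1.trans ?_
    calc 3 * (K2 * ((N - 1) ^ 2)⁻¹ + 32 * 1 / N ^ 2)
        ≤ 3 * (4 * K2 / N ^ 2 + 32 * 1 / N ^ 2) := by linarith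
      _ = _ := by ring
  calc |(⟪Φ, X Φ⟫_ℂ).re - (⟪Φ', X' Φ'⟫_ℂ).re|
      = |((⟪Φ, X Φ⟫_ℂ).re - (⟪Ω, X' Ω⟫_ℂ).re) + ((⟪Ω, X' Ω⟫_ℂ).re - (⟪Φ', X' Φ'⟫_ℂ).re)| := by
        congr 1; ring
    _ ≤ |(⟪Φ, X Φ⟫_ℂ).re - (⟪Ω, X' Ω⟫_ℂ).re| + |(⟪Ω, X' Ω⟫_ℂ).re - (⟪Φ', X' Φ'⟫_ℂ).re| :=
        abs_add_le _ _
    _ ≤ (12 * K2 / N ^ 2 + 96 / N ^ 2) + 192 * K2 / N ^ 2 := add_le_add h3 (h2.trans e2)
    _ = _ := by ring

/-- **(W)** from `RC`, `RX`, `GZ` and the one-hole case `H1`. -/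
theorem WP_final {nW : ℕ} (hn : 4 ≤ nW) {κ K1 K2 : ℝ} (hRC : RC K1) (hRX : RX nW K2) (hGZ : GZ κ)
    {a : ℝ} (ha0 : 0 < a) (ha1 : a ≤ 1 / 100) {θ : ℝ} (hθ0 : 4 / 5 ≤ θ) (hθ1 : θ ≤ 9 / 10)
    (hH1 : H1 nW a θ) :
    ∃ R0 C0 : ℝ, 43 ≤ R0 ∧ 40 ≤ C0 ∧ ∀ C : ℝ, C0 ≤ C → WP nW a R0 C θ :=
  WP_of hn hRC hRX hGZ (VS_of hn hRC hRX) ha0 ha1 hθ0 hθ1 hH1

end Crest.Agent.R340.WP596
end

-- ▼ part R340/WPF_788

/-!
# R340: the weak pass `WP` from `RC`, `RX`, `GZ` (helper788)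

Composition of `H1716.WP_final` (716), `WP596.VS_of` (596/467) and `K1in788.k1v`, `dataR_en`.
-/

set_option autoImplicit false

namespace Crest.Agent.R340.K1in788

open Crest.Agent.R340.Defs150 (RC RX GZ WP)

/-- **(W)** the weak pass of `Defs150` from the clustering inputs only. -/
theorem WP_RC {nW : ℕ} (hn : 4 ≤ nW) {κ K1 K2 : ℝ} (hRC : RC K1) (hRX : RX nW K2) (hGZ : GZ κ) :
    ∃ a0 : ℝ, 0 < a0 ∧ ∀ a : ℝ, 0 < a → a ≤ a0 →
      ∃ R0 C0 : ℝ, 43 ≤ R0 ∧ 40 ≤ C0 ∧ ∀ C : ℝ, C0 ≤ C → WP nW a R0 C (9 / 10) :=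
  H1716.WP_final hn hRC hRX hGZ (WP596.VS_of hn hRC hRX) k1v
    (C1_nonneg hGZ.1 hRC.1) (dataR_en (inp_of hRC hGZ) (n0 := 1) (by norm_num))

end Crest.Agent.R340.K1in788
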