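import Crest.Agent.R340.FiltG_867
import Crest.Agent.R340.U6_856
import Crest.Agent.R340.LR2_667
import Crest.Agent.R340.FI4_331
import Crest.Agent.R340.DLp_482
import Crest.Agent.R340.F5b_725_Mg
import Mathlib
import Crest.Agent.R340.LR3_667
import Crest.Agent.R202.LinODE
import Crest.Agent.R340.Bridge_649
import Crest.Agent.R340.FiltQL_867
import Crest.Agent.R340.QL5_331
import Crest.Agent.R340.Filt3_867
import Crest.Agent.R340.FI3_331
import Crest.Agent.R340.PD5_757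
import Crest.Agent.R340.Rot5_303
import Crest.Agent.R340.SP_735
import Crest.Agent.R340.LR11_667_Mg
import Crest.Agent.R340.WPF_788
import Crest.Agent.R340.Fin3_249

-- ▼ part R340/FiltP_867
section

/-!
(FILT) of helper856's U6 (helper867): `FiltP_of_gap`.
-/

set_option autoImplicit false
set_option linter.unusedSectionVars false
set_option linter.unusedVariables false

open scoped ENNReal NNReal Matrix InnerProductSpace
open MeasureTheory

namespace Crest.Agent.R340.Filt867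

open Crest.Agent.R340.QL331 Crest.Agent.R340.LR667 Crest.Agent.R340.DC867 Crest.Agent.R340.PD757
  Crest.Agent.R340.Fock649 Crest.Agent.R340.CS809 Crest.Agent.R340.Rot303 Crest.Agent.R340.FI331
  Crest.Agent.R340.GG467 Crest.Agent.R340.Br320 Crest.Agent.R340.Gam303
  Crest.Agent.R340.U856 Crest.Agent.R340.Avg814 Crest.MathPhysics.Laughlin

theorem exists_band {γ : ℝ} (hγ : 0 < γ) : ∃ g : ℝ → ℝ, IsFilter g ∧
    ∀ l : ℝ, γ ≤ |l| → ∫ t, (g t : ℂ) * Complex.exp (((t * l : ℝ) : ℂ) * Complex.I) = 0 := by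
  obtain ⟨g, hc, _, hint, h1, hb⟩ := exists_filter hγ
  exact ⟨g, ⟨hc, hint, h1⟩, hb⟩

/-- the rank one operator `|Ψ⟩⟨Ψ|` -/
noncomputable def rk {κ : Type*} [Fintype κ] (Ψ : Fk κ) : Op κ :=
  Op.of (InnerProductSpace.rankOne ℂ Ψ Ψ)

theorem rk_ap {κ : Type*} [Fintype κ] (Ψ v : Fk κ) : rk Ψ v = (inner ℂ Ψ v : ℂ) • Ψ := rfl

theorem mul_rk {κ : Type*} [Fintype κ] {X : Op κ} {Ψ : Fk κ} (h : X Ψ = 0) : X * rk Ψ = 0 := by
  refine Op.ext fun v => ?_
  rw [mul_ap, rk_ap, map_smul, h, smul_zero, zero_ap]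

theorem kill_of_rk {κ : Type*} [Fintype κ] {X : Op κ} {Ψ : Fk κ} (h : X * rk Ψ = 0) : X Ψ = 0 := by
  by_cases hΨ : Ψ = 0
  · rw [hΨ, map_zero]
  · have h1 : (X * rk Ψ : Op κ) Ψ = 0 := by rw [h]; rfl
    rw [mul_ap, rk_ap, map_smul] at h1
    rcases smul_eq_zero.1 h1 with h2 | h2
    · exact absurd (inner_self_eq_zero.1 h2) hΨ
    · exact h2

/-- filtered operators kill the eigenvectors killed by the operator -/
theorem Fl_kill {κ : Type*} [Fintype κ] {g : ℝ → ℝ} (hg : IsFilter g) {H X : Op κ}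
    (hH : IsSelfAdjoint H) {Ψ : Fk κ} {E : ℝ} (hΨ : H Ψ = (E : ℂ) • Ψ) (hX : X Ψ = 0) :
    LR667.Fl g H X Ψ = 0 := by
  refine kill_of_rk (Fl_mul_eq_zero hg hH (E := E) ?_ (mul_rk hX))
  refine Op.ext fun v => ?_
  rw [mul_ap, rk_ap, map_smul, hΨ, smul_ap, rk_ap, smul_comm]

theorem SS_kill {κ : Type*} [Fintype κ] {g : ℝ → ℝ} (hg : IsFilter g) {H X : Op κ}
    (hH : IsSelfAdjoint H) {Ψ : Fk κ} {E : ℝ} (hΨ : H Ψ = (E : ℂ) • Ψ) (hX : X Ψ = 0) :
    LR667.SS g H X Ψ = 0 := by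
  refine kill_of_rk (SS_mul_eq_zero hg hH (E := E) ?_ (mul_rk hX))
  refine Op.ext fun v => ?_
  rw [mul_ap, rk_ap, map_smul, hΨ, smul_ap, rk_ap, smul_comm]

theorem fam_neg {𝒜 : Type*} [CStarAlgebra 𝒜] {G : Type*} [TopologicalSpace G]
    {a : Fin 2 → G → 𝒜} {d : G → G → ℝ} {Nh : 𝒜} {m : ℕ} {C : ℝ} {X : G → 𝒜}
    (h : Fam a d Nh m C X) : Fam a d Nh m C (fun x => -X x) := by
  refine ⟨h.cont.neg, fun x => (h.sa x).neg, fun x => ?_, fun x => ?_, fun x k w => ?_⟩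
  · rw [mul_neg, neg_mul, h.num x]
  · rw [norm_neg]; exact h.norm_le x
  · have e : -X x * a k w - a k w * -X x = -(X x * a k w - a k w * X x) := by noncomm_ring
    rw [e, norm_neg]
    exact h.com x k w

/-- **(FILT)** in helper856's literal form, from the gap on Fock space. -/
theorem FiltP_of_gap {γ : ℝ} (hγ : 0 < γ) (Q₀ : ℕ)
    (hgap : ∀ Q, Q₀ ≤ Q → ∀ φ : Fk (Fin (Q + 1)), PZ Q φ = 0 →
      γ * ‖φ‖ ^ 2 ≤ (⟪φ, HH Q φ⟫_ℂ).re) (m : ℕ) : U856.FiltP m := by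
  obtain ⟨g, hg, hband⟩ := exists_band hγ
  have hcn : 0 ≤ cFl g vG 1 (12 * Real.exp 4) (4 * Kn (m + 7)) (2 * Ks m) m :=
    (evoG (Q := 1) le_rfl (φ := fun _ => 0) measurable_const (by simp) (s := 0) (by simp) m
      ).cFl_nonneg g
  refine ⟨Q₀ + 1, cFl g vG 1 (12 * Real.exp 4) (4 * Kn (m + 7)) (2 * Ks m) m + 1, by positivity, ?_⟩
  intro Q hQ Ψ hΨ X hX hXΨ
  have hQ1 : 1 ≤ Q := by omega
  have hE := evoG (Q := Q) hQ1 (φ := fun _ => 0) measurable_const (by simp) (s := 0) (by simp) m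
  rw [Hs_zero] at hE
  have hNev : ∀ Y : Op (Fin (Q + 1)), Commute Y Nh → (fcar : Car (Op (Fin (Q + 1))) _).Ev Y :=
    fun Y hY => ev_of_commute_Nh hY
  have hHN : Commute (HH Q) (Nh : Op (Fin (Q + 1))) := by
    have := Hs_comm_Nh (Q := Q) (fun _ => 0) 0
    rwa [Hs_zero] at this
  have hH : IsSelfAdjoint (HH Q) := hE.hH
  have h1 := hE.fam_Fl hg hHN hNev zero_le_one hX
  have h2 := hE.fam_SS hg hHN hNev zero_le_one hX
  rw [mul_one] at h1 h2
  have hd0 : ∀ x y : U2, 0 ≤ dQ Q x y := dQ_nonneg Q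
  have hΨ' : HH Q Ψ = ((0 : ℝ) : ℂ) • Ψ := by
    rw [hΨ]; simp
  refine ⟨fun x => LR667.Fl g (HH Q) (X x), fun x => -LR667.SS g (HH Q) (X x), ?_, ?_, ?_, ?_, ?_,
    ?_⟩
  · exact Fam.mono h1 (by linarith) hd0
  · exact Fam.mono (fam_neg h2) (by linarith) hd0
  · intro x
    have h3 := eq_Fl_sub hg hH (X x)
    nth_rewrite 1 [h3]
    rw [Ring.lie_def]
    have e : LR667.Fl g (HH Q) (X x) -
        Complex.I • (HH Q * LR667.SS g (HH Q) (X x) - LR667.SS g (HH Q) (X x) * HH Q) -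
        LR667.Fl g (HH Q) (X x) =
        -(Complex.I • (HH Q * LR667.SS g (HH Q) (X x) - LR667.SS g (HH Q) (X x) * HH Q)) := by abel
    rw [e, ← smul_neg]
    congr 1
    noncomm_ring
  · intro x
    exact Fl_kill hg hH hΨ' (hXΨ x)
  · intro x
    show (-LR667.SS g (HH Q) (X x)) Ψ = 0
    rw [neg_ap, SS_kill hg hH hΨ' (hXΨ x), neg_zero]
  · intro x φ
    have hkill : ∫ t, g t • (U (HH Q) t * (1 - PK (HH Q))) = 0 :=
      filter_kill_op hg hband hH (isSelfAdjoint_pj _) (PK_mul_self _) (mul_PK _)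
        (hgap Q (by omega))
    have h4 := Fl_commute hg hH (isSelfAdjoint_pj _) (mul_PK (HH Q)) hkill (X x)
    have h5 := congrArg (fun T : Op (Fin (Q + 1)) => T φ) h4
    simp only [mul_ap] at h5
    exact h5.symm

end Crest.Agent.R340.Filt867
end

-- ▼ part R340/U7_856
section

/-!
# Theorem (U): all inputs plugged in (helper856)

`gapU` : the uniform gap of the spherical Haldane Hamiltonian at every large flux.
`UP_of_F1P`, `UP_of_SP` : Theorem (U) with (F1), respectively (SP), as the only analytic input.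
The hypothesis `h8` is `LP665.psd8`.
-/

set_option autoImplicit false

namespace Crest.Agent.R340.U856

open MeasureTheory Crest.Agent.R340.Fock649 Crest.Agent.R340.CS809 Crest.Agent.R340.Rot303
  Crest.Agent.R340.FI331 Crest.Agent.R340.GG467 Crest.Agent.R340.Br320
  Crest.Agent.R340.Gam303 Crest.MathPhysics.Laughlin
open Crest.Agent.R340.DLi482 (nuQ opRep Phg PZ JumpP_of_psd8)
open scoped InnerProductSpace ComplexConjugate Matrix

/-- The uniform gap on the Fock space of every large flux. -/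
theorem gapU (h8 : Cert132.PSD 8 Cert132.G8 Cert132.B8 Cert132.A8) :
    ∃ (γ : ℝ) (Q₀ : ℕ), 0 < γ ∧ ∀ Q, Q₀ ≤ Q → ∀ φ : Fk (Fin (Q + 1)), PZ Q φ = 0 →
    γ * ‖φ‖ ^ 2 ≤ (⟪φ, HH Q φ⟫_ℂ).re := by
  obtain ⟨P1, Q₀, hJ⟩ := JumpP_of_psd8 h8 (γ := 4 / 100) (by norm_num) (by norm_num)
  exact ⟨4 / 100, Q₀, by norm_num, fun Q hQ φ hφ => (hJ Q hQ).gap φ hφ⟩

/-- **Theorem (U)**, (F1) being the only input. -/
theorem UP_of_F1P (h8 : Cert132.PSD 8 Cert132.G8 Cert132.B8 Cert132.A8) {m : ℕ} (hm : 25 ≤ m)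
    (hF : F1P m) : UP m := by
  obtain ⟨P1, hJ⟩ := JumpP_of_psd8 h8 (γ := 4 / 100) (by norm_num) (by norm_num)
  obtain ⟨γ, Q₀, hγ, hgap⟩ := gapU h8
  exact U_of (by norm_num) (FI331.frameP (by omega)) hJ (J3421.j3P m P1 (by omega))
    (J3421.j4P_of_jump hm hJ) hF (Filt867.FiltP_of_gap hγ Q₀ hgap m)

/-- **Theorem (U)** from (SP). -/
theorem UP_of_SP (h8 : Cert132.PSD 8 Cert132.G8 Cert132.B8 Cert132.A8) {k : ℕ} {A S CS : ℝ}
    (hk : 20 ≤ k) (hA : 1 < A) (hAS : A < S + 1) (hCS : 0 ≤ CS)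
    (hSP : Defs150.SP (k + 1) A S CS) {m : ℕ} (hm : k + 5 ≤ m) : UP m :=
  UP_of_F1P h8 (by omega) (F1P.mono hm (F5725.F1P_of_SP hA hAS hCS hSP))

end Crest.Agent.R340.U856
end

-- ▼ part R340/FlowA_644
section

/-!
R340 (S0532), block L9a, part 1 (helper644): filtered operators for a self-adjoint `K` on a
finite-dimensional Hilbert space, on top of helper667's `Fl`, `SS`.

* `IsBand g β`: filter with `∫ g = 1` and `ĝ = 0` for `|ω| ≥ β`;
* `HasGapS S K g e ψ`: `ψ` is a unit ground vector of `K` in the sector `S` with gap `≥ g`;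
* `Fl_ground`: `Fl g K V ψ = ⟪ψ, V ψ⟫ ψ` for the ground vector of an invariant sector with
  gap `≥ β`.
-/

set_option autoImplicit false
set_option linter.unusedSectionVars false

open scoped InnerProductSpace
open MeasureTheory Complex
open Crest.Agent.R340
open Crest.Agent.R340.LR667 (tau U Fl SS Tt IsFilter)

namespace Crest.Agent.R340.Flow644

variable {E : Type*} [NormedAddCommGroup E] [InnerProductSpace ℂ E] [CompleteSpace E]

/-- band-limited filter -/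
structure IsBand (g : ℝ → ℝ) (β : ℝ) : Prop extends IsFilter g where
  band : ∀ l : ℝ, β ≤ |l| → ∫ t, (g t : ℂ) * Complex.exp (((t * l : ℝ) : ℂ) * Complex.I) = 0

/-- `∫ f(t) e^{iωt} dt`. -/
noncomputable def hat (f : ℝ → ℝ) (ω : ℝ) : ℂ :=
  ∫ t, (f t : ℂ) * Complex.exp (((t * ω : ℝ) : ℂ) * Complex.I)

theorem IsBand.hat_zero {g : ℝ → ℝ} {β : ℝ} (hg : IsBand g β) : hat g 0 = 1 := by
  have h := hg.one
  simp only [hat, mul_zero, ofReal_zero, zero_mul, Complex.exp_zero, mul_one]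
  rw [integral_complex_ofReal, h]
  simp

/-- `ψ` is a unit ground vector of `K` in the sector `S`, energy `e`, gap at least `g`. -/
def HasGapS (S : Submodule ℂ E) (K : E →L[ℂ] E) (g e : ℝ) (ψ : E) : Prop :=
  ψ ∈ S ∧ ‖ψ‖ = 1 ∧ K ψ = (e : ℂ) • ψ ∧
    ∀ χ ∈ S, ⟪ψ, χ⟫_ℂ = 0 → (e + g) * ‖χ‖ ^ 2 ≤ (⟪χ, K χ⟫_ℂ).re

section findim

variable [FiniteDimensional ℂ E]

theorem inner_tau_eigen {K : E →L[ℂ] E} (hK : IsSelfAdjoint K) (V : E →L[ℂ] E) {x y : E}
    {l m : ℝ} (hx : K x = (l : ℂ) • x) (hy : K y = (m : ℂ) • y) (t : ℝ) :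
    ⟪x, tau K t V y⟫_ℂ = cexp (((t * (l - m) : ℝ) : ℂ) * I) * ⟪x, V y⟫_ℂ := by
  have e1 : tau K t V y = U K t (V (U K (-t) y)) := rfl
  have e2 : ⟪x, U K t (V (U K (-t) y))⟫_ℂ =
      ⟪U K (-t) x, V (U K (-t) y)⟫_ℂ := by
    rw [← LR667.star_U hK, ContinuousLinearMap.star_eq_adjoint,
      ContinuousLinearMap.adjoint_inner_left]
  rw [e1, e2, LR667.U_apply_eigen K hx, LR667.U_apply_eigen K hy, map_smul, inner_smul_left,
    inner_smul_right, ← mul_assoc, ← Complex.exp_conj, ← Complex.exp_add]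
  congr 2
  simp only [map_mul, conj_ofReal, conj_I]
  push_cast
  ring

theorem inner_Fl_eigen {K : E →L[ℂ] E} (hK : IsSelfAdjoint K) {f : ℝ → ℝ} (hf : IsFilter f)
    (V : E →L[ℂ] E) {x y : E}
    {l m : ℝ} (hx : K x = (l : ℂ) • x) (hy : K y = (m : ℂ) • y) :
    ⟪x, Fl f K V y⟫_ℂ = hat f (l - m) * ⟪x, V y⟫_ℂ := by
  have hi := LR667.integrable_Fl hf hK V
  have h1 : Fl f K V y = ∫ t, (f t • tau K t V) y := by
    rw [Fl, ContinuousLinearMap.integral_apply hi]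
  have h2 : Integrable fun t => (f t • tau K t V) y :=
    (ContinuousLinearMap.apply ℂ E y).integrable_comp hi
  rw [h1, ← integral_inner h2, hat, ← integral_mul_const]
  congr 1
  funext t
  have h3 : (f t • tau K t V) y = (f t : ℂ) • (tau K t V y) := by
    simp
  rw [h3, inner_smul_right, inner_tau_eigen hK V hx hy]
  ring

theorem inner_K_eigen {K : E →L[ℂ] E} (hK : IsSelfAdjoint K) {x : E} {l : ℝ}
    (hx : K x = (l : ℂ) • x) (y : E) : ⟪x, K y⟫_ℂ = (l : ℂ) * ⟪x, y⟫_ℂ := by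
  have h := hK.isSymmetric x y
  change ⟪K x, y⟫_ℂ = ⟪x, K y⟫_ℂ at h
  rw [← h, hx, inner_smul_left]
  simp

theorem exists_eigenbasis {K : E →L[ℂ] E} (hK : IsSelfAdjoint K) :
    ∃ (n : ℕ) (b : OrthonormalBasis (Fin n) ℂ E) (l : Fin n → ℝ), ∀ i, K (b i) = (l i : ℂ) • b i := by
  have hs : (K : E →ₗ[ℂ] E).IsSymmetric := hK.isSymmetric
  exact ⟨_, hs.eigenvectorBasis rfl, hs.eigenvalues rfl, fun i => hs.apply_eigenvectorBasis rfl i⟩

theorem vec_ext_eigen {K : E →L[ℂ] E} (hK : IsSelfAdjoint K) {u v : E}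
    (h : ∀ (x : E) (l : ℝ), K x = (l : ℂ) • x → ⟪x, u⟫_ℂ = ⟪x, v⟫_ℂ) : u = v := by
  obtain ⟨n, b, l, hb⟩ := exists_eigenbasis hK
  refine b.repr.injective ?_
  ext i
  rw [b.repr_apply_apply, b.repr_apply_apply]
  exact h (b i) (l i) (hb i)

end findim

section sector

variable {S : Submodule ℂ E} {K V : E →L[ℂ] E}

/-- in a sector with a gap, an eigenvector of `K` in the sector orthogonal to the ground
vector has energy at least `e + g` -/
theorem HasGapS.le_eigen {g e : ℝ} {ψ : E} (h : HasGapS S K g e ψ) {x : E} (hxS : x ∈ S)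
    (hx0 : x ≠ 0) {l : ℝ} (hx : K x = (l : ℂ) • x) (hort : ⟪ψ, x⟫_ℂ = 0) : e + g ≤ l := by
  have h1 := h.2.2.2 x hxS hort
  rw [hx, inner_smul_right, inner_self_eq_norm_sq_to_K] at h1
  have h2 : ((l : ℂ) * ((‖x‖ : ℝ) : ℂ) ^ 2).re = l * ‖x‖ ^ 2 := by
    rw [← ofReal_pow, ← ofReal_mul, ofReal_re]
  have h3 : 0 < ‖x‖ ^ 2 := by positivity
  have h4 : (e + g) * ‖x‖ ^ 2 ≤ l * ‖x‖ ^ 2 := by
    rw [← h2]
    exact h1
  exact le_of_mul_le_mul_right h4 h3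

theorem inner_self_one {ψ : E} (h1 : ‖ψ‖ = 1) : ⟪ψ, ψ⟫_ℂ = 1 := by
  rw [inner_self_eq_norm_sq_to_K, h1]; simp

theorem orth_sub {ψ : E} (h1 : ‖ψ‖ = 1) (x : E) : ⟪ψ, x - ⟪ψ, x⟫_ℂ • ψ⟫_ℂ = 0 := by
  rw [inner_sub_right, inner_smul_right, inner_self_one h1]; simp

variable [FiniteDimensional ℂ E]

/-- a self-adjoint operator preserving a subspace commutes with its projection -/
theorem commute_proj (hK : IsSelfAdjoint K) (hKS : ∀ x ∈ S, K x ∈ S) :
    Commute S.starProjection K := by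
  ext x
  change S.starProjection (K x) = K (S.starProjection x)
  have h1 : x = S.starProjection x + (x - S.starProjection x) := by abel
  have h2 : K (x - S.starProjection x) ∈ Sᗮ := by
    rw [Submodule.mem_orthogonal]
    intro u hu
    have h3 := hK.isSymmetric u (x - S.starProjection x)
    change ⟪K u, x - S.starProjection x⟫_ℂ = ⟪u, K (x - S.starProjection x)⟫_ℂ at h3
    rw [← h3]
    exact inner_eq_zero_symm.1 (Submodule.starProjection_inner_eq_zero x _ (hKS u hu))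
  have h4 : K x = K (S.starProjection x) + K (x - S.starProjection x) := by
    rw [← map_add, ← h1]
  rw [h4, map_add, Submodule.starProjection_eq_self_iff.2
    (hKS _ (Submodule.starProjection_apply_mem _ _)),
    (Submodule.starProjection_apply_eq_zero_iff _).2 h2, add_zero]

theorem mem_of_commute (hK : Commute S.starProjection K) {x : E} (hx : x ∈ S) : K x ∈ S := by
  rw [← Submodule.starProjection_eq_self_iff] at hx ⊢
  have : S.starProjection (K x) = K (S.starProjection x) := by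
    have := congrArg (fun T : E →L[ℂ] E => T x) hK.eq
    exact this
  rw [this, hx]

end sector

section comm

variable {A : Type*} [CStarAlgebra A] {P K V : A}

theorem commute_U (h : Commute P K) (t : ℝ) : Commute P (U K t) := by
  let _ : NormedAlgebra ℚ A := NormedAlgebra.restrictScalars ℚ ℂ A
  have h : Commute P (t • (Complex.I • K)) := (h.smul_right Complex.I).smul_right t
  exact h.exp_right

theorem commute_tau (h : Commute P K) (hV : Commute P V) (t : ℝ) : Commute P (tau K t V) :=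
  ((commute_U h t).mul_right hV).mul_right (commute_U h (-t))

theorem commute_iff_adL (X : A) : Commute P X ↔ LR667.adL P X = 0 := by
  rw [LR667.adL_apply, Ring.lie_def, sub_eq_zero]
  rfl

theorem commute_Tt (h : Commute P K) (hV : Commute P V) (t : ℝ) : Commute P (Tt K t V) := by
  rw [commute_iff_adL, Tt]
  have h1 := ContinuousLinearMap.intervalIntegral_comp_comm (LR667.adL P)
    ((LR667.continuous_tau K V).intervalIntegrable (μ := volume) 0 t)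
  rw [← h1]
  have h2 : ∀ s, LR667.adL P (tau K s V) = 0 := fun s => (commute_iff_adL _).1 (commute_tau h hV s)
  simp [h2]

theorem commute_SS {g : ℝ → ℝ} (hg : IsFilter g) (hK : IsSelfAdjoint K) (h : Commute P K)
    (hV : Commute P V) : Commute P (SS g K V) := by
  rw [commute_iff_adL, SS]
  rw [← (LR667.adL P).integral_comp_comm (LR667.integrable_SS hg hK V)]
  have h2 : ∀ t, LR667.adL P (g t • Tt K t V) = 0 := fun t => by
    rw [map_smul, (commute_iff_adL _).1 (commute_Tt h hV t), smul_zero]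
  simp [h2]

theorem commute_Fl {g : ℝ → ℝ} (hg : IsFilter g) (hK : IsSelfAdjoint K) (h : Commute P K)
    (hV : Commute P V) : Commute P (Fl g K V) := by
  rw [commute_iff_adL, Fl]
  rw [← (LR667.adL P).integral_comp_comm (LR667.integrable_Fl hg hK V)]
  have h2 : ∀ t, LR667.adL P (g t • tau K t V) = 0 := fun t => by
    rw [map_smul, (commute_iff_adL _).1 (commute_tau h hV t), smul_zero]
  simp [h2]

theorem star_Tt (hK : IsSelfAdjoint K) (t : ℝ) (X : A) : star (Tt K t X) = Tt K t (star X) := by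
  have h := ContinuousLinearMap.intervalIntegral_comp_comm
    ((starL' ℝ : A ≃L[ℝ] A) : A →L[ℝ] A)
    ((LR667.continuous_tau K X).intervalIntegrable (μ := volume) 0 t)
  have e1 : ∀ x : A, ((starL' ℝ : A ≃L[ℝ] A) : A →L[ℝ] A) x = star x := fun x => rfl
  simp only [e1] at h
  rw [Tt, ← h, Tt]
  congr 1
  funext s
  rw [LR667.tau_star hK]

theorem star_SS {g : ℝ → ℝ} (hK : IsSelfAdjoint K) (X : A) :
    star (SS g K X) = SS g K (star X) := by
  have h := (starL' ℝ : A ≃L[ℝ] A).integral_comp_comm (fun t => g t • Tt K t X) (μ := volume)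
  have e1 : ∀ x : A, (starL' ℝ : A ≃L[ℝ] A) x = star x := fun x => rfl
  simp only [e1] at h
  rw [SS, ← h, SS]
  congr 1
  funext t
  rw [star_smul, star_Tt hK]
  simp

theorem star_Fl {g : ℝ → ℝ} (hK : IsSelfAdjoint K) (X : A) :
    star (Fl g K X) = Fl g K (star X) := by
  have h := (starL' ℝ : A ≃L[ℝ] A).integral_comp_comm (fun t => g t • tau K t X) (μ := volume)
  have e1 : ∀ x : A, (starL' ℝ : A ≃L[ℝ] A) x = star x := fun x => rfl
  simp only [e1] at h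
  rw [Fl, ← h, Fl]
  congr 1
  funext t
  rw [star_smul, LR667.tau_star hK]
  simp

end comm

section ground

variable {S : Submodule ℂ E} {K V : E →L[ℂ] E} [FiniteDimensional ℂ E]

/-- `V^ ψ = ⟪ψ, V ψ⟫ ψ` for the ground vector. -/
theorem Fl_ground (hK : IsSelfAdjoint K) {β g e : ℝ} (hβ : 0 < β) (hβg : β ≤ g)
    {w : ℝ → ℝ} (hf : IsBand w β)
    (hKS : ∀ x ∈ S, K x ∈ S) (hV : Commute S.starProjection V) {ψ : E} (h : HasGapS S K g e ψ) :
    Fl w K V ψ = ⟪ψ, V ψ⟫_ℂ • ψ := by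
  have hc := commute_proj hK hKS
  -- eigenvectors in the sector
  have key : ∀ (x : E), x ∈ S → ∀ l : ℝ, K x = (l : ℂ) • x →
      ⟪x, Fl w K V ψ⟫_ℂ = ⟪x, ⟪ψ, V ψ⟫_ℂ • ψ⟫_ℂ := by
    intro x hxS l hx
    rw [inner_Fl_eigen hK hf.toIsFilter V hx h.2.2.1]
    by_cases hle : l = e
    · -- `x` is a multiple of `ψ`
      set χ := x - ⟪ψ, x⟫_ℂ • ψ with hχ
      have hχS : χ ∈ S := S.sub_mem hxS (S.smul_mem _ h.1)
      have hχ0 : χ = 0 := by
        by_contra h0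
        have hKχ : K χ = (e : ℂ) • χ := by
          rw [hχ, map_sub, map_smul, hx, h.2.2.1, hle, smul_sub, smul_comm]
        have := h.le_eigen hχS h0 hKχ (orth_sub h.2.1 x)
        linarith
      have hx' : x = ⟪ψ, x⟫_ℂ • ψ := by rwa [hχ, sub_eq_zero] at hχ0
      rw [hle, sub_self, hf.hat_zero, one_mul, hx', inner_smul_left, inner_smul_left,
        inner_smul_right, inner_self_one h.2.1, mul_one]
    · -- orthogonal
      have hort : ⟪ψ, x⟫_ℂ = 0 := by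
        have h1 := inner_K_eigen hK h.2.2.1 x
        rw [hx, inner_smul_right] at h1
        have h2 : ((l : ℂ) - e) * ⟪ψ, x⟫_ℂ = 0 := by rw [sub_mul, h1, sub_self]
        rcases mul_eq_zero.1 h2 with h3 | h3
        · exact absurd (by exact_mod_cast sub_eq_zero.1 h3) hle
        · exact h3
      have hort' : ⟪x, ψ⟫_ℂ = 0 := inner_eq_zero_symm.1 hort
      rw [inner_smul_right, hort', mul_zero]
      by_cases hx0 : x = 0
      · simp [hx0]
      · have h1 := h.le_eigen hxS hx0 hx hort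
        have h2 : β ≤ |l - e| := by
          rw [abs_of_nonneg (by linarith)]; linarith
        have h3 : hat w (l - e) = 0 := hf.band _ h2
        rw [h3, zero_mul]
  refine vec_ext_eigen hK fun x l hx => ?_
  have hPx : K (S.starProjection x) = (l : ℂ) • S.starProjection x := by
    have : K (S.starProjection x) = S.starProjection (K x) :=
      (congrArg (fun T : E →L[ℂ] E => T x) hc.eq).symm
    rw [this, hx, map_smul]
  have h1 : ∀ v ∈ S, ⟪x, v⟫_ℂ = ⟪S.starProjection x, v⟫_ℂ := by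
    intro v hv
    rw [← sub_eq_zero, ← inner_sub_left]
    exact Submodule.starProjection_inner_eq_zero x v hv
  have h2 : Fl w K V ψ ∈ S := mem_of_commute (commute_Fl hf.toIsFilter hK hc hV) h.1
  rw [h1 _ h2, h1 _ (S.smul_mem _ h.1)]
  exact key _ (Submodule.starProjection_apply_mem _ _) l hPx

end ground

end Crest.Agent.R340.Flow644
end

-- ▼ part R340/FlowB_644
section

/-!
R340 (S0532), block L9a, part 2 (helper644): the spectral flow `U' = i D_s U`,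
`D_s = SS g (H + sV) V`; unitarity, commutation with the sector, derivative of
`h(s) = U_s^* (H + sV) U_s`.
-/

set_option autoImplicit false
set_option linter.unusedSectionVars false

open scoped InnerProductSpace
open MeasureTheory Complex
open Crest.Agent.R340
open Crest.Agent.R340.LR667 (tau U Fl SS Tt IsFilter)

namespace Crest.Agent.R340.Flow644

section alg

variable {A : Type*} [CStarAlgebra A]

theorem isSelfAdjoint_add_smul {H V : A} (hH : IsSelfAdjoint H) (hV : IsSelfAdjoint V)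
    (s : ℝ) : IsSelfAdjoint (H + s • V) := by
  rw [isSelfAdjoint_iff, star_add, star_smul, hH.star_eq, hV.star_eq]
  simp

theorem continuous_U2 (H V : A) : Continuous fun p : ℝ × ℝ => U (H + p.1 • V) p.2 := by
  let _ : NormedAlgebra ℚ A := NormedAlgebra.restrictScalars ℚ ℂ A
  have h2 : Continuous fun p : ℝ × ℝ => p.2 • (Complex.I • (H + p.1 • V)) := by fun_prop
  exact NormedSpace.exp_continuous.comp h2

theorem continuous_tau2 (H V X : A) :
    Continuous fun p : ℝ × ℝ => tau (H + p.1 • V) p.2 X := by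
  have h1 := continuous_U2 H V
  have h2 : Continuous fun p : ℝ × ℝ => U (H + p.1 • V) (-p.2) :=
    h1.comp (by fun_prop : Continuous fun p : ℝ × ℝ => (p.1, -p.2))
  exact (h1.mul continuous_const).mul h2

theorem continuous_Tt_param (H V X : A) (t : ℝ) :
    Continuous fun s : ℝ => Tt (H + s • V) t X :=
  intervalIntegral.continuous_parametric_intervalIntegral_of_continuous'
    (continuous_tau2 H V X) 0 t

theorem continuous_SS {H V : A} (hH : IsSelfAdjoint H) (hV : IsSelfAdjoint V)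
    {g : ℝ → ℝ} (hg : IsFilter g) (X : A) :
    Continuous fun s : ℝ => SS g (H + s • V) X := by
  refine continuous_of_dominated (μ := volume) (F := fun s t => g t • Tt (H + s • V) t X)
    (bound := fun t => |t| * |g t| * ‖X‖) ?_ ?_ ?_ ?_
  · intro s
    have hK := isSelfAdjoint_add_smul hH hV s
    exact (LR667.integrable_SS hg hK X).aestronglyMeasurable
  · intro s
    refine Filter.Eventually.of_forall fun t => ?_
    have hK := isSelfAdjoint_add_smul hH hV s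
    rw [norm_smul]
    calc ‖g t‖ * ‖Tt (H + s • V) t X‖ ≤ ‖g t‖ * (|t| * ‖X‖) := by
          gcongr; exact LR667.norm_Tt_le hK t X
      _ = |t| * |g t| * ‖X‖ := by rw [Real.norm_eq_abs]; ring
  · simpa using (hg.int 1).mul_const ‖X‖
  · refine Filter.Eventually.of_forall fun t => ?_
    exact (continuous_Tt_param H V X t).const_smul _


/-- `U` is the flow generated by `D`. -/
structure IsFlow (D U : ℝ → A) : Prop where
  zero : U 0 = 1
  deriv : ∀ s, HasDerivAt U ((I • D s) * U s) s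

theorem exists_isFlow {D : ℝ → A} (hD : Continuous D) : ∃ U, IsFlow D U := by
  have hA : Continuous (Function.uncurry
      (fun (_ : Unit) (s : ℝ) => ContinuousLinearMap.mul ℝ A (I • D s))) := by
    have : Continuous fun p : Unit × ℝ => I • D p.2 := (hD.comp continuous_snd).const_smul I
    exact (ContinuousLinearMap.mul ℝ A).continuous.comp this
  obtain ⟨S, -, h0, hS⟩ := Crest.Agent.R202.LinODE.exists_flow hA 0
    (x0 := fun _ : Unit => (1 : A)) continuous_const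
  exact ⟨S (), h0 (), fun s => hS () s⟩

theorem IsFlow.star_mul_self {D U : ℝ → A} (h : IsFlow D U)
    (hD : ∀ s, IsSelfAdjoint (D s)) (s : ℝ) : star (U s) * U s = 1 := by
  have h1 : ∀ s, HasDerivAt (fun s => star (U s) * U s) 0 s := by
    intro s
    have h2 := (h.deriv s).star.mul (h.deriv s)
    refine h2.congr_deriv ?_
    rw [star_mul, star_smul, (hD s).star_eq]
    simp [mul_assoc]
  have h2 := is_const_of_deriv_eq_zero (fun t => (h1 t).differentiableAt)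
    (fun t => (h1 t).deriv) s 0
  simp only [h.zero, star_one, mul_one] at h2
  exact h2

theorem IsFlow.conj_const {D U : ℝ → A} (h : IsFlow D U)
    (hD : ∀ s, IsSelfAdjoint (D s)) {P : A} (hP : ∀ s, Commute P (D s)) (s : ℝ) :
    star (U s) * P * U s = P := by
  have h1 : ∀ s, HasDerivAt (fun s => star (U s) * P * U s) 0 s := by
    intro s
    have h2 := ((h.deriv s).star.mul_const P).mul (h.deriv s)
    refine h2.congr_deriv ?_
    rw [star_mul, star_smul, (hD s).star_eq]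
    have hPs : P * D s = D s * P := (hP s).eq
    simp only [star_def, conj_I, neg_smul, mul_neg, neg_mul, mul_smul_comm, smul_mul_assoc]
    rw [mul_assoc (star (U s)) P, ← mul_assoc P (D s), hPs]
    simp [mul_assoc]
  have h2 := is_const_of_deriv_eq_zero (fun t => (h1 t).differentiableAt)
    (fun t => (h1 t).deriv) s 0
  simp only [h.zero, star_one, mul_one, one_mul] at h2
  exact h2

end alg

section findim

variable {E : Type*} [NormedAddCommGroup E] [InnerProductSpace ℂ E] [CompleteSpace E]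
variable [FiniteDimensional ℂ E]

theorem mul_eq_one_of {A B : E →L[ℂ] E} (h : A * B = 1) : B * A = 1 := by
  have h1 : (A : E →ₗ[ℂ] E) * (B : E →ₗ[ℂ] E) = 1 := by
    have := congrArg (fun T : E →L[ℂ] E => (T : E →ₗ[ℂ] E)) h
    exact this
  have h2 : (B : E →ₗ[ℂ] E) * (A : E →ₗ[ℂ] E) = 1 := mul_eq_one_comm.1 h1
  exact ContinuousLinearMap.coe_injective h2

theorem IsFlow.self_mul_star {D U : ℝ → E →L[ℂ] E} (h : IsFlow D U)
    (hD : ∀ s, IsSelfAdjoint (D s)) (s : ℝ) : U s * star (U s) = 1 :=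
  mul_eq_one_of (h.star_mul_self hD s)

theorem IsFlow.mem_unitary {D U : ℝ → E →L[ℂ] E} (h : IsFlow D U)
    (hD : ∀ s, IsSelfAdjoint (D s)) (s : ℝ) : U s ∈ unitary (E →L[ℂ] E) :=
  Unitary.mem_iff.2 ⟨h.star_mul_self hD s, h.self_mul_star hD s⟩

theorem IsFlow.commute {D U : ℝ → E →L[ℂ] E} (h : IsFlow D U)
    (hD : ∀ s, IsSelfAdjoint (D s)) {P : E →L[ℂ] E} (hP : ∀ s, Commute P (D s)) (s : ℝ) :
    Commute P (U s) := by
  have h1 := h.conj_const hD hP s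
  have h2 : U s * (star (U s) * P * U s) = U s * P := by rw [h1]
  rw [← mul_assoc, ← mul_assoc, h.self_mul_star hD, one_mul] at h2
  exact h2

/-- the derivative of `h(s) = U_s^* (H + sV) U_s` -/
theorem hasDerivAt_h {H V : E →L[ℂ] E} (hH : IsSelfAdjoint H) (hV : IsSelfAdjoint V)
    {g : ℝ → ℝ} (hg : IsFilter g) {U : ℝ → E →L[ℂ] E}
    (hU : IsFlow (fun s => SS g (H + s • V) V) U) (s : ℝ) :
    HasDerivAt (fun s : ℝ => star (U s) * (H + s • V) * U s)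
      (star (U s) * Fl g (H + s • V) V * U s) s := by
  have hK := isSelfAdjoint_add_smul hH hV s
  have h0 : HasDerivAt (fun s : ℝ => H + s • V) V s := by
    have := ((hasDerivAt_id s).smul_const V).const_add H
    simpa using this
  have h2 := ((hU.deriv s).star.mul h0).mul (hU.deriv s)
  refine h2.congr_deriv ?_
  simp only [Pi.mul_apply]
  have h3 : Fl g (H + s • V) V = V + I • ((H + s • V) * SS g (H + s • V) V -
      SS g (H + s • V) V * (H + s • V)) := by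
    have := LR667.eq_Fl_sub hg hK V
    rw [Ring.lie_def] at this
    conv_rhs => arg 1; rw [this]
    abel
  have hD : IsSelfAdjoint (SS g (H + s • V) V) := by
    rw [isSelfAdjoint_iff, star_SS hK, hV.star_eq]
  rw [h3]
  generalize SS g (H + s • V) V = D at hD ⊢
  generalize H + s • V = K
  rw [star_mul, star_smul, hD.star_eq]
  simp only [star_def, conj_I, neg_smul, mul_neg, neg_mul, mul_smul_comm, smul_mul_assoc,
    mul_add, add_mul, mul_sub, sub_mul, mul_assoc, smul_sub]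
  abel

end findim

end Crest.Agent.R340.Flow644
end

-- ▼ part R340/FlowC_644
section

/-!
R340 (S0532), block L9a, part 3 (helper644): perturbation of a sector gap, transport of the
ground vector along the spectral flow, bootstrap in the coupling.  Main theorem: `flow_main`.
-/

set_option autoImplicit false
set_option linter.unusedSectionVars false

open scoped InnerProductSpace
open MeasureTheory Complex
open Crest.Agent.R340
open Crest.Agent.R340.LR667 (tau U Fl SS Tt IsFilter)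

namespace Crest.Agent.R340.Flow644

section expand

variable {W : Type*} [NormedAddCommGroup W] [InnerProductSpace ℂ W] [FiniteDimensional ℂ W]

/-- spectral expansion of a symmetric operator -/
theorem expand (T : W →ₗ[ℂ] W) (hT : T.IsSymmetric) :
    ∃ (n : ℕ) (b : OrthonormalBasis (Fin n) ℂ W) (l : Fin n → ℝ),
      (∀ i, T (b i) = (l i : ℂ) • b i) ∧
      (∀ x, (⟪x, T x⟫_ℂ).re = ∑ i, l i * ‖⟪b i, x⟫_ℂ‖ ^ 2) ∧
      (∀ x, ‖x‖ ^ 2 = ∑ i, ‖⟪b i, x⟫_ℂ‖ ^ 2) := by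
  refine ⟨_, hT.eigenvectorBasis rfl, hT.eigenvalues rfl,
    fun i => hT.apply_eigenvectorBasis rfl i, ?_, ?_⟩
  · intro x
    set b := hT.eigenvectorBasis rfl with hb
    have hev : ∀ i, T (b i) = ((hT.eigenvalues rfl i : ℝ) : ℂ) • b i := fun i =>
      hT.apply_eigenvectorBasis rfl i
    have hx : ⟪x, T x⟫_ℂ = ∑ i, (((hT.eigenvalues rfl i) * ‖⟪b i, x⟫_ℂ‖ ^ 2 : ℝ) : ℂ) := by
      rw [← b.sum_inner_mul_inner x (T x)]
      refine Finset.sum_congr rfl fun i _ => ?_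
      have h1 : ⟪b i, T x⟫_ℂ = ((hT.eigenvalues rfl i : ℝ) : ℂ) * ⟪b i, x⟫_ℂ := by
        rw [← hT (b i) x, hev, inner_smul_left, Complex.conj_ofReal]
      rw [h1]
      have h2 : ⟪x, b i⟫_ℂ * ⟪b i, x⟫_ℂ = ((‖⟪b i, x⟫_ℂ‖ ^ 2 : ℝ) : ℂ) := by
        rw [← inner_conj_symm x (b i), ← Complex.normSq_eq_conj_mul_self,
          Complex.normSq_eq_norm_sq]
      push_cast at h2 ⊢
      linear_combination ((hT.eigenvalues rfl i : ℝ) : ℂ) * h2
    rw [hx, ← Complex.ofReal_sum, Complex.ofReal_re]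
  · intro x
    exact ((hT.eigenvectorBasis rfl).sum_sq_norm_inner_right x).symm

end expand

variable {E : Type*} [NormedAddCommGroup E] [InnerProductSpace ℂ E] [CompleteSpace E]
variable {S : Submodule ℂ E} {K V : E →L[ℂ] E} [FiniteDimensional ℂ E]

theorem inner_adj (hK : IsSelfAdjoint K) (x y : E) : ⟪K x, y⟫_ℂ = ⟪x, K y⟫_ℂ :=
  hK.isSymmetric x y

/-- the form splits along the ground vector -/
theorem HasGapS.split (hK : IsSelfAdjoint K) {g e : ℝ} {ψ : E} (h : HasGapS S K g e ψ) (x : E) :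
    (⟪x, K x⟫_ℂ).re = e * ‖⟪ψ, x⟫_ℂ‖ ^ 2 +
        (⟪x - ⟪ψ, x⟫_ℂ • ψ, K (x - ⟪ψ, x⟫_ℂ • ψ)⟫_ℂ).re ∧
      ‖x‖ ^ 2 = ‖⟪ψ, x⟫_ℂ‖ ^ 2 + ‖x - ⟪ψ, x⟫_ℂ • ψ‖ ^ 2 := by
  set a := ⟪ψ, x⟫_ℂ with ha
  set χ := x - a • ψ with hχ
  have hx : x = a • ψ + χ := by rw [hχ]; abel
  have ho : ⟪ψ, χ⟫_ℂ = 0 := orth_sub h.2.1 x
  have ho' : ⟪χ, ψ⟫_ℂ = 0 := inner_eq_zero_symm.1 ho
  have hK1 : ⟪ψ, K χ⟫_ℂ = 0 := by
    rw [inner_K_eigen hK h.2.2.1, ho, mul_zero]
  have haa : (starRingEnd ℂ) a * a = ((‖a‖ ^ 2 : ℝ) : ℂ) := by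
    rw [← Complex.normSq_eq_conj_mul_self, Complex.normSq_eq_norm_sq]
  constructor
  · have h1 : ⟪x, K x⟫_ℂ = ((e * ‖a‖ ^ 2 : ℝ) : ℂ) + ⟪χ, K χ⟫_ℂ := by
      conv_lhs => rw [hx]
      rw [map_add, map_smul, h.2.2.1, inner_add_left, inner_add_right, inner_add_right,
        inner_smul_left, inner_smul_left, inner_smul_right, inner_smul_right, inner_smul_right,
        inner_smul_right, ho', hK1, inner_self_one h.2.1]
      push_cast at haa ⊢
      linear_combination (e : ℂ) * haa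
    rw [h1, add_re, ofReal_re]
  · have h1 : ⟪x, x⟫_ℂ = ((‖a‖ ^ 2 : ℝ) : ℂ) + ⟪χ, χ⟫_ℂ := by
      conv_lhs => rw [hx]
      rw [inner_add_left, inner_add_right, inner_add_right,
        inner_smul_left, inner_smul_left, inner_smul_right, inner_smul_right, ho', ho,
        inner_self_one h.2.1]
      push_cast at haa ⊢
      linear_combination haa
    rw [inner_self_eq_norm_sq_to_K, inner_self_eq_norm_sq_to_K] at h1
    have h2 : ((‖x‖ ^ 2 : ℝ) : ℂ) = ((‖a‖ ^ 2 : ℝ) : ℂ) + ((‖χ‖ ^ 2 : ℝ) : ℂ) := by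
      simpa using h1
    exact_mod_cast h2

theorem HasGapS.lower (hK : IsSelfAdjoint K) {g e : ℝ} (hg : 0 ≤ g) {ψ : E}
    (h : HasGapS S K g e ψ) {x : E} (hx : x ∈ S) : e * ‖x‖ ^ 2 ≤ (⟪x, K x⟫_ℂ).re := by
  obtain ⟨h1, h2⟩ := h.split hK x
  have h3 := h.2.2.2 _ (S.sub_mem hx (S.smul_mem _ h.1)) (orth_sub h.2.1 x)
  rw [h1, h2]
  nlinarith [sq_nonneg ‖x - ⟪ψ, x⟫_ℂ • ψ‖]

theorem HasGapS.mono {g g' e : ℝ} {ψ : E} (h : HasGapS S K g e ψ) (hg : g' ≤ g) :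
    HasGapS S K g' e ψ :=
  ⟨h.1, h.2.1, h.2.2.1, fun χ hχ ho => (by nlinarith [sq_nonneg ‖χ‖] :
    (e + g') * ‖χ‖ ^ 2 ≤ (e + g) * ‖χ‖ ^ 2).trans (h.2.2.2 χ hχ ho)⟩

theorem re_inner_le (T : E →L[ℂ] E) (x : E) : |(⟪x, T x⟫_ℂ).re| ≤ ‖T‖ * ‖x‖ ^ 2 := by
  calc |(⟪x, T x⟫_ℂ).re| ≤ ‖⟪x, T x⟫_ℂ‖ := Complex.abs_re_le_norm _
    _ ≤ ‖x‖ * ‖T x‖ := norm_inner_le_norm _ _
    _ ≤ ‖x‖ * (‖T‖ * ‖x‖) := by gcongr; exact T.le_opNorm x
    _ = _ := by ring

/-- a unit eigenvector in the sector with energy below `e + g` is a ground vector -/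
theorem HasGapS.transfer (hK : IsSelfAdjoint K) {g e : ℝ} (hg : 0 < g) {ψ : E}
    (h : HasGapS S K g e ψ) {φ : E} (hφS : φ ∈ S) (hφ1 : ‖φ‖ = 1) {l : ℝ}
    (hφ : K φ = (l : ℂ) • φ) (hl : l < e + g) : l = e ∧ HasGapS S K g l φ := by
  have hφ0 : φ ≠ 0 := by
    intro h0; rw [h0] at hφ1; simp at hφ1
  have hle : l = e := by
    by_contra hne
    have hort : ⟪ψ, φ⟫_ℂ = 0 := by
      have h1 := inner_K_eigen hK h.2.2.1 φ
      rw [hφ, inner_smul_right] at h1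
      have h2 : ((l : ℂ) - e) * ⟪ψ, φ⟫_ℂ = 0 := by rw [sub_mul, h1, sub_self]
      rcases mul_eq_zero.1 h2 with h3 | h3
      · exact absurd (by exact_mod_cast sub_eq_zero.1 h3) hne
      · exact h3
    have := h.le_eigen hφS hφ0 hφ hort
    linarith
  refine ⟨hle, hφS, hφ1, hφ, ?_⟩
  subst hle
  have hφψ : φ = ⟪ψ, φ⟫_ℂ • ψ := by
    set χ := φ - ⟪ψ, φ⟫_ℂ • ψ with hχ
    have hχS : χ ∈ S := S.sub_mem hφS (S.smul_mem _ h.1)
    have hχ0 : χ = 0 := by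
      by_contra h0
      have hKχ : K χ = (l : ℂ) • χ := by
        rw [hχ, map_sub, map_smul, hφ, h.2.2.1, smul_sub, smul_comm]
      have := h.le_eigen hχS h0 hKχ (orth_sub h.2.1 φ)
      linarith
    rwa [hχ, sub_eq_zero] at hχ0
  intro χ hχ ho
  refine h.2.2.2 χ hχ ?_
  rw [hφψ, inner_smul_left] at ho
  rcases mul_eq_zero.1 ho with h1 | h1
  · exfalso
    rw [map_eq_zero] at h1
    rw [h1, zero_smul] at hφψ
    exact hφ0 hφψ
  · exact h1

/-- perturbation of a sector gap -/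
theorem HasGapS.pert {K' : E →L[ℂ] E} (hK' : IsSelfAdjoint K')
    (hKS' : ∀ x ∈ S, K' x ∈ S) {g e δ : ℝ} {ψ : E} (h : HasGapS S K g e ψ)
    (hδ : ‖K' - K‖ ≤ δ) : ∃ (e' : ℝ) (ψ' : E), HasGapS S K' (g - 2 * δ) e' ψ' := by
  let T : S →ₗ[ℂ] S := (K' : E →ₗ[ℂ] E).restrict hKS'
  have hTs : T.IsSymmetric := hK'.isSymmetric.restrict_invariant hKS'
  have hTx : ∀ x : S, ((T x : S) : E) = K' x := fun x => rfl
  obtain ⟨n, b, l, hb, hform, hnorm⟩ := expand T hTs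
  have hψ0 : ψ ≠ 0 := by
    intro h0
    have := h.2.1
    rw [h0] at this
    simp at this
  have hne : Nonempty (Fin n) := by
    by_contra hcon
    rw [not_nonempty_iff] at hcon
    have := hnorm ⟨ψ, h.1⟩
    simp at this
    exact hψ0 this
  obtain ⟨i0, hi0⟩ := Finite.exists_min l
  have hdiff : ∀ x : E, |(⟪x, K' x⟫_ℂ).re - (⟪x, K x⟫_ℂ).re| ≤ δ * ‖x‖ ^ 2 := by
    intro x
    have h1 : (⟪x, K' x⟫_ℂ).re - (⟪x, K x⟫_ℂ).re = (⟪x, (K' - K) x⟫_ℂ).re := by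
      rw [← sub_re, ← inner_sub_right]; rfl
    rw [h1]
    refine (re_inner_le _ x).trans ?_
    gcongr
  have hinner : ∀ x y : S, ⟪x, y⟫_ℂ = ⟪(x : E), (y : E)⟫_ℂ := fun x y => rfl
  -- lower bound by `l i0`
  have hlow : ∀ x : S, l i0 * ‖x‖ ^ 2 ≤ (⟪x, T x⟫_ℂ).re := by
    intro x
    rw [hform, hnorm, Finset.mul_sum]
    exact Finset.sum_le_sum fun i _ => mul_le_mul_of_nonneg_right (hi0 i) (by positivity)
  have he' : l i0 ≤ e + δ := by
    have h1 := hlow ⟨ψ, h.1⟩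
    have h2 : (⟪(⟨ψ, h.1⟩ : S), T ⟨ψ, h.1⟩⟫_ℂ).re = (⟪ψ, K' ψ⟫_ℂ).re := rfl
    have h3 : ‖(⟨ψ, h.1⟩ : S)‖ = 1 := h.2.1
    rw [h2, h3] at h1
    have h4 := abs_le.1 (hdiff ψ)
    have h5 : (⟪ψ, K ψ⟫_ℂ).re = e := by
      rw [h.2.2.1, inner_smul_right, inner_self_one h.2.1]; simp
    rw [h5, h.2.1] at h4
    linarith [h4.2]
  have hgapi : ∀ i, i ≠ i0 → e + g - δ ≤ l i := by
    intro i hi
    -- a vector in the span of `b i0`, `b i` orthogonal to `ψ`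
    obtain ⟨p, q, hpq, ho⟩ : ∃ p q : ℂ, 0 < ‖p‖ ^ 2 + ‖q‖ ^ 2 ∧
        ⟪ψ, ((p • b i0 + q • b i : S) : E)⟫_ℂ = 0 := by
      by_cases hz : ⟪ψ, (b i : E)⟫_ℂ = 0
      · exact ⟨0, 1, by simp, by simp [hz]⟩
      · refine ⟨⟪ψ, (b i : E)⟫_ℂ, -⟪ψ, (b i0 : E)⟫_ℂ, ?_, ?_⟩
        · have : 0 < ‖⟪ψ, (b i : E)⟫_ℂ‖ := norm_pos_iff.2 hz
          positivity
        · simp only [Submodule.coe_add, Submodule.coe_smul, inner_add_right, inner_smul_right]
          ring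
    set x : S := p • b i0 + q • b i with hx
    have hc : ∀ j, ⟪b j, x⟫_ℂ = (if j = i0 then p else 0) + (if j = i then q else 0) := by
      intro j
      rw [hx, inner_add_right, inner_smul_right, inner_smul_right,
        orthonormal_iff_ite.1 b.orthonormal, orthonormal_iff_ite.1 b.orthonormal]
      simp
    have hc2 : ∀ j, ‖⟪b j, x⟫_ℂ‖ ^ 2 = (if j = i0 then ‖p‖ ^ 2 else 0) +
        (if j = i then ‖q‖ ^ 2 else 0) := by
      intro j
      rw [hc]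
      by_cases h1 : j = i0
      · have h2 : j ≠ i := fun h => hi (h.symm.trans h1)
        rw [if_pos h1, if_neg h2, if_pos h1, if_neg h2]; simp
      · by_cases h2 : j = i
        · rw [if_neg h1, if_pos h2, if_neg h1, if_pos h2]; simp
        · rw [if_neg h1, if_neg h2, if_neg h1, if_neg h2]; simp
    have hn : ‖x‖ ^ 2 = ‖p‖ ^ 2 + ‖q‖ ^ 2 := by
      rw [hnorm, Finset.sum_congr rfl fun j _ => hc2 j, Finset.sum_add_distrib]
      simp
    have hf : (⟪x, T x⟫_ℂ).re = l i0 * ‖p‖ ^ 2 + l i * ‖q‖ ^ 2 := by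
      rw [hform, Finset.sum_congr rfl fun j _ => by rw [hc2 j, mul_add],
        Finset.sum_add_distrib]
      simp
    have h1 := h.2.2.2 (x : E) x.2 ho
    have h2 := abs_le.1 (hdiff (x : E))
    have h3 : (⟪(x : E), K' x⟫_ℂ).re = (⟪x, T x⟫_ℂ).re := rfl
    have h4 : ‖(x : E)‖ = ‖x‖ := rfl
    rw [h3, hf, h4, hn] at h2
    rw [h4, hn] at h1
    have h5 : (e + g - δ) * (‖p‖ ^ 2 + ‖q‖ ^ 2) ≤ l i * (‖p‖ ^ 2 + ‖q‖ ^ 2) := by
      have h6 : l i0 * ‖p‖ ^ 2 ≤ l i * ‖p‖ ^ 2 :=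
        mul_le_mul_of_nonneg_right (hi0 i) (by positivity)
      nlinarith [h2.1, h1]
    exact le_of_mul_le_mul_right h5 hpq
  refine ⟨l i0, (b i0 : E), (b i0).2, b.orthonormal.1 i0, ?_, ?_⟩
  · have := congrArg (fun y : S => (y : E)) (hb i0)
    simpa [hTx] using this
  · intro χ hχ ho
    have h1 := hform ⟨χ, hχ⟩
    have h2 := hnorm ⟨χ, hχ⟩
    have h3 : (⟪(⟨χ, hχ⟩ : S), T ⟨χ, hχ⟩⟫_ℂ).re = (⟪χ, K' χ⟫_ℂ).re := rfl
    have h4 : ‖(⟨χ, hχ⟩ : S)‖ = ‖χ‖ := rfl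
    rw [h3] at h1
    rw [h4] at h2
    rw [h1, h2, Finset.mul_sum]
    refine Finset.sum_le_sum fun i _ => ?_
    by_cases hi : i = i0
    · have : ⟪b i, (⟨χ, hχ⟩ : S)⟫_ℂ = 0 := by rw [hi]; exact ho
      rw [this]; simp
    · refine mul_le_mul_of_nonneg_right ?_ (by positivity)
      have := hgapi i hi
      linarith

end Crest.Agent.R340.Flow644
end

-- ▼ part R340/FlowD_644
section

/-!
R340 (S0532), block L9a, part 4 (helper644): transport of the ground vector by the spectral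
flow and the bootstrap in the coupling constant.  Main theorem: `flow_main`.
-/

set_option autoImplicit false
set_option linter.unusedSectionVars false

open scoped InnerProductSpace
open MeasureTheory Complex
open Crest.Agent.R340
open Crest.Agent.R340.LR667 (tau U Fl SS Tt IsFilter)

namespace Crest.Agent.R340.Flow644

variable {E : Type*} [NormedAddCommGroup E] [InnerProductSpace ℂ E] [CompleteSpace E]
variable {S : Submodule ℂ E} {K V : E →L[ℂ] E} [FiniteDimensional ℂ E]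

theorem norm_sub_inner_smul_le {φ : E} (h1 : ‖φ‖ = 1) (y : E) : ‖y - ⟪φ, y⟫_ℂ • φ‖ ≤ ‖y‖ := by
  have h2 : ‖y‖ ^ 2 = ‖⟪φ, y⟫_ℂ‖ ^ 2 + ‖y - ⟪φ, y⟫_ℂ • φ‖ ^ 2 := by
    set a := ⟪φ, y⟫_ℂ with ha
    have ho : ⟪φ, y - a • φ⟫_ℂ = 0 := orth_sub h1 y
    have h3 : y = a • φ + (y - a • φ) := by abel
    have h4 : ⟪a • φ, y - a • φ⟫_ℂ = 0 := by rw [inner_smul_left, ho, mul_zero]
    have h5 := norm_add_sq_eq_norm_sq_add_norm_sq_of_inner_eq_zero _ _ h4
    rw [← h3] at h5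
    have h6 : ‖a • φ‖ = ‖a‖ := by rw [norm_smul, h1, mul_one]
    rw [h6] at h5
    nlinarith [h5]
  have h3 : ‖y - ⟪φ, y⟫_ℂ • φ‖ ^ 2 ≤ ‖y‖ ^ 2 := by rw [h2]; nlinarith [sq_nonneg ‖⟪φ, y⟫_ℂ‖]
  exact abs_le_of_sq_le_sq' h3 (norm_nonneg _) |>.2

/-- residual estimate -/
theorem residual_le {g e : ℝ} (hg : 0 < g)
    {W : E →L[ℂ] E} {ψ : E} (h : HasGapS S K g e ψ) {v : ℂ} (hW : W ψ = v • ψ) {M : ℝ}
    (hM : ‖W‖ ≤ M)
    {φ : E} (hφS : φ ∈ S) (hφ1 : ‖φ‖ = 1) {ε : ℝ} (hε : ε ≤ e + g / 2) :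
    ‖W φ - ⟪φ, W φ⟫_ℂ • φ‖ ≤ (4 * M / g) * ‖K φ - (ε : ℂ) • φ‖ := by
  set a := ⟪ψ, φ⟫_ℂ with ha
  set χ := φ - a • ψ with hχ
  set r := K φ - (ε : ℂ) • φ with hr
  have ho : ⟪ψ, χ⟫_ℂ = 0 := orth_sub h.2.1 φ
  have ho' : ⟪χ, ψ⟫_ℂ = 0 := inner_eq_zero_symm.1 ho
  have hχS : χ ∈ S := S.sub_mem hφS (S.smul_mem _ h.1)
  have hφ : φ = a • ψ + χ := by rw [hχ]; abel
  have hM0 : 0 ≤ M := (norm_nonneg _).trans hM
  have h1 : ⟪χ, r⟫_ℂ = ⟪χ, K χ⟫_ℂ - (ε : ℂ) * ⟪χ, χ⟫_ℂ := by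
    rw [hr, hφ, map_add, map_smul, h.2.2.1, inner_sub_right, inner_add_right, inner_smul_right,
      inner_smul_right, inner_smul_right, inner_add_right, inner_smul_right, ho']
    ring
  have h2 : (e + g - ε) * ‖χ‖ ^ 2 ≤ ‖χ‖ * ‖r‖ := by
    have h3 := h.2.2.2 χ hχS ho
    have h4 : (⟪χ, r⟫_ℂ).re ≤ ‖χ‖ * ‖r‖ := (Complex.re_le_norm _).trans (norm_inner_le_norm _ _)
    rw [h1, sub_re, inner_self_eq_norm_sq_to_K] at h4
    have h5 : ((ε : ℂ) * ((‖χ‖ : ℝ) : ℂ) ^ 2).re = ε * ‖χ‖ ^ 2 := by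
      rw [← ofReal_pow, ← ofReal_mul, ofReal_re]
    have h6 : (⟪χ, K χ⟫_ℂ).re - ε * ‖χ‖ ^ 2 ≤ ‖χ‖ * ‖r‖ := by
      rw [← h5]; exact h4
    nlinarith
  have h3 : ‖χ‖ ≤ (2 / g) * ‖r‖ := by
    rcases eq_or_lt_of_le (norm_nonneg χ) with h0 | h0
    · rw [← h0]; positivity
    · have h4 : (g / 2) * ‖χ‖ ≤ ‖r‖ := by
        have h5 : ((g / 2) * ‖χ‖) * ‖χ‖ ≤ ‖r‖ * ‖χ‖ := by nlinarith [sq_nonneg ‖χ‖]
        exact le_of_mul_le_mul_right h5 h0
      rw [div_mul_eq_mul_div, le_div_iff₀ hg]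
      linarith
  have hv : ‖v‖ ≤ M := by
    have h4 : ‖W ψ‖ = ‖v‖ := by rw [hW, norm_smul, h.2.1, mul_one]
    rw [← h4]
    calc ‖W ψ‖ ≤ ‖W‖ * ‖ψ‖ := W.le_opNorm ψ
      _ ≤ M := by rw [h.2.1, mul_one]; exact hM
  have h4 : W φ - ⟪φ, W φ⟫_ℂ • φ = (W χ - v • χ) - ⟪φ, W χ - v • χ⟫_ℂ • φ := by
    have h5 : W φ = v • φ + (W χ - v • χ) := by
      conv_lhs => rw [hφ]
      rw [map_add, map_smul, hW]
      conv_rhs => arg 1; rw [hφ]
      rw [smul_add, smul_comm]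
      abel
    rw [h5, inner_add_right, inner_smul_right, inner_self_one hφ1, add_smul, mul_one]
    abel
  rw [h4]
  calc ‖(W χ - v • χ) - ⟪φ, W χ - v • χ⟫_ℂ • φ‖ ≤ ‖W χ - v • χ‖ := norm_sub_inner_smul_le hφ1 _
    _ ≤ ‖W χ‖ + ‖v • χ‖ := norm_sub_le _ _
    _ ≤ M * ‖χ‖ + M * ‖χ‖ := by
        gcongr
        · exact (W.le_opNorm χ).trans (by gcongr)
        · rw [norm_smul]; gcongr
    _ = 2 * M * ‖χ‖ := by ring
    _ ≤ 2 * M * ((2 / g) * ‖r‖) := by gcongr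
    _ = _ := by ring

/-- the data of the flow problem -/
structure FlowData (S : Submodule ℂ E) (H V : E →L[ℂ] E) (w : ℝ → ℝ) (β : ℝ)
    (Ut : ℝ → E →L[ℂ] E) (Ψ : E) : Prop where
  hH : IsSelfAdjoint H
  hV : IsSelfAdjoint V
  hHS : ∀ x ∈ S, H x ∈ S
  hVS : ∀ x ∈ S, V x ∈ S
  hβ : 0 < β
  hw : IsBand w β
  hU : IsFlow (fun s => SS w (H + s • V) V) Ut
  hΨ : Ψ ∈ S
  hΨ1 : ‖Ψ‖ = 1

namespace FlowData

variable {H : E →L[ℂ] E} {w : ℝ → ℝ} {β : ℝ} {Ut : ℝ → E →L[ℂ] E} {Ψ : E}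

theorem hK (h : FlowData S H V w β Ut Ψ) (s : ℝ) : IsSelfAdjoint (H + s • V) :=
  isSelfAdjoint_add_smul h.hH h.hV s

theorem hKS (h : FlowData S H V w β Ut Ψ) (s : ℝ) : ∀ x ∈ S, (H + s • V) x ∈ S := by
  intro x hx
  have : (H + s • V) x = H x + (s : ℂ) • V x := by simp
  rw [this]
  exact S.add_mem (h.hHS x hx) (S.smul_mem _ (h.hVS x hx))

theorem hD (h : FlowData S H V w β Ut Ψ) (s : ℝ) :
    IsSelfAdjoint (SS w (H + s • V) V) := by
  rw [isSelfAdjoint_iff, star_SS (h.hK s), h.hV.star_eq]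

theorem hVhat (h : FlowData S H V w β Ut Ψ) (s : ℝ) :
    IsSelfAdjoint (Fl w (H + s • V) V) := by
  rw [isSelfAdjoint_iff, star_Fl (h.hK s), h.hV.star_eq]

theorem cV (h : FlowData S H V w β Ut Ψ) : Commute S.starProjection V :=
  commute_proj h.hV h.hVS

theorem cK (h : FlowData S H V w β Ut Ψ) (s : ℝ) : Commute S.starProjection (H + s • V) :=
  commute_proj (h.hK s) (h.hKS s)

theorem cD (h : FlowData S H V w β Ut Ψ) (s : ℝ) :
    Commute S.starProjection (SS w (H + s • V) V) :=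
  commute_SS h.hw.toIsFilter (h.hK s) (h.cK s) h.cV

theorem cU (h : FlowData S H V w β Ut Ψ) (s : ℝ) : Commute S.starProjection (Ut s) :=
  h.hU.commute h.hD h.cD s

theorem uU (h : FlowData S H V w β Ut Ψ) (s : ℝ) : Ut s ∈ unitary (E →L[ℂ] E) :=
  h.hU.mem_unitary h.hD s

theorem starU_mul (h : FlowData S H V w β Ut Ψ) (s : ℝ) : star (Ut s) * Ut s = 1 :=
  h.hU.star_mul_self h.hD s

theorem U_mul_star (h : FlowData S H V w β Ut Ψ) (s : ℝ) : Ut s * star (Ut s) = 1 :=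
  h.hU.self_mul_star h.hD s

theorem U_memS (h : FlowData S H V w β Ut Ψ) (s : ℝ) {x : E} (hx : x ∈ S) : Ut s x ∈ S :=
  mem_of_commute (h.cU s) hx

theorem inner_U (h : FlowData S H V w β Ut Ψ) (s : ℝ) (x y : E) :
    ⟪Ut s x, Ut s y⟫_ℂ = ⟪x, y⟫_ℂ := by
  have h1 : ⟪Ut s x, Ut s y⟫_ℂ = ⟪x, star (Ut s) (Ut s y)⟫_ℂ := by
    rw [ContinuousLinearMap.star_eq_adjoint, ContinuousLinearMap.adjoint_inner_right]
  have h2 : star (Ut s) (Ut s y) = y := congrArg (fun T : E →L[ℂ] E => T y) (h.starU_mul s)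
  rw [h1, h2]

theorem norm_U (h : FlowData S H V w β Ut Ψ) (s : ℝ) (x : E) : ‖Ut s x‖ = ‖x‖ := by
  have h1 := h.inner_U s x x
  rw [inner_self_eq_norm_sq_to_K, inner_self_eq_norm_sq_to_K] at h1
  have h2 : ((‖Ut s x‖ ^ 2 : ℝ) : ℂ) = ((‖x‖ ^ 2 : ℝ) : ℂ) := by simpa using h1
  have h3 : ‖Ut s x‖ ^ 2 = ‖x‖ ^ 2 := by exact_mod_cast h2
  exact (pow_left_inj₀ (norm_nonneg _) (norm_nonneg _) two_ne_zero).1 h3

/-- `h(s) = U_s^* H_s U_s`. -/
noncomputable def hs (H V : E →L[ℂ] E) (Ut : ℝ → E →L[ℂ] E) (s : ℝ) : E →L[ℂ] E :=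
  star (Ut s) * (H + s • V) * Ut s

/-- `h'(s) = U_s^* V^_s U_s` -/
noncomputable def hs' (H V : E →L[ℂ] E) (w : ℝ → ℝ) (Ut : ℝ → E →L[ℂ] E) (s : ℝ) : E →L[ℂ] E :=
  star (Ut s) * Fl w (H + s • V) V * Ut s

theorem deriv_hs (h : FlowData S H V w β Ut Ψ) (s : ℝ) :
    HasDerivAt (hs H V Ut) (hs' H V w Ut s) s :=
  hasDerivAt_h h.hH h.hV h.hw.toIsFilter h.hU s

theorem inner_hs (s : ℝ) (x y : E) :
    ⟪x, hs H V Ut s y⟫_ℂ = ⟪Ut s x, (H + s • V) (Ut s y)⟫_ℂ := by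
  have h1 : hs H V Ut s y = star (Ut s) ((H + s • V) (Ut s y)) := rfl
  rw [h1, ContinuousLinearMap.star_eq_adjoint, ContinuousLinearMap.adjoint_inner_right]

theorem inner_hs' (s : ℝ) (x y : E) :
    ⟪x, hs' H V w Ut s y⟫_ℂ = ⟪Ut s x, Fl w (H + s • V) V (Ut s y)⟫_ℂ := by
  have h1 : hs' H V w Ut s y = star (Ut s) (Fl w (H + s • V) V (Ut s y)) := rfl
  rw [h1, ContinuousLinearMap.star_eq_adjoint, ContinuousLinearMap.adjoint_inner_right]

/-- the energy `e(s) = ⟨U_s Ψ, H_s U_s Ψ⟩`. -/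
noncomputable def en (H V : E →L[ℂ] E) (Ut : ℝ → E →L[ℂ] E) (Ψ : E) (s : ℝ) : ℝ :=
  (⟪Ψ, hs H V Ut s Ψ⟫_ℂ).re

theorem re_inner_deriv (h : FlowData S H V w β Ut Ψ) (x : E) (s : ℝ) :
    HasDerivAt (fun s => (⟪x, hs H V Ut s x⟫_ℂ).re) (⟪x, hs' H V w Ut s x⟫_ℂ).re s := by
  have h1 : HasDerivAt (fun s => ⟪x, hs H V Ut s x⟫_ℂ) (⟪x, hs' H V w Ut s x⟫_ℂ) s := by
    have h2 := ((innerSL ℂ x).comp (ContinuousLinearMap.apply ℂ E x)).restrictScalars ℝ
      |>.hasFDerivAt.comp_hasDerivAt s (h.deriv_hs s)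
    exact h2
  have h3 := Complex.reCLM.hasFDerivAt.comp_hasDerivAt s h1
  exact h3

theorem inner_real (hK : IsSelfAdjoint K) (x : E) : ((⟪x, K x⟫_ℂ).re : ℂ) = ⟪x, K x⟫_ℂ := by
  have h1 : (starRingEnd ℂ) ⟪x, K x⟫_ℂ = ⟪x, K x⟫_ℂ := by
    rw [inner_conj_symm, inner_adj hK]
  exact (Complex.conj_eq_iff_re.1 h1)


theorem hs'_sa (h : FlowData S H V w β Ut Ψ) (s : ℝ) : IsSelfAdjoint (hs' H V w Ut s) := by
  rw [isSelfAdjoint_iff, hs', star_mul, star_mul, star_star, (h.hVhat s).star_eq,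
    mul_assoc]

/-- the residual vector -/
noncomputable def rho (H V : E →L[ℂ] E) (Ut : ℝ → E →L[ℂ] E) (Ψ : E) (s : ℝ) : E :=
  hs H V Ut s Ψ - (en H V Ut Ψ s : ℂ) • Ψ

theorem deriv_rho (h : FlowData S H V w β Ut Ψ) (s : ℝ) :
    HasDerivAt (rho H V Ut Ψ)
      (hs' H V w Ut s Ψ - (((⟪Ψ, hs' H V w Ut s Ψ⟫_ℂ).re : ℝ) : ℂ) • Ψ) s := by
  have h1 : HasDerivAt (fun s => hs H V Ut s Ψ) (hs' H V w Ut s Ψ) s := by
    have h2 := (ContinuousLinearMap.apply ℂ E Ψ).restrictScalars ℝ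
      |>.hasFDerivAt.comp_hasDerivAt s (h.deriv_hs s)
    exact h2
  have h3 : HasDerivAt (fun s => ((en H V Ut Ψ s : ℝ) : ℂ) • Ψ)
      ((((⟪Ψ, hs' H V w Ut s Ψ⟫_ℂ).re : ℝ) : ℂ) • Ψ) s :=
    ((h.re_inner_deriv Ψ s).ofReal_comp).smul_const Ψ
  exact h1.sub h3

theorem rho_eq (h : FlowData S H V w β Ut Ψ) (s : ℝ) :
    Ut s (rho H V Ut Ψ s) = (H + s • V) (Ut s Ψ) - (en H V Ut Ψ s : ℂ) • Ut s Ψ := by
  have h1 : hs H V Ut s Ψ = star (Ut s) ((H + s • V) (Ut s Ψ)) := rfl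
  have h2 : Ut s (star (Ut s) ((H + s • V) (Ut s Ψ))) = (H + s • V) (Ut s Ψ) :=
    congrArg (fun T : E →L[ℂ] E => T ((H + s • V) (Ut s Ψ))) (h.U_mul_star s)
  rw [rho, map_sub, map_smul, h1, h2]

theorem norm_rho_deriv (h : FlowData S H V w β Ut Ψ) (s : ℝ) :
    ‖hs' H V w Ut s Ψ - (((⟪Ψ, hs' H V w Ut s Ψ⟫_ℂ).re : ℝ) : ℂ) • Ψ‖ =
      ‖Fl w (H + s • V) V (Ut s Ψ) -
        ⟪Ut s Ψ, Fl w (H + s • V) V (Ut s Ψ)⟫_ℂ • Ut s Ψ‖ := by
  rw [inner_real (h.hs'_sa s), inner_hs', ← h.norm_U s]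
  congr 1
  have h1 : hs' H V w Ut s Ψ = star (Ut s) (Fl w (H + s • V) V (Ut s Ψ)) := rfl
  have h2 : Ut s (star (Ut s) (Fl w (H + s • V) V (Ut s Ψ))) = Fl w (H + s • V) V (Ut s Ψ) :=
    congrArg (fun T : E →L[ℂ] E => T (Fl w (H + s • V) V (Ut s Ψ))) (h.U_mul_star s)
  rw [map_sub, map_smul, h1, h2]

/-- bound for the filtered perturbation -/
theorem norm_Vhat (h : FlowData S H V w β Ut Ψ) (s : ℝ) :
    ‖Fl w (H + s • V) V‖ ≤ (∫ t, |w t|) * ‖V‖ := LR667.norm_Fl_le (h.hK s) V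

theorem norm_hs' (h : FlowData S H V w β Ut Ψ) (s : ℝ) :
    ‖hs' H V w Ut s‖ ≤ (∫ t, |w t|) * ‖V‖ := by
  rw [hs', mul_assoc, CStarRing.norm_mem_unitary_mul _ (Unitary.star_mem (h.uU s)),
    CStarRing.norm_mul_mem_unitary _ (h.uU s)]
  exact h.norm_Vhat s

theorem en_zero (h : FlowData S H V w β Ut Ψ) {g e : ℝ} (h0 : HasGapS S H g e Ψ) :
    en H V Ut Ψ 0 = e := by
  rw [en, inner_hs, h.hU.zero, zero_smul, add_zero]
  change (⟪Ψ, H Ψ⟫_ℂ).re = e
  rw [h0.2.2.1, inner_smul_right, inner_self_one h0.2.1]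
  simp

/-- Lipschitz bound of the energy -/
theorem en_sub_le (h : FlowData S H V w β Ut Ψ) {x y : ℝ} (hxy : x ≤ y) :
    |en H V Ut Ψ y - en H V Ut Ψ x| ≤ ((∫ t, |w t|) * ‖V‖) * (y - x) := by
  have hb : ∀ s, ‖(⟪Ψ, hs' H V w Ut s Ψ⟫_ℂ).re‖ ≤ (∫ t, |w t|) * ‖V‖ := by
    intro s
    have h1 := re_inner_le (hs' H V w Ut s) Ψ
    rw [h.hΨ1] at h1
    rw [Real.norm_eq_abs]
    have h2 := h.norm_hs' s
    nlinarith
  have h1 := (convex_Icc x y).norm_image_sub_le_of_norm_hasDerivWithin_le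
    (f := en H V Ut Ψ) (f' := fun s => (⟪Ψ, hs' H V w Ut s Ψ⟫_ℂ).re)
    (C := (∫ t, |w t|) * ‖V‖)
    (fun s _ => (h.re_inner_deriv Ψ s).hasDerivWithinAt) (fun s _ => hb s)
    (Set.left_mem_Icc.2 hxy) (Set.right_mem_Icc.2 hxy)
  rw [Real.norm_eq_abs, Real.norm_eq_abs, abs_of_nonneg (sub_nonneg.2 hxy)] at h1
  exact h1

/-- the local transport step -/
theorem step (h : FlowData S H V w β Ut Ψ) {x : ℝ} {g : ℝ}
    (hx : HasGapS S (H + x • V) g (en H V Ut Ψ x) (Ut x Ψ))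
    {y : ℝ} (hxy : x ≤ y)
    (h1 : β ≤ g - 2 * ((y - x) * ‖V‖))
    (h2 : ((∫ t, |w t|) * ‖V‖ + ‖V‖) * (y - x) ≤ β / 2) :
    HasGapS S (H + y • V) (g - 2 * ((y - x) * ‖V‖)) (en H V Ut Ψ y) (Ut y Ψ) := by
  set M : ℝ := (∫ t, |w t|) * ‖V‖ with hM
  have hM0 : 0 ≤ M := mul_nonneg (integral_nonneg fun t => abs_nonneg _) (norm_nonneg _)
  have hg0 : 0 ≤ g := by
    have : 0 ≤ (y - x) * ‖V‖ := mul_nonneg (sub_nonneg.2 hxy) (norm_nonneg _)
    linarith [h.hβ]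
  -- the gap at every intermediate point
  have hgap : ∀ r ∈ Set.Icc x y, ∃ e' ψ', HasGapS S (H + r • V) (g - 2 * ((y - x) * ‖V‖)) e' ψ' ∧
      en H V Ut Ψ x - (r - x) * ‖V‖ ≤ e' := by
    intro r hr
    have hd : ‖(H + r • V) - (H + x • V)‖ ≤ (r - x) * ‖V‖ := by
      have : (H + r • V) - (H + x • V) = (r - x) • V := by rw [sub_smul]; abel
      rw [this, norm_smul, Real.norm_eq_abs, abs_of_nonneg (sub_nonneg.2 hr.1)]
    obtain ⟨e', ψ', he'⟩ := hx.pert (h.hK r) (h.hKS r) hd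
    refine ⟨e', ψ', he'.mono ?_, ?_⟩
    · have : (r - x) * ‖V‖ ≤ (y - x) * ‖V‖ :=
        mul_le_mul_of_nonneg_right (by linarith [hr.2]) (norm_nonneg _)
      linarith
    · have h3 := hx.lower (h.hK x) hg0 he'.1
      have h4 : |(⟪ψ', (H + r • V) ψ'⟫_ℂ).re - (⟪ψ', (H + x • V) ψ'⟫_ℂ).re| ≤
          (r - x) * ‖V‖ := by
        rw [← sub_re, ← inner_sub_right]
        have h5 : (H + r • V) ψ' - (H + x • V) ψ' = ((H + r • V) - (H + x • V)) ψ' := rfl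
        rw [h5]
        refine (re_inner_le _ ψ').trans ?_
        rw [he'.2.1]
        linarith
      have h5 : (⟪ψ', (H + r • V) ψ'⟫_ℂ).re = e' := by
        rw [he'.2.2.1, inner_smul_right, inner_self_one he'.2.1]; simp
      rw [h5] at h4
      rw [he'.2.1] at h3
      have := abs_le.1 h4
      linarith [this.1]
  have hφ1 : ∀ r, ‖Ut r Ψ‖ = 1 := fun r => by rw [h.norm_U, h.hΨ1]
  have hφS : ∀ r, Ut r Ψ ∈ S := fun r => h.U_memS r h.hΨ
  -- closeness of the energies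
  have hclose : ∀ r ∈ Set.Icc x y, ∀ e', en H V Ut Ψ x - (r - x) * ‖V‖ ≤ e' →
      en H V Ut Ψ r ≤ e' + β / 2 := by
    intro r hr e' he'
    have h3 := (abs_le.1 (h.en_sub_le hr.1)).2
    have h4 : (M + ‖V‖) * (r - x) ≤ (M + ‖V‖) * (y - x) :=
      mul_le_mul_of_nonneg_left (by linarith [hr.2]) (by positivity)
    nlinarith
  -- Gronwall
  have hz : rho H V Ut Ψ y = 0 := by
    set C : ℝ := 4 * M / β with hC
    have hbound : ∀ r ∈ Set.Ico x y,
        ‖hs' H V w Ut r Ψ - (((⟪Ψ, hs' H V w Ut r Ψ⟫_ℂ).re : ℝ) : ℂ) • Ψ‖ ≤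
          C * ‖rho H V Ut Ψ r‖ + 0 := by
      intro r hr
      have hr' : r ∈ Set.Icc x y := ⟨hr.1, hr.2.le⟩
      obtain ⟨e', ψ', he', hle⟩ := hgap r hr'
      have he'' : HasGapS S (H + r • V) β e' ψ' := he'.mono h1
      have hground := Fl_ground (h.hK r) h.hβ le_rfl h.hw (h.hKS r) h.cV he''
      have h3 := residual_le (S := S) (K := H + r • V) h.hβ he'' hground (h.norm_Vhat r)
        (hφS r) (hφ1 r) (hclose r hr' e' hle)
      rw [h.norm_rho_deriv, add_zero]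
      refine h3.trans ?_
      rw [← h.rho_eq, h.norm_U]
    have h0 : rho H V Ut Ψ x = 0 := by
      have h3 : Ut x (rho H V Ut Ψ x) = 0 := by
        rw [h.rho_eq, hx.2.2.1, sub_self]
      have h4 := h.norm_U x (rho H V Ut Ψ x)
      rw [h3, norm_zero] at h4
      exact norm_eq_zero.1 h4.symm
    have h3 := norm_le_gronwallBound_of_norm_deriv_right_le (f := rho H V Ut Ψ)
      (f' := fun r => hs' H V w Ut r Ψ - (((⟪Ψ, hs' H V w Ut r Ψ⟫_ℂ).re : ℝ) : ℂ) • Ψ)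
      (δ := 0) (K := C) (ε := 0) (a := x) (b := y)
      (fun r _ => (h.deriv_rho r).continuousAt.continuousWithinAt)
      (fun r _ => (h.deriv_rho r).hasDerivWithinAt) (by rw [h0, norm_zero]) hbound
      y (Set.right_mem_Icc.2 hxy)
    rw [gronwallBound_ε0_δ0] at h3
    exact norm_le_zero_iff.1 h3
  have hy : y ∈ Set.Icc x y := Set.right_mem_Icc.2 hxy
  obtain ⟨e', ψ', he', hle⟩ := hgap y hy
  have heig : (H + y • V) (Ut y Ψ) = (en H V Ut Ψ y : ℂ) • Ut y Ψ := by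
    have h3 := h.rho_eq y
    rw [hz, map_zero] at h3
    exact (sub_eq_zero.1 h3.symm)
  have hgpos : 0 < g - 2 * ((y - x) * ‖V‖) := lt_of_lt_of_le h.hβ h1
  refine (he'.transfer (h.hK y) hgpos (hφS y) (hφ1 y) heig ?_).2
  have := hclose y hy e' hle
  linarith [h.hβ]

end FlowData

end Crest.Agent.R340.Flow644
end

-- ▼ part R340/FlowE_644
section

/-!
R340 (S0532), block L9a, part 5 (helper644): the bootstrap in the coupling constant.
Main theorem: `flow_main`.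
-/

set_option autoImplicit false
set_option linter.unusedSectionVars false

open scoped InnerProductSpace
open MeasureTheory Complex
open Crest.Agent.R340
open Crest.Agent.R340.LR667 (tau U Fl SS Tt IsFilter)

namespace Crest.Agent.R340.Flow644

variable {E : Type*} [NormedAddCommGroup E] [InnerProductSpace ℂ E] [CompleteSpace E]
variable {S : Submodule ℂ E} {H V : E →L[ℂ] E} [FiniteDimensional ℂ E]

namespace FlowData

variable {w : ℝ → ℝ} {γ : ℝ} {Ut : ℝ → E →L[ℂ] E} {Ψ : E}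

theorem en_deriv_eq (h : FlowData S H V w (γ / 2) Ut Ψ) {s e : ℝ}
    (hs1 : HasGapS S (H + s • V) (γ / 2) e (Ut s Ψ)) :
    (⟪Ψ, hs' H V w Ut s Ψ⟫_ℂ).re = (⟪Ut s Ψ, V (Ut s Ψ)⟫_ℂ).re := by
  have hground := Fl_ground (h.hK s) h.hβ le_rfl h.hw (h.hKS s) h.cV hs1
  rw [inner_hs', hground, inner_smul_right, inner_self_one hs1.2.1, mul_one]

/-- the boost: from gap `γ/2` on `[0, s₁]` and the relative bound to gap `3γ/4` at `s₁`. -/
theorem boost (h : FlowData S H V w (γ / 2) Ut Ψ) (hγ : 0 < γ)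
    (h0 : HasGapS S H γ 0 Ψ) {C : ℝ} {s1 : ℝ} (hs1 : 0 ≤ s1)
    (hCs : C * s1 ≤ 1 / 4)
    (hgap : ∀ s ∈ Set.Icc 0 s1, HasGapS S (H + s • V) (γ / 2) (en H V Ut Ψ s) (Ut s Ψ))
    (hUin : ∀ s ∈ Set.Icc 0 s1, ∀ χ ∈ S,
      |(⟪χ, hs' H V w Ut s χ⟫_ℂ).re - (⟪Ut s Ψ, V (Ut s Ψ)⟫_ℂ).re * ‖χ‖ ^ 2| ≤
        C * (⟪χ, H χ⟫_ℂ).re) :
    HasGapS S (H + s1 • V) (3 * γ / 4) (en H V Ut Ψ s1) (Ut s1 Ψ) := by
  have hs1' : s1 ∈ Set.Icc 0 s1 := Set.right_mem_Icc.2 hs1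
  have hg1 := hgap s1 hs1'
  refine ⟨hg1.1, hg1.2.1, hg1.2.2.1, ?_⟩
  intro χ' hχ' ho
  set χ := star (Ut s1) χ' with hχ
  have hUχ : Ut s1 χ = χ' := congrArg (fun T : E →L[ℂ] E => T χ') (h.U_mul_star s1)
  have hcs : Commute S.starProjection (star (Ut s1)) := by
    have h1 := (h.cU s1).star_star
    rwa [(isSelfAdjoint_starProjection S).star_eq] at h1
  have hχS : χ ∈ S := mem_of_commute hcs hχ'
  have hχo : ⟪Ψ, χ⟫_ℂ = 0 := by
    rw [← h.inner_U s1, hUχ, ho]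
  have hχn : ‖χ'‖ = ‖χ‖ := by rw [← hUχ, h.norm_U]
  set q : ℝ → ℝ := fun s => (⟪χ, hs H V Ut s χ⟫_ℂ).re - en H V Ut Ψ s * ‖χ‖ ^ 2 -
    (1 - C * s) * (⟪χ, H χ⟫_ℂ).re with hq
  have hqd : ∀ s, HasDerivAt q ((⟪χ, hs' H V w Ut s χ⟫_ℂ).re -
      (⟪Ψ, hs' H V w Ut s Ψ⟫_ℂ).re * ‖χ‖ ^ 2 - (-C) * (⟪χ, H χ⟫_ℂ).re) s := by
    intro s
    have h1 := h.re_inner_deriv χ s
    have h2 : HasDerivAt (fun s => en H V Ut Ψ s * ‖χ‖ ^ 2)
        ((⟪Ψ, hs' H V w Ut s Ψ⟫_ℂ).re * ‖χ‖ ^ 2) s := (h.re_inner_deriv Ψ s).mul_const _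
    have h3 : HasDerivAt (fun s : ℝ => 1 - C * s) (-C) s := by
      have := ((hasDerivAt_id s).const_mul C).const_sub 1
      simpa using this
    exact (h1.sub h2).sub (h3.mul_const _)
  have hmono : MonotoneOn q (Set.Icc 0 s1) := by
    refine monotoneOn_of_deriv_nonneg (convex_Icc 0 s1)
      (fun s _ => (hqd s).continuousAt.continuousWithinAt)
      (fun s _ => (hqd s).differentiableAt.differentiableWithinAt) ?_
    intro s hs
    rw [interior_Icc] at hs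
    have hs' : s ∈ Set.Icc 0 s1 := ⟨hs.1.le, hs.2.le⟩
    rw [(hqd s).deriv, h.en_deriv_eq (hgap s hs')]
    have := (abs_le.1 (hUin s hs' χ hχS)).1
    linarith
  have hq1 : q 0 ≤ q s1 := hmono (Set.left_mem_Icc.2 hs1) hs1' hs1
  have hq0 : q 0 = 0 := by
    simp only [hq]
    rw [h.en_zero h0, inner_hs, h.hU.zero, zero_smul, add_zero]
    change (⟪χ, H χ⟫_ℂ).re - 0 * ‖χ‖ ^ 2 - (1 - C * 0) * (⟪χ, H χ⟫_ℂ).re = 0
    ring
  rw [hq0] at hq1
  simp only [hq] at hq1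
  rw [inner_hs, hUχ] at hq1
  have h2 := h0.2.2.2 χ hχS hχo
  rw [zero_add] at h2
  rw [hχn]
  have h3 : (3 / 4) * (⟪χ, H χ⟫_ℂ).re ≤ (1 - C * s1) * (⟪χ, H χ⟫_ℂ).re := by
    refine mul_le_mul_of_nonneg_right (by linarith) ?_
    exact le_trans (by positivity) h2
  nlinarith

end FlowData

open FlowData

/-- **Gap stability along the spectral flow.** -/
theorem flow_main (hH : IsSelfAdjoint H) (hV : IsSelfAdjoint V) (hHS : ∀ x ∈ S, H x ∈ S)
    (hVS : ∀ x ∈ S, V x ∈ S) {γ : ℝ} (hγ : 0 < γ) {w : ℝ → ℝ} (hw : IsBand w (γ / 2)) {Ψ : E}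
    (h0 : HasGapS S H γ 0 Ψ) {C c : ℝ} (hc : 0 ≤ c) (hC : 0 ≤ C) (hCc : C * c ≤ 1 / 4)
    (hUin : ∀ Ut : ℝ → E →L[ℂ] E, FlowData S H V w (γ / 2) Ut Ψ →
      ∀ s1 ∈ Set.Icc 0 c,
      (∀ s ∈ Set.Icc 0 s1, HasGapS S (H + s • V) (γ / 2) (en H V Ut Ψ s) (Ut s Ψ)) →
      ∀ χ ∈ S,
        |(⟪χ, hs' H V w Ut s1 χ⟫_ℂ).re - (⟪Ut s1 Ψ, V (Ut s1 Ψ)⟫_ℂ).re * ‖χ‖ ^ 2| ≤
        C * (⟪χ, H χ⟫_ℂ).re) :
    ∃ (e : ℝ) (ψ : E), HasGapS S (H + c • V) (3 * γ / 4) e ψ := by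
  obtain ⟨Ut, hUt⟩ := exists_isFlow (continuous_SS hH hV hw.toIsFilter V)
  have h : FlowData S H V w (γ / 2) Ut Ψ :=
    ⟨hH, hV, hHS, hVS, by positivity, hw, hUt, h0.1, h0.2.1⟩
  set M : ℝ := (∫ t, |w t|) * ‖V‖ with hM
  have hM0 : 0 ≤ M := mul_nonneg (integral_nonneg fun t => abs_nonneg _) (norm_nonneg _)
  set δ : ℝ := γ / (8 * (M + ‖V‖ + 1)) with hδ
  have hδ0 : 0 < δ := by positivity
  have hδM : (M + ‖V‖ + 1) * δ = γ / 8 := by
    rw [hδ]; field_simp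
  have hδ1 : 2 * (δ * ‖V‖) ≤ γ / 4 := by nlinarith [norm_nonneg V]
  have hδ2 : (M + ‖V‖) * δ ≤ γ / 2 / 2 := by nlinarith [norm_nonneg V]
  have key : ∀ n : ℕ, ∀ s ∈ Set.Icc 0 c, s ≤ n * δ →
      HasGapS S (H + s • V) (3 * γ / 4) (en H V Ut Ψ s) (Ut s Ψ) := by
    intro n
    induction n with
    | zero =>
      intro s hs hsn
      have hs0 : s = 0 := le_antisymm (by simpa using hsn) hs.1
      subst hs0
      rw [h.en_zero h0, hUt.zero, zero_smul, add_zero]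
      exact h0.mono (by linarith)
    | succ n ih =>
      intro s hs hsn
      by_cases hle : s ≤ n * δ
      · exact ih s hs hle
      · have hlt : n * δ < s := lt_of_not_ge hle
        set x : ℝ := n * δ with hx
        have hx0 : 0 ≤ x := by positivity
        have hxc : x ∈ Set.Icc 0 c := ⟨hx0, hlt.le.trans hs.2⟩
        have hxg := ih x hxc le_rfl
        have hsx : s - x ≤ δ := by
          push_cast at hsn
          rw [add_mul, one_mul] at hsn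
          linarith
        have hall : ∀ r ∈ Set.Icc 0 s,
            HasGapS S (H + r • V) (γ / 2) (en H V Ut Ψ r) (Ut r Ψ) := by
          intro r hr
          rcases le_total r x with hrx | hrx
          · exact (ih r ⟨hr.1, hr.2.trans hs.2⟩ hrx).mono (by linarith)
          · have hrd : r - x ≤ δ := by linarith [hr.2]
            have h1 : (r - x) * ‖V‖ ≤ δ * ‖V‖ := mul_le_mul_of_nonneg_right hrd (norm_nonneg _)
            have h2 : (M + ‖V‖) * (r - x) ≤ (M + ‖V‖) * δ :=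
              mul_le_mul_of_nonneg_left hrd (by positivity)
            exact (h.step hxg hrx (by linarith) (h2.trans hδ2)).mono (by linarith)
        refine h.boost (C := C) hγ h0 hs.1 ?_ hall ?_
        · exact (mul_le_mul_of_nonneg_left hs.2 hC).trans hCc
        · intro r hr χ hχ
          exact hUin Ut h r ⟨hr.1, hr.2.trans hs.2⟩
            (fun t ht => hall t ⟨ht.1, ht.2.trans hr.2⟩) χ hχ
  obtain ⟨n, hn⟩ := exists_nat_ge (c / δ)
  refine ⟨_, _, key n c ⟨hc, le_rfl⟩ ?_⟩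
  rwa [div_le_iff₀ hδ0] at hn

end Crest.Agent.R340.Flow644
end

-- ▼ part R340/FlowOp_644
section

/-!
R340 (S0532), block L9 (helper644): the flow theorem on helper649's sealed operator algebra
`Op ι` of the Fock space.
-/

set_option autoImplicit false
set_option linter.unusedSectionVars false

open scoped InnerProductSpace
open MeasureTheory Complex
open Crest.Agent.R340
open Crest.Agent.R340.LR667 (tau U Fl SS Tt IsFilter)
open Crest.Agent.R340.Fock649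

namespace Crest.Agent.R340.Flow644

section alg

variable {A : Type*} [CStarAlgebra A]

theorem IsFlow.commute' {D U : ℝ → A} (h : IsFlow D U) (hUu : ∀ s, U s ∈ unitary A)
    (hD : ∀ s, IsSelfAdjoint (D s)) {P : A} (hP : ∀ s, Commute P (D s)) (s : ℝ) :
    Commute P (U s) := by
  have h1 := h.conj_const hD hP s
  have h2 : U s * (star (U s) * P * U s) = U s * P := by rw [h1]
  rw [← mul_assoc, ← mul_assoc, (Unitary.mem_iff.1 (hUu s)).2, one_mul] at h2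
  exact h2

end alg

variable {ι : Type*} [LinearOrder ι] [Fintype ι]

/-- `flow_main` on `Op ι`. -/
theorem flow_main_op {S : Submodule ℂ (Fk ι)} {H V : Op ι} (hH : IsSelfAdjoint H)
    (hV : IsSelfAdjoint V) (hHS : ∀ x ∈ S, H x ∈ S)
    (hVS : ∀ x ∈ S, V x ∈ S) {γ : ℝ} (hγ : 0 < γ) {w : ℝ → ℝ} (hw : IsBand w (γ / 2)) {Ψ : Fk ι}
    (h0 : HasGapS S H.ap γ 0 Ψ) {C c : ℝ} (hc : 0 ≤ c) (hC : 0 ≤ C) (hCc : C * c ≤ 1 / 4)
    (hUin : ∀ Ut : ℝ → Op ι, IsFlow (fun s => SS w (H + s • V) V) Ut →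
      (∀ s, Ut s ∈ unitary (Op ι)) →
      ∀ s1 ∈ Set.Icc 0 c,
      (∀ s ∈ Set.Icc 0 s1, ∃ e, HasGapS S (H + s • V).ap (γ / 2) e (Ut s Ψ)) →
      ∀ χ ∈ S,
        |(⟪χ, (star (Ut s1) * Fl w (H + s1 • V) V * Ut s1) χ⟫_ℂ).re -
          (⟪Ut s1 Ψ, V (Ut s1 Ψ)⟫_ℂ).re * ‖χ‖ ^ 2| ≤ C * (⟪χ, H χ⟫_ℂ).re) :
    ∃ (e : ℝ) (ψ : Fk ι), HasGapS S (H + c • V).ap (3 * γ / 4) e ψ := by
  refine flow_main (E := Fk ι) (S := S) (H := H.ap) (V := V.ap) hH hV hHS hVS hγ hw h0 hc hC hCc ?_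
  intro Ut hUt s1 hs1 hgap χ hχ
  exact hUin Ut ⟨hUt.hU.zero, hUt.hU.deriv⟩ hUt.uU s1 hs1 (fun s hs => ⟨_, hgap s hs⟩) χ hχ

end Crest.Agent.R340.Flow644
end

-- ▼ part R340/FlowLR_644
section

/-!
R340 (S0532), block L9b (helper644): Lieb-Robinson bound for the spectral flow.

`D_r = ∫ φ(z) Dz_r(z) dμ(z)` with `Dz_r(z)` even and quasi-local about `z`
(profile `K/(1+D)^(2m+14)`), `U' = i D_r U`.  Then conjugation by `U_s` preserves the profile class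
with the same exponent `m`.
-/

set_option autoImplicit false
set_option linter.unusedSectionVars false

open scoped ENNReal NNReal
open MeasureTheory

namespace Crest.Agent.R340.FlowLR644

open Crest.Agent.R340.QL331 Crest.Agent.R340.LR667 Crest.Agent.R340.DC867
open Crest.Agent.R340.Filt867 Crest.Agent.R340.Flow644

section weighted

variable {A : Type*} [CStarAlgebra A] {S ι : Type*}

/-- **Lieb-Robinson bound for a unitary flow, weighted sup-norm version** (no kernel). -/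
theorem lr_flow_w {V K : ℝ → A} {T : ℝ} (hV : ∀ t, V t ∈ unitary A) (hV0 : V 0 = 1)
    (hK : ∀ t, star (K t) = -K t)
    (hd : ∀ t ∈ Set.Icc 0 T, HasDerivAt V (V t * K t) t) {g : ι → S → A} {G : ℝ} (hG : 0 ≤ G)
    (hg : ∀ k z, ‖g k z‖ ≤ G)
    {ρ : S → ℝ} {δ : ℝ} (hδ : 0 < δ) (hρ : ∀ z, δ ≤ ρ z) {v : ℝ} (hv : 0 ≤ v)
    (hκ : ∀ t ∈ Set.Icc 0 T, ∀ (X : A) (P : ℝ), 0 ≤ P → (∀ k z, ‖⁅X, g k z⁆‖ ≤ P * ρ z) →
      ∀ k w, ‖⁅X, ⁅K t, g k w⁆⁆‖ ≤ v * P * ρ w)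
    {X : A} {C : ℝ} (hC : 0 ≤ C) (h0 : ∀ k z, ‖⁅X, g k z⁆‖ ≤ C * ρ z) {t : ℝ}
    (ht : t ∈ Set.Icc 0 T)
    (k : ι) (w : S) : ‖⁅star (V t) * X * V t, g k w⁆‖ ≤ C * Real.exp (v * t) * ρ w := by
  have hρ0 : ∀ z, 0 < ρ z := fun z => hδ.trans_le (hρ z)
  set R : ℝ := 2 * ‖X‖ * G / δ with hR
  have hR0 : 0 ≤ R := by positivity
  have hVn : ∀ t, ‖star (V t) * X * V t‖ = ‖X‖ := by
    intro t
    have h := norm_conj_unitary (Unitary.star_mem (hV t)) X
    rwa [star_star] at h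
  have key : ∀ n : ℕ, ∀ s ∈ Set.Icc 0 T, ∀ (k : ι) (w : S),
      ‖⁅star (V s) * X * V s, g k w⁆‖ ≤ maj v C R n s * ρ w := by
    intro n
    induction n with
    | zero =>
      intro s hs k w
      have h1 : ‖⁅star (V s) * X * V s, g k w⁆‖ ≤ 2 * ‖X‖ * G := by
        calc ‖⁅star (V s) * X * V s, g k w⁆‖ ≤ 2 * ‖star (V s) * X * V s‖ * ‖g k w‖ :=
              norm_lie_le _ _
          _ = 2 * ‖X‖ * ‖g k w‖ := by rw [hVn]
          _ ≤ 2 * ‖X‖ * G := by gcongr; exact hg k w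
      have h2 : 2 * ‖X‖ * G = R * δ := by rw [hR]; field_simp
      have h3 : maj v C R 0 s = R := by simp [maj]
      rw [h3]
      calc ‖⁅star (V s) * X * V s, g k w⁆‖ ≤ R * δ := h1.trans_eq h2
        _ ≤ R * ρ w := by gcongr; exact hρ w
    | succ n ih =>
      intro s hs k w
      have hd' : ∀ r ∈ Set.Icc 0 s, HasDerivAt (fun r => ⁅X, V r * g k w * star (V r)⁆)
          (⁅X, V r * ⁅K r, g k w⁆ * star (V r)⁆) r := by
        intro r hr
        have h1 := hd r ⟨hr.1, hr.2.trans hs.2⟩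
        have h2 : HasDerivAt (fun r => star (V r)) (star (V r * K r)) r := h1.star
        have h3 : HasDerivAt (fun r => V r * g k w * star (V r))
            (V r * ⁅K r, g k w⁆ * star (V r)) r := by
          refine ((h1.mul_const (g k w)).mul h2).congr_deriv ?_
          rw [star_mul, hK]
          simp only [Ring.lie_def, mul_sub, sub_mul, mul_neg, neg_mul, mul_assoc]
          abel
        simp only [Ring.lie_def] at h3 ⊢
        exact (h3.const_mul X).sub (h3.mul_const X)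
      have hb : ∀ r ∈ Set.Ico (0 : ℝ) s, ‖⁅X, V r * ⁅K r, g k w⁆ * star (V r)⁆‖ ≤
          v * maj v C R n r * ρ w := by
        intro r hr
        have hrT : r ∈ Set.Icc 0 T := ⟨hr.1, hr.2.le.trans hs.2⟩
        rw [← norm_lie_conj (hV r)]
        exact hκ r hrT _ _ (maj_nonneg hv hC hR0 n hr.1) (ih r hrT) k w
      have hB : ∀ r, HasDerivAt (fun r => maj v C R (n + 1) r * ρ w)
          (v * maj v C R n r * ρ w) r := fun r => (hasDerivAt_maj v C R n r).mul_const (ρ w)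
      have hfin := image_norm_le_of_norm_deriv_right_le_deriv_boundary
        (f := fun r => ⁅X, V r * g k w * star (V r)⁆) (a := 0) (b := s)
        (fun r hr => (hd' r hr).continuousAt.continuousWithinAt)
        (fun r hr => (hd' r ⟨hr.1, hr.2.le⟩).hasDerivWithinAt)
        (B := fun r => maj v C R (n + 1) r * ρ w) (B' := fun r => v * maj v C R n r * ρ w)
        (by
          simp only [hV0, star_one, one_mul, mul_one, maj_zero]
          exact h0 k w) hB hb (Set.right_mem_Icc.2 hs.1)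
      rw [norm_lie_conj (hV s)]
      exact hfin
  have hlim : Filter.Tendsto (fun n => maj v C R n t * ρ w) Filter.atTop
      (nhds (C * Real.exp (v * t) * ρ w)) := (tendsto_maj v C R t).mul_const (ρ w)
  exact ge_of_tendsto' hlim fun n => key n t ht k w

/-- reversing the flow: `V_r = U_s U_{s-r}^*` solves `V' = V (i D_{s-r})`, `V_s = U_s`. -/
theorem lr_isFlow {D U : ℝ → A} (hU : IsFlow D U) (hUu : ∀ s, U s ∈ unitary A)
    (hD : ∀ s, IsSelfAdjoint (D s)) {T : ℝ} {g : ι → S → A} {G : ℝ} (hG : 0 ≤ G)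
    (hg : ∀ k z, ‖g k z‖ ≤ G)
    {ρ : S → ℝ} {δ : ℝ} (hδ : 0 < δ) (hρ : ∀ z, δ ≤ ρ z) {v : ℝ} (hv : 0 ≤ v)
    (hκ : ∀ t ∈ Set.Icc 0 T, ∀ (X : A) (P : ℝ), 0 ≤ P → (∀ k z, ‖⁅X, g k z⁆‖ ≤ P * ρ z) →
      ∀ k w, ‖⁅X, ⁅D t, g k w⁆⁆‖ ≤ v * P * ρ w)
    {X : A} {C : ℝ} (hC : 0 ≤ C) (h0 : ∀ k z, ‖⁅X, g k z⁆‖ ≤ C * ρ z) {s : ℝ}
    (hs : s ∈ Set.Icc 0 T)
    (k : ι) (w : S) : ‖⁅star (U s) * X * U s, g k w⁆‖ ≤ C * Real.exp (v * s) * ρ w := by
  set V : ℝ → A := fun r => U s * star (U (s - r)) with hVdef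
  set K : ℝ → A := fun r => Complex.I • D (s - r) with hKdef
  have hV : ∀ t, V t ∈ unitary A := fun t => mul_mem (hUu s) (Unitary.star_mem (hUu _))
  have hV0 : V 0 = 1 := by
    simp only [hVdef, sub_zero]
    exact (Unitary.mem_iff.1 (hUu s)).2
  have hKs : ∀ t, star (K t) = -K t := by
    intro t
    simp only [hKdef, star_smul, (hD _).star_eq]
    simp
  have hd : ∀ t ∈ Set.Icc 0 s, HasDerivAt V (V t * K t) t := by
    intro t _
    have h1 : HasDerivAt (fun r => U (s - r)) (-((Complex.I • D (s - t)) * U (s - t))) t := by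
      have := (hU.deriv (s - t)).scomp t ((hasDerivAt_id t).const_sub s)
      simpa [Function.comp_def] using this
    have h2 := h1.star.const_mul (U s)
    refine h2.congr_deriv ?_
    simp only [hVdef, hKdef, star_neg, star_mul, star_smul, (hD _).star_eq]
    simp [mul_assoc]
  have h := lr_flow_w (V := V) (K := K) (T := s) hV hV0 hKs hd hG hg hδ hρ hv
    (fun t ht X P hP hX k w => by
      have h1 : ⁅X, ⁅K t, g k w⁆⁆ = Complex.I • ⁅X, ⁅D (s - t), g k w⁆⁆ := by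
        simp only [hKdef, smul_lie', lie_smul']
      rw [h1, norm_smul, Complex.norm_I, one_mul]
      exact hκ (s - t) ⟨sub_nonneg.2 ht.2, by linarith [ht.1, hs.2]⟩ X P hP hX k w) hC h0
    (Set.right_mem_Icc.2 hs.1) k w
  have hVs : V s = U s := by
    simp only [hVdef, sub_self, hU.zero, star_one, mul_one]
  rwa [hVs] at h

end weighted

section klein

variable {A V : Type*} [CStarAlgebra A] [NormedAddCommGroup V] [InnerProductSpace ℂ V]
  (R : Car A V) {G : Type*}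

theorem acomm_gen_an (u : Fin 2 → G → V) (k : Fin 2 × Bool) (w : G) (v : V) :
    ∃ c : ℂ, gen R u k w * R.an v + R.an v * gen R u k w = c • (1 : A) := by
  obtain ⟨k, b⟩ := k
  cases b
  · exact ⟨0, by rw [gen_false, R.an_an, zero_smul]⟩
  · exact ⟨_, by rw [gen_true, R.cr_an]⟩

theorem acomm_gen_cr (u : Fin 2 → G → V) (k : Fin 2 × Bool) (w : G) (v : V) :
    ∃ c : ℂ, gen R u k w * R.cr v + R.cr v * gen R u k w = c • (1 : A) := by
  obtain ⟨k, b⟩ := k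
  cases b
  · exact ⟨_, by rw [gen_false]; exact R.an_cr _ _⟩
  · exact ⟨0, by rw [gen_true, R.cr_cr, zero_smul]⟩

/-- `{[D,g],c} = -{g,[D,c]}` when `{g,c}` is a scalar -/
theorem norm_acomm_le {D g c : A} (hg : ‖g‖ ≤ 1) {z : ℂ} (h : g * c + c * g = z • (1 : A)) :
    ‖⁅D, g⁆ * c + c * ⁅D, g⁆‖ ≤ 2 * ‖⁅D, c⁆‖ := by
  have h1 : D * (g * c + c * g) = (g * c + c * g) * D := by
    rw [h, mul_smul_comm, smul_mul_assoc, one_mul, mul_one]
  have e : ⁅D, g⁆ * c + c * ⁅D, g⁆ = -(g * ⁅D, c⁆ + ⁅D, c⁆ * g) := by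
    have e2 : ⁅D, g⁆ * c + c * ⁅D, g⁆ + (g * ⁅D, c⁆ + ⁅D, c⁆ * g) =
        D * (g * c + c * g) - (g * c + c * g) * D := by
      simp only [Ring.lie_def]
      noncomm_ring
    rw [h1, sub_self] at e2
    exact eq_neg_of_add_eq_zero_left e2
  rw [e, norm_neg]
  calc ‖g * ⁅D, c⁆ + ⁅D, c⁆ * g‖ ≤ ‖g * ⁅D, c⁆‖ + ‖⁅D, c⁆ * g‖ := norm_add_le _ _
    _ ≤ ‖g‖ * ‖⁅D, c⁆‖ + ‖⁅D, c⁆‖ * ‖g‖ := add_le_add (norm_mul_le _ _) (norm_mul_le _ _)
    _ ≤ 1 * ‖⁅D, c⁆‖ + ‖⁅D, c⁆‖ * 1 := by gcongr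
    _ = _ := by ring

theorem cs_klein_le {u : Fin 2 → G → V} (hu : ∀ k z, ‖u k z‖ ≤ 1) (D : A) (k : Fin 2 × Bool)
    (w : G) (v : V) : R.cs (⁅D, gen R u k w⁆ * R.th) v ≤ 2 * R.cs D v := by
  unfold Car.cs
  rw [R.br_mul_th_an, R.br_mul_th_cr, norm_neg, norm_neg, norm_mul_th, norm_mul_th]
  obtain ⟨z1, h1⟩ := acomm_gen_an R u k w v
  obtain ⟨z2, h2⟩ := acomm_gen_cr R u k w v
  have h3 := norm_acomm_le (D := D) (norm_gen_le R hu k w) h1
  have h4 := norm_acomm_le (D := D) (norm_gen_le R hu k w) h2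
  have e : ∀ c : A, br D c = ⁅D, c⁆ := fun c => by rw [Ring.lie_def]; rfl
  rw [e, e]
  linarith

theorem par_gen (u : Fin 2 → G → V) (k : Fin 2 × Bool) (w : G) :
    R.par (gen R u k w) = - gen R u k w := by
  obtain ⟨k, b⟩ := k
  cases b
  · exact R.par_an _
  · exact R.par_cr _

theorem par_lie_gen {D : A} (hD : R.Ev D) (u : Fin 2 → G → V) (k : Fin 2 × Bool) (w : G) :
    R.par ⁅D, gen R u k w⁆ = - ⁅D, gen R u k w⁆ := by
  have hD' : R.par D = D := hD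
  rw [Ring.lie_def, Car.par_sub, Car.par_mul, Car.par_mul, hD', par_gen]
  noncomm_ring

end klein

section frame

variable {A V : Type*} [CStarAlgebra A] [NormedAddCommGroup V] [InnerProductSpace ℂ V]
  (R : Car A V) {G : Type*} {n : ℕ}
  (b : G → OrthonormalBasis (Fin n) ℂ V)

theorem E_of_ge {w : G} {L : ℕ} (h : n ≤ L) (y : A) : R.E (b w) L y = y := by
  have hl : far (b w) L = [] := by
    unfold far
    rw [List.map_eq_nil_iff, List.filter_eq_nil_iff]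
    intro j _
    have h1 : (j : ℕ) < n := j.2
    simp only [decide_eq_true_eq, not_le]
    omega
  rw [Car.E, hl, Car.ex_nil]

/-- constant of the double commutator bound -/
noncomputable def cDC (K Cf Cn : ℝ) (m : ℕ) : ℝ :=
  2 * Cn * K + 2 ^ (m + 8) * (K * (Cf + 1) * Cn)

/-- **Double commutator bound** `‖⁅X, ⁅Dz, gen k w⁆⁆‖` for `Dz` quasi-local about `z`. -/
theorem norm_dc_le (htop : ∀ a : A, a ∈ R.alg Set.univ) (hn : 0 < n)
    {u : Fin 2 → G → V} (hu : ∀ k z, ‖u k z‖ ≤ 1)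
    {D : G → G → ℝ} (hD0 : ∀ x y, 0 ≤ D x y)
    {m : ℕ} {Cf Cn : ℝ} (hCf : 0 ≤ Cf) (hCn : 0 ≤ Cn) (hfar : FarB R b u D (2 * m + 14) Cf)
    (hnear : NearB R b u D m Cn) {Dz : A} (hDz : R.Ev Dz) {z : G} {K : ℝ} (hK : 0 ≤ K)
    (hDp : ∀ k w, ‖⁅Dz, gen R u k w⁆‖ ≤ K / (1 + D w z) ^ (2 * m + 14))
    {X : A} {x : G} {P : ℝ} (hP : 0 ≤ P) (hX : ∀ k w, ‖⁅X, gen R u k w⁆‖ ≤ P / (1 + D w x) ^ m)
    (k : Fin 2 × Bool) (w : G) :
    ‖⁅X, ⁅Dz, gen R u k w⁆⁆‖ ≤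
      cDC K Cf Cn m * P / ((1 + D w z) ^ (m + 7) * (1 + D z x) ^ m) := by
  set Y : A := ⁅Dz, gen R u k w⁆ with hY
  have hYodd : R.par Y = -Y := par_lie_gen R hDz u k w
  set N : ℕ := m + 7 with hN
  have hp1 : 1 ≤ 1 + D w z := by linarith [hD0 w z]
  have hp2 : 0 < (1 + D z x) ^ m := by have := hD0 z x; positivity
  have hq : 0 < (1 + D w z) ^ N := by positivity
  have hYn : ‖Y‖ ≤ K / (1 + D w z) ^ (2 * N) := by
    have := hDp k w
    rwa [show 2 * m + 14 = 2 * N by omega] at this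
  -- truncations
  set y : ℕ → A := fun l => R.E (b z) (4 ^ l) (Y * R.th) with hy
  have hmem : ∀ l, y l * R.th ∈ R.nalg (b z) (4 ^ l) := fun l =>
    R.klein_mem (b z) htop (Nat.one_le_pow _ _ (by norm_num)) hn hYodd
  have hylast : y n = Y * R.th := E_of_ge R b (Nat.lt_pow_self (by norm_num)).le _
  have hfarY : ∀ l, ‖Y * R.th - y l‖ ≤ 2 * (Cf * K / 2 ^ ((2 * m + 10) * l)) := by
    intro l
    refine (R.norm_sub_E_le (b z) (4 ^ l) _).trans ?_
    have h1 : ∑ j ∈ farS n (4 ^ l), R.cs (Y * R.th) (b z j) ≤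
        2 * ∑ j ∈ farS n (4 ^ l), R.cs Dz (b z j) := by
      rw [Finset.mul_sum]
      exact Finset.sum_le_sum fun j _ => cs_klein_le R hu Dz k w (b z j)
    have h2 := hfar Dz z K hK hDp l
    rw [show 2 * m + 14 - 4 = 2 * m + 10 by omega] at h2
    linarith
  have hdist : ∀ l, ‖Y * R.th - y l‖ ≤ 2 * (K / (1 + D w z) ^ (2 * N)) := by
    intro l
    have h1 : ‖y l‖ ≤ ‖Y‖ := (R.norm_E_le (b z) _ _).trans_eq (norm_mul_th R Y)
    calc ‖Y * R.th - y l‖ ≤ ‖Y * R.th‖ + ‖y l‖ := norm_sub_le _ _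
      _ ≤ ‖Y‖ + ‖Y‖ := by rw [norm_mul_th]; gcongr
      _ ≤ _ := by linarith
  -- interpolation
  have hmix : ∀ l, ‖Y * R.th - y l‖ ≤
      2 * (K * (Cf + 1)) / (2 ^ ((m + 5) * l) * (1 + D w z) ^ N) := by
    intro l
    set a := ‖Y * R.th - y l‖ with ha
    have ha0 : 0 ≤ a := norm_nonneg _
    have h1 := hfarY l
    have h2 := hdist l
    rw [← ha] at h1 h2
    have e1 : (2 : ℝ) ^ ((2 * m + 10) * l) = (2 ^ ((m + 5) * l)) ^ 2 := by
      rw [← pow_mul]; congr 1; ring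
    have e2 : (1 + D w z) ^ (2 * N) = ((1 + D w z) ^ N) ^ 2 := by
      rw [← pow_mul]; congr 1; ring
    rw [e1] at h1
    rw [e2] at h2
    set p : ℝ := 2 ^ ((m + 5) * l) with hp
    set q : ℝ := (1 + D w z) ^ N with hqq
    have hp0 : 0 < p := by positivity
    have hq0 : 0 < q := hq
    rw [le_div_iff₀ (by positivity)]
    have h3 : a * p ^ 2 ≤ 2 * (Cf * K) := by
      rw [← mul_div_assoc, le_div_iff₀ (by positivity)] at h1; exact h1
    have h4 : a * q ^ 2 ≤ 2 * K := by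
      rw [← mul_div_assoc, le_div_iff₀ (by positivity)] at h2; exact h2
    -- (a p q)^2 ≤ (a p^2)(a q^2)
    have h5 : (a * (p * q)) ^ 2 ≤ (2 * (K * (Cf + 1))) ^ 2 := by
      calc (a * (p * q)) ^ 2 = (a * p ^ 2) * (a * q ^ 2) := by ring
        _ ≤ (2 * (Cf * K)) * (2 * K) := by gcongr
        _ ≤ _ := by nlinarith [mul_nonneg hK hCf, mul_nonneg hK hK,
                      mul_nonneg (mul_nonneg hK hK) hCf, mul_nonneg (mul_nonneg hK hCf) (mul_nonneg hK hCf)]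
    exact abs_le_of_sq_le_sq' h5 (by positivity) |>.2
  -- local commutators
  have hloc : ∀ l (y' : A), y' ∈ R.nalg (b z) (4 ^ l) →
      ‖⁅X, y'⁆‖ ≤ 2 * ‖y'‖ * (Cn * P * 2 ^ ((m + 4) * l) / (1 + D z x) ^ m) := by
    intro l y' hy'
    have h1 := R.norm_br_le_of_nalg (b z) hy' X
    have h2 := hnear X x P hP hX z l
    have e : br X y' = ⁅X, y'⁆ := by rw [Ring.lie_def]; rfl
    rw [e] at h1
    refine h1.trans ?_
    gcongr
  have htel : Y = y 0 * R.th + ∑ l ∈ Finset.range n, (y (l + 1) - y l) * R.th := by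
    rw [← Finset.sum_mul, Finset.sum_range_sub, ← add_mul]
    rw [add_sub_cancel, hylast, mul_assoc, R.th_sq, mul_one]
  have hsub : ∀ l, (y (l + 1) - y l) * R.th ∈ R.nalg (b z) (4 ^ (l + 1)) := by
    intro l
    rw [sub_mul]
    refine Subalgebra.sub_mem _ (hmem (l + 1)) ?_
    refine R.alg_mono ?_ (hmem l)
    rintro v ⟨j, hj, rfl⟩
    exact ⟨j, hj.trans_le (Nat.pow_le_pow_right (by norm_num) (Nat.le_succ l)), rfl⟩
  have hterm : ∀ l, ‖⁅X, (y (l + 1) - y l) * R.th⁆‖ ≤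
      2 ^ (m + 7) * (K * (Cf + 1) * Cn) * P / ((1 + D w z) ^ N * (1 + D z x) ^ m) *
        (1 / 2) ^ l := by
    intro l
    refine (hloc (l + 1) _ (hsub l)).trans ?_
    have h1 : ‖(y (l + 1) - y l) * R.th‖ ≤
        2 * (2 * (K * (Cf + 1)) / (2 ^ ((m + 5) * l) * (1 + D w z) ^ N)) := by
      rw [norm_mul_th]
      have e : y (l + 1) - y l = (Y * R.th - y l) - (Y * R.th - y (l + 1)) := by abel
      rw [e]
      have h2 := hmix l
      have h3 := hmix (l + 1)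
      have h4 : 2 * (K * (Cf + 1)) / (2 ^ ((m + 5) * (l + 1)) * (1 + D w z) ^ N) ≤
          2 * (K * (Cf + 1)) / (2 ^ ((m + 5) * l) * (1 + D w z) ^ N) := by
        gcongr
        · norm_num
        · omega
      calc _ ≤ ‖Y * R.th - y l‖ + ‖Y * R.th - y (l + 1)‖ := norm_sub_le _ _
        _ ≤ _ := by linarith
    have e1 : (2 : ℝ) ^ ((m + 4) * (l + 1)) = 2 ^ (m + 4) * 2 ^ ((m + 4) * l) := by
      rw [← pow_add]; congr 1; ring
    have e2 : (2 : ℝ) ^ ((m + 5) * l) = 2 ^ ((m + 4) * l) * 2 ^ l := by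
      rw [← pow_add]; congr 1; ring
    have e3 : (2 : ℝ) ^ (m + 7) = 8 * 2 ^ (m + 4) := by
      rw [show m + 7 = 3 + (m + 4) by omega, pow_add]; norm_num
    calc 2 * ‖(y (l + 1) - y l) * R.th‖ *
          (Cn * P * 2 ^ ((m + 4) * (l + 1)) / (1 + D z x) ^ m)
        ≤ 2 * (2 * (2 * (K * (Cf + 1)) / (2 ^ ((m + 5) * l) * (1 + D w z) ^ N))) *
          (Cn * P * 2 ^ ((m + 4) * (l + 1)) / (1 + D z x) ^ m) := by gcongr
      _ = _ := by
        rw [e1, e2, e3, one_div, inv_pow]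
        have h5 : (2 : ℝ) ^ ((m + 4) * l) ≠ 0 := by positivity
        have h6 : (2 : ℝ) ^ l ≠ 0 := by positivity
        have h7 := hq.ne'
        have h8 := hp2.ne'
        field_simp
        ring
  have h00 : ‖⁅X, y 0 * R.th⁆‖ ≤ 2 * Cn * K * P / ((1 + D w z) ^ N * (1 + D z x) ^ m) := by
    refine (hloc 0 _ (hmem 0)).trans ?_
    have h1 : ‖y 0 * R.th‖ ≤ K / (1 + D w z) ^ N := by
      rw [norm_mul_th]
      have h2 : ‖y 0‖ ≤ ‖Y‖ := (R.norm_E_le (b z) _ _).trans_eq (norm_mul_th R Y)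
      refine h2.trans (hYn.trans ?_)
      gcongr
      omega
    rw [mul_zero, pow_zero, mul_one]
    calc 2 * ‖y 0 * R.th‖ * (Cn * P / (1 + D z x) ^ m)
        ≤ 2 * (K / (1 + D w z) ^ N) * (Cn * P / (1 + D z x) ^ m) := by gcongr
      _ = _ := by field_simp
  rw [htel, lie_add']
  have hsum : ⁅X, ∑ l ∈ Finset.range n, (y (l + 1) - y l) * R.th⁆ =
      ∑ l ∈ Finset.range n, ⁅X, (y (l + 1) - y l) * R.th⁆ := by
    have h := map_sum (adR X) (fun l => (y (l + 1) - y l) * R.th) (Finset.range n)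
    simpa only [adR_apply] using h
  rw [hsum]
  have hC0 : 0 ≤ 2 ^ (m + 7) * (K * (Cf + 1) * Cn) * P / ((1 + D w z) ^ N * (1 + D z x) ^ m) := by
    positivity
  calc ‖⁅X, y 0 * R.th⁆ + ∑ l ∈ Finset.range n, ⁅X, (y (l + 1) - y l) * R.th⁆‖
      ≤ ‖⁅X, y 0 * R.th⁆‖ + ∑ l ∈ Finset.range n, ‖⁅X, (y (l + 1) - y l) * R.th⁆‖ :=
        (norm_add_le _ _).trans (by gcongr; exact norm_sum_le _ _)
    _ ≤ 2 * Cn * K * P / ((1 + D w z) ^ N * (1 + D z x) ^ m) + ∑ l ∈ Finset.range n,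
        2 ^ (m + 7) * (K * (Cf + 1) * Cn) * P / ((1 + D w z) ^ N * (1 + D z x) ^ m) *
          (1 / 2) ^ l := add_le_add h00 (Finset.sum_le_sum fun l _ => hterm l)
    _ ≤ 2 * Cn * K * P / ((1 + D w z) ^ N * (1 + D z x) ^ m) +
        2 ^ (m + 7) * (K * (Cf + 1) * Cn) * P / ((1 + D w z) ^ N * (1 + D z x) ^ m) * 2 := by
        rw [← Finset.mul_sum]
        gcongr
        have h := summable_geometric_two.sum_le_tsum (Finset.range n)
          (fun i _ => by positivity)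
        rwa [tsum_geometric_two] at h
    _ = _ := by
        rw [cDC, show m + 8 = 1 + (m + 7) by omega, pow_add]
        ring

variable [MeasurableSpace G] (μ : Measure G)

/-- **The spectral flow preserves the profile class, with the same exponent.** -/
theorem flow_profile (htop : ∀ a : A, a ∈ R.alg Set.univ) (hn : 0 < n)
    {u : Fin 2 → G → V} (hu : ∀ k z, ‖u k z‖ ≤ 1)
    {D : G → G → ℝ} (hD0 : ∀ x y, 0 ≤ D x y)
    (hDtri : ∀ x y z, D x z ≤ D x y + D y z) (hDb : ∃ B, ∀ x y, D x y ≤ B)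
    {Cs : ℝ} (hCs : 0 ≤ Cs)
    (hS : ∀ w, Integrable (fun z => 1 / (1 + D w z) ^ 3) μ ∧ ∫ z, 1 / (1 + D w z) ^ 3 ∂μ ≤ Cs)
    {m : ℕ} {Cf Cn : ℝ} (hCf : 0 ≤ Cf) (hCn : 0 ≤ Cn) (hfar : FarB R b u D (2 * m + 14) Cf)
    (hnear : NearB R b u D m Cn) {K : ℝ} (hK : 0 ≤ K) {T : ℝ} {Dz : ℝ → G → A}
    (hDz : ∀ r z, R.Ev (Dz r z))
    (hDp : ∀ r ∈ Set.Icc 0 T, ∀ z k w,
      ‖⁅Dz r z, gen R u k w⁆‖ ≤ K / (1 + D w z) ^ (2 * m + 14))
    {φ : G → ℝ} (hφ : ∀ z, |φ z| ≤ 1) {Dg : ℝ → A}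
    (hint : ∀ r ∈ Set.Icc 0 T, Integrable (fun z => φ z • Dz r z) μ)
    (hDg : ∀ r ∈ Set.Icc 0 T, Dg r = ∫ z, φ z • Dz r z ∂μ)
    (hDsa : ∀ r, IsSelfAdjoint (Dg r)) {U : ℝ → A} (hU : IsFlow Dg U)
    (hUu : ∀ s, U s ∈ unitary A)
    {X : A} {x : G} {P : ℝ} (hP : 0 ≤ P) (hX : ∀ k w, ‖⁅X, gen R u k w⁆‖ ≤ P / (1 + D w x) ^ m)
    {s : ℝ} (hs : s ∈ Set.Icc 0 T) (k : Fin 2 × Bool) (w : G) :
    ‖⁅star (U s) * X * U s, gen R u k w⁆‖ ≤
      P * Real.exp (Cs * cDC K Cf Cn m * s) / (1 + D w x) ^ m := by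
  obtain ⟨B, hB⟩ := hDb
  have hc0 : 0 ≤ cDC K Cf Cn m := by unfold cDC; positivity
  have hB0 : 0 ≤ B := (hD0 x x).trans (hB x x)
  have hpos : ∀ z y, 0 < 1 + D z y := fun z y => by linarith [hD0 z y]
  have h := lr_isFlow (g := gen R u) (G := 1) (T := T) hU hUu hDsa zero_le_one
    (norm_gen_le R hu)
    (ρ := fun z => 1 / (1 + D z x) ^ m) (δ := 1 / (1 + B) ^ m) (by positivity)
    (fun z => by
      have h1 := hpos z x
      have h2 := hB z x
      show 1 / (1 + B) ^ m ≤ 1 / (1 + D z x) ^ m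
      gcongr)
    (v := Cs * cDC K Cf Cn m) (by positivity)
    (by
      intro t ht Y Q hQ hY k w
      have hY' : ∀ k w, ‖⁅Y, gen R u k w⁆‖ ≤ Q / (1 + D w x) ^ m := fun k w => by
        have := hY k w; rwa [mul_one_div] at this
      have e1 : ⁅Y, ⁅Dg t, gen R u k w⁆⁆ = ∫ z, ⁅Y, ⁅φ z • Dz t z, gen R u k w⁆⁆ ∂μ := by
        rw [hDg t ht, integral_lie μ (hint t ht), lie_integral μ (integrable_lie μ (hint t ht) _)]
      rw [e1]
      have hbound : ∀ z, ‖⁅Y, ⁅φ z • Dz t z, gen R u k w⁆⁆‖ ≤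
          cDC K Cf Cn m * Q / (1 + D w x) ^ m * (1 / (1 + D w z) ^ 3) := by
        intro z
        have e2 : ⁅Y, ⁅φ z • Dz t z, gen R u k w⁆⁆ = φ z • ⁅Y, ⁅Dz t z, gen R u k w⁆⁆ := by
          simp only [Ring.lie_def, smul_mul_assoc, mul_smul_comm, ← smul_sub]
        rw [e2, norm_smul, Real.norm_eq_abs]
        have h2 := norm_dc_le R b htop hn hu hD0 hCf hCn hfar hnear (hDz t z) hK (hDp t ht z)
          hQ hY' k w
        calc |φ z| * ‖⁅Y, ⁅Dz t z, gen R u k w⁆⁆‖ ≤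
              1 * (cDC K Cf Cn m * Q / ((1 + D w z) ^ (m + 7) * (1 + D z x) ^ m)) := by
              gcongr
              exact hφ z
          _ ≤ cDC K Cf Cn m * Q / ((1 + D w x) ^ m * (1 + D w z) ^ 3) := by
              rw [one_mul]
              have p1 := hpos w z
              have p2 := hpos z x
              have p3 := hpos w x
              refine div_le_div_of_nonneg_left (by positivity) (by positivity) ?_
              have h3 : 1 + D w x ≤ (1 + D w z) * (1 + D z x) := by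
                nlinarith [hDtri w z x, mul_nonneg (hD0 w z) (hD0 z x)]
              have h4 : (1 + D w x) ^ m ≤ (1 + D w z) ^ m * (1 + D z x) ^ m := by
                rw [← mul_pow]; gcongr
              have h5 : (1 + D w z) ^ 3 ≤ (1 + D w z) ^ 7 :=
                pow_le_pow_right₀ (by linarith [hD0 w z]) (by norm_num)
              calc (1 + D w x) ^ m * (1 + D w z) ^ 3
                  ≤ ((1 + D w z) ^ m * (1 + D z x) ^ m) * (1 + D w z) ^ 7 := by gcongr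
                _ = (1 + D w z) ^ (m + 7) * (1 + D z x) ^ m := by rw [pow_add]; ring
          _ = _ := by rw [mul_one_div, div_div]
      calc ‖∫ z, ⁅Y, ⁅φ z • Dz t z, gen R u k w⁆⁆ ∂μ‖
          ≤ ∫ z, cDC K Cf Cn m * Q / (1 + D w x) ^ m * (1 / (1 + D w z) ^ 3) ∂μ :=
            norm_integral_le_of_norm_le ((hS w).1.const_mul _)
              (Filter.Eventually.of_forall hbound)
        _ = cDC K Cf Cn m * Q / (1 + D w x) ^ m * ∫ z, 1 / (1 + D w z) ^ 3 ∂μ :=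
            integral_const_mul _ _
        _ ≤ cDC K Cf Cn m * Q / (1 + D w x) ^ m * Cs := by
            have := hpos w x
            gcongr
            exact (hS w).2
        _ = _ := by ring)
    hP (fun k z => by rw [mul_one_div]; exact hX k z) hs k w
  rwa [mul_one_div] at h

end frame

end Crest.Agent.R340.FlowLR644
end

-- ▼ part R340/Top_644
section

/-!
R340 (S0532), block L9d, part 1 (helper644): the top step at fixed flux.

`V = ∫ φ(g) n(g) dν(g)`, `X_s(g) = U_s^* (Fl w H_s n(g) - ρ_s(g)) U_s` is in helper856's class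
`Fam`, kills `Ψ`, and `∫ φ X_s dν = U_s^* (Fl w H_s V) U_s - ⟨V⟩`; with theorem (U) and
`flow_main_op` the gap of `H + c V` is at least `3γ/4`.
-/

set_option autoImplicit false
set_option linter.unusedSectionVars false

open scoped InnerProductSpace
open MeasureTheory Complex
open Crest.Agent.R340
open Crest.Agent.R340.LR667 (tau U Fl SS Tt IsFilter)
open Crest.Agent.R340.Fock649
open Crest.Agent.R340.QL331 (fcar Car thF)
open Crest.Agent.R340.DC867 (gen nz star_nz gen_false gen_true norm_gen_le)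
open Crest.Agent.R340.Filt867 (FarB NearB FlL SSL Fl_star SS_star Fl_comm SS_comm Ev_SS)
open Crest.Agent.R340.Flow644
open Crest.Agent.R340.FlowLR644
open Crest.Agent.R340.U856 (Fam)

namespace Crest.Agent.R340.Top644

variable {ι : Type*} [LinearOrder ι] [Fintype ι]

section cont

variable {A V : Type*} [CStarAlgebra A] [NormedAddCommGroup V] [InnerProductSpace ℂ V]
  (R : Car A V)

theorem continuous_an : Continuous R.an := by
  have h : LipschitzWith 1 R.an := by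
    refine LipschitzWith.of_dist_le_mul fun v w => ?_
    rw [dist_eq_norm, dist_eq_norm, ← R.an_sub, NNReal.coe_one, one_mul]
    exact R.norm_an_le _
  exact h.continuous

theorem continuous_cr : Continuous R.cr := continuous_star.comp (continuous_an R)

theorem continuous_nz {G : Type*} [TopologicalSpace G] {u : Fin 2 → G → V}
    (huc : ∀ k, Continuous (u k)) : Continuous (nz R u) :=
  ((continuous_cr R).comp (huc 0)).mul ((continuous_an R).comp (huc 0))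

theorem norm_nz_le {G : Type*} {u : Fin 2 → G → V} (hu : ∀ k z, ‖u k z‖ ≤ 1) (z : G) :
    ‖nz R u z‖ ≤ 1 := by
  unfold DC867.nz
  have h1 := (R.norm_cr_le (u 0 z)).trans (hu 0 z)
  have h2 := (R.norm_an_le (u 0 z)).trans (hu 0 z)
  calc ‖R.cr (u 0 z) * R.an (u 0 z)‖ ≤ ‖R.cr (u 0 z)‖ * ‖R.an (u 0 z)‖ := norm_mul_le _ _
    _ ≤ 1 * 1 := by gcongr
    _ = 1 := one_mul 1

theorem ev_nz {G : Type*} (u : Fin 2 → G → V) (z : G) : R.Ev (nz R u z) :=
  R.ev_odd_mul_odd (R.par_cr _) (R.par_an _)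

end cont

section fock

theorem Nh_comm_nz {G : Type*} (u : Fin 2 → G → L ι) (z : G) :
    Commute (Nh : Op ι) (nz fcar u z) := by
  have h1 := Nh_comm_cr (ι := ι) (u 0 z)
  have h2 := Nh_comm_an (ι := ι) (u 0 z)
  have e : nz fcar u z = cr (u 0 z) * an (u 0 z) := by
    unfold DC867.nz
    rw [QL331.fcar_cr]
    rfl
  rw [e]
  show Nh * (cr (u 0 z) * an (u 0 z)) = cr (u 0 z) * an (u 0 z) * Nh
  have h3 : Nh * cr (u 0 z) = cr (u 0 z) * Nh + cr (u 0 z) := by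
    have h5 := sub_eq_iff_eq_add.1 h1
    rw [h5, add_comm]
  have h4 : Nh * an (u 0 z) = an (u 0 z) * Nh - an (u 0 z) := by
    have h5 := sub_eq_iff_eq_add.1 h2
    rw [h5]; abel
  calc Nh * (cr (u 0 z) * an (u 0 z)) = (Nh * cr (u 0 z)) * an (u 0 z) := by rw [mul_assoc]
    _ = cr (u 0 z) * (Nh * an (u 0 z)) + cr (u 0 z) * an (u 0 z) := by
        rw [h3, add_mul, mul_assoc]
    _ = _ := by rw [h4, mul_sub, mul_assoc]; abel

/-- operators commuting with the number operator preserve the sectors -/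
theorem sector_of_commute {N : ℕ} {X : Op ι} (hX : Commute Nh X) {v : Fk ι}
    (hv : v ∈ Bridge649.sector ι N) : X v ∈ Bridge649.sector ι N := by
  rw [Bridge649.mem_sector] at hv ⊢
  have h1 : Nh (X v) = X (Nh v) := by
    rw [← mul_ap, hX.eq, mul_ap]
  rw [h1, hv]
  exact X.ap.map_smul _ _

end fock

section pairing

/-- the complex-linear functional `A ↦ ⟪x, A y⟫` -/
noncomputable def mcf (x y : Fk ι) : Op ι →L[ℂ] ℂ :=
  (innerSL ℂ x).comp (ContinuousLinearMap.apply ℂ (Fk ι) y)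

theorem mcf_apply (x y : Fk ι) (A : Op ι) : mcf x y A = ⟪x, A y⟫_ℂ := rfl

end pairing

variable {G : Type*} [TopologicalSpace G] [CompactSpace G] [SecondCountableTopology G]
  [MeasurableSpace G] [BorelSpace G] (ν : Measure G) [IsFiniteMeasure ν]

theorem integrable_phi {A : Type*} [CStarAlgebra A] {φ : G → ℝ} (hφm : Measurable φ)
    (hφ1 : ∀ g, |φ g| ≤ 1) {Y : G → A} (hY : Continuous Y) :
    Integrable (fun g => φ g • Y g) ν := by
  have hYi : Integrable (fun g => ‖Y g‖) ν := by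
    exact (hY.norm).integrable_of_hasCompactSupport (HasCompactSupport.of_compactSpace _)
  refine hYi.mono' (hφm.aestronglyMeasurable.smul hY.aestronglyMeasurable) ?_
  refine Filter.Eventually.of_forall fun g => ?_
  rw [norm_smul, Real.norm_eq_abs]
  calc |φ g| * ‖Y g‖ ≤ 1 * ‖Y g‖ := by gcongr; exact hφ1 g
    _ = _ := one_mul _

/-- the constant of the class of `X_s(g)` -/
noncomputable def cX (w : ℝ → ℝ) (K Cs Cf Cn : ℝ) (m : ℕ) : ℝ :=
  (∫ t, |w t|) + 1 + K * Real.exp (Cs * cDC K Cf Cn m)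

theorem cX_pos {w : ℝ → ℝ} {K Cs Cf Cn : ℝ} {m : ℕ} (hK : 0 ≤ K) : 0 < cX w K Cs Cf Cn m := by
  have h1 : 0 ≤ ∫ t, |w t| := integral_nonneg fun t => abs_nonneg _
  have h2 : 0 ≤ K * Real.exp (Cs * cDC K Cf Cn m) := by positivity
  unfold cX
  linarith

theorem top_step {N : ℕ} {n : ℕ} (hn : 0 < n) (b : G → OrthonormalBasis (Fin n) ℂ (L ι))
    {u : Fin 2 → G → L ι} (hu : ∀ k z, ‖u k z‖ ≤ 1) (huc : ∀ k, Continuous (u k))
    {D : G → G → ℝ} (hD0 : ∀ x y, 0 ≤ D x y) (hDs : ∀ x y, D x y = D y x)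
    (hDtri : ∀ x y z, D x z ≤ D x y + D y z) (hDb : ∃ B, ∀ x y, D x y ≤ B)
    {Cs : ℝ} (hCs : 0 ≤ Cs)
    (hS : ∀ w, Integrable (fun z => 1 / (1 + D w z) ^ 3) ν ∧ ∫ z, 1 / (1 + D w z) ^ 3 ∂ν ≤ Cs)
    {m : ℕ} {Cf Cn : ℝ} (hCf : 0 ≤ Cf) (hCn : 0 ≤ Cn)
    (hfar : FarB (fcar : Car (Op ι) (L ι)) b u D (2 * m + 14) Cf)
    (hnear : NearB (fcar : Car (Op ι) (L ι)) b u D m Cn)
    {H V : Op ι} (hH : IsSelfAdjoint H) (hHN : Commute Nh H) (hHth : Commute H thF)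
    {φ : G → ℝ} (hφm : Measurable φ) (hφ1 : ∀ g, |φ g| ≤ 1)
    (hV : V = ∫ g, φ g • nz fcar u g ∂ν)
    {γ : ℝ} (hγ : 0 < γ) {w : ℝ → ℝ} (hw : IsBand w (γ / 2)) {Ψ : Fk ι}
    (h0 : HasGapS (Bridge649.sector ι N) H.ap γ 0 Ψ)
    {K : ℝ} (hK : 0 ≤ K)
    (hFl : ∀ s ∈ Set.Icc (0 : ℝ) 1, ∀ g k y,
      ‖⁅Fl w (H + s • V) (nz fcar u g), gen fcar u k y⁆‖ ≤ K / (1 + D y g) ^ m)
    (hSS : ∀ s ∈ Set.Icc (0 : ℝ) 1, ∀ g k y,
      ‖⁅SS w (H + s • V) (nz fcar u g), gen fcar u k y⁆‖ ≤ K / (1 + D y g) ^ (2 * m + 14))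
    {CU : ℝ} (hCU : 0 ≤ CU)
    (hUU : ∀ X : G → Op ι, Fam (fun k g => an (u k g)) D Nh m 1 X → (∀ x, X x Ψ = 0) →
      ∀ s : G → ℝ, Measurable s → (∀ x, |s x| ≤ 1) → ∀ χ ∈ Bridge649.sector ι N,
        |(⟪χ, (∫ x, (s x : ℂ) • X x ∂ν : Op ι) χ⟫_ℂ).re| ≤ CU * (⟪χ, H χ⟫_ℂ).re)
    {c : ℝ} (hc0 : 0 ≤ c) (hc1 : c ≤ 1) (hc : CU * cX w K Cs Cf Cn m * c ≤ 1 / 4) :
    ∃ (e : ℝ) (ψ : Fk ι), HasGapS (Bridge649.sector ι N) (H + c • V).ap (3 * γ / 4) e ψ := by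
  classical
  have hnzc : Continuous (nz (fcar : Car (Op ι) (L ι)) u) := continuous_nz _ huc
  have hVi : Integrable (fun g => φ g • nz (fcar : Car (Op ι) (L ι)) u g) ν :=
    integrable_phi ν hφm hφ1 hnzc
  have hVsa : IsSelfAdjoint V := by
    rw [isSelfAdjoint_iff, hV]
    have h := (starL' ℝ (A := Op ι)).integral_comp_comm (μ := ν)
      (fun g => φ g • nz (fcar : Car (Op ι) (L ι)) u g)
    have h2 : ∀ a : Op ι, (starL' ℝ (A := Op ι)) a = star a := fun _ => rfl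
    simp only [h2] at h
    rw [← h]
    congr 1
    funext g
    rw [star_smul, star_nz]
    simp
  have hVN : Commute Nh V := by
    rw [commute_iff_adL, hV, ← (LR667.adL (Nh : Op ι)).integral_comp_comm hVi]
    have h2 : ∀ g, LR667.adL (Nh : Op ι) (φ g • nz fcar u g) = 0 := fun g => by
      rw [map_smul, (commute_iff_adL _).1 (Nh_comm_nz u g), smul_zero]
    simp [h2]
  have hVth : Commute V thF := by
    have h1 : Commute (thF : Op ι) V := by
      rw [commute_iff_adL, hV, ← (LR667.adL (thF : Op ι)).integral_comp_comm hVi]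
      have h2 : ∀ g, LR667.adL (thF : Op ι) (φ g • nz fcar u g) = 0 := fun g => by
        have h3 : Commute (thF : Op ι) (nz fcar u g) :=
          ((Filt867.ev_iff_commute fcar).1 (ev_nz fcar u g)).symm
        rw [map_smul, (commute_iff_adL _).1 h3, smul_zero]
      simp [h2]
    exact h1.symm
  have hKsa : ∀ s : ℝ, IsSelfAdjoint (H + s • V) := fun s => isSelfAdjoint_add_smul hH hVsa s
  have hKN : ∀ s : ℝ, Commute (Nh : Op ι) (H + s • V) := fun s =>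
    hHN.add_right (hVN.smul_right s)
  have hKth : ∀ s : ℝ, Commute (H + s • V) (thF : Op ι) := fun s =>
    hHth.add_left (hVth.smul_left s)
  have hX0 := cX_pos (w := w) (K := K) (Cs := Cs) (Cf := Cf) (Cn := Cn) (m := m) hK
  refine flow_main_op (C := CU * cX w K Cs Cf Cn m) hH hVsa
    (fun x hx => sector_of_commute hHN hx) (fun x hx => sector_of_commute hVN hx) hγ hw h0 hc0
    (mul_nonneg hCU hX0.le) hc ?_
  intro Ut hUt hUu s1 hs1 hgap χ hχ
  have hs01 : s1 ∈ Set.Icc (0 : ℝ) 1 := ⟨hs1.1, hs1.2.trans hc1⟩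
  obtain ⟨e1, hg1⟩ := hgap s1 ⟨hs1.1, le_rfl⟩
  set K1 : Op ι := H + s1 • V with hK1
  have hK1sa : IsSelfAdjoint K1 := hKsa s1
  set ψ : Fk ι := Ut s1 Ψ with hψ
  -- the densities
  set ρ : G → ℝ := fun g => (⟪ψ, (nz fcar u g : Op ι) ψ⟫_ℂ).re with hρ
  have hnsa : ∀ g, IsSelfAdjoint (nz (fcar : Car (Op ι) (L ι)) u g) := fun g => star_nz _ _ _
  have hρc : ∀ g, ((ρ g : ℝ) : ℂ) = ⟪ψ, (nz fcar u g : Op ι) ψ⟫_ℂ := fun g =>
    FlowData.inner_real (K := (nz fcar u g : Op ι).ap) (hnsa g) ψ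
  have hρ1 : ∀ g, |ρ g| ≤ 1 := by
    intro g
    have h1 := re_inner_le (nz fcar u g : Op ι).ap ψ
    have h2 : ‖(nz fcar u g : Op ι).ap‖ ≤ 1 := norm_nz_le fcar hu g
    have h3 : ‖ψ‖ = 1 := hg1.2.1
    rw [h3] at h1
    calc |ρ g| ≤ ‖(nz fcar u g : Op ι).ap‖ * 1 ^ 2 := h1
      _ ≤ 1 := by rw [one_pow, mul_one]; exact h2
  have hρcont : Continuous ρ := by
    have h1 : Continuous fun g => mcf ψ ψ (nz fcar u g) := (mcf ψ ψ).continuous.comp hnzc
    exact Complex.continuous_re.comp h1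
  -- the flow commutes with the number operator
  have hDsa : ∀ s : ℝ, IsSelfAdjoint (SS w (H + s • V) V) := fun s => by
    rw [isSelfAdjoint_iff, SS_star hw.toIsFilter (hKsa s), hVsa.star_eq]
  have hDN : ∀ s : ℝ, Commute (Nh : Op ι) (SS w (H + s • V) V) := fun s =>
    (SS_comm hw.toIsFilter (hKsa s) (hKN s).symm hVN.symm).symm
  have hUN : Commute (Nh : Op ι) (Ut s1) := hUt.commute' hUu hDsa hDN s1
  have hUsN : Commute (Nh : Op ι) (star (Ut s1)) := by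
    have h1 := hUN.star_star
    have h2 : star (Nh : Op ι) = Nh := by
      rw [Nh_eq, star_diag]
      congr 1
      funext S
      simp
    rwa [h2] at h1
  have hUU1 : star (Ut s1) * Ut s1 = 1 := (Unitary.mem_iff.1 (hUu s1)).1
  -- the family
  set X : G → Op ι := fun g => star (Ut s1) *
    (Fl w K1 (nz fcar u g) - ((ρ g : ℝ) : ℂ) • (1 : Op ι)) * Ut s1 with hXdef
  have hXeq : ∀ g, X g = star (Ut s1) * Fl w K1 (nz fcar u g) * Ut s1 -
      ((ρ g : ℝ) : ℂ) • (1 : Op ι) := by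
    intro g
    simp only [hXdef, mul_sub, sub_mul, mul_smul_comm, smul_mul_assoc, mul_one, hUU1]
  have hprof : ∀ g k y, ‖⁅star (Ut s1) * Fl w K1 (nz fcar u g) * Ut s1, gen fcar u k y⁆‖ ≤
      K * Real.exp (Cs * cDC K Cf Cn m * s1) / (1 + D y g) ^ m := by
    intro g k y
    refine flow_profile (R := (fcar : Car (Op ι) (L ι))) (b := b) (μ := ν) QL331.alg_univ hn hu hD0
      hDtri hDb hCs hS hCf hCn hfar hnear hK (T := 1)
      (Dz := fun r z => SS w (H + r • V) (nz fcar u z))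
      (fun r z => Ev_SS fcar hw.toIsFilter (hKsa r) (hKth r) (ev_nz fcar u z))
      (fun r hr z k w' => hSS r hr z k w') hφ1
      (Dg := fun r => SS w (H + r • V) V) ?_ ?_ hDsa hUt hUu hK
      (fun k w' => hFl s1 hs01 g k w') hs01 k y
    · intro r _
      exact integrable_phi ν hφm hφ1
        ((SSL hw.toIsFilter (hKsa r)).continuous.comp hnzc)
    · intro r _
      have h1 := ((SSL hw.toIsFilter (hKsa r)).restrictScalars ℝ).integral_comp_comm hVi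
      have h2 : ∀ Y : Op ι, ((SSL hw.toIsFilter (hKsa r)).restrictScalars ℝ) Y =
          SS w (H + r • V) Y := fun Y => rfl
      rw [← hV, h2] at h1
      rw [← h1]
      congr 1
      funext z
      exact (ContinuousLinearMap.map_smul_of_tower
        ((SSL hw.toIsFilter (hKsa r)).restrictScalars ℝ) (φ z) (nz fcar u z))
  have hFam : Fam (fun k g => an (u k g)) D Nh m (cX w K Cs Cf Cn m) X := by
    have hI0 : 0 ≤ ∫ t, |w t| := integral_nonneg fun t => abs_nonneg _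
    have hE0 : 0 ≤ K * Real.exp (Cs * cDC K Cf Cn m) := by positivity
    refine ⟨?_, ?_, ?_, ?_, ?_⟩
    · have h1 : Continuous fun g => Fl w K1 (nz fcar u g) :=
        (FlL hw.toIsFilter hK1sa).continuous.comp hnzc
      have h2 : Continuous fun g => ((ρ g : ℝ) : ℂ) • (1 : Op ι) :=
        (Complex.continuous_ofReal.comp hρcont).smul continuous_const
      exact (continuous_const.mul (h1.sub h2)).mul continuous_const
    · intro g
      rw [isSelfAdjoint_iff, hXeq]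
      rw [star_sub, star_mul, star_mul, star_star, Fl_star hw.toIsFilter hK1sa, star_nz, star_smul,
        star_one, mul_assoc]
      simp
    · intro g
      have h1 : Commute (Nh : Op ι) (Fl w K1 (nz fcar u g)) :=
        (Fl_comm hw.toIsFilter hK1sa (hKN s1).symm (Nh_comm_nz u g).symm).symm
      have h2 : Commute (Nh : Op ι) (X g) := by
        refine (hUsN.mul_right (h1.sub_right ?_)).mul_right hUN
        exact (Commute.one_right _).smul_right _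
      exact h2.eq
    · intro g
      have h1 : ‖X g‖ = ‖Fl w K1 (nz fcar u g) - ((ρ g : ℝ) : ℂ) • (1 : Op ι)‖ := by
        simp only [hXdef]
        rw [CStarRing.norm_mul_mem_unitary _ (hUu s1),
          CStarRing.norm_mem_unitary_mul _ (Unitary.star_mem (hUu s1))]
      rw [h1]
      have h2 : ‖Fl w K1 (nz fcar u g)‖ ≤ ∫ t, |w t| := by
        refine (LR667.norm_Fl_le hK1sa _).trans ?_
        calc (∫ t, |w t|) * ‖nz (fcar : Car (Op ι) (L ι)) u g‖ ≤ (∫ t, |w t|) * 1 := by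
              gcongr
              exact norm_nz_le fcar hu g
          _ = _ := mul_one _
      have h3 : ‖((ρ g : ℝ) : ℂ) • (1 : Op ι)‖ ≤ 1 := by
        rw [norm_smul, Complex.norm_real, Real.norm_eq_abs, CStarRing.norm_one, mul_one]
        exact hρ1 g
      calc _ ≤ ‖Fl w K1 (nz fcar u g)‖ + ‖((ρ g : ℝ) : ℂ) • (1 : Op ι)‖ := norm_sub_le _ _
        _ ≤ (∫ t, |w t|) + 1 := add_le_add h2 h3
        _ ≤ _ := by unfold cX; linarith
    · intro g k y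
      have h1 : X g * an (u k y) - an (u k y) * X g =
          ⁅star (Ut s1) * Fl w K1 (nz fcar u g) * Ut s1, gen fcar u (k, false) y⁆ := by
        rw [hXeq, gen_false, Ring.lie_def]
        have h2 : (fcar : Car (Op ι) (L ι)).an (u k y) = an (u k y) := rfl
        rw [h2]
        simp only [sub_mul, mul_sub, smul_mul_assoc, mul_smul_comm, one_mul, mul_one]
        abel
      rw [h1]
      have hd : 0 < (1 + D g y) ^ m := by have := hD0 g y; positivity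
      have h2 := hprof g (k, false) y
      rw [hDs y g] at h2
      refine h2.trans (div_le_div_of_nonneg_right ?_ hd.le)
      have h3 : Real.exp (Cs * cDC K Cf Cn m * s1) ≤ Real.exp (Cs * cDC K Cf Cn m) := by
        apply Real.exp_le_exp.2
        have h4 : 0 ≤ Cs * cDC K Cf Cn m := by unfold cDC; positivity
        calc Cs * cDC K Cf Cn m * s1 ≤ Cs * cDC K Cf Cn m * 1 := by
              gcongr
              exact hs01.2
          _ = _ := mul_one _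
      calc K * Real.exp (Cs * cDC K Cf Cn m * s1) ≤ K * Real.exp (Cs * cDC K Cf Cn m) := by gcongr
        _ ≤ _ := by unfold cX; linarith
  -- it kills `Ψ`
  have hproj : ∀ Y : Op ι, IsSelfAdjoint Y → Commute Nh Y →
      Commute (Bridge649.sector ι N).starProjection Y.ap := fun Y hY hYN =>
    commute_proj (K := Y.ap) hY (fun x hx => sector_of_commute hYN hx)
  have hground : ∀ g, (Fl w K1 (nz fcar u g) : Op ι) ψ = ((ρ g : ℝ) : ℂ) • ψ := by
    intro g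
    have h1 := Fl_ground (E := Fk ι) (K := K1.ap) (V := (nz fcar u g : Op ι).ap)
      (S := Bridge649.sector ι N) hK1sa (β := γ / 2) (g := γ / 2) (by positivity) le_rfl hw
      (fun x hx => sector_of_commute (hKN s1) hx)
      (hproj _ (hnsa g) (Nh_comm_nz u g)) hg1
    rw [hρc g]
    exact h1
  have hkill : ∀ g, X g Ψ = 0 := by
    intro g
    have h1 : X g Ψ = star (Ut s1) ((Fl w K1 (nz fcar u g) : Op ι) ψ - ((ρ g : ℝ) : ℂ) • ψ) := by
      simp only [hXdef]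
      rw [mul_ap, mul_ap, sub_ap, smul_ap, one_ap]
    rw [h1, hground, sub_self]
    exact (star (Ut s1)).ap.map_zero
  -- scaling
  set r : ℝ := (cX w K Cs Cf Cn m)⁻¹ with hr
  have hr0 : 0 ≤ r := by positivity
  have hFam1 : Fam (fun k g => an (u k g)) D Nh m 1 (fun x => (r : ℂ) • X x) := by
    have h1 := hFam.smul hr0
    rwa [hr, inv_mul_cancel₀ hX0.ne'] at h1
  have hres := hUU _ hFam1 (fun x => by
    rw [smul_ap, hkill, smul_zero]) φ hφm hφ1 χ hχ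
  -- the integral
  have hXi : Integrable (fun x => (φ x : ℂ) • X x) ν := by
    have h1 := integrable_phi ν hφm hφ1 hFam.cont
    exact h1.congr (Filter.Eventually.of_forall fun g => (Complex.coe_smul _ _).symm)
  have hint1 : ∫ x, (φ x : ℂ) • ((r : ℂ) • X x) ∂ν = (r : ℂ) • ∫ x, (φ x : ℂ) • X x ∂ν := by
    rw [← integral_smul]
    congr 1
    funext x
    rw [smul_comm]
  have hint2 : (⟪χ, (∫ x, (φ x : ℂ) • X x ∂ν : Op ι) χ⟫_ℂ).re =
      (⟪χ, (star (Ut s1) * Fl w K1 V * Ut s1) χ⟫_ℂ).re - (⟪ψ, V ψ⟫_ℂ).re * ‖χ‖ ^ 2 := by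
    -- both sides are integrals
    have hFi : Integrable (fun x => (φ x : ℂ) •
        (star (Ut s1) * Fl w K1 (nz fcar u x) * Ut s1)) ν := by
      have h1 : Continuous fun x => star (Ut s1) * Fl w K1 (nz fcar u x) * Ut s1 :=
        (continuous_const.mul ((FlL hw.toIsFilter hK1sa).continuous.comp hnzc)).mul
          continuous_const
      exact (integrable_phi ν hφm hφ1 h1).congr
        (Filter.Eventually.of_forall fun g => (Complex.coe_smul _ _).symm)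
    have hV' : V = ∫ x, (φ x : ℂ) • nz fcar u x ∂ν := by
      rw [hV]
      congr 1
    have hVi' : Integrable (fun x => (φ x : ℂ) • nz (fcar : Car (Op ι) (L ι)) u x) ν := by
      exact hVi.congr (Filter.Eventually.of_forall fun g => (Complex.coe_smul _ _).symm)
    set T : Op ι →L[ℂ] Op ι := ((ContinuousLinearMap.mul ℂ (Op ι) (star (Ut s1))).comp
      (((ContinuousLinearMap.mul ℂ (Op ι)).flip (Ut s1)).comp (FlL hw.toIsFilter hK1sa))) with hT
    have hTap : ∀ Y, T Y = star (Ut s1) * Fl w K1 Y * Ut s1 := fun Y => by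
      rw [hT, mul_assoc]; rfl
    have h1 : star (Ut s1) * Fl w K1 V * Ut s1 =
        ∫ x, (φ x : ℂ) • (star (Ut s1) * Fl w K1 (nz fcar u x) * Ut s1) ∂ν := by
      have h2 := T.integral_comp_comm hVi'
      rw [← hV', hTap] at h2
      rw [← h2]
      congr 1
      funext x
      rw [T.map_smul, hTap]
    have h3 : ⟪ψ, V ψ⟫_ℂ = ∫ x, (φ x : ℂ) * ((ρ x : ℝ) : ℂ) ∂ν := by
      have h2 := (mcf ψ ψ).integral_comp_comm hVi'
      rw [← hV', mcf_apply] at h2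
      rw [← h2]
      congr 1
      funext x
      rw [map_smul, mcf_apply, hρc, smul_eq_mul]
    have hρi : Integrable (fun x => (φ x : ℂ) * ((ρ x : ℝ) : ℂ)) ν := by
      have h2 := (mcf ψ ψ).integrable_comp hVi'
      refine h2.congr (Filter.Eventually.of_forall fun g => ?_)
      simp only [map_smul, mcf_apply, hρc, smul_eq_mul]
    have h4 : ∫ x, (φ x : ℂ) • X x ∂ν = star (Ut s1) * Fl w K1 V * Ut s1 -
        ⟪ψ, V ψ⟫_ℂ • (1 : Op ι) := by
      rw [h1, h3]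
      have h5 : (∫ x, (φ x : ℂ) * ((ρ x : ℝ) : ℂ) ∂ν) • (1 : Op ι) =
          ∫ x, ((φ x : ℂ) * ((ρ x : ℝ) : ℂ)) • (1 : Op ι) ∂ν :=
        (integral_smul_const (fun x => (φ x : ℂ) * ((ρ x : ℝ) : ℂ)) (1 : Op ι)).symm
      rw [h5, ← integral_sub hFi (hρi.smul_const _)]
      congr 1
      funext x
      rw [hXeq, smul_sub, smul_smul]
    rw [h4, sub_ap, smul_ap, one_ap, inner_sub_right, inner_smul_right, Complex.sub_re]
    congr 1
    have h6 : ⟪χ, χ⟫_ℂ = ((‖χ‖ ^ 2 : ℝ) : ℂ) := by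
      rw [inner_self_eq_norm_sq_to_K]; push_cast; rfl
    rw [h6, Complex.re_mul_ofReal]
  rw [hint1, smul_ap, inner_smul_right, Complex.re_ofReal_mul, hint2, abs_mul,
    abs_of_nonneg hr0, hr] at hres
  have h7 : |(⟪χ, (star (Ut s1) * Fl w K1 V * Ut s1) χ⟫_ℂ).re - (⟪ψ, V ψ⟫_ℂ).re * ‖χ‖ ^ 2| ≤
      cX w K Cs Cf Cn m * (CU * (⟪χ, H χ⟫_ℂ).re) := by
    rwa [inv_mul_le_iff₀ hX0] at hres
  refine h7.trans (le_of_eq (by ring))

end Crest.Agent.R340.Top644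
end

-- ▼ part R340/Top2_644
section

/-!
R340 (S0532), block L9d, part 2 (helper644): the final assembly.

`s0532_of : UP m → (gap of HH Q above its zero modes) → EvoP m → EvoP (2m+14) → S0532`.
-/

set_option autoImplicit false
set_option linter.unusedSectionVars false

open scoped InnerProductSpace
open MeasureTheory Complex
open Crest.Agent.R340
open Crest.Agent.R340.LR667 (Fl SS IsFilter)
open Crest.Agent.R340.Fock649
open Crest.Agent.R340.QL331 (fcar Car thF)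
open Crest.Agent.R340.DC867 (gen nz star_nz gen_false gen_true norm_gen_le)
open Crest.Agent.R340.Filt867 (FarB NearB EvoHyp mom cEvo)
open Crest.Agent.R340.Flow644
open Crest.Agent.R340.FlowLR644
open Crest.Agent.R340.U856 (Fam FamQ UP PZ LΨ LΨ_mem LΨ_HH LΨ_ne uniq_PZ sm)
open Crest.Agent.R340.DLi482 (nuQ)
open Crest.Agent.R340.CS809 (U2 dQ dQ_nonneg dQ_comm dQ_triangle)
open Crest.Agent.R340.FI331 (fb uf norm_uf continuous_uf)
open Crest.Agent.R340.Br320 (HH star_HH)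
open Crest.MathPhysics.Laughlin

namespace Crest.Agent.R340.Top644

theorem exists_band {β : ℝ} (hβ : 0 < β) : ∃ w : ℝ → ℝ, IsBand w β := by
  obtain ⟨w, h1, _, h3, h4, h5⟩ := LR667.exists_filter hβ
  exact ⟨w, ⟨⟨h1, h3, h4⟩, h5⟩⟩

/-! ### the gap of the unperturbed Hamiltonian -/

theorem PZ_of_zero {Q : ℕ} {v : Fk (Fin (Q + 1))} (h : HH Q v = 0) : PZ Q v = v := by
  unfold U856.PZ GG467.PK
  exact GG467.pj_of_mem h

theorem gapS_laughlin {N : ℕ} {γ : ℝ}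
    (hgap : ∀ φ : Fk (Fin (3 * (N - 1) + 1)), PZ (3 * (N - 1)) φ = 0 →
      γ * ‖φ‖ ^ 2 ≤ (⟪φ, HH (3 * (N - 1)) φ⟫_ℂ).re) :
    ∃ Ψ : Fk (Fin (3 * (N - 1) + 1)), Ψ ∈ Br320.sector (Fin (3 * (N - 1) + 1)) N ∧
      HH (3 * (N - 1)) Ψ = 0 ∧ Ψ ≠ 0 ∧
      HasGapS (Bridge649.sector (Fin (3 * (N - 1) + 1)) N) (HH (3 * (N - 1))).ap γ 0 Ψ := by
  set L0 := LΨ N with hL0
  have hne : ‖L0‖ ≠ 0 := norm_ne_zero_iff.2 (LΨ_ne N)
  set Ψ : Fk (Fin (3 * (N - 1) + 1)) := ((‖L0‖⁻¹ : ℝ) : ℂ) • L0 with hΨ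
  have hΨs : Ψ ∈ Br320.sector (Fin (3 * (N - 1) + 1)) N :=
    Submodule.smul_mem _ _ (LΨ_mem N)
  have hΨn : ‖Ψ‖ = 1 := by
    rw [hΨ, norm_smul, Complex.norm_real, norm_inv, norm_norm, inv_mul_cancel₀ hne]
  have hΨ0 : HH (3 * (N - 1)) Ψ = 0 := by
    have h1 : HH (3 * (N - 1)) Ψ = ((‖L0‖⁻¹ : ℝ) : ℂ) • HH (3 * (N - 1)) L0 :=
      (HH (3 * (N - 1))).ap.map_smul _ _
    rw [h1, LΨ_HH, smul_zero]
  have hΨne : Ψ ≠ 0 := by
    intro h
    rw [h, norm_zero] at hΨn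
    exact zero_ne_one hΨn
  refine ⟨Ψ, hΨs, hΨ0, hΨne, ?_, hΨn, ?_, ?_⟩
  · exact BrEq649.mem_sector_eq.2 hΨs
  · show HH (3 * (N - 1)) Ψ = _
    rw [hΨ0, Complex.ofReal_zero, zero_smul]
  · intro χ hχ horth
    have hχ' : χ ∈ Br320.sector (Fin (3 * (N - 1) + 1)) N := BrEq649.mem_sector_eq.1 hχ
    obtain ⟨z, hz⟩ := uniq_PZ hΨs hΨ0 hΨne χ hχ'
    have h1 : ⟪Ψ, PZ (3 * (N - 1)) χ⟫_ℂ = ⟪Ψ, χ⟫_ℂ := by
      have h2 := inner_star_right (PZ (3 * (N - 1))) Ψ χ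
      have h3 : star (PZ (3 * (N - 1))) = PZ (3 * (N - 1)) := GG467.star_PK _
      rw [h3] at h2
      rw [h2, PZ_of_zero hΨ0]
    have hz0 : z = 0 := by
      rw [hz, inner_smul_right, inner_self_eq_norm_sq_to_K, hΨn, horth] at h1
      simpa using h1
    have h4 : PZ (3 * (N - 1)) χ = 0 := by rw [hz, hz0, zero_smul]
    have h5 := hgap χ h4
    rw [zero_add]
    exact h5

/-! ### the perturbation -/

/-- the perturbation `∫ φ(g) n(g) dν(g)` -/
noncomputable def VV (Q : ℕ) (φ : U2 → ℝ) : Op (Fin (Q + 1)) :=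
  ∫ g, φ g • nz fcar (uf Q) g ∂(nuQ Q)

theorem n0g_eq (Q : ℕ) (g : U2) :
    Rot303.n0g Q (g : Matrix (Fin 2) (Fin 2) ℂ) = nz fcar (uf Q) g := by
  have h0 : FI331.idx Q 0 = (0 : Fin (Q + 1)) := Fin.ext (by simp [FI331.idx])
  have h1 : uf Q 0 g = Fock649.mv (CS809.sp Q (g : Matrix (Fin 2) (Fin 2) ℂ)) (e 0) := by
    unfold FI331.uf FI331.vec
    rw [h0]
  unfold DC867.nz Rot303.n0g
  rw [QL331.fcar_cr, QL331.fcar_an, h1]

/-- the second quantised Toeplitz operator as perturbation -/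
theorem dG_toeplitz_VV {Q : ℕ} (hQ : 1 ≤ Q) {φ : S2 → ℝ} (hφ : Measurable φ)
    (hφ1 : ∀ x, |φ x| ≤ 1) :
    dG (toeplitz Q φ) = VV Q (fun g => ((Q : ℝ) + 1) / (2 * Q - 1) * φ (CS809.pt g)) := by
  have hQ' : (0 : ℝ) < 2 * (Q : ℝ) - 1 := by
    have : (1 : ℝ) ≤ Q := by exact_mod_cast hQ
    linarith
  rw [Rot303.dG_toeplitz hφ hφ1]
  unfold VV DLi482.nuQ
  rw [integral_smul_measure, ENNReal.toReal_ofReal hQ'.le, ← integral_smul]
  have h1 : ((Q : ℂ) + 1) = (((Q : ℝ) + 1 : ℝ) : ℂ) := by push_cast; rfl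
  rw [h1, ← integral_smul]
  refine integral_congr_ae (Filter.Eventually.of_forall fun g => ?_)
  simp only
  rw [n0g_eq, Complex.coe_smul, Complex.coe_smul, smul_smul, smul_smul]
  congr 1
  have hne : (2 * (Q : ℝ) - 1) * (((Q : ℝ) + 1) / (2 * Q - 1)) = (Q : ℝ) + 1 :=
    mul_div_cancel₀ _ hQ'.ne'
  rw [← mul_assoc, hne]

theorem VV_smul (Q : ℕ) (a : ℝ) (φ : U2 → ℝ) : VV Q (fun g => a * φ g) = a • VV Q φ := by
  unfold VV
  rw [← integral_smul]
  congr 1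
  funext g
  rw [smul_smul]

/-! ### profile of the density -/

theorem nz_profile {Q : ℕ} (hQ : 1 ≤ Q) {K : ℝ} {M : ℕ}
    (hK : ∀ t : ℝ, 0 ≤ t → 48 * Real.exp (-(t ^ 2 / 16)) ≤ K / (1 + t) ^ M)
    (g : U2) (k : Fin 2 × Bool) (y : U2) :
    ‖⁅nz (fcar : Car (Op (Fin (Q + 1))) (L (Fin (Q + 1)))) (uf Q) g, gen fcar (uf Q) k y⁆‖ ≤
      K / (1 + dQ Q y g) ^ M := by
  have hin : ∀ k : Fin 2, ‖(inner ℂ (uf Q k y) (uf Q 0 g) : ℂ)‖ ≤ K / (1 + dQ Q y g) ^ M := by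
    intro k
    refine (FI331.norm_inner_uf_le hQ k 0 y g).trans ?_
    refine le_trans ?_ (hK _ (dQ_nonneg Q y g))
    have := Real.exp_pos (-(dQ Q y g ^ 2 / 16))
    linarith
  have han : ∀ k : Fin 2, ‖⁅nz (fcar : Car (Op (Fin (Q + 1))) (L (Fin (Q + 1)))) (uf Q) g,
      fcar.an (uf Q k y)⁆‖ ≤ K / (1 + dQ Q y g) ^ M := by
    intro k
    rw [DC867.lie_n_an, norm_neg, norm_smul]
    have h1 : ‖(fcar : Car (Op (Fin (Q + 1))) (L (Fin (Q + 1)))).an (uf Q 0 g)‖ ≤ 1 :=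
      (fcar.norm_an_le _).trans (norm_uf Q 0 g).le
    calc _ ≤ ‖(inner ℂ (uf Q k y) (uf Q 0 g) : ℂ)‖ * 1 := by gcongr
      _ ≤ _ := by rw [mul_one]; exact hin k
  obtain ⟨k, b⟩ := k
  cases b
  · exact han k
  · have h1 := han k
    have h2 : ⁅nz (fcar : Car (Op (Fin (Q + 1))) (L (Fin (Q + 1)))) (uf Q) g,
        gen fcar (uf Q) (k, true) y⁆ =
        -star ⁅nz (fcar : Car (Op (Fin (Q + 1))) (L (Fin (Q + 1)))) (uf Q) g,
          fcar.an (uf Q k y)⁆ := by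
      rw [gen_true]
      have e1 : star (fcar.an (uf Q k y)) =
        (fcar : Car (Op (Fin (Q + 1))) (L (Fin (Q + 1)))).cr (uf Q k y) := rfl
      simp only [Ring.lie_def, star_sub, star_mul, star_nz, e1]
      abel
    rw [h2, norm_neg, norm_star]
    exact h1

/-! ### the final theorem -/

/-- evolution estimates for the perturbed Hamiltonians, uniformly in the flux -/
def EvoP (m : ℕ) : Prop :=
  ∃ (Q₀ : ℕ) (μ0 v C0 Cf Cn : ℝ), ∀ Q, Q₀ ≤ Q → ∀ φ : U2 → ℝ, Measurable φ → (∀ g, |φ g| ≤ 1) →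
    ∀ s ∈ Set.Icc (0 : ℝ) 1, ∃ κ,
      EvoHyp (fcar : Car (Op (Fin (Q + 1))) (L (Fin (Q + 1)))) (nuQ Q) (fb Q) (uf Q) (dQ Q)
        (HH Q + s • VV Q φ) κ μ0 v C0 Cf Cn m

theorem integrable_weight (Q : ℕ) (g : U2) :
    Integrable (fun z => 1 / (1 + dQ Q g z) ^ 3) (nuQ Q) := by
  have h0 : Continuous fun z : U2 => (g, z) := Continuous.prodMk continuous_const continuous_id
  have h1 : Continuous fun z => dQ Q g z := by
    have h3 := (FI331.continuous_dQ Q).comp h0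
    exact h3
  have h2 : Continuous fun z => 1 / (1 + dQ Q g z) ^ 3 := by
    refine continuous_const.div ((continuous_const.add h1).pow 3) fun z => ?_
    have := dQ_nonneg Q g z
    positivity
  exact U856.cint h2

/-- gap of the unperturbed Hamiltonian above its zero modes -/
def GapP (γ : ℝ) : Prop :=
  ∃ Q₀ : ℕ, ∀ Q, Q₀ ≤ Q → ∀ φ : Fk (Fin (Q + 1)), PZ Q φ = 0 →
    γ * ‖φ‖ ^ 2 ≤ (⟪φ, HH Q φ⟫_ℂ).re

theorem s0532_of {m : ℕ} {γ : ℝ} (hγ : 0 < γ) (hU : UP m) (hG : GapP γ) (hE1 : EvoP m)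
    (hE2 : EvoP (2 * m + 14)) :
    ∃ c₀ Δ : ℝ, 0 < c₀ ∧ 0 < Δ ∧ ∃ N₀ : ℕ, ∀ N : ℕ, N₀ ≤ N →
      ∀ φ : S2 → ℝ, Measurable φ → (∀ x, |φ x| ≤ 1) → ∀ c : ℝ, |c| ≤ c₀ →
        HasFermionicGap
          (interaction (3 * (N - 1)) N +
            (c : ℂ) • oneBody N (toeplitz (3 * (N - 1)) φ)) Δ := by
  classical
  obtain ⟨w, hw⟩ := exists_band (β := γ / 2) (by positivity)
  obtain ⟨q1, CU, hCU, hU⟩ := hU
  obtain ⟨q2, hG⟩ := hG
  obtain ⟨q3, μ1, v1, C1, Cf1, Cn1, hE1⟩ := hE1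
  obtain ⟨q4, μ2, v2, C2, Cf2, Cn2, hE2⟩ := hE2
  obtain ⟨K1, hK10, hK1⟩ := FI331.gauss_poly m
  obtain ⟨K2, hK20, hK2⟩ := FI331.gauss_poly (2 * m + 14)
  set K : ℝ := |cEvo v1 μ1 C1 Cf1 Cn1 m * mom w (m + 9) * K1| +
    |cEvo v2 μ2 C2 Cf2 Cn2 (2 * m + 14) * mom w (2 * m + 14 + 10) * K2| with hK
  have hK0 : 0 ≤ K := by positivity
  set Cf : ℝ := 4 * PD757.Kn (2 * m + 9 + 3) with hCf
  set Cn : ℝ := 2 * PD757.Ks m with hCn
  have hCf0 : 0 ≤ Cf := by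
    have := PD757.Kn_pos (2 * m + 9 + 3)
    rw [hCf]; positivity
  have hCn0 : 0 ≤ Cn := by
    have := PD757.Ks_pos m
    rw [hCn]; positivity
  set CX := cX w K 1 Cf Cn m with hCX
  have hCX0 : 0 < CX := cX_pos hK0
  set c0 : ℝ := min 1 (1 / (4 * (CU + 1) * CX)) with hc0
  have hc00 : 0 < c0 := by positivity
  refine ⟨c0, 3 * γ / 4, hc00, by positivity, q1 + q2 + q3 + q4 + 3, ?_⟩
  intro N hN φ hφ hφ1 c hc
  set Q := 3 * (N - 1) with hQdef
  have hQN : q1 + q2 + q3 + q4 + 2 ≤ Q := by omega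
  have hQ1 : 1 ≤ Q := by omega
  have hQ2 : 2 ≤ Q := by omega
  have hQr : (2 : ℝ) ≤ Q := by exact_mod_cast hQ2
  obtain ⟨Ψ, hΨs, hΨ0, hΨne, hgap⟩ := gapS_laughlin (N := N) (γ := γ) (fun φ h => hG _ (by omega) φ h)
  -- the density of the perturbation
  set sg : ℝ := if 0 ≤ c then 1 else -1 with hsg
  have hsgc : sg * |c| = c := by
    rw [hsg]
    split_ifs with h
    · rw [abs_of_nonneg h, one_mul]
    · rw [abs_of_neg (not_le.1 h)]; ring
  have hsg1 : |sg| = 1 := by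
    rw [hsg]
    split_ifs <;> simp
  set φ' : U2 → ℝ := fun g => sg * (((Q : ℝ) + 1) / (2 * Q - 1) * φ (CS809.pt g)) with hφ'
  have hφ'm : Measurable φ' := measurable_const.mul (measurable_const.mul
    (hφ.comp Rot303.measurable_pt))
  have hφ'1 : ∀ g, |φ' g| ≤ 1 := by
    intro g
    rw [hφ', abs_mul, abs_mul, hsg1, one_mul]
    have h1 : |((Q : ℝ) + 1) / (2 * Q - 1)| ≤ 1 := by
      rw [abs_of_nonneg (by apply div_nonneg <;> linarith), div_le_one (by linarith)]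
      linarith
    calc _ ≤ (1 : ℝ) * 1 := mul_le_mul h1 (hφ1 _) (abs_nonneg _) zero_le_one
      _ = 1 := one_mul 1
  have hVφ : (c : ℂ) • dG (toeplitz Q φ) = |c| • VV Q φ' := by
    rw [hφ', VV_smul, ← dG_toeplitz_VV hQ1 hφ hφ1, smul_smul, mul_comm, hsgc, Complex.coe_smul]
  have hE : ∀ s ∈ Set.Icc (0 : ℝ) 1, ∃ κ,
      EvoHyp (fcar : Car (Op (Fin (Q + 1))) (L (Fin (Q + 1)))) (nuQ Q) (fb Q) (uf Q) (dQ Q)
        (HH Q + s • VV Q φ') κ μ1 v1 C1 Cf1 Cn1 m := fun s hs =>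
    hE1 Q (by omega) φ' hφ'm hφ'1 s hs
  have hE' : ∀ s ∈ Set.Icc (0 : ℝ) 1, ∃ κ,
      EvoHyp (fcar : Car (Op (Fin (Q + 1))) (L (Fin (Q + 1)))) (nuQ Q) (fb Q) (uf Q) (dQ Q)
        (HH Q + s • VV Q φ') κ μ2 v2 C2 Cf2 Cn2 (2 * m + 14) := fun s hs =>
    hE2 Q (by omega) φ' hφ'm hφ'1 s hs
  have hHth : Commute (HH Q) (thF : Op (Fin (Q + 1))) := by
    obtain ⟨κ, h⟩ := hE 0 ⟨le_rfl, zero_le_one⟩
    have h1 := h.hth
    rw [zero_smul, add_zero] at h1
    exact h1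
  have hHN : Commute (Nh : Op (Fin (Q + 1))) (HH Q) := Bridge649.Nh_comm_HH Q
  obtain ⟨e, ψ, h⟩ := top_step (ν := nuQ Q) (N := N) (n := Q + 1) (Nat.succ_pos _) (fb Q)
    (u := uf Q) (fun k z => (norm_uf Q k z).le) (continuous_uf Q) (D := dQ Q)
    (dQ_nonneg Q) (dQ_comm Q) (dQ_triangle Q) ⟨_, FI331.dQ_le Q⟩ (Cs := 1) zero_le_one
    (fun g => ⟨integrable_weight Q g, FI331.int_le_nuQ hQ1 g zero_le_one
      (fun h => by have := dQ_nonneg Q g h; positivity) (fun h => le_rfl)⟩)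
    (m := m) hCf0 hCn0 (PD757.far_B fcar (2 * m + 9)) (PD757.near_B fcar m)
    (H := HH Q) (V := VV Q φ') (star_HH Q) hHN hHth hφ'm hφ'1 rfl hγ hw hgap hK0
    (fun s hs g k y => by
      obtain ⟨κ, h⟩ := hE s hs
      refine (h.Fl hw.toIsFilter (ev_nz fcar (uf Q) g) hK10 (nz_profile hQ1 hK1 g) k y).trans ?_
      have hd : 0 < (1 + dQ Q y g) ^ m := by have := dQ_nonneg Q y g; positivity
      refine div_le_div_of_nonneg_right ?_ hd.le
      refine (le_abs_self _).trans ?_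
      rw [hK]
      linarith [abs_nonneg (cEvo v2 μ2 C2 Cf2 Cn2 (2 * m + 14) * mom w (2 * m + 14 + 10) * K2)])
    (fun s hs g k y => by
      obtain ⟨κ, h⟩ := hE' s hs
      refine (h.SS hw.toIsFilter (ev_nz fcar (uf Q) g) hK20 (nz_profile hQ1 hK2 g) k y).trans ?_
      have hd : 0 < (1 + dQ Q y g) ^ (2 * m + 14) := by have := dQ_nonneg Q y g; positivity
      refine div_le_div_of_nonneg_right ?_ hd.le
      refine (le_abs_self _).trans ?_
      rw [hK]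
      linarith [abs_nonneg (cEvo v1 μ1 C1 Cf1 Cn1 m * mom w (m + 9) * K1)])
    hCU
    (fun X hX hXΨ s hs hs1 χ hχ =>
      hU N Q hQdef (by omega) Ψ hΨs hΨ0 hΨne X hX hXΨ s hs hs1 χ (BrEq649.mem_sector_eq.1 hχ))
    (c := |c|) (abs_nonneg c) (hc.trans (min_le_left _ _)) (by
      have h1 : |c| ≤ 1 / (4 * (CU + 1) * CX) := hc.trans (min_le_right _ _)
      calc CU * CX * |c| ≤ (CU + 1) * CX * (1 / (4 * (CU + 1) * CX)) := by
            gcongr
            linarith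
        _ = 1 / 4 := by field_simp)
  refine Br320.hasFermionicGap_of_sector ⟨e, ψ, BrEq649.mem_sector_eq.1 h.1, ?_, ?_, ?_⟩
  · intro h0
    have := h.2.1
    rw [h0, norm_zero] at this
    exact zero_ne_one this
  · have h1 := h.2.2.1
    unfold Br320.HT
    rw [hVφ]
    exact h1
  · intro χ hχ horth
    have h1 := h.2.2.2 χ (BrEq649.mem_sector_eq.2 hχ) horth
    unfold Br320.HT
    rw [hVφ]
    exact h1

end Crest.Agent.R340.Top644
end

-- ▼ part R340/FiltH_867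
section

/-!
The evolution theorem for `H = HH Q + s ∫ φ n dν`, `ν = (2Q-1) Haar`, `φ` a bounded measurable
function on `U(2)` (helper867; literal form of helper644's `EvoP`).
-/

set_option autoImplicit false
set_option linter.unusedSectionVars false
set_option linter.unusedVariables false

open scoped ENNReal NNReal Matrix InnerProductSpace
open MeasureTheory

namespace Crest.Agent.R340.Filt867

open Crest.Agent.R340.QL331 Crest.Agent.R340.LR667 Crest.Agent.R340.DC867 Crest.Agent.R340.PD757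
  Crest.Agent.R340.Fock649 Crest.Agent.R340.CS809 Crest.Agent.R340.Rot303 Crest.Agent.R340.FI331
  Crest.Agent.R340.GG467 Crest.Agent.R340.Br320 Crest.Agent.R340.Gam303
  Crest.Agent.R340.U856 Crest.Agent.R340.Avg814 Crest.MathPhysics.Laughlin
open Crest.Agent.R340.DLi482 (nuQ)

variable {Q : ℕ}

/-- `V = ∫ φ n dν` -/
noncomputable def Vn (Q : ℕ) (φ : U2 → ℝ) : Op (Fin (Q + 1)) :=
  ∫ g, φ g • nz (fcar : Car (Op (Fin (Q + 1))) _) (uf Q) g ∂(nuQ Q)

/-- the integrand -/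
noncomputable def Fn (Q : ℕ) (φ : U2 → ℝ) (s : ℝ) (z : U2) : Op (Fin (Q + 1)) :=
  (1 : ℝ) • (star (Bz (fcar : Car (Op (Fin (Q + 1))) _) (uf Q) z) *
    Bz (fcar : Car (Op (Fin (Q + 1))) _) (uf Q) z) +
    (s * φ z) • nz (fcar : Car (Op (Fin (Q + 1))) _) (uf Q) z

theorem nuQ_eq (Q : ℕ) : nuQ Q = ENNReal.ofReal (2 * (Q : ℝ) - 1) • hm := rfl

theorem integrable_nuQ {E : Type*} [NormedAddCommGroup E] {f : U2 → E} (hf : Integrable f hm) :
    Integrable f (nuQ Q) := by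
  rw [nuQ_eq]
  exact hf.smul_measure ENNReal.ofReal_ne_top

theorem integrable_nz {φ : U2 → ℝ} (hφ : Measurable φ) {C : ℝ} (hC : ∀ x, |φ x| ≤ C) :
    Integrable (fun z : U2 => φ z • nz (fcar : Car (Op (Fin (Q + 1))) _) (uf Q) z) hm := by
  have h1 : Integrable (fun z : U2 => n0g Q (z : Matrix (Fin 2) (Fin 2) ℂ)) hm :=
    Crest.Agent.R124.Haar.integrable_of_cont (N := Fin 2)
      (continuous_n0g.comp continuous_subtype_val)
  simp only [nz_eq]
  exact Integrable.bdd_smul (𝕜 := ℝ) h1 C hφ.aestronglyMeasurable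
    (Filter.Eventually.of_forall fun g => by rw [Real.norm_eq_abs]; exact hC _)

theorem integrable_Fn (hQ : 1 ≤ Q) {φ : U2 → ℝ} (hφ : Measurable φ) {C : ℝ}
    (hC : ∀ x, |φ x| ≤ C) (s : ℝ) : Integrable (Fn Q φ s) (nuQ Q) := by
  refine ((integrable_nuQ (integrable_BB hQ)).smul _).add ?_
  have h := (integrable_nuQ (Q := Q) (integrable_nz (Q := Q) hφ hC)).smul s
  refine h.congr (Filter.Eventually.of_forall fun z => ?_)
  simp only [Pi.smul_apply, smul_smul]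

theorem integral_Fn (hQ : 1 ≤ Q) {φ : U2 → ℝ} (hφ : Measurable φ) {C : ℝ}
    (hC : ∀ x, |φ x| ≤ C) (s : ℝ) : HH Q + s • Vn Q φ = ∫ z, Fn Q φ s z ∂(nuQ Q) := by
  have h1 : ∫ z, Fn Q φ s z ∂(nuQ Q) = (1 : ℝ) • ∫ z : U2,
      (star (Bz (fcar : Car (Op (Fin (Q + 1))) _) (uf Q) z) *
        Bz (fcar : Car (Op (Fin (Q + 1))) _) (uf Q) z) ∂(nuQ Q) +
      s • ∫ z : U2, φ z • nz (fcar : Car (Op (Fin (Q + 1))) _) (uf Q) z ∂(nuQ Q) := by
    rw [← integral_smul, ← integral_smul]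
    refine Eq.trans ?_ (integral_add ((integrable_nuQ (integrable_BB hQ)).smul (1 : ℝ))
      ((integrable_nuQ (Q := Q) (integrable_nz (Q := Q) hφ hC)).smul s))
    refine integral_congr_ae (Filter.Eventually.of_forall fun z => ?_)
    simp only [Fn, smul_smul]
  rw [h1, one_smul]
  congr 1
  simp only [Bz_eq hQ]
  exact (integral_Bg_measure_one (Q := Q) ⟨0, by omega⟩).symm

/-- kernel w.r.t. `nuQ` -/
noncomputable def kN (Q : ℕ) (w z : U2) : ℝ≥0∞ :=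
  ENNReal.ofReal (96 * Real.exp (-(dQ Q w z ^ 2 / 16)))

theorem schurN (hQ : 1 ≤ Q) (w : U2) :
    ∫⁻ z, kN Q w z * ENNReal.ofReal (Real.exp (1 * dQ Q w z)) ∂(nuQ Q) ≤ ENNReal.ofReal vG := by
  refine le_trans ?_ (schurG Q w)
  have hQ' : (1 : ℝ) ≤ Q := by exact_mod_cast hQ
  rw [nuQ_eq, lintegral_smul_measure, smul_eq_mul, ← lintegral_const_mul' _ _ ENNReal.ofReal_ne_top]
  refine lintegral_mono fun z => ?_
  rw [← mul_assoc]
  refine mul_le_mul' ?_ le_rfl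
  unfold kN kG
  rw [← ENNReal.ofReal_mul (by linarith)]
  refine ENNReal.ofReal_le_ofReal ?_
  have h := Real.exp_pos (-(dQ Q w z ^ 2 / 16))
  nlinarith

theorem dcN (hQ : 1 ≤ Q) {φ : U2 → ℝ} (hφ : Measurable φ) (h1 : ∀ x, |φ x| ≤ 1) {s : ℝ}
    (hs : |s| ≤ 1) (X : Op (Fin (Q + 1))) (k : Fin 2 × Bool) (w : U2) :
    ‖⁅X, ⁅HH Q + s • Vn Q φ, gen fcar (uf Q) k w⁆⁆‖ₑ ≤
      ∫⁻ z, kN Q w z * prof (gen fcar (uf Q)) X z ∂(nuQ Q) := by
  have hb : ∀ z : U2, ‖(1 : ℝ)‖ₑ ≤ ((1 : ℝ≥0) : ℝ≥0∞) := by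
    intro z; simp
  have hc : ∀ z : U2, ‖(s * φ z)‖ₑ ≤ ((1 : ℝ≥0) : ℝ≥0∞) := by
    intro z
    rw [← ofReal_norm]
    refine ENNReal.ofReal_le_of_le_toReal ?_
    rw [Real.norm_eq_abs, abs_mul]
    have h2 := h1 z
    have h3 : |s| * |φ z| ≤ 1 * 1 := by gcongr
    refine h3.trans (le_of_eq ?_)
    simp
  have h := dc fcar (nuQ Q) (u := uf Q) (fun k z => (norm_uf Q k z).le) (β := 1)
    (α := 1) (c := fun z => s * φ z)
    (b := fun _ => 1) hb hc (integrable_Fn hQ hφ h1 s) (H := HH Q + s • Vn Q φ)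
    (integral_Fn hQ hφ h1 s) X k w
  refine h.trans (lintegral_mono fun z => ?_)
  gcongr
  unfold kN
  calc (((3 * 1 + 1 : ℝ≥0) : ℝ≥0∞)) * kap0 (uf Q) (uf Q k.1 w) z
      ≤ ENNReal.ofReal 4 * ENNReal.ofReal (24 * Real.exp (-(dQ Q w z ^ 2 / 16))) := by
        refine mul_le_mul' ?_ (kap0_uf_le hQ k.1 w z)
        rw [← ENNReal.ofReal_coe_nnreal]
        refine ENNReal.ofReal_le_ofReal ?_
        push_cast
        norm_num
    _ = ENNReal.ofReal (96 * Real.exp (-(dQ Q w z ^ 2 / 16))) := by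
        rw [← ENNReal.ofReal_mul (by positivity)]
        congr 1
        ring

theorem star_Fn (φ : U2 → ℝ) (s : ℝ) (z : U2) : star (Fn Q φ s z) = Fn Q φ s z := by
  simp only [Fn, star_add, star_smul, star_trivial, star_mul, star_star, star_nz]

theorem HVn_sa (hQ : 1 ≤ Q) {φ : U2 → ℝ} (hφ : Measurable φ) {C : ℝ}
    (hC : ∀ x, |φ x| ≤ C) (s : ℝ) : IsSelfAdjoint (HH Q + s • Vn Q φ) := by
  show star _ = _
  rw [integral_Fn hQ hφ hC, star_integral_op]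
  exact integral_congr_ae (Filter.Eventually.of_forall fun z => star_Fn φ s z)

theorem n0g_comm_Nh (g : Matrix (Fin 2) (Fin 2) ℂ) : Commute (n0g Q g) Nh := by
  unfold n0g
  set v := Fock649.mv (sp Q g) (e 0)
  have h1 := Nh_comm_cr (ι := Fin (Q + 1)) v
  have h2 := Nh_comm_an (ι := Fin (Q + 1)) v
  have h3 : Nh * cr v = cr v * Nh + cr v := by rw [sub_eq_iff_eq_add.1 h1]; abel
  have h4 : Nh * an v = an v * Nh - an v := by rw [sub_eq_iff_eq_add.1 h2]; abel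
  symm
  calc Nh * (cr v * an v) = (Nh * cr v) * an v := by rw [mul_assoc]
    _ = cr v * (Nh * an v) + cr v * an v := by rw [h3, add_mul, mul_assoc]
    _ = _ := by rw [h4, mul_sub, mul_assoc]; abel

theorem Vn_comm_Nh {φ : U2 → ℝ} (hφ : Measurable φ) {C : ℝ} (hC : ∀ x, |φ x| ≤ C) :
    Commute (Vn Q φ) Nh := by
  have hi := integrable_nuQ (Q := Q) (integrable_nz (Q := Q) hφ hC)
  unfold Vn
  show (∫ g, φ g • nz (fcar : Car (Op (Fin (Q + 1))) _) (uf Q) g ∂(nuQ Q)) * Nh =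
    Nh * ∫ g, φ g • nz (fcar : Car (Op (Fin (Q + 1))) _) (uf Q) g ∂(nuQ Q)
  rw [mul_integral_op hi, integral_mul_op hi]
  refine integral_congr_ae (Filter.Eventually.of_forall fun z => ?_)
  simp only [nz_eq]
  rw [smul_mul_assoc, mul_smul_comm, (n0g_comm_Nh _).eq]

theorem HVn_comm_Nh {φ : U2 → ℝ} (hφ : Measurable φ) {C : ℝ} (hC : ∀ x, |φ x| ≤ C) (s : ℝ) :
    Commute (HH Q + s • Vn Q φ) Nh :=
  Commute.add_left (Crest.Agent.R340.Bridge649.Nh_comm_HH Q).symm ((Vn_comm_Nh hφ hC).smul_left s)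

/-- **All hypotheses of the evolution theorem for `HH Q + s ∫ φ n dν`.** -/
theorem evoN (hQ : 1 ≤ Q) {φ : U2 → ℝ} (hφ : Measurable φ) (h1 : ∀ x, |φ x| ≤ 1) {s : ℝ}
    (hs : |s| ≤ 1) (m : ℕ) :
    EvoHyp (fcar : Car (Op (Fin (Q + 1))) _) (nuQ Q) (fb Q) (uf Q) (dQ Q) (HH Q + s • Vn Q φ)
      (kN Q) 1 vG (12 * Real.exp 4) (4 * Kn (m + 7)) (2 * Ks m) m where
  htop := alg_univ
  hH := HVn_sa hQ hφ h1 s
  hth := commute_thF (HVn_comm_Nh hφ h1 s)
  hu k z := (norm_uf Q k z).le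
  hκ := dcN hQ hφ h1 hs
  hD0 := dQ_nonneg Q
  hDsymm := dQ_comm Q
  hDtri := dQ_triangle Q
  hDb := dQ_bdd Q
  hμ := one_pos
  hv := vG_nonneg
  hC0 := by positivity
  hS := schurN hQ
  hov := hovG hQ
  hCf := by have := Kn_pos (m + 7); positivity
  hCn := by have := Ks_pos m; positivity
  hfar := farB Q (m + 4)
  hnear := nearB Q m

/-- helper644's `EvoP m` -/
theorem evoP (m : ℕ) : ∃ (Q₀ : ℕ) (μ0 v C0 Cf Cn : ℝ), ∀ Q, Q₀ ≤ Q → ∀ φ : U2 → ℝ,
    Measurable φ → (∀ g, |φ g| ≤ 1) → ∀ s ∈ Set.Icc (0 : ℝ) 1, ∃ κ,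
    EvoHyp (fcar : Car (Op (Fin (Q + 1))) _) (nuQ Q) (fb Q) (uf Q) (dQ Q)
      (HH Q + s • ∫ g, φ g • nz fcar (uf Q) g ∂(nuQ Q)) κ μ0 v C0 Cf Cn m :=
  ⟨1, 1, vG, 12 * Real.exp 4, 4 * Kn (m + 7), 2 * Ks m, fun Q hQ φ hφ h1 s hs =>
    ⟨kN Q, evoN hQ hφ h1 (abs_le.2 ⟨by linarith [hs.1], hs.2⟩) m⟩⟩

end Crest.Agent.R340.Filt867
end

-- ▼ part R340/Top3_644
section

/-!
R340 (S0532), block L9d, part 3 (helper644): S0532 from theorem (U) (`UP m`) and the certificate.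
-/

set_option autoImplicit false

open Crest.Agent.R340
open Crest.Agent.R340.U856 (UP)
open Crest.MathPhysics.Laughlin
open MeasureTheory

namespace Crest.Agent.R340.Top644

theorem evoP (m : ℕ) : EvoP m := Filt867.evoP m

/-- the gap above the zero modes, from the certificate -/
theorem gapP_of_psd8 (h : Cert132.PSD 8 Cert132.G8 Cert132.B8 Cert132.A8) {γ : ℝ}
    (hγ' : γ < 479 / 10000) : GapP γ := DLi482.gap_of_psd8 h hγ'

/-- **S0532 from theorem (U)** (any one exponent `m`) and the certificate. -/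
theorem s0532_of_UP {m : ℕ} (h : Cert132.PSD 8 Cert132.G8 Cert132.B8 Cert132.A8) (hU : UP m) :
    ∃ c₀ Δ : ℝ, 0 < c₀ ∧ 0 < Δ ∧ ∃ N₀ : ℕ, ∀ N : ℕ, N₀ ≤ N →
      ∀ φ : S2 → ℝ, Measurable φ → (∀ x, |φ x| ≤ 1) → ∀ c : ℝ, |c| ≤ c₀ →
        HasFermionicGap
          (interaction (3 * (N - 1)) N +
            (c : ℂ) • oneBody N (toeplitz (3 * (N - 1)) φ)) Δ :=
  s0532_of (γ := 1 / 25) (by norm_num) hU (gapP_of_psd8 h (by norm_num)) (evoP m)
    (evoP (2 * m + 14))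

end Crest.Agent.R340.Top644
end

-- ▼ part R340/Fin_644

/-!
# R340 (S0532): final plug (helper644)

`sp_final` : (SP) from the gap; `s0532_of_psd` : S0532 from the local certificate.
-/

set_option autoImplicit false

namespace Crest.Agent.R340.Fin644

open MeasureTheory Crest.Agent.R340.Fock649 Crest.Agent.R340.Geo986 Crest.MathPhysics.Laughlin
open Crest.Agent.R340.Defs150

theorem sp_final {γ : ℝ} (hγ : 0 < γ) (hG : ∀ Q : ℕ, GapG (nu0 Q) Q γ) :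
    ∃ A S CS : ℝ, 1 < A ∧ A < S + 1 ∧ 0 ≤ CS ∧ SP 40 A S CS := by
  obtain ⟨⟨K1, hRC⟩, hRX, hRZ⟩ := LR667.exists_RC_RX_RZ hγ hG
  obtain ⟨KR, hRX⟩ := hRX 24 (by norm_num)
  obtain ⟨K3, hRZ⟩ := hRZ 24 (by norm_num)
  obtain ⟨κ, hκ, _, hG0⟩ := Peel3F924.exists_G0P hγ hG
  have hGZ : GZ κ := ⟨hκ, hG0⟩
  obtain ⟨KX, hTX⟩ := TX880.exists_TX_40_24 hγ hG
  obtain ⟨a0, ha0, hWP⟩ := K1in788.WP_RC (nW := 24) (by norm_num) hRC hRX hGZ
  have ha : 0 < min a0 (1 / 2) := lt_min ha0 (by norm_num)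
  have ha2 : min a0 (1 / 2) ≤ 1 / 2 := min_le_right _ _
  obtain ⟨R0, C0, hR0, hC0, hWP⟩ := hWP (min a0 (1 / 2)) ha (min_le_left _ _)
  obtain ⟨KT, hTZ⟩ := Tz877.exists_TZ hγ hG 23 (A := 1 + min a0 (1 / 2) / 2) (by linarith)
    (by linarith)
  obtain ⟨S, hS, h⟩ := SP735.SP_of hRC hRX hRZ hGZ hTZ hTX (hWP C0 le_rfl) (by linarith)
    (by linarith) (by norm_num) ha (by linarith) (by linarith) (by linarith) (by linarith)
    (by norm_num) (by norm_num)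
  exact ⟨_, S, 40, by linarith, hS, by norm_num, h 40 le_rfl⟩

/-- **S0532** from the local certificate. -/
theorem s0532_of_psd (h : Cert132.PSD 8 Cert132.G8 Cert132.B8 Cert132.A8) :
    ∃ c₀ Δ : ℝ, 0 < c₀ ∧ 0 < Δ ∧ ∃ N₀ : ℕ, ∀ N : ℕ, N₀ ≤ N →
      ∀ φ : S2 → ℝ, Measurable φ → (∀ x, |φ x| ≤ 1) → ∀ c : ℝ, |c| ≤ c₀ →
        HasFermionicGap
          (interaction (3 * (N - 1)) N +
            (c : ℂ) • oneBody N (toeplitz (3 * (N - 1)) φ)) Δ := by
  obtain ⟨γ, hγ, _, _, hG, _, _⟩ := Vac467.gap_forms_of_s0533 (γ := 1 / 25) (by norm_num)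
    (Kn249.s0533_of_psd h (1 / 25) (by norm_num) (by norm_num))
  obtain ⟨A, S, CS, hA, hAS, hCS, hSP⟩ := sp_final hγ hG
  exact Top644.s0532_of_UP h (U856.UP_of_SP h (k := 39) (by norm_num) hA hAS hCS hSP le_rfl)

end Crest.Agent.R340.Fin644
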