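import Crest.Agent.R340.U3_856
import Crest.Agent.R340.PD5_757
import Crest.Agent.R340.Prof_385

-- ▼ part R340/J3a_421
section

/-!
R340 (helper421): the `W`-part of the descending lemma, abstract half.

`W = ∫ s(x) X_x dν(x)`, `X ∈ Fam` (profile class of U3_856).  Frame modes `b g j` are coherent
integrals of the localized annihilators `a 0 z`.  Bounds on `[W, b g j]` (LOSS-W) and on
`A_g = [B_g, W]` and its commutators with the frame modes (input of R1q).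
-/

set_option autoImplicit false
set_option linter.unusedSectionVars false

namespace Crest.Agent.R340.J3421

open MeasureTheory
open Crest.Agent.R340.U856
open scoped InnerProductSpace ComplexConjugate

variable {𝒜 : Type*} [CStarAlgebra 𝒜]

section Alg


theorem smul_com (z : ℂ) (X Y : 𝒜) : (z • X) * Y - Y * (z • X) = z • (X * Y - Y * X) := by
  rw [mul_smul_comm, smul_mul_assoc, ← smul_sub]

theorem norm_com_star (X Y : 𝒜) : ‖star X * star Y - star Y * star X‖ = ‖X * Y - Y * X‖ := by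
  have h : star X * star Y - star Y * star X = - star (X * Y - Y * X) := by
    rw [star_sub, star_mul, star_mul]; abel
  rw [h, norm_neg, norm_star]

theorem norm_com_star_right {X : 𝒜} (hX : IsSelfAdjoint X) (Y : 𝒜) :
    ‖X * star Y - star Y * X‖ = ‖X * Y - Y * X‖ := by
  have h := norm_com_star X Y
  rwa [hX.star_eq] at h


end Alg

variable {G : Type*} [TopologicalSpace G] [CompactSpace G] [SecondCountableTopology G] [T2Space G]
  [MeasurableSpace G] [BorelSpace G] {ν : Measure G} [IsFiniteMeasure ν]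

section Int

theorem isfam {F : G → 𝒜} (hF : Continuous F) {s : G → ℝ} (hs : Measurable s)
    (hs1 : ∀ x, |s x| ≤ 1) : Integrable (fun x => (s x : ℂ) • F x) ν := by
  refine Integrable.mono' (g := fun x => ‖F x‖) (cint hF.norm) ?_ ?_
  · exact (Complex.measurable_ofReal.comp hs).aestronglyMeasurable.smul hF.aestronglyMeasurable
  · refine Filter.Eventually.of_forall fun x => ?_
    rw [norm_smul, Complex.norm_real, Real.norm_eq_abs]
    exact mul_le_of_le_one_left (norm_nonneg _) (hs1 x)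

/-- commutator of an integral with a fixed operator -/
theorem int_com {F : G → 𝒜} (hF : Integrable F ν) (Y : 𝒜) :
    (∫ x, F x ∂ν) * Y - Y * (∫ x, F x ∂ν) = ∫ x, (F x * Y - Y * F x) ∂ν := by
  have e1 : (∫ x, F x ∂ν) * Y = ∫ x, F x * Y ∂ν :=
    (((ContinuousLinearMap.mul ℂ 𝒜).flip Y).integral_comp_comm hF).symm
  have e2 : Y * (∫ x, F x ∂ν) = ∫ x, Y * F x ∂ν :=
    ((ContinuousLinearMap.mul ℂ 𝒜 Y).integral_comp_comm hF).symm
  rw [e1, e2, ← integral_sub]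
  · exact ((ContinuousLinearMap.mul ℂ 𝒜).flip Y).integrable_comp hF
  · exact (ContinuousLinearMap.mul ℂ 𝒜 Y).integrable_comp hF

theorem norm_int_le {F : G → 𝒜} {s : G → ℝ}
    (hs1 : ∀ x, |s x| ≤ 1) {f : G → ℝ} (hf : Integrable f ν) (h : ∀ x, ‖F x‖ ≤ f x) :
    ‖∫ x, (s x : ℂ) • F x ∂ν‖ ≤ ∫ x, f x ∂ν := by
  refine (norm_integral_le_integral_norm _).trans ?_
  refine integral_mono_of_nonneg (Filter.Eventually.of_forall fun x => norm_nonneg _) hf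
    (Filter.Eventually.of_forall fun x => ?_)
  simp only
  rw [norm_smul, Complex.norm_real, Real.norm_eq_abs]
  exact (mul_le_of_le_one_left (norm_nonneg _) (hs1 x)).trans (h x)

theorem norm_int_com_le {F : G → 𝒜} (hF : Continuous F) {s : G → ℝ} (hs : Measurable s)
    (hs1 : ∀ x, |s x| ≤ 1) (Y : 𝒜) {f : G → ℝ} (hf : Integrable f ν)
    (h : ∀ x, ‖F x * Y - Y * F x‖ ≤ f x) :
    ‖(∫ x, (s x : ℂ) • F x ∂ν) * Y - Y * (∫ x, (s x : ℂ) • F x ∂ν)‖ ≤ ∫ x, f x ∂ν := by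
  rw [int_com (isfam hF hs hs1)]
  have e : (fun x => ((s x : ℂ) • F x) * Y - Y * ((s x : ℂ) • F x)) =
      fun x => (s x : ℂ) • (F x * Y - Y * F x) := by
    funext x; rw [smul_com]
  rw [e]
  exact norm_int_le hs1 hf h

end Int

/-- frame modes as coherent integrals of the localized annihilators -/
structure Modes (ν : Measure G) (a : Fin 2 → G → 𝒜) {n : ℕ} (b : G → Fin n → 𝒜)
    (kr : G → Fin n → G → ℂ) : Prop where
  kcont : ∀ g j, Continuous (kr g j)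
  rep : ∀ g j, b g j = ∫ z, kr g j z • a 0 z ∂ν

section Main

variable {a : Fin 2 → G → 𝒜} {d : G → G → ℝ} {kap : G → G → ℝ} {Nh : 𝒜} {m : ℕ}
  {S₁ S₂ Ck : ℝ} {n : ℕ} {b : G → Fin n → 𝒜} {kr : G → Fin n → G → ℂ}



/-- pointwise: `(1+d)^-m ≤ (1+d)^-3` -/
theorem div_pow_le {C t : ℝ} (hC : 0 ≤ C) (ht : 0 ≤ t) {m k : ℕ} (h : k ≤ m) :
    C / (1 + t) ^ m ≤ C * ((1 + t) ^ k)⁻¹ := by
  rw [div_eq_mul_inv]
  refine mul_le_mul_of_nonneg_left ?_ hC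
  exact inv_anti₀ (by positivity) (pow_le_pow_right₀ (by linarith) h)

variable (F : Frame ν a d kap Nh m S₁ S₂ Ck)

include F

theorem cont_x (g : G) : Continuous fun x => d x g :=
  F.d_cont.comp (by fun_prop : Continuous fun x => ((x, g) : G × G))

theorem cont_inv_pow (g : G) (k : ℕ) : Continuous fun x => ((1 + d x g) ^ k)⁻¹ := by
  refine Continuous.inv₀ ((continuous_const.add (cont_x F g)).pow k) fun x => ?_
  have := F.d_nonneg x g
  positivity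

theorem Ck_nonneg (g : G) : 0 ≤ Ck :=
  (integral_nonneg (μ := ν) (f := fun x => ((1 + d x g) ^ 3)⁻¹)
    fun x => by have := F.d_nonneg x g; positivity).trans (F.schur3 g)

/-- `‖[W, a_k(z)]‖ ≤ C Ck` -/
theorem com_W_a (hm : 3 ≤ m) {C : ℝ} (hC : 0 ≤ C) {X : G → 𝒜} (hX : Fam a d Nh m C X)
    {s : G → ℝ} (hs : Measurable s) (hs1 : ∀ x, |s x| ≤ 1) (k : Fin 2) (z : G) :
    ‖(∫ x, (s x : ℂ) • X x ∂ν) * a k z - a k z * (∫ x, (s x : ℂ) • X x ∂ν)‖ ≤ C * Ck := by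
  refine (norm_int_com_le hX.cont hs hs1 (a k z)
    (f := fun x => C * ((1 + d x z) ^ 3)⁻¹) (cint (continuous_const.mul (cont_inv_pow F z 3))) ?_).trans ?_
  · intro x
    exact (hX.com x k z).trans (div_pow_le hC (F.d_nonneg x z) hm)
  · rw [integral_const_mul]
    exact mul_le_mul_of_nonneg_left (F.schur3 z) hC



/-! ### the jump commutator `A_g = [B_g, W]` -/

/-- `A_g = ∫ s(x) [B_g, X_x] dν(x)` -/
theorem Ag_eq {C : ℝ} {X : G → 𝒜}
    (hX : Fam a d Nh m C X) {s : G → ℝ} (hs : Measurable s) (hs1 : ∀ x, |s x| ≤ 1) (g : G) :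
    pB a g * (∫ x, (s x : ℂ) • X x ∂ν) - (∫ x, (s x : ℂ) • X x ∂ν) * pB a g =
      ∫ x, (s x : ℂ) • TT (pB a) X g x ∂ν := by
  rw [← neg_sub, int_com (isfam hX.cont hs hs1), ← integral_neg]
  refine integral_congr_ae (Filter.Eventually.of_forall fun x => ?_)
  simp only [TT]
  rw [smul_com, ← smul_neg, neg_sub]

theorem cont_TT {C : ℝ} {X : G → 𝒜} (hX : Fam a d Nh m C X) (g : G) :
    Continuous fun x => TT (pB a) X g x :=
  (continuous_TT F.pB_cont hX.cont).comp (by fun_prop : Continuous fun x => ((x, g) : G × G))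

/-- `‖A_g‖ ≤ 2 C Ck` -/
theorem norm_Ag (hm : 3 ≤ m) {C : ℝ} (hC : 0 ≤ C) {X : G → 𝒜} (hX : Fam a d Nh m C X)
    {s : G → ℝ} (hs : Measurable s) (hs1 : ∀ x, |s x| ≤ 1) (g : G) :
    ‖pB a g * (∫ x, (s x : ℂ) • X x ∂ν) - (∫ x, (s x : ℂ) • X x ∂ν) * pB a g‖ ≤
      2 * Ck * C := by
  rw [Ag_eq F hX hs hs1 g]
  refine (norm_int_le hs1 (f := fun x => 2 * C * ((1 + d x g) ^ 3)⁻¹)
    (cint (continuous_const.mul (cont_inv_pow F g 3))) fun x => ?_).trans ?_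
  · refine (F.norm_TT hX g x).trans ?_
    rw [mul_assoc]
    exact mul_le_mul_of_nonneg_left (div_pow_le hC (F.d_nonneg x g) hm) (by norm_num)
  · rw [integral_const_mul]
    have := mul_le_mul_of_nonneg_left (F.schur3 g) (by positivity : 0 ≤ 2 * C)
    linarith

omit F in
/-- elementary: the minimum of two polynomial profiles -/
theorem min_profile {t u r C f : ℝ} (ht : 0 ≤ t) (hu : 0 ≤ u) (hr : 0 ≤ r) (hC : 0 ≤ C)
    (htri : r ≤ t + u) (k : ℕ) (h1 : f ≤ C / (1 + t) ^ (k + 3)) (h2 : f ≤ C / (1 + u) ^ (k + 3)) :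
    f ≤ C * 2 ^ k * ((1 + r) ^ k)⁻¹ * (((1 + t) ^ 3)⁻¹ + ((1 + u) ^ 3)⁻¹) := by
  have key : ∀ v : ℝ, 0 ≤ v → r ≤ 2 * v → f ≤ C / (1 + v) ^ (k + 3) →
      f ≤ C * 2 ^ k * ((1 + r) ^ k)⁻¹ * ((1 + v) ^ 3)⁻¹ := by
    intro v hv hrv hf
    refine hf.trans ?_
    have e1 : (1 + r) ^ k ≤ 2 ^ k * (1 + v) ^ k := by
      rw [← mul_pow]
      exact pow_le_pow_left₀ (by linarith) (by linarith) k
    have e2 : ((1 + v) ^ k)⁻¹ ≤ 2 ^ k * ((1 + r) ^ k)⁻¹ := by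
      rw [← div_eq_mul_inv, le_div_iff₀ (by positivity), inv_mul_le_iff₀ (by positivity)]
      linarith
    calc C / (1 + v) ^ (k + 3) = C * ((1 + v) ^ k)⁻¹ * ((1 + v) ^ 3)⁻¹ := by
          rw [pow_add]; field_simp
      _ ≤ C * (2 ^ k * ((1 + r) ^ k)⁻¹) * ((1 + v) ^ 3)⁻¹ := by gcongr
      _ = _ := by ring
  have hp1 : 0 ≤ ((1 + t) ^ 3)⁻¹ := by positivity
  have hp2 : 0 ≤ ((1 + u) ^ 3)⁻¹ := by positivity
  have hp : 0 ≤ C * 2 ^ k * ((1 + r) ^ k)⁻¹ := by positivity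
  rcases le_total u t with h | h
  · have := key t ht (by linarith) h1
    nlinarith [mul_nonneg hp hp2]
  · have := key u hu (by linarith) h2
    nlinarith [mul_nonneg hp hp1]

theorem norm_com_le_two {T : 𝒜} {Y : 𝒜} (hY : ‖Y‖ ≤ 1) : ‖T * Y - Y * T‖ ≤ 2 * ‖T‖ := by
  refine (norm_sub_le _ _).trans ?_
  have h1 := norm_mul_le T Y
  have h2 := norm_mul_le Y T
  nlinarith [norm_nonneg T]

/-- constant of the profile of `A_g` -/
noncomputable def cA (k : ℕ) (Kκ Ck : ℝ) : ℝ := (2 ^ (k + 3) + 2 * Kκ) * Ck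

/-- profile of `A_g`, annihilators -/
theorem com_Ag {k : ℕ} (hm : m = k + 3) {C : ℝ} (hC : 0 ≤ C) {X : G → 𝒜}
    (hX : Fam a d Nh m C X) {s : G → ℝ} (hs : Measurable s) (hs1 : ∀ x, |s x| ≤ 1)
    (htri : ∀ x g w, d g w ≤ d x g + d x w) {Kκ : ℝ} (hK0 : 0 ≤ Kκ) (g w : G) (i : Fin 2) :
    ‖(pB a g * (∫ x, (s x : ℂ) • X x ∂ν) - (∫ x, (s x : ℂ) • X x ∂ν) * pB a g) * a i w -
      a i w * (pB a g * (∫ x, (s x : ℂ) • X x ∂ν) - (∫ x, (s x : ℂ) • X x ∂ν) * pB a g)‖ ≤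
      cA k Kκ Ck * C / (1 + d g w) ^ k := by
  rw [Ag_eq F hX hs hs1 g]
  have hint : Integrable (fun x => 4 * C * 2 ^ k * ((1 + d g w) ^ k)⁻¹ *
      (((1 + d x g) ^ 3)⁻¹ + ((1 + d x w) ^ 3)⁻¹)) ν :=
    cint (continuous_const.mul ((cont_inv_pow F g 3).add (cont_inv_pow F w 3)))
  refine (norm_int_com_le (cont_TT F hX g) hs hs1 (a i w) hint fun x => ?_).trans ?_
  · have ht := F.d_nonneg x g
    have hu := F.d_nonneg x w
    refine min_profile ht hu (F.d_nonneg g w) (by positivity) (htri x g w) k ?_ ?_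
    · refine (norm_com_le_two F (F.norm_a i w)).trans ?_
      have := F.norm_TT hX g x
      rw [hm] at this
      rw [mul_div_assoc]
      linarith
    · refine (F.norm_TT_com hX g x w i).trans ?_
      rw [hm, mul_div_assoc]
      have : 0 ≤ C / (1 + d x w) ^ (k + 3) := by positivity
      linarith
  · rw [integral_const_mul, integral_add (cint (cont_inv_pow F g 3)) (cint (cont_inv_pow F w 3))]
    have h3 := F.schur3 g
    have h4 := F.schur3 w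
    have hr : 0 < (1 + d g w) ^ k := by have := F.d_nonneg g w; positivity
    have hCk := Ck_nonneg F g
    calc 4 * C * 2 ^ k * ((1 + d g w) ^ k)⁻¹ *
          (∫ x, ((1 + d x g) ^ 3)⁻¹ ∂ν + ∫ x, ((1 + d x w) ^ 3)⁻¹ ∂ν)
        ≤ 4 * C * 2 ^ k * ((1 + d g w) ^ k)⁻¹ * (Ck + Ck) := by gcongr
      _ = (2 ^ (k + 3) * Ck) * C / (1 + d g w) ^ k := by
          rw [pow_add]; field_simp; ring
      _ ≤ _ := by
          unfold cA
          gcongr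
          nlinarith [mul_nonneg hK0 hCk]

/-- profile of `A_g`, creators -/
theorem com_star_Ag {k : ℕ} (hm : m = k + 3) {C : ℝ} (hC : 0 ≤ C) {X : G → 𝒜}
    (hX : Fam a d Nh m C X) {s : G → ℝ} (hs : Measurable s) (hs1 : ∀ x, |s x| ≤ 1)
    (htri : ∀ x g w, d g w ≤ d x g + d x w) {Kκ : ℝ}
    (g w : G) (hκ : kap g w ≤ Kκ / (1 + d g w) ^ k) (i : Fin 2) :
    ‖(pB a g * (∫ x, (s x : ℂ) • X x ∂ν) - (∫ x, (s x : ℂ) • X x ∂ν) * pB a g) * star (a i w) -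
      star (a i w) *
        (pB a g * (∫ x, (s x : ℂ) • X x ∂ν) - (∫ x, (s x : ℂ) • X x ∂ν) * pB a g)‖ ≤
      cA k Kκ Ck * C / (1 + d g w) ^ k := by
  rw [Ag_eq F hX hs hs1 g]
  have hkap := F.kap_nonneg g w
  have hint : Integrable (fun x => 4 * C * 2 ^ k * ((1 + d g w) ^ k)⁻¹ *
      (((1 + d x g) ^ 3)⁻¹ + ((1 + d x w) ^ 3)⁻¹) + 2 * kap g w * C * ((1 + d x g) ^ 3)⁻¹) ν :=
    cint ((continuous_const.mul ((cont_inv_pow F g 3).add (cont_inv_pow F w 3))).add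
      (continuous_const.mul (cont_inv_pow F g 3)))
  have hna : ‖star (a i w)‖ ≤ 1 := by rw [norm_star]; exact F.norm_a i w
  refine (norm_int_com_le (cont_TT F hX g) hs hs1 (star (a i w)) hint fun x => ?_).trans ?_
  · have ht := F.d_nonneg x g
    have hu := F.d_nonneg x w
    have e0 : 0 ≤ 2 * kap g w * C * ((1 + d x g) ^ 3)⁻¹ := by positivity
    rw [← sub_le_iff_le_add]
    refine min_profile ht hu (F.d_nonneg g w) (by positivity) (htri x g w) k ?_ ?_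
    · have h1 := norm_com_le_two F (T := TT (pB a) X g x) hna
      have h2 := F.norm_TT hX g x
      rw [hm] at h2
      rw [mul_div_assoc]
      linarith
    · have h1 := F.norm_TT_com_star hX g x w i
      have h2 : 2 * (kap g w * (C / (1 + d x g) ^ m)) ≤
          2 * kap g w * C * ((1 + d x g) ^ 3)⁻¹ := by
        have := div_pow_le hC ht (by omega : 3 ≤ m)
        calc 2 * (kap g w * (C / (1 + d x g) ^ m)) ≤
            2 * (kap g w * (C * ((1 + d x g) ^ 3)⁻¹)) := by gcongr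
          _ = _ := by ring
      have h3 : 0 ≤ C / (1 + d x w) ^ (k + 3) := by positivity
      rw [hm] at h1
      rw [hm] at h2
      rw [mul_div_assoc]
      linarith
  · have i1 : Integrable (fun x => 4 * C * 2 ^ k * ((1 + d g w) ^ k)⁻¹ *
        (((1 + d x g) ^ 3)⁻¹ + ((1 + d x w) ^ 3)⁻¹)) ν :=
      cint (continuous_const.mul ((cont_inv_pow F g 3).add (cont_inv_pow F w 3)))
    have i2 : Integrable (fun x => 2 * kap g w * C * ((1 + d x g) ^ 3)⁻¹) ν :=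
      cint (continuous_const.mul (cont_inv_pow F g 3))
    rw [integral_add i1 i2, integral_const_mul, integral_const_mul,
      integral_add (cint (cont_inv_pow F g 3)) (cint (cont_inv_pow F w 3))]
    have h3 := F.schur3 g
    have h4 := F.schur3 w
    have hr : 0 < (1 + d g w) ^ k := by have := F.d_nonneg g w; positivity
    have hCk := Ck_nonneg F g
    have h5 : 0 ≤ ∫ x, ((1 + d x g) ^ 3)⁻¹ ∂ν := integral_nonneg fun x => by
      have := F.d_nonneg x g; positivity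
    have h6 : 0 ≤ Kκ / (1 + d g w) ^ k := hkap.trans hκ
    calc 4 * C * 2 ^ k * ((1 + d g w) ^ k)⁻¹ *
          (∫ x, ((1 + d x g) ^ 3)⁻¹ ∂ν + ∫ x, ((1 + d x w) ^ 3)⁻¹ ∂ν) +
          2 * kap g w * C * ∫ x, ((1 + d x g) ^ 3)⁻¹ ∂ν
        ≤ 4 * C * 2 ^ k * ((1 + d g w) ^ k)⁻¹ * (Ck + Ck) +
          2 * (Kκ / (1 + d g w) ^ k) * C * Ck := by gcongr
      _ = cA k Kκ Ck * C / (1 + d g w) ^ k := by
          unfold cA
          rw [pow_add]; field_simp; ring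


end Main

end Crest.Agent.R340.J3421
end

-- ▼ part R340/J3b_421

/-!
R340 (helper421): LOSS-W on one-particle level: bound on all frame orbitals from the flat coherent
bound (`cs_flat`), and the sum against the loss profile.
-/

set_option autoImplicit false
set_option linter.unusedSectionVars false

namespace Crest.Agent.R340.J3421

open Finset MeasureTheory Crest.Agent.R340.QL331 Crest.Agent.R340.PD757

/-! ### the flat bound -/

theorem tele_min (M : ℕ) (k : ℕ) :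
    ∑ i ∈ range k, 4 * ((M : ℝ) + 1) ^ 2 / (((M : ℝ) + 1 + i) * ((M : ℝ) + 2 + i)) =
      4 * ((M : ℝ) + 1) ^ 2 * (1 / ((M : ℝ) + 1) - 1 / ((M : ℝ) + 1 + k)) := by
  induction k with
  | zero => simp
  | succ k ih =>
    rw [sum_range_succ, ih]
    push_cast
    have h1 : (M : ℝ) + 1 + k ≠ 0 := by positivity
    have h2 : (M : ℝ) + 2 + k ≠ 0 := by positivity
    have h3 : (M : ℝ) + 1 ≠ 0 := by positivity
    have h4 : (M : ℝ) + 1 + (k + 1) ≠ 0 := by positivity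
    field_simp
    ring

theorem sum_min_le (j Q : ℕ) :
    ∑ i ∈ range (Q + 1), min 1 (((1:ℝ) + j) ^ 2 / ((1:ℝ) + i) ^ 2) ≤ 4 * ((1:ℝ) + j) := by
  have h1 : ∀ i ∈ range (Q + 1), min 1 (((1:ℝ) + j) ^ 2 / ((1:ℝ) + i) ^ 2) ≤
      4 * ((j : ℝ) + 1) ^ 2 / (((j : ℝ) + 1 + i) * ((j : ℝ) + 2 + i)) := by
    intro i _
    have hj : (0:ℝ) ≤ j := Nat.cast_nonneg j
    have hi : (0:ℝ) ≤ i := Nat.cast_nonneg i
    rcases Nat.lt_or_ge i j with h | h
    · refine (min_le_left _ _).trans ?_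
      have hij : (i : ℝ) + 1 ≤ j := by exact_mod_cast h
      rw [le_div_iff₀ (by positivity)]
      nlinarith
    · refine (min_le_right _ _).trans ?_
      have hij : (j : ℝ) ≤ i := by exact_mod_cast h
      rw [div_le_div_iff₀ (by positivity) (by positivity)]
      have h2 : ((j : ℝ) + 1 + i) * ((j : ℝ) + 2 + i) ≤ 4 * (1 + i) ^ 2 := by nlinarith
      nlinarith [sq_nonneg ((j : ℝ) + 1)]
  refine (sum_le_sum h1).trans ?_
  rw [tele_min]
  have h2 : (0:ℝ) < (j : ℝ) + 1 := by positivity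
  have h3 : (0:ℝ) ≤ 1 / ((j : ℝ) + 1 + ((Q + 1 : ℕ) : ℝ)) := by positivity
  calc 4 * ((j : ℝ) + 1) ^ 2 * (1 / ((j : ℝ) + 1) - 1 / ((j : ℝ) + 1 + ((Q + 1 : ℕ) : ℝ)))
      ≤ 4 * ((j : ℝ) + 1) ^ 2 * (1 / ((j : ℝ) + 1)) := by
        refine mul_le_mul_of_nonneg_left (by linarith) (by positivity)
    _ = 4 * ((1:ℝ) + j) := by field_simp; ring

section

variable {Z : Type*} [MeasurableSpace Z] {μ : Measure Z} {τ : Z → ℝ}

theorem cont_scaled (Q j : ℕ) :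
    ContinuousOn (fun t : ℝ => ((1 + (Q:ℝ) * t / (1 + j)) ^ 2)⁻¹) (Set.Icc 0 1) := by
  apply ContinuousOn.inv₀ (by fun_prop)
  intro t ht
  have : 0 ≤ (Q:ℝ) * t := mul_nonneg (Nat.cast_nonneg _) ht.1
  positivity

/-- second moment with weights at scale `j` -/
theorem int_scaled (h : Tau μ τ) (Q j : ℕ) :
    ((Q : ℝ) + 1) * ∫ z, ((1 + (Q:ℝ) * τ z / (1 + j)) ^ 2)⁻¹ ∂μ ≤ 2 ^ 12 * (1 + j) := by
  have hi : ∀ i, Integrable (fun z => bw Q i (τ z) * ((1 + (Q:ℝ) * τ z / (1 + j)) ^ 2)⁻¹) μ :=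
    fun i => h.intble (f := fun t => bw Q i t * ((1 + (Q:ℝ) * t / (1 + j)) ^ 2)⁻¹)
      ((continuous_bw Q i).continuousOn.mul (cont_scaled Q j))
  have h1 : ((Q : ℝ) + 1) * ∫ z, ((1 + (Q:ℝ) * τ z / (1 + j)) ^ 2)⁻¹ ∂μ =
      ∑ i ∈ range (Q + 1), ((Q : ℝ) + 1) *
        ∫ z, bw Q i (τ z) * ((1 + (Q:ℝ) * τ z / (1 + j)) ^ 2)⁻¹ ∂μ := by
    rw [← mul_sum, ← integral_finsetSum _ fun i _ => hi i]
    congr 1
    refine integral_congr_ae (Filter.Eventually.of_forall fun z => ?_)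
    simp only
    rw [← sum_mul, sum_bw, one_mul]
  rw [h1]
  have hj0 : (0:ℝ) < 1 + j := by positivity
  have h2 : ∀ i ∈ range (Q + 1), ((Q : ℝ) + 1) *
      ∫ z, bw Q i (τ z) * ((1 + (Q:ℝ) * τ z / (1 + j)) ^ 2)⁻¹ ∂μ ≤
      2 ^ 10 * min 1 (((1:ℝ) + j) ^ 2 / ((1:ℝ) + i) ^ 2) := by
    intro i hi'
    have hiQ : i ≤ Q := Nat.lt_succ_iff.1 (mem_range.1 hi')
    have a1 : ((Q : ℝ) + 1) * ∫ z, bw Q i (τ z) * ((1 + (Q:ℝ) * τ z / (1 + j)) ^ 2)⁻¹ ∂μ ≤ 1 := by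
      have e1 : ((Q:ℝ) + 1) * ∫ z, bw Q i (τ z) ∂μ = 1 := by
        rw [h.mom Q i hiQ]
        have : (Q:ℝ) + 1 ≠ 0 := by positivity
        field_simp
      refine le_trans (mul_le_mul_of_nonneg_left (a := (Q:ℝ) + 1)
        (c := ∫ z, bw Q i (τ z) ∂μ) ?_ (by positivity)) e1.le
      refine integral_mono (hi i) (h.intble_bw Q i) fun z => ?_
      have h0 := h.qnn Q z
      have h3 : (1:ℝ) ≤ (1 + (Q:ℝ) * τ z / (1 + j)) ^ 2 :=
        one_le_pow₀ (by have : 0 ≤ (Q:ℝ) * τ z / (1 + j) := by positivity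
                        linarith)
      calc _ ≤ bw Q i (τ z) * 1 := mul_le_mul_of_nonneg_left (inv_le_one_of_one_le₀ h3)
            (bw_nonneg Q i (h.nonneg z) (h.le_one z))
        _ = _ := mul_one _
    have a2 : ((Q : ℝ) + 1) * ∫ z, bw Q i (τ z) * ((1 + (Q:ℝ) * τ z / (1 + j)) ^ 2)⁻¹ ∂μ ≤
        2 ^ 10 * (((1:ℝ) + j) ^ 2 / ((1:ℝ) + i) ^ 2) := by
      have e2 := h.K3 2 hiQ
      have e3 : ((Q : ℝ) + 1) * ∫ z, bw Q i (τ z) * ((1 + (Q:ℝ) * τ z / (1 + j)) ^ 2)⁻¹ ∂μ ≤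
          (1 + (j:ℝ)) ^ 2 * Tau.bm μ τ 2 Q i := by
        have e4 : (1 + (j:ℝ)) ^ 2 * Tau.bm μ τ 2 Q i = ((Q : ℝ) + 1) *
            ∫ z, (1 + (j:ℝ)) ^ 2 * (bw Q i (τ z) * ((1 + (Q:ℝ) * τ z) ^ 2)⁻¹) ∂μ := by
          rw [integral_const_mul]
          unfold Tau.bm
          ring
        rw [e4]
        refine mul_le_mul_of_nonneg_left ?_ (by positivity)
        refine integral_mono (hi i) ((h.bm_intble 2 Q i).const_mul _) fun z => ?_
        have h0 := h.qnn Q z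
        have hb := bw_nonneg Q i (h.nonneg z) (h.le_one z)
        have h4 : ((1 + (Q:ℝ) * τ z / (1 + j)) ^ 2)⁻¹ ≤
            (1 + (j:ℝ)) ^ 2 * ((1 + (Q:ℝ) * τ z) ^ 2)⁻¹ := by
          rw [← div_eq_mul_inv, inv_eq_one_div, div_le_div_iff₀ (by positivity) (by positivity),
            one_mul, ← mul_pow]
          refine pow_le_pow_left₀ (by positivity) ?_ 2
          have : (1 + (j:ℝ)) * (1 + (Q:ℝ) * τ z / (1 + j)) = 1 + j + Q * τ z := by
            field_simp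
          rw [this]
          have : (0:ℝ) ≤ j := Nat.cast_nonneg j
          linarith
        calc _ ≤ bw Q i (τ z) * ((1 + (j:ℝ)) ^ 2 * ((1 + (Q:ℝ) * τ z) ^ 2)⁻¹) :=
              mul_le_mul_of_nonneg_left h4 hb
          _ = _ := by ring
      refine e3.trans ?_
      calc (1 + (j:ℝ)) ^ 2 * Tau.bm μ τ 2 Q i ≤
          (1 + (j:ℝ)) ^ 2 * (2 ^ (2 * (2 + 3)) / ((1:ℝ) + i) ^ 2) :=
            mul_le_mul_of_nonneg_left e2 (by positivity)
        _ = _ := by norm_num; ring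
    rw [mul_min_of_nonneg _ _ (by norm_num : (0:ℝ) ≤ 2 ^ 10), le_min_iff]
    exact ⟨a1.trans (by norm_num), a2⟩
  refine (sum_le_sum h2).trans ?_
  rw [← mul_sum]
  have h3 := sum_min_le j Q
  calc 2 ^ 10 * ∑ i ∈ range (Q + 1), min 1 (((1:ℝ) + j) ^ 2 / ((1:ℝ) + i) ^ 2)
      ≤ 2 ^ 10 * (4 * ((1:ℝ) + j)) := by gcongr
    _ = _ := by ring

/-- weighted orbital moment at its own scale -/
theorem int_orb_scaled (h : Tau μ τ) {Q j : ℕ} (hj : j ≤ Q) :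
    ((Q : ℝ) + 1) * ∫ z, bw Q j (τ z) * (1 + (Q:ℝ) * τ z / (1 + j)) ^ 2 ∂μ ≤ 130 := by
  have e1 : ((Q:ℝ) + 1) * ∫ z, bw Q j (τ z) ∂μ = 1 := by
    rw [h.mom Q j hj]
    have : (Q:ℝ) + 1 ≠ 0 := by positivity
    field_simp
  have e2 := h.K3up 2 hj
  have hj0 : (0:ℝ) < 1 + j := by positivity
  have hI : ∫ z, bw Q j (τ z) * (1 + (Q:ℝ) * τ z / (1 + j)) ^ 2 ∂μ ≤
      ∫ z, (2 * bw Q j (τ z) + 2 * ((1 + (j:ℝ)) ^ 2)⁻¹ *
        (bw Q j (τ z) * (1 + (Q:ℝ) * τ z) ^ 2)) ∂μ := by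
    refine integral_mono
      (h.intble (f := fun t => bw Q j t * (1 + (Q:ℝ) * t / (1 + j)) ^ 2)
        ((continuous_bw Q j).continuousOn.mul (by fun_prop)))
      (((h.intble_bw Q j).const_mul 2).add ((h.bp_intble 2 Q j).const_mul _)) fun z => ?_
    have h0 := h.qnn Q z
    have hb := bw_nonneg Q j (h.nonneg z) (h.le_one z)
    have h4 : (1 + (Q:ℝ) * τ z / (1 + j)) ^ 2 ≤
        2 + 2 * ((1 + (j:ℝ)) ^ 2)⁻¹ * (1 + (Q:ℝ) * τ z) ^ 2 := by
      have h5 : (Q:ℝ) * τ z / (1 + j) ≤ (1 + (Q:ℝ) * τ z) / (1 + j) := by gcongr; linarith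
      have h6 : ((1 + (Q:ℝ) * τ z) / (1 + j)) ^ 2 =
          ((1 + (j:ℝ)) ^ 2)⁻¹ * (1 + (Q:ℝ) * τ z) ^ 2 := by
        rw [div_pow, div_eq_mul_inv, mul_comm]
      have h7 : 0 ≤ (Q:ℝ) * τ z / (1 + j) := by positivity
      calc (1 + (Q:ℝ) * τ z / (1 + j)) ^ 2 ≤ (1 + (1 + (Q:ℝ) * τ z) / (1 + j)) ^ 2 := by gcongr
        _ ≤ 2 + 2 * ((1 + (Q:ℝ) * τ z) / (1 + j)) ^ 2 := by
            nlinarith [sq_nonneg (1 - (1 + (Q:ℝ) * τ z) / (1 + j))]
        _ = _ := by rw [h6]; ring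
    calc _ ≤ bw Q j (τ z) * (2 + 2 * ((1 + (j:ℝ)) ^ 2)⁻¹ * (1 + (Q:ℝ) * τ z) ^ 2) :=
          mul_le_mul_of_nonneg_left h4 hb
      _ = _ := by ring
  rw [integral_add ((h.intble_bw Q j).const_mul 2) ((h.bp_intble 2 Q j).const_mul _),
    integral_const_mul, integral_const_mul] at hI
  have e3 : ((1 + (j:ℝ)) ^ 2)⁻¹ * Tau.bp μ τ 2 Q j ≤ 64 := by
    rw [inv_mul_le_iff₀ (by positivity)]
    calc _ ≤ _ := e2
      _ = _ := by norm_num; ring
  calc ((Q : ℝ) + 1) * ∫ z, bw Q j (τ z) * (1 + (Q:ℝ) * τ z / (1 + j)) ^ 2 ∂μ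
      ≤ ((Q : ℝ) + 1) * (2 * ∫ z, bw Q j (τ z) ∂μ + 2 * ((1 + (j:ℝ)) ^ 2)⁻¹ *
        ∫ z, bw Q j (τ z) * (1 + (Q:ℝ) * τ z) ^ 2 ∂μ) :=
        mul_le_mul_of_nonneg_left hI (by positivity)
    _ = 2 * (((Q:ℝ) + 1) * ∫ z, bw Q j (τ z) ∂μ) +
        2 * (((1 + (j:ℝ)) ^ 2)⁻¹ * Tau.bp μ τ 2 Q j) := by unfold Tau.bp; ring
    _ ≤ 130 := by rw [e1]; linarith

end

section

variable {A V Z : Type*} [CStarAlgebra A] [NormedAddCommGroup V] [InnerProductSpace ℂ V]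
  [CompleteSpace V] [MeasurableSpace Z] {μ : Measure Z} {Q : ℕ}
  {b : Z → OrthonormalBasis (Fin (Q + 1)) ℂ V} {τ D : Z → Z → ℝ}

/-- **flat coherent bound ⇒ every orbital**, with only a factor `√(1+j)` -/
theorem cs_flat (F : Frm μ Q b τ D) (R : Car A V) {y : A} {w : Z} {c : ℝ} (hc : 0 ≤ c)
    (h : ∀ z, R.cs y (b z 0) ≤ c) (j : Fin (Q + 1)) :
    R.cs y (b w j) ≤ 4226 * c * sj j := by
  have hs := sj_pos (j : ℕ)
  set l : ℝ := sj j with hl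
  have T := F.tau w
  have hj0 : (0:ℝ) < 1 + (j : ℕ) := by positivity
  have hi1 : Integrable (fun z => bw Q j (τ z w) * (1 + (Q:ℝ) * τ z w / (1 + (j:ℕ))) ^ 2) μ :=
    T.intble (f := fun t => bw Q j t * (1 + (Q:ℝ) * t / (1 + (j:ℕ))) ^ 2)
      ((continuous_bw Q j).continuousOn.mul (by fun_prop))
  have hi2 : Integrable (fun z => ((1 + (Q:ℝ) * τ z w / (1 + (j:ℕ))) ^ 2)⁻¹) μ :=
    T.intble (f := fun t => ((1 + (Q:ℝ) * t / (1 + (j:ℕ))) ^ 2)⁻¹) (cont_scaled Q j)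
  set g : Z → ℝ := fun z => c / 2 *
    (l * (bw Q j (τ z w) * (1 + (Q:ℝ) * τ z w / (1 + (j:ℕ))) ^ 2) +
    l⁻¹ * ((1 + (Q:ℝ) * τ z w / (1 + (j:ℕ))) ^ 2)⁻¹) with hg
  have hgi : Integrable g μ := ((hi1.const_mul l).add (hi2.const_mul l⁻¹)).const_mul _
  have key := F.cs_le_int R y (b w j) hgi ?_
  · refine key.trans ?_
    have e : ((Q : ℝ) + 1) * ∫ z, g z ∂μ =
        c / 2 * (l * (((Q : ℝ) + 1) *
            ∫ z, bw Q j (τ z w) * (1 + (Q:ℝ) * τ z w / (1 + (j:ℕ))) ^ 2 ∂μ) +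
          l⁻¹ * (((Q : ℝ) + 1) * ∫ z, ((1 + (Q:ℝ) * τ z w / (1 + (j:ℕ))) ^ 2)⁻¹ ∂μ)) := by
      rw [hg, integral_const_mul, integral_add (hi1.const_mul l) (hi2.const_mul l⁻¹),
        integral_const_mul, integral_const_mul]
      ring
    rw [e]
    have h1 := int_orb_scaled T (Nat.lt_succ_iff.1 j.2)
    have h2 := int_scaled T Q (j : ℕ)
    have h3 : l⁻¹ * (2 ^ 12 * (1 + ((j : ℕ) : ℝ))) = 2 ^ 12 * l := by
      have : (1 + ((j : ℕ) : ℝ)) = l ^ 2 := by rw [hl, sj_sq]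
      rw [this]
      field_simp
    calc 2 * (c / 2 * (l * (((Q : ℝ) + 1) *
            ∫ z, bw Q j (τ z w) * (1 + (Q:ℝ) * τ z w / (1 + (j:ℕ))) ^ 2 ∂μ) +
          l⁻¹ * (((Q : ℝ) + 1) * ∫ z, ((1 + (Q:ℝ) * τ z w / (1 + (j:ℕ))) ^ 2)⁻¹ ∂μ)))
        ≤ 2 * (c / 2 * (l * 130 + l⁻¹ * (2 ^ 12 * (1 + ((j : ℕ) : ℝ))))) := by gcongr
      _ = 4226 * c * l := by rw [h3]; ring
  · intro z
    set s : ℝ := ‖(inner ℂ (b z 0) (b w j) : ℂ)‖ with hsdef
    have hs0 : 0 ≤ s := norm_nonneg _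
    have hs2 : s ^ 2 = bw Q j (τ z w) := F.ov0 z w j
    have hq := (F.tau w).qnn Q z
    set e : ℝ := 1 + (Q:ℝ) * τ z w / (1 + (j:ℕ)) with he
    have he0 : 0 < e := by
      have : 0 ≤ (Q:ℝ) * τ z w / (1 + (j:ℕ)) := by positivity
      linarith
    have h6 := young (x := s * e) (y := e⁻¹) hs
    calc s * R.cs y (b z 0) ≤ s * c := mul_le_mul_of_nonneg_left (h z) hs0
      _ = c * ((s * e) * e⁻¹) := by field_simp
      _ ≤ c * ((sj j * (s * e) ^ 2 + (sj j)⁻¹ * e⁻¹ ^ 2) / 2) :=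
          mul_le_mul_of_nonneg_left h6 hc
      _ = c / 2 * (l * (bw Q j (τ z w) * e ^ 2) + l⁻¹ * (e ^ 2)⁻¹) := by
          rw [mul_pow, hs2, inv_pow]; ring

end

/-! ### the loss profile -/

open Crest.Agent.R340.Prof385

theorem one_sub_sP_le (P1 j : ℕ) : 1 - sP P1 j ≤ (((P1 : ℝ) + 1) / ((j : ℝ) + 1)) ^ 2 := by
  rcases Nat.lt_or_ge P1 j with h | h
  · rw [sP_of_lt h]; linarith
  · rw [sP_of_le h, sub_zero]
    have hle : (j : ℝ) ≤ P1 := by exact_mod_cast h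
    refine one_le_pow₀ ?_
    rw [le_div_iff₀ (by positivity)]
    linarith

theorem sum_sj3 (Q : ℕ) : ∑ j : Fin (Q + 1), ((sj (j : ℕ))⁻¹) ^ 3 ≤ 3 := by
  have h1 := sum_far_sj (Q + 1) 0
  have h0 : sj 0 = 1 := by simp [sj]
  rw [h0] at h1
  have h2 : ∑ j : Fin (Q + 1), ((sj (j : ℕ))⁻¹) ^ 3 =
      ∑ j ∈ farS (Q + 1) 1, ((sj (j : ℕ))⁻¹) ^ 3 + 1 := by
    rw [Fin.sum_univ_succ]
    have h3 : farS (Q + 1) 1 = Finset.univ.image (Fin.succ : Fin Q → Fin (Q + 1)) := by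
      ext i
      simp only [mem_farS, mem_image, mem_univ, true_and]
      constructor
      · intro hi
        exact ⟨i.pred (by intro h; rw [h] at hi; simp at hi), by simp⟩
      · rintro ⟨k, rfl⟩
        simp
    rw [h3, Finset.sum_image (fun a _ b _ h => Fin.succ_injective _ h)]
    simp [h0]
    ring
  rw [h2]
  linarith

theorem sum_loss (P1 Q : ℕ) :
    ∑ j : Fin (Q + 1), (1 - sP P1 j) * sj (j : ℕ) ≤ 3 * ((P1 : ℝ) + 1) ^ 2 := by
  have h1 : ∀ j : Fin (Q + 1), (1 - sP P1 j) * sj (j : ℕ) ≤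
      ((P1 : ℝ) + 1) ^ 2 * ((sj (j : ℕ))⁻¹) ^ 3 := by
    intro j
    have hs := sj_pos (j : ℕ)
    have h2 := one_sub_sP_le P1 (j : ℕ)
    have h3 : ((j : ℕ) : ℝ) + 1 = sj j ^ 2 := by rw [sj_sq]; ring
    calc (1 - sP P1 j) * sj (j : ℕ) ≤ (((P1 : ℝ) + 1) / (((j : ℕ) : ℝ) + 1)) ^ 2 * sj (j : ℕ) :=
          mul_le_mul_of_nonneg_right h2 hs.le
      _ = ((P1 : ℝ) + 1) ^ 2 * ((sj (j : ℕ))⁻¹) ^ 3 := by
          rw [h3]; field_simp
  refine (sum_le_sum fun j _ => h1 j).trans ?_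
  rw [← mul_sum]
  have h2 := sum_sj3 Q
  calc ((P1 : ℝ) + 1) ^ 2 * ∑ j : Fin (Q + 1), ((sj (j : ℕ))⁻¹) ^ 3
      ≤ ((P1 : ℝ) + 1) ^ 2 * 3 := by gcongr
    _ = _ := by ring

end Crest.Agent.R340.J3421
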