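import Crest.Agent.R340.Fock_649
import Crest.Agent.R340.Pl1_249
import Crest.Prelude.Def_Laughlin

/-!
# S0533: interface (helper249)

Operators at flux `Q` indexed by natural numbers, the local operator `XQ` of a certificate, and the
two properties of a certificate that the analytic part consumes:
* `LocPos C`  (owners 132 / 665): `X_Q ≥ -ε ∑_{q<P} W_q^* W_q` for all large `Q`;
* `LinCert C P1 pw γ` (owner 120): a finite rational linear inequality.
-/

set_option autoImplicit false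
open scoped BigOperators
open Finset

namespace Crest.Agent.R340.Kn249

open Crest.Agent.R340.Fock649 Crest.MathPhysics.Laughlin

/-- annihilation operator of orbital `k` (`0` for `k > Q`) -/
noncomputable def cN (Q k : ℕ) : Op (Fin (Q + 1)) := if h : k < Q + 1 then c ⟨k, h⟩ else 0

/-- the pair vector `w_q(i,j)` of the statement, all indices natural numbers
(it vanishes for `i > Q` or `j > Q`, and for `q ≥ 2Q - 1`) -/
noncomputable def pv (Q q i j : ℕ) : ℝ :=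
  if i + j = q + 1 then
    ((j : ℝ) - i) * Real.sqrt ((Nat.choose Q i : ℝ) * Nat.choose Q j) /
      Real.sqrt (2 * pairNorm Q (q + 1))
  else 0

/-- pair annihilator `W_q` -/
noncomputable def WN (Q q : ℕ) : Op (Fin (Q + 1)) :=
  pa (fun i j : Fin (Q + 1) => ((pv Q q i j : ℝ) : ℂ))

/-- `λ_k = √((k+1)(Q-k))` -/
noncomputable def lam (Q k : ℕ) : ℝ := Real.sqrt (((k : ℝ) + 1) * ((Q - k : ℕ) : ℝ))

/-- `μ_q = √((q+1)(2Q-2-q))` -/
noncomputable def mu (Q q : ℕ) : ℝ := Real.sqrt (((q : ℝ) + 1) * ((2 * Q - 2 - q : ℕ) : ℝ))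

/-- `U = ∑ λ_k c_k^* c_{k+1}`, `[U, c_k] = -λ_k c_{k+1}`, `[U, W_q] = -μ_q W_{q+1}` -/
noncomputable def UN (Q : ℕ) : Op (Fin (Q + 1)) :=
  dG (fun i j : Fin (Q + 1) => if (j : ℕ) = i + 1 then ((lam Q i : ℝ) : ℂ) else 0)

/-- `Z = ∑ k c_k^* c_k` -/
noncomputable def ZN (Q : ℕ) : Op (Fin (Q + 1)) :=
  dG (Matrix.diagonal fun i : Fin (Q + 1) => ((i : ℕ) : ℂ))

/-- `H = ∑_{q < 2Q-1} W_q^* W_q` -/
noncomputable def HN (Q : ℕ) : Op (Fin (Q + 1)) := ∑ q ∈ range (2 * Q - 1), star (WN Q q) * WN Q q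


/-- certificate data: `X̂ = ∑ ah q p p' q' Ŵ_q^* Ŵ_p Ŵ_{p'}^* Ŵ_{q'} - ∑ gh q Ŵ_q^* Ŵ_q`, all indices
`< P`; only terms with `p + q' = q + p'` are relevant -/
structure CertData where
  P : ℕ
  ah : ℕ → ℕ → ℕ → ℕ → ℚ
  gh : ℕ → ℚ
  ah_wt : ∀ q p p' q', p + q' ≠ q + p' → ah q p p' q' = 0



/-- the one-body term of the energy, in planar correlators -/
noncomputable def DD (P1 : ℕ) (G : ℕ → ℕ → ℕ → ℕ → ℝ) : ℝ :=
  ∑ p ∈ range P1, (((p + 1).factorial : ℝ) / 2 ^ p * G 0 (p + 1) p 1 -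
    ((p : ℝ) - 1) * (p.factorial : ℝ) / 2 ^ p * G 0 p p 0)

/-- the (near) four-body term of the energy, in planar correlators -/
noncomputable def TT (pw : ℕ) (F : ℕ → ℕ → ℕ → ℕ → ℝ) : ℝ :=
  ∑ p ∈ range pw, (p.factorial : ℝ) / 2 ^ p * F 0 p p 0



end Crest.Agent.R340.Kn249
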