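import Mathlib
import Crest.Agent.R340.Cert_132

-- ▼ part R340/LPA_665
section

/-!
# Kernel checker for the local positivity certificate (helper665, R340, S0533), part A

Bitmask model of the Fock space of the orbitals `0, …, 8`, sparse linear forms, list matrices and
an exact (fraction free) elimination test for positivity of quadratic forms.
-/

set_option autoImplicit false

namespace Crest.Agent.R340.LP665

open Finset

/-! ### list linear algebra (padded, unconditional identities) -/

/-- padded dot product -/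
def dot : List ℤ → List ℝ → ℝ
  | [], _ => 0
  | _ :: _, [] => 0
  | a :: v, x :: xs => (a : ℝ) * x + dot v xs

/-- padded addition -/
def addV : List ℤ → List ℤ → List ℤ
  | [], w => w
  | a :: v, [] => a :: v
  | a :: v, b :: w => Int.add a b :: addV v w

/-- scalar multiplication -/
def smV (c : ℤ) : List ℤ → List ℤ
  | [] => []
  | a :: v => Int.mul c a :: smV c v

@[simp] theorem dot_nil (xs : List ℝ) : dot [] xs = 0 := by cases xs <;> rfl
@[simp] theorem dot_nil' (v : List ℤ) : dot v [] = 0 := by cases v <;> rfl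
@[simp] theorem dot_cons (a : ℤ) (v : List ℤ) (x : ℝ) (xs : List ℝ) :
    dot (a :: v) (x :: xs) = (a : ℝ) * x + dot v xs := rfl

theorem dot_addV (v w : List ℤ) (xs : List ℝ) : dot (addV v w) xs = dot v xs + dot w xs := by
  induction v generalizing w xs with
  | nil => simp [addV]
  | cons a v ih =>
    cases w with
    | nil => simp [addV]
    | cons b w =>
      cases xs with
      | nil => simp
      | cons x xs =>
        simp only [addV, dot_cons, ih]
        have : ((Int.add a b : ℤ) : ℝ) = a + b := by exact_mod_cast Int.cast_add a b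
        rw [this]; ring

theorem dot_smV (c : ℤ) (v : List ℤ) (xs : List ℝ) : dot (smV c v) xs = c * dot v xs := by
  induction v generalizing xs with
  | nil => simp [smV]
  | cons a v ih =>
    cases xs with
    | nil => simp
    | cons x xs =>
      simp only [smV, dot_cons, ih]
      have : ((Int.mul c a : ℤ) : ℝ) = c * a := by exact_mod_cast Int.cast_mul c a
      rw [this]; ring

/-- bilinear form of a list matrix (list of rows) -/
def bil : List (List ℤ) → List ℝ → List ℝ → ℝ
  | [], _, _ => 0
  | _ :: _, [], _ => 0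
  | r :: M, y :: ys, xs => y * dot r xs + bil M ys xs

@[simp] theorem bil_nil (ys xs : List ℝ) : bil [] ys xs = 0 := by cases ys <;> rfl
@[simp] theorem bil_nil' (M : List (List ℤ)) (xs : List ℝ) : bil M [] xs = 0 := by cases M <;> rfl
@[simp] theorem bil_cons (r : List ℤ) (M : List (List ℤ)) (y : ℝ) (ys xs : List ℝ) :
    bil (r :: M) (y :: ys) xs = y * dot r xs + bil M ys xs := rfl

/-- `M + c v wᵀ` -/
def addO (c : ℤ) : List ℤ → List ℤ → List (List ℤ) → List (List ℤ)
  | [], _, M => M
  | a :: v, w, [] => smV (Int.mul c a) w :: addO c v w []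
  | a :: v, w, r :: M => addV r (smV (Int.mul c a) w) :: addO c v w M

theorem bil_addO (c : ℤ) (v w : List ℤ) (M : List (List ℤ)) (ys xs : List ℝ) :
    bil (addO c v w M) ys xs = bil M ys xs + c * dot v ys * dot w xs := by
  have hm : ∀ a : ℤ, ((Int.mul c a : ℤ) : ℝ) = c * a := fun a => by
    exact_mod_cast Int.cast_mul c a
  induction v generalizing M ys with
  | nil => simp [addO]
  | cons a v ih =>
    cases M with
    | nil =>
      cases ys with
      | nil => simp
      | cons y ys =>
        simp only [addO, bil_cons, ih, dot_smV, dot_cons, hm, bil_nil]; ring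
    | cons r M =>
      cases ys with
      | nil => simp
      | cons y ys =>
        simp only [addO, bil_cons, ih, dot_addV, dot_smV, dot_cons, hm]; ring

/-- first entries of the rows -/
def heads : List (List ℤ) → List ℤ
  | [] => []
  | [] :: M => 0 :: heads M
  | (a :: _) :: M => a :: heads M

/-- tails of the rows -/
def tls : List (List ℤ) → List (List ℤ)
  | [] => []
  | [] :: M => [] :: tls M
  | (_ :: r) :: M => r :: tls M

theorem bil_split (M : List (List ℤ)) (ys : List ℝ) (x : ℝ) (xs : List ℝ) :
    bil M ys (x :: xs) = x * dot (heads M) ys + bil (tls M) ys xs := by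
  induction M generalizing ys with
  | nil => simp [heads, tls]
  | cons r M ih =>
    cases ys with
    | nil => simp
    | cons y ys =>
      cases r with
      | nil => simp only [heads, tls, bil_cons, ih, dot_nil, dot_cons]; push_cast; ring
      | cons a r => simp only [heads, tls, bil_cons, ih, dot_cons]; ring

/-- multiply a matrix by a scalar -/
def smM (c : ℤ) : List (List ℤ) → List (List ℤ)
  | [] => []
  | r :: M => smV c r :: smM c M

theorem bil_smM (c : ℤ) (M : List (List ℤ)) (ys xs : List ℝ) :
    bil (smM c M) ys xs = c * bil M ys xs := by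
  induction M generalizing ys with
  | nil => simp [smM]
  | cons r M ih =>
    cases ys with
    | nil => simp
    | cons y ys => simp only [smM, bil_cons, ih, dot_smV]; ring

/-- is the integer zero -/
def isZ : ℤ → Bool
  | Int.ofNat 0 => true
  | _ => false

theorem isZ_eq {a : ℤ} (h : isZ a = true) : a = 0 := by
  unfold isZ at h
  split at h
  · rfl
  · simp at h

/-- is the vector zero -/
def zV : List ℤ → Bool
  | [] => true
  | a :: v => isZ a && zV v

theorem zV_dot {v : List ℤ} (h : zV v = true) (xs : List ℝ) : dot v xs = 0 := by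
  induction v generalizing xs with
  | nil => simp
  | cons a v ih =>
    simp only [zV, Bool.and_eq_true] at h
    cases xs with
    | nil => simp
    | cons x xs => simp [isZ_eq h.1, ih h.2]

/-- exact elimination test -/
def psd : ℕ → List (List ℤ) → Bool
  | _, [] => true
  | 0, _ :: _ => false
  | n + 1, [] :: M =>
    zV (heads M) && psd n (tls M)
  | n + 1, (Int.ofNat 0 :: r) :: M =>
    zV (addV r (heads M)) && psd n (tls M)
  | n + 1, (Int.ofNat (a + 1) :: r) :: M =>
    psd n (addO (Int.negSucc 0) (addV r (heads M)) (addV r (heads M))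
      (smM (Int.ofNat (Nat.mul 4 (a + 1))) (tls M)))
  | _ + 1, (Int.negSucc _ :: _) :: _ => false

theorem psd_sound (n : ℕ) (M : List (List ℤ)) (h : psd n M = true) (xs : List ℝ) :
    0 ≤ bil M xs xs := by
  induction n generalizing M xs with
  | zero =>
    cases M with
    | nil => simp
    | cons r M => simp [psd] at h
  | succ n ih =>
    cases M with
    | nil => simp
    | cons r M =>
      cases xs with
      | nil => simp
      | cons x xs =>
        rw [bil_cons, bil_split]
        cases r with
        | nil =>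
          simp only [psd, Bool.and_eq_true] at h
          have := ih _ h.2 xs
          simp [zV_dot h.1]; linarith
        | cons a r =>
          match a with
          | Int.ofNat 0 =>
            simp only [psd, Bool.and_eq_true] at h
            have h1 := ih _ h.2 xs
            have h2 := zV_dot h.1 xs
            rw [dot_addV] at h2
            have h3 : ((Int.ofNat 0 : ℤ) : ℝ) = 0 := by simp
            rw [dot_cons, h3]
            have h4 : x * (0 * x + dot r xs) + (x * dot (heads M) xs + bil (tls M) xs xs)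
                = x * (dot r xs + dot (heads M) xs) + bil (tls M) xs xs := by ring
            rw [h4, h2]; linarith
          | Int.ofNat (a + 1) =>
            simp only [psd] at h
            have h1 := ih _ h xs
            rw [bil_addO, bil_smM, dot_addV] at h1
            have h3 : ((Int.ofNat (a + 1) : ℤ) : ℝ) = (a : ℝ) + 1 := by
              have : (Int.ofNat (a + 1) : ℤ) = (a : ℤ) + 1 := rfl
              rw [this]; push_cast; ring
            have h4 : ((Int.ofNat (Nat.mul 4 (a + 1)) : ℤ) : ℝ) = 4 * ((a : ℝ) + 1) := by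
              have : (Int.ofNat (Nat.mul 4 (a + 1)) : ℤ) = 4 * ((a : ℤ) + 1) := rfl
              rw [this]; push_cast; ring
            have h5 : ((Int.negSucc 0 : ℤ) : ℝ) = -1 := by
              have : (Int.negSucc 0 : ℤ) = -1 := rfl
              rw [this]; push_cast; ring
            rw [h4, h5] at h1
            rw [dot_cons, h3]
            have ha : (0 : ℝ) < (a : ℝ) + 1 := by positivity
            set d1 := dot r xs
            set d2 := dot (heads M) xs
            set b := bil (tls M) xs xs
            set A := (a : ℝ) + 1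
            have h6 : 0 ≤ 4 * A * (x * (A * x + d1) + (x * d2 + b)) := by
              have : 4 * A * (x * (A * x + d1) + (x * d2 + b))
                = (2 * A * x + (d1 + d2)) ^ 2 + (4 * A * b + -1 * (d1 + d2) * (d1 + d2)) := by ring
              rw [this]; positivity
            by_contra hcon
            push Not at hcon
            have h7 : (x * (A * x + d1) + (x * d2 + b)) < 0 := by linarith
            have : 4 * A * (x * (A * x + d1) + (x * d2 + b)) < 0 :=
              mul_neg_of_pos_of_neg (by positivity) h7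
            linarith
          | Int.negSucc k => simp [psd] at h

/-! ### sparse linear forms in the variables `g m`, `m` a bitmask -/

/-- sparse linear forms -/
abbrev LF := List (ℕ × ℤ)

/-- value of a sparse linear form -/
def ev (L : LF) (g : ℕ → ℝ) : ℝ := (L.map fun p => (p.2 : ℝ) * g p.1).sum

@[simp] theorem ev_nil (g : ℕ → ℝ) : ev [] g = 0 := rfl
@[simp] theorem ev_cons (p : ℕ × ℤ) (L : LF) (g : ℕ → ℝ) :
    ev (p :: L) g = (p.2 : ℝ) * g p.1 + ev L g := by simp [ev]
theorem ev_append (L L' : LF) (g : ℕ → ℝ) : ev (L ++ L') g = ev L g + ev L' g := by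
  simp [ev]

/-- scale -/
def sc (c : ℤ) : LF → LF
  | [] => []
  | p :: L => (p.1, Int.mul c p.2) :: sc c L

theorem ev_sc (c : ℤ) (L : LF) (g : ℕ → ℝ) : ev (sc c L) g = c * ev L g := by
  induction L with
  | nil => simp [sc]
  | cons p L ih =>
    simp only [sc, ev_cons, ih]
    have : ((Int.mul c p.2 : ℤ) : ℝ) = c * p.2 := by exact_mod_cast Int.cast_mul c p.2
    rw [this]; ring

/-- add `c` at the position of `S` in `sts` -/
def put : List ℕ → ℕ → ℤ → List ℤ → List ℤ
  | [], _, _, v => v
  | S0 :: sts, S, c, [] => bif Nat.beq S S0 then [c] else 0 :: put sts S c []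
  | S0 :: sts, S, c, a :: v => bif Nat.beq S S0 then Int.add a c :: v else a :: put sts S c v

theorem dot_put (g : ℕ → ℝ) (sts : List ℕ) (S : ℕ) (c : ℤ) (v : List ℤ) (h : S ∈ sts) :
    dot (put sts S c v) (sts.map g) = dot v (sts.map g) + c * g S := by
  induction sts generalizing v with
  | nil => simp at h
  | cons S0 sts ih =>
    cases v with
    | nil =>
      by_cases hS : S = S0
      · subst hS
        simp [put]
      · have h' : S ∈ sts := by simpa [hS] using h
        have hb : Nat.beq S S0 = false := by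
          rw [Bool.eq_false_iff]; intro hh; exact hS (Nat.eq_of_beq_eq_true hh)
        simp only [put, hb, cond_false, List.map_cons, dot_cons, ih [] h']
        simp
    | cons a v =>
      by_cases hS : S = S0
      · subst hS
        have : Nat.beq S S = true := Nat.beq_refl S
        simp only [put, this, cond_true, List.map_cons, dot_cons]
        have : ((Int.add a c : ℤ) : ℝ) = a + c := by exact_mod_cast Int.cast_add a c
        rw [this]; ring
      · have h' : S ∈ sts := by simpa [hS] using h
        have hb : Nat.beq S S0 = false := by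
          rw [Bool.eq_false_iff]; intro hh; exact hS (Nat.eq_of_beq_eq_true hh)
        simp only [put, hb, cond_false, List.map_cons, dot_cons, ih v h']
        ring

/-- membership test -/
def mem (S : ℕ) : List ℕ → Bool
  | [] => false
  | S0 :: sts => Nat.beq S S0 || mem S sts

theorem mem_iff {S : ℕ} {sts : List ℕ} (h : mem S sts = true) : S ∈ sts := by
  induction sts with
  | nil => simp [mem] at h
  | cons S0 sts ih =>
    simp only [mem, Bool.or_eq_true] at h
    rcases h with h | h
    · rw [Nat.eq_of_beq_eq_true h]; simp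
    · exact List.mem_cons_of_mem _ (ih h)

/-- dense vector of a sparse form -/
def dense (sts : List ℕ) : LF → List ℤ
  | [] => []
  | p :: L => put sts p.1 p.2 (dense sts L)

/-- all keys of the form are in `sts` -/
def okL (sts : List ℕ) : LF → Bool
  | [] => true
  | p :: L => mem p.1 sts && okL sts L

theorem dot_dense (g : ℕ → ℝ) (sts : List ℕ) (L : LF) (h : okL sts L = true) :
    dot (dense sts L) (sts.map g) = ev L g := by
  induction L with
  | nil => simp [dense]
  | cons p L ih =>
    simp only [okL, Bool.and_eq_true] at h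
    rw [dense, dot_put g sts _ _ _ (mem_iff h.1), ih h.2, ev_cons]; ring

/-! ### contributions -/

/-- a contribution `c * L₁ * L₂` -/
abbrev Con := ℤ × LF × LF

/-- value of a contribution -/
def cval (g : ℕ → ℝ) (x : Con) : ℝ := (x.1 : ℝ) * (ev x.2.1 g * ev x.2.2 g)

/-- matrix and success flag of a list of contributions -/
def acc (sts : List ℕ) : List Con → List (List ℤ)
  | [] => []
  | (_, [], _) :: l => acc sts l
  | (_, _ :: _, []) :: l => acc sts l
  | (c, p :: L₁, q :: L₂) :: l =>
    addO c (dense sts (p :: L₁)) (dense sts (q :: L₂)) (acc sts l)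

/-- all forms of the contributions are supported in `sts` -/
def okC (sts : List ℕ) : List Con → Bool
  | [] => true
  | (_, [], _) :: l => okC sts l
  | (_, _ :: _, []) :: l => okC sts l
  | (_, p :: L₁, q :: L₂) :: l => (okL sts (p :: L₁) && okL sts (q :: L₂)) && okC sts l

theorem bil_acc (g : ℕ → ℝ) (sts : List ℕ) (l : List Con) (h : okC sts l = true) :
    bil (acc sts l) (sts.map g) (sts.map g) = (l.map (cval g)).sum := by
  induction l with
  | nil => simp [acc]
  | cons x l ih =>
    obtain ⟨c, L₁, L₂⟩ := x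
    cases L₁ with
    | nil =>
      simp only [okC] at h
      simp [acc, ih h, cval]
    | cons p L₁ =>
      cases L₂ with
      | nil =>
        simp only [okC] at h
        simp [acc, ih h, cval]
      | cons q L₂ =>
        simp only [okC, Bool.and_eq_true] at h
        rw [acc, bil_addO, ih h.2, dot_dense g sts _ h.1.1, dot_dense g sts _ h.1.2]
        simp only [List.map_cons, List.sum_cons, cval]
        ring

/-- Positivity from the checks. -/
theorem sum_nonneg_of_check (g : ℕ → ℝ) (sts : List ℕ) (l : List Con) (n : ℕ)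
    (h : okC sts l = true) (h' : psd n (acc sts l) = true) : 0 ≤ (l.map (cval g)).sum := by
  rw [← bil_acc g sts l h]
  exact psd_sound n _ h' _

/-! ### bitmasks -/

/-- bit test -/
def tb (m j : ℕ) : Bool := Nat.beq (Nat.land (Nat.shiftRight m j) 1) 1

theorem tb_eq (m j : ℕ) : tb m j = m.testBit j := by
  have h1 : Nat.land (Nat.shiftRight m j) 1 = (m >>> j) &&& 1 := rfl
  have h2 : m.testBit j = ((1 &&& (m >>> j)) != 0) := rfl
  rw [tb, h1, h2, Nat.and_comm, Nat.one_and_eq_mod_two]
  rcases Nat.mod_two_eq_zero_or_one (m >>> j) with h | h <;> rw [h] <;> rfl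

/-- the set of orbitals of a mask -/
def fs (m : ℕ) : Finset ℕ := (range 9).filter fun i => m.testBit i = true

theorem mem_fs {m i : ℕ} : i ∈ fs m ↔ i < 9 ∧ m.testBit i = true := by simp [fs]

theorem fs_lor {m j : ℕ} (hj : j < 9) : fs (Nat.lor m (Nat.pow 2 j)) = insert j (fs m) := by
  have h1 : Nat.lor m (Nat.pow 2 j) = m ||| 2 ^ j := rfl
  ext i
  rw [h1]
  simp only [mem_fs, Finset.mem_insert, Nat.testBit_or, Nat.testBit_two_pow, Bool.or_eq_true,
    decide_eq_true_eq]
  constructor
  · rintro ⟨h, h2 | h2⟩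
    · exact Or.inr ⟨h, h2⟩
    · exact Or.inl h2.symm
  · rintro (h | h)
    · subst h; exact ⟨hj, Or.inr rfl⟩
    · exact ⟨h.1, Or.inl h.2⟩

/-- sign -/
def sgm (m : ℕ) : ℕ → ℤ
  | 0 => 1
  | j + 1 => bif tb m j then Int.neg (sgm m j) else sgm m j

theorem sgm_eq (m j : ℕ) (hj : j ≤ 9) : Cert132.sgZ j (fs m) = sgm m j := by
  induction j with
  | zero => simp [Cert132.sgZ, sgm]
  | succ j ih =>
    have ih' := ih (by omega)
    unfold Cert132.sgZ at ih' ⊢
    rw [sgm, tb_eq]
    by_cases hb : m.testBit j = true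
    · have : (fs m).filter (· < j + 1) = insert j ((fs m).filter (· < j)) := by
        ext i
        simp only [Finset.mem_filter, mem_fs, Finset.mem_insert]
        constructor
        · rintro ⟨h1, h2⟩
          by_cases hij : i = j
          · exact Or.inl hij
          · exact Or.inr ⟨h1, by omega⟩
        · rintro (h | h)
          · subst h; exact ⟨⟨by omega, hb⟩, by omega⟩
          · exact ⟨h.1, by omega⟩
      rw [this, Finset.card_insert_of_notMem (by simp), hb, pow_succ, ih']
      simp only [cond_true]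
      have : Int.neg (sgm m j) = - sgm m j := rfl
      rw [this]; ring
    · have : (fs m).filter (· < j + 1) = (fs m).filter (· < j) := by
        ext i
        simp only [Finset.mem_filter, mem_fs]
        constructor
        · rintro ⟨h1, h2⟩
          refine ⟨h1, ?_⟩
          by_contra hc
          have : i = j := by omega
          subst this; exact hb h1.2
        · rintro ⟨h1, h2⟩; exact ⟨h1, by omega⟩
      have hb' : m.testBit j = false := by simpa using hb
      rw [this, hb', ih']
      rfl

/-- weight of the first `k` orbitals -/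
def wm (m : ℕ) : ℕ → ℕ
  | 0 => 1
  | k + 1 => bif tb m k then Nat.mul (Nat.factorial k) (wm m k) else wm m k

theorem wm_eq (m k : ℕ) : ((range k).filter fun i => m.testBit i = true).prod Nat.factorial
    = wm m k := by
  induction k with
  | zero => simp [wm]
  | succ k ih =>
    rw [Finset.range_add_one, Finset.filter_insert, wm, tb_eq]
    by_cases hb : m.testBit k = true
    · rw [if_pos hb, Finset.prod_insert (by simp), ih, hb]; rfl
    · have hb' : m.testBit k = false := by simpa using hb
      rw [if_neg hb, ih, hb']; rfl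

/-- masks with orbitals `< n`, `N` elements and sum `M` -/
def enum : ℕ → ℕ → ℕ → List ℕ
  | 0, 0, 0 => [0]
  | 0, 0, _ + 1 => []
  | 0, _ + 1, _ => []
  | n + 1, 0, M => enum n 0 M
  | n + 1, N + 1, M =>
    enum n (N + 1) M ++
      (bif Nat.ble n M then (enum n N (Nat.sub M n)).map (fun m => Nat.lor m (Nat.pow 2 n)) else [])

theorem sum_enum (φ : Finset ℕ → ℝ) (n N M : ℕ) (hn : n ≤ 9) :
    ∑ T ∈ (range n).powerset with (T.card = N ∧ ∑ i ∈ T, i = M), φ T
      = ((enum n N M).map fun m => φ (fs m)).sum := by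
  induction n generalizing N M φ with
  | zero =>
    cases N with
    | zero =>
      cases M with
      | zero =>
        have : fs 0 = ∅ := by ext i; simp [mem_fs]
        simp [enum, this, Finset.filter_singleton]
      | succ M => simp [enum, Finset.filter_singleton]
    | succ N => simp [enum, Finset.filter_singleton]
  | succ n ih =>
    have hsplit : ∀ (p : Finset ℕ → Prop) [DecidablePred p],
        ∑ T ∈ (range (n + 1)).powerset with p T, φ T
        = ∑ T ∈ (range n).powerset with p T, φ T
          + ∑ T ∈ (range n).powerset with p (insert n T), φ (insert n T) := by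
      intro p _
      rw [Finset.sum_filter, Finset.sum_filter, Finset.sum_filter, Finset.range_add_one,
        Finset.sum_powerset_insert (by simp)]
    have hcard : ∀ T ∈ (range n).powerset, (insert n T).card = T.card + 1 ∧
        ∑ i ∈ insert n T, i = n + ∑ i ∈ T, i := by
      intro T hT
      have hnT : n ∉ T := fun h => by
        have := Finset.mem_powerset.1 hT h
        simp at this
      exact ⟨Finset.card_insert_of_notMem hnT, Finset.sum_insert hnT⟩
    rw [hsplit]
    have ih1 := ih φ N M (by omega)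
    rw [ih1]
    cases N with
    | zero =>
      have h0 : ∑ T ∈ (range n).powerset with ((insert n T).card = 0 ∧ ∑ i ∈ insert n T, i = M),
          φ (insert n T) = 0 := by
        apply Finset.sum_eq_zero
        intro T hT
        simp only [Finset.mem_filter] at hT
        have := (hcard T hT.1).1
        omega
      rw [h0, add_zero]; rfl
    | succ N =>
      rw [enum, List.map_append, List.sum_append]
      congr 1
      by_cases hM : n ≤ M
      · have hb : Nat.ble n M = true := Nat.ble_eq_true_of_le hM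
        rw [hb, cond_true]
        have ih2 := ih (fun T => φ (insert n T)) N (M - n) (by omega)
        have : ∑ T ∈ (range n).powerset with
            ((insert n T).card = N + 1 ∧ ∑ i ∈ insert n T, i = M), φ (insert n T)
            = ∑ T ∈ (range n).powerset with (T.card = N ∧ ∑ i ∈ T, i = M - n),
              φ (insert n T) := by
          apply Finset.sum_congr _ (fun _ _ => rfl)
          ext T
          simp only [Finset.mem_filter]
          constructor
          · rintro ⟨h1, h2⟩
            obtain ⟨h3, h4⟩ := hcard T h1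
            refine ⟨h1, ?_, ?_⟩ <;> omega
          · rintro ⟨h1, h2⟩
            obtain ⟨h3, h4⟩ := hcard T h1
            refine ⟨h1, ?_, ?_⟩ <;> omega
        rw [this, ih2, List.map_map]
        congr 1
        apply List.map_congr_left
        intro m _
        simp only [Function.comp]
        rw [fs_lor (by omega)]
      · have hb : Nat.ble n M = false := by
          rw [Bool.eq_false_iff]; intro hh; exact hM (Nat.le_of_ble_eq_true hh)
        rw [hb, cond_false]
        simp only [List.map_nil, List.sum_nil]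
        apply Finset.sum_eq_zero
        intro T hT
        simp only [Finset.mem_filter] at hT
        obtain ⟨h3, h4⟩ := hcard T hT.1
        have := hT.2.2
        omega

end Crest.Agent.R340.LP665
private theorem rz_7b0f36c979 : type_of% @_root_.Crest.Agent.R340.LP665.acc.eq_def := @_root_.Crest.Agent.R340.LP665.acc.eq_def -- L344
private theorem rz_9f1ab417b8 : type_of% @_root_.Crest.Agent.R340.LP665.acc.eq_1 := @_root_.Crest.Agent.R340.LP665.acc.eq_1 -- L344
private theorem rz_f8c5860047 : type_of% @_root_.Crest.Agent.R340.LP665.addO.eq_def := @_root_.Crest.Agent.R340.LP665.addO.eq_def -- L78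
private theorem rz_a55d793638 : type_of% @_root_.Crest.Agent.R340.LP665.addO.eq_1 := @_root_.Crest.Agent.R340.LP665.addO.eq_1 -- L78
private theorem rz_6da223a859 : type_of% @_root_.Crest.Agent.R340.LP665.addV.eq_def := @_root_.Crest.Agent.R340.LP665.addV.eq_def -- L26
private theorem rz_184fe98b1e : type_of% @_root_.Crest.Agent.R340.LP665.addV.eq_1 := @_root_.Crest.Agent.R340.LP665.addV.eq_1 -- L26
private theorem rz_3c8d22f699 : type_of% @_root_.Crest.Agent.R340.LP665.dense.eq_def := @_root_.Crest.Agent.R340.LP665.dense.eq_def -- L318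
private theorem rz_98d6b5edb8 : type_of% @_root_.Crest.Agent.R340.LP665.dense.eq_1 := @_root_.Crest.Agent.R340.LP665.dense.eq_1 -- L318
private theorem rz_3a455193bd : type_of% @_root_.Crest.Agent.R340.LP665.enum.eq_def := @_root_.Crest.Agent.R340.LP665.enum.eq_def -- L474
private theorem rz_47366568f6 : type_of% @_root_.Crest.Agent.R340.LP665.enum.eq_1 := @_root_.Crest.Agent.R340.LP665.enum.eq_1 -- L474
private theorem rz_7a6922eb7d : type_of% @_root_.Crest.Agent.R340.LP665.heads.eq_def := @_root_.Crest.Agent.R340.LP665.heads.eq_def -- L103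
private theorem rz_97e45c442c : type_of% @_root_.Crest.Agent.R340.LP665.heads.eq_1 := @_root_.Crest.Agent.R340.LP665.heads.eq_1 -- L103
private theorem rz_f98268f337 : type_of% @_root_.Crest.Agent.R340.LP665.mem.eq_def := @_root_.Crest.Agent.R340.LP665.mem.eq_def -- L304
private theorem rz_206a4755ae : type_of% @_root_.Crest.Agent.R340.LP665.mem.eq_1 := @_root_.Crest.Agent.R340.LP665.mem.eq_1 -- L304
private theorem rz_aac3fde379 : type_of% @_root_.Crest.Agent.R340.LP665.okC.eq_def := @_root_.Crest.Agent.R340.LP665.okC.eq_def -- L352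
private theorem rz_4ed05df508 : type_of% @_root_.Crest.Agent.R340.LP665.okC.eq_1 := @_root_.Crest.Agent.R340.LP665.okC.eq_1 -- L352
private theorem rz_d44ce3cab1 : type_of% @_root_.Crest.Agent.R340.LP665.okL.eq_def := @_root_.Crest.Agent.R340.LP665.okL.eq_def -- L323
private theorem rz_27749bcce4 : type_of% @_root_.Crest.Agent.R340.LP665.okL.eq_1 := @_root_.Crest.Agent.R340.LP665.okL.eq_1 -- L323
private theorem rz_262a720696 : type_of% @_root_.Crest.Agent.R340.LP665.psd.eq_def := @_root_.Crest.Agent.R340.LP665.psd.eq_def -- L166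
private theorem rz_dd3d0e83e0 : type_of% @_root_.Crest.Agent.R340.LP665.psd.eq_1 := @_root_.Crest.Agent.R340.LP665.psd.eq_1 -- L166
private theorem rz_4fcf7582bc : type_of% @_root_.Crest.Agent.R340.LP665.put.eq_def := @_root_.Crest.Agent.R340.LP665.put.eq_def -- L270
private theorem rz_da39216ec6 : type_of% @_root_.Crest.Agent.R340.LP665.put.eq_1 := @_root_.Crest.Agent.R340.LP665.put.eq_1 -- L270
private theorem rz_649e2421d8 : type_of% @_root_.Crest.Agent.R340.LP665.sc.eq_def := @_root_.Crest.Agent.R340.LP665.sc.eq_def -- L257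
private theorem rz_be1f92b5ee : type_of% @_root_.Crest.Agent.R340.LP665.sc.eq_1 := @_root_.Crest.Agent.R340.LP665.sc.eq_1 -- L257
private theorem rz_77c9d3bf00 : type_of% @_root_.Crest.Agent.R340.LP665.sgm.eq_def := @_root_.Crest.Agent.R340.LP665.sgm.eq_def -- L416
private theorem rz_b2c8fe555c : type_of% @_root_.Crest.Agent.R340.LP665.sgm.eq_1 := @_root_.Crest.Agent.R340.LP665.sgm.eq_1 -- L416
private theorem rz_a77608bf42 : type_of% @_root_.Crest.Agent.R340.LP665.smM.eq_def := @_root_.Crest.Agent.R340.LP665.smM.eq_def -- L127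
private theorem rz_2176dacdde : type_of% @_root_.Crest.Agent.R340.LP665.smM.eq_1 := @_root_.Crest.Agent.R340.LP665.smM.eq_1 -- L127
private theorem rz_99bb5571fb : type_of% @_root_.Crest.Agent.R340.LP665.smV.eq_def := @_root_.Crest.Agent.R340.LP665.smV.eq_def -- L32
private theorem rz_47981bb242 : type_of% @_root_.Crest.Agent.R340.LP665.smV.eq_1 := @_root_.Crest.Agent.R340.LP665.smV.eq_1 -- L32
private theorem rz_c91a3310e7 : type_of% @_root_.Crest.Agent.R340.LP665.tls.eq_def := @_root_.Crest.Agent.R340.LP665.tls.eq_def -- L109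
private theorem rz_d598442369 : type_of% @_root_.Crest.Agent.R340.LP665.tls.eq_1 := @_root_.Crest.Agent.R340.LP665.tls.eq_1 -- L109
private theorem rz_ca7545b6f3 : type_of% @_root_.Crest.Agent.R340.LP665.wm.eq_def := @_root_.Crest.Agent.R340.LP665.wm.eq_def -- L458
private theorem rz_5d5d054cc7 : type_of% @_root_.Crest.Agent.R340.LP665.wm.eq_1 := @_root_.Crest.Agent.R340.LP665.wm.eq_1 -- L458
private theorem rz_51a10eb80f : type_of% @_root_.Crest.Agent.R340.LP665.zV.eq_def := @_root_.Crest.Agent.R340.LP665.zV.eq_def -- L152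
private theorem rz_602a4bcec7 : type_of% @_root_.Crest.Agent.R340.LP665.zV.eq_1 := @_root_.Crest.Agent.R340.LP665.zV.eq_1 -- L152
end

-- ▼ part R340/LPB_665
section

/-!
# Kernel checker for the local positivity certificate (helper665, R340, S0533), part B

The linear forms of the certificate on bitmasks, regrouping by blocks.
-/

set_option autoImplicit false

namespace Crest.Agent.R340.LP665

open Finset Cert132

/-- the variable of a mask -/
def F0 (m : ℕ) : LF := [(m, 1)]

/-- annihilator on mask forms -/
def dlL (j : ℕ) (F : ℕ → LF) (m : ℕ) : LF :=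
  bif tb m j then [] else sc (sgm m j) (F (Nat.lor m (Nat.pow 2 j)))

/-- partial pair annihilator -/
def wlA (q : ℕ) (F : ℕ → LF) (m : ℕ) : ℕ → LF
  | 0 => []
  | i + 1 => wlA q F m i ++
      sc (Int.sub (Int.ofNat (Nat.succ q)) (Int.ofNat (Nat.mul 2 i)))
        (dlL (Nat.sub (Nat.succ q) i) (dlL i F) m)

/-- pair annihilator on mask forms -/
def wlL (q : ℕ) (F : ℕ → LF) (m : ℕ) : LF := wlA q F m (Nat.succ (Nat.div q 2))

/-- `F` represents the function `h` -/
def Sem (f : Finset ℕ → ℝ) (F : ℕ → LF) (h : Finset ℕ → ℝ) : Prop :=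
  ∀ m, ev (F m) (fun m => f (fs m)) = h (fs m)

theorem sem_F0 (f : Finset ℕ → ℝ) : Sem f F0 f := by
  intro m; simp [F0]

theorem sem_dlL {f : Finset ℕ → ℝ} {F : ℕ → LF} {h : Finset ℕ → ℝ} (hF : Sem f F h) {j : ℕ}
    (hj : j < 9) : Sem f (dlL j F) (dl j h) := by
  intro m
  unfold dlL dl
  rw [tb_eq]
  by_cases hb : m.testBit j = true
  · have : j ∈ fs m := mem_fs.2 ⟨hj, hb⟩
    rw [hb, cond_true, if_pos this, ev_nil]
  · have hb' : m.testBit j = false := by simpa using hb
    have : j ∉ fs m := fun h => hb (mem_fs.1 h).2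
    rw [hb', cond_false, if_neg this, ev_sc, hF, fs_lor hj, sgm_eq m j (by omega), zsmul_eq_mul]

theorem sem_wlL {f : Finset ℕ → ℝ} {F : ℕ → LF} {h : Finset ℕ → ℝ} (hF : Sem f F h) {q : ℕ}
    (hq : q < 8) : Sem f (wlL q F) (wl q h) := by
  intro m
  have key : ∀ k, k ≤ q / 2 + 1 → ev (wlA q F m k) (fun m => f (fs m))
      = ∑ i ∈ range k, ((q : ℤ) + 1 - 2 * i) • dl (q + 1 - i) (dl i h) (fs m) := by
    intro k
    induction k with
    | zero => intro _; simp [wlA]
    | succ k ih =>
      intro hk
      rw [wlA, ev_append, ih (by omega), Finset.sum_range_succ, ev_sc]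
      congr 1
      have h1 : Nat.sub (Nat.succ q) k = q + 1 - k := rfl
      have h2 : (Int.sub (Int.ofNat (Nat.succ q)) (Int.ofNat (Nat.mul 2 k)))
        = ((q : ℤ) + 1 - 2 * k) := by
        have : (Int.sub (Int.ofNat (Nat.succ q)) (Int.ofNat (Nat.mul 2 k)))
          = ((q + 1 : ℕ) : ℤ) - ((2 * k : ℕ) : ℤ) := rfl
        rw [this]; push_cast; ring
      rw [h1, h2, sem_dlL (sem_dlL hF (j := k) (by omega)) (j := q + 1 - k) (by omega),
        zsmul_eq_mul]
  exact key _ le_rfl

/-- generic term of the certificate -/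
structure Term where
  /-- number of added orbitals -/
  k : ℕ
  /-- sum of added orbitals -/
  a : ℕ
  /-- coefficient -/
  n : ℤ
  /-- first form -/
  F1 : ℕ → LF
  /-- second form -/
  F2 : ℕ → LF

/-- all terms -/
def terms (G : List (ℕ × ℤ)) (B A : List (ℕ × ℕ × ℕ × ℕ × ℤ)) : List Term :=
  (G.map fun x => ⟨2, x.1 + 1, x.2, wlL x.1 F0, wlL x.1 F0⟩) ++
  ((B.map fun x => ⟨3, x.1 + 1 + x.2.1, x.2.2.2.2,
    dlL x.2.1 (wlL x.1 F0), dlL x.2.2.2.1 (wlL x.2.2.1 F0)⟩) ++
  (A.map fun x => ⟨4, x.1 + 1 + (x.2.1 + 1), x.2.2.2.2,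
    wlL x.2.1 (wlL x.1 F0), wlL x.2.2.2.1 (wlL x.2.2.1 F0)⟩))

/-- value of a term at a mask, without weight -/
def tval (g : ℕ → ℝ) (m : ℕ) (t : Term) : ℝ := (t.n : ℝ) * (ev (t.F1 m) g * ev (t.F2 m) g)

theorem sum_congr_list {α : Type*} (l : List α) (φ ψ : α → ℝ) (h : ∀ x ∈ l, φ x = ψ x) :
    (l.map φ).sum = (l.map ψ).sum := by
  rw [List.map_congr_left h]

theorem form_eq {G : List (ℕ × ℤ)} {B A : List (ℕ × ℕ × ℕ × ℕ × ℤ)} (h : Adm 8 G B A)
    (f : Finset ℕ → ℝ) (m : ℕ) :
    form G B A f (fs m) = ((terms G B A).map (tval (fun m => f (fs m)) m)).sum := by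
  obtain ⟨hG, hB, hA⟩ := h
  rw [terms, List.map_append, List.map_append, List.sum_append, List.sum_append, form,
    List.map_map, List.map_map, List.map_map, add_assoc]
  congr 1
  · apply sum_congr_list
    intro x hx
    have := sem_wlL (sem_F0 f) (hG x hx) m
    simp only [Function.comp, tval, this]
  congr 1
  · apply sum_congr_list
    intro x hx
    obtain ⟨h1, h2, h3, h4⟩ := hB x hx
    have e1 := sem_dlL (sem_wlL (sem_F0 f) h1) (j := x.2.1) (by omega) m
    have e2 := sem_dlL (sem_wlL (sem_F0 f) h3) (j := x.2.2.2.1) (by omega) m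
    simp only [Function.comp, tval, e1, e2]
  · apply sum_congr_list
    intro x hx
    obtain ⟨h1, h2, h3, h4⟩ := hA x hx
    have e1 := sem_wlL (sem_wlL (sem_F0 f) h1) h2 m
    have e2 := sem_wlL (sem_wlL (sem_F0 f) h3) h4 m
    simp only [Function.comp, tval, e1, e2]

/-- terms with given key -/
def grp (ts : List Term) (k a : ℕ) : List Term :=
  ts.filter fun t => Nat.beq t.k k && Nat.beq t.a a

/-- contributions at the masks of a list -/
def consM (ts : List Term) : List ℕ → List Con
  | [] => []
  | m :: l => ts.map (fun t => (Int.mul t.n (Int.ofNat (wm m 9)), t.F1 m, t.F2 m)) ++ consM ts l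

/-- contributions of one shift -/
def cons1 (ts : List Term) (N M k a : ℕ) : List Con :=
  bif Nat.ble k N && Nat.ble a M then consM ts (enum 9 (Nat.sub N k) (Nat.sub M a)) else []

/-- contributions of a block from a list of shifts (with their groups of terms) -/
def consS (N M : ℕ) : List (ℕ × ℕ × List Term) → List Con
  | [] => []
  | x :: l => cons1 x.2.2 N M x.1 x.2.1 ++ consS N M l

/-- the weighted function of a term -/
noncomputable def wt (f : Finset ℕ → ℝ) (t : Term) (m : ℕ) : ℝ :=
  (wm m 9 : ℝ) * tval (fun m => f (fs m)) m t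

theorem cval_eq (f : Finset ℕ → ℝ) (t : Term) (m : ℕ) :
    cval (fun m => f (fs m)) (Int.mul t.n (Int.ofNat (wm m 9)), t.F1 m, t.F2 m) = wt f t m := by
  have : ((Int.mul t.n (Int.ofNat (wm m 9)) : ℤ) : ℝ) = t.n * (wm m 9 : ℝ) := by
    have : Int.mul t.n (Int.ofNat (wm m 9)) = t.n * ((wm m 9 : ℕ) : ℤ) := rfl
    rw [this]; push_cast; ring
  simp only [cval, wt, tval, this]; ring

theorem sum_consM (f : Finset ℕ → ℝ) (ts : List Term) (l : List ℕ) :
    ((consM ts l).map (cval fun m => f (fs m))).sum
      = (l.map fun m => (ts.map fun t => wt f t m).sum).sum := by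
  induction l with
  | nil => simp [consM]
  | cons m l ih =>
    rw [consM, List.map_append, List.sum_append, ih, List.map_map]
    simp only [List.map_cons, List.sum_cons]
    congr 1
    apply sum_congr_list
    intro t _
    exact cval_eq f t m

end Crest.Agent.R340.LP665
private theorem rz_285c0bd6b7 : type_of% @_root_.Crest.Agent.R340.LP665.consM.eq_def := @_root_.Crest.Agent.R340.LP665.consM.eq_def -- L133
private theorem rz_353d983531 : type_of% @_root_.Crest.Agent.R340.LP665.consM.eq_1 := @_root_.Crest.Agent.R340.LP665.consM.eq_1 -- L133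
private theorem rz_b2a03729ba : type_of% @_root_.Crest.Agent.R340.LP665.consS.eq_def := @_root_.Crest.Agent.R340.LP665.consS.eq_def -- L142
private theorem rz_47cfc091da : type_of% @_root_.Crest.Agent.R340.LP665.consS.eq_1 := @_root_.Crest.Agent.R340.LP665.consS.eq_1 -- L142
private theorem rz_7f14460232 : type_of% @_root_.Crest.Agent.R340.LP665.wlA.eq_def := @_root_.Crest.Agent.R340.LP665.wlA.eq_def -- L25
private theorem rz_badfaaaaba : type_of% @_root_.Crest.Agent.R340.LP665.wlA.eq_1 := @_root_.Crest.Agent.R340.LP665.wlA.eq_1 -- L25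
end

-- ▼ part R340/LPC_665
section

/-!
# Kernel checker for the local positivity certificate (helper665, R340, S0533), part C

Regrouping of the certificate form by blocks (number, sum of orbitals).
-/

set_option autoImplicit false

namespace Crest.Agent.R340.LP665

open Finset Cert132

/-- every finite set of orbitals `< 9` has a mask -/
theorem exists_mask (T : Finset ℕ) (hT : ∀ i ∈ T, i < 9) : ∃ m, fs m = T := by
  induction T using Finset.induction_on with
  | empty => exact ⟨0, by ext i; simp [mem_fs]⟩
  | insert j T hj ih =>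
    obtain ⟨m, hm⟩ := ih fun i hi => hT i (Finset.mem_insert_of_mem hi)
    exact ⟨Nat.lor m (Nat.pow 2 j), by rw [fs_lor (hT j (Finset.mem_insert_self _ _)), hm]⟩

/-- the term only depends on the set of the mask -/
def TSem (f : Finset ℕ → ℝ) (t : Term) : Prop :=
  ∃ ψ : Finset ℕ → ℝ, ∀ m, tval (fun m => f (fs m)) m t = ψ (fs m)

theorem tsem {G : List (ℕ × ℤ)} {B A : List (ℕ × ℕ × ℕ × ℕ × ℤ)} (h : Adm 8 G B A)
    (f : Finset ℕ → ℝ) : ∀ t ∈ terms G B A, TSem f t ∧ (t.k = 2 ∨ t.k = 3 ∨ t.k = 4) ∧ t.a < 20 := by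
  obtain ⟨hG, hB, hA⟩ := h
  intro t ht
  simp only [terms, List.mem_append, List.mem_map] at ht
  rcases ht with ⟨x, hx, rfl⟩ | ⟨x, hx, rfl⟩ | ⟨x, hx, rfl⟩
  · have h1 := hG x hx
    refine ⟨⟨fun T => (x.2 : ℝ) * (wl x.1 f T * wl x.1 f T), fun m => ?_⟩, by simp, by
      simp only; omega⟩
    simp only [tval, sem_wlL (sem_F0 f) h1 m]
  · obtain ⟨h1, h2, h3, h4⟩ := hB x hx
    refine ⟨⟨fun T => (x.2.2.2.2 : ℝ) *
      (dl x.2.1 (wl x.1 f) T * dl x.2.2.2.1 (wl x.2.2.1 f) T), fun m => ?_⟩, by simp, by
      simp only; omega⟩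
    have e1 := sem_dlL (sem_wlL (sem_F0 f) h1) (j := x.2.1) (by omega) m
    have e2 := sem_dlL (sem_wlL (sem_F0 f) h3) (j := x.2.2.2.1) (by omega) m
    simp only [tval, e1, e2]
  · obtain ⟨h1, h2, h3, h4⟩ := hA x hx
    refine ⟨⟨fun T => (x.2.2.2.2 : ℝ) *
      (wl x.2.1 (wl x.1 f) T * wl x.2.2.2.1 (wl x.2.2.1 f) T), fun m => ?_⟩, by simp, by
      simp only; omega⟩
    have e1 := sem_wlL (sem_wlL (sem_F0 f) h1) h2 m
    have e2 := sem_wlL (sem_wlL (sem_F0 f) h3) h4 m
    simp only [tval, e1, e2]

theorem sum_swap {α : Type*} (s : Finset (Finset ℕ)) (l : List α) (φ : α → Finset ℕ → ℝ) :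
    ∑ T ∈ s, (l.map fun t => φ t T).sum = (l.map fun t => ∑ T ∈ s, φ t T).sum := by
  induction l with
  | nil => simp
  | cons t l ih => simp only [List.map_cons, List.sum_cons, Finset.sum_add_distrib, ih]

theorem sum_swap2 {α β : Type*} (s : Finset β) (l : List α) (φ : α → β → ℝ) :
    ∑ T ∈ s, (l.map fun t => φ t T).sum = (l.map fun t => ∑ T ∈ s, φ t T).sum := by
  induction l with
  | nil => simp
  | cons t l ih => simp only [List.map_cons, List.sum_cons, Finset.sum_add_distrib, ih]

/-- the contribution of a shift to the block `(N, M)` -/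
noncomputable def shv (Φ : Finset ℕ → ℝ) (N M k a : ℕ) : ℝ :=
  bif Nat.ble k N && Nat.ble a M then
    ((enum 9 (Nat.sub N k) (Nat.sub M a)).map fun m => Φ (fs m)).sum else 0

theorem sum_shv (Φ : Finset ℕ → ℝ) (k a : ℕ) (hk : k ≤ 4) (ha : a < 20) :
    ∑ T ∈ (range 9).powerset, Φ T = ∑ N ∈ range 14, ∑ M ∈ range 60, shv Φ N M k a := by
  have hmaps : ∀ T ∈ (range 9).powerset,
      ((T.card + k, ∑ i ∈ T, i + a) : ℕ × ℕ) ∈ (range 14) ×ˢ (range 60) := by
    intro T hT
    have h1 : T.card ≤ 9 := by
      have := Finset.card_le_card (Finset.mem_powerset.1 hT); simpa using this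
    have h2 : ∑ i ∈ T, i ≤ 36 := by
      have := Finset.sum_le_sum_of_subset (f := fun i => i) (Finset.mem_powerset.1 hT)
      have h3 : ∑ i ∈ range 9, i = 36 := by decide
      omega
    simp only [Finset.mem_product, Finset.mem_range]
    constructor <;> omega
  rw [← Finset.sum_fiberwise_of_maps_to hmaps, Finset.sum_product]
  apply Finset.sum_congr rfl
  intro N _
  apply Finset.sum_congr rfl
  intro M _
  unfold shv
  by_cases h1 : k ≤ N
  · by_cases h2 : a ≤ M
    · have hb1 : Nat.ble k N = true := Nat.ble_eq_true_of_le h1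
      have hb2 : Nat.ble a M = true := Nat.ble_eq_true_of_le h2
      rw [hb1, hb2, Bool.and_self, cond_true]
      have := sum_enum Φ 9 (Nat.sub N k) (Nat.sub M a) le_rfl
      rw [← this]
      apply Finset.sum_congr _ (fun _ _ => rfl)
      ext T
      have e1 : Nat.sub N k = N - k := rfl
      have e2 : Nat.sub M a = M - a := rfl
      simp only [Finset.mem_filter, Prod.mk.injEq, e1, e2]
      constructor
      · rintro ⟨h, h3, h4⟩; exact ⟨h, by omega, by omega⟩
      · rintro ⟨h, h3, h4⟩; exact ⟨h, by omega, by omega⟩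
    · have hb2 : Nat.ble a M = false := by
        rw [Bool.eq_false_iff]; intro hh; exact h2 (Nat.le_of_ble_eq_true hh)
      rw [hb2, Bool.and_false, cond_false]
      apply Finset.sum_eq_zero
      intro T hT
      simp only [Finset.mem_filter, Prod.mk.injEq] at hT
      omega
  · have hb2 : Nat.ble k N = false := by
      rw [Bool.eq_false_iff]; intro hh; exact h1 (Nat.le_of_ble_eq_true hh)
    rw [hb2, Bool.false_and, cond_false]
    apply Finset.sum_eq_zero
    intro T hT
    simp only [Finset.mem_filter, Prod.mk.injEq] at hT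
    omega

/-- grouping a list sum by keys -/
theorem group_sum (ks : List (ℕ × ℕ)) (hks : ks.Nodup) (ts : List Term)
    (X : ℕ → ℕ → Term → ℝ) (h : ∀ t ∈ ts, (t.k, t.a) ∈ ks) :
    (ks.map fun p => ((grp ts p.1 p.2).map (X p.1 p.2)).sum).sum
      = (ts.map fun t => X t.k t.a t).sum := by
  induction ts with
  | nil =>
    simp [grp]
  | cons t ts ih =>
    have ih' := ih fun t' ht' => h t' (List.mem_cons_of_mem _ ht')
    have ht := h t (by simp)
    rw [List.map_cons, List.sum_cons, ← ih']
    have hstep : ∀ p : ℕ × ℕ, ((grp (t :: ts) p.1 p.2).map (X p.1 p.2)).sum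
        = (if p = (t.k, t.a) then X t.k t.a t else 0) + ((grp ts p.1 p.2).map (X p.1 p.2)).sum := by
      intro p
      unfold grp
      by_cases hp : p = (t.k, t.a)
      · rw [if_pos hp, hp]
        rw [List.filter_cons_of_pos (by simp)]
        simp
      · rw [if_neg hp, zero_add, List.filter_cons_of_neg]
        intro hh
        simp only [Bool.and_eq_true] at hh
        apply hp
        have e1 := Nat.eq_of_beq_eq_true hh.1
        have e2 := Nat.eq_of_beq_eq_true hh.2
        rw [Prod.ext_iff]; exact ⟨e1.symm, e2.symm⟩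
    simp only [hstep]
    have : ∀ (l : List (ℕ × ℕ)) (u v : ℕ × ℕ → ℝ),
        (l.map fun p => u p + v p).sum = (l.map u).sum + (l.map v).sum := by
      intro l u v
      induction l with
      | nil => simp
      | cons a l ih2 => simp only [List.map_cons, List.sum_cons, ih2]; ring
    rw [this]
    congr 1
    have hone : ∀ (l : List (ℕ × ℕ)), l.Nodup → (t.k, t.a) ∈ l →
        (l.map fun p => if p = (t.k, t.a) then X t.k t.a t else 0).sum = X t.k t.a t := by
      intro l
      induction l with
      | nil => intro _ h; simp at h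
      | cons b l ih3 =>
        intro hnd hmem
        rw [List.nodup_cons] at hnd
        by_cases hb : b = (t.k, t.a)
        · have hz : (l.map fun p => if p = (t.k, t.a) then X t.k t.a t else 0).sum = 0 := by
            apply List.sum_eq_zero
            intro y hy
            rw [List.mem_map] at hy
            obtain ⟨p, hp, rfl⟩ := hy
            rw [if_neg]
            rintro rfl
            exact hnd.1 (hb ▸ hp)
          rw [List.map_cons, List.sum_cons, if_pos hb, hz, add_zero]
        · have hmem' : (t.k, t.a) ∈ l := by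
            rcases List.mem_cons.1 hmem with h' | h'
            · exact absurd h'.symm hb
            · exact h'
          rw [List.map_cons, List.sum_cons, if_neg hb, zero_add, ih3 hnd.2 hmem']
    exact hone ks hks ht

/-- shifts -/
def ks : List (ℕ × ℕ) :=
  (List.range 20).map (fun a => (2, a)) ++ ((List.range 20).map (fun a => (3, a)) ++
    (List.range 20).map (fun a => (4, a)))

theorem ks_nodup : ks.Nodup := by decide

theorem mem_ks {k a : ℕ} (hk : k = 2 ∨ k = 3 ∨ k = 4) (ha : a < 20) : (k, a) ∈ ks := by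
  simp only [ks, List.mem_append, List.mem_map, List.mem_range, Prod.mk.injEq]
  rcases hk with rfl | rfl | rfl
  · exact Or.inl ⟨a, ha, rfl, rfl⟩
  · exact Or.inr (Or.inl ⟨a, ha, rfl, rfl⟩)
  · exact Or.inr (Or.inr ⟨a, ha, rfl, rfl⟩)

/-- grouped terms -/
def gl (ts : List Term) : List (ℕ × ℕ × List Term) := ks.map fun p => (p.1, p.2, grp ts p.1 p.2)

theorem sum_consS (f : Finset ℕ → ℝ) (N M : ℕ) (l : List (ℕ × ℕ × List Term)) :
    ((consS N M l).map (cval fun m => f (fs m))).sum
      = (l.map fun x => ((cons1 x.2.2 N M x.1 x.2.1).map (cval fun m => f (fs m))).sum).sum := by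
  induction l with
  | nil => simp [consS]
  | cons x l ih => rw [consS, List.map_append, List.sum_append, ih, List.map_cons, List.sum_cons]

theorem sum_cons1 (f : Finset ℕ → ℝ) (Φ : Term → Finset ℕ → ℝ) (ts : List Term)
    (hΦ : ∀ t ∈ ts, ∀ m, wt f t m = Φ t (fs m)) (N M k a : ℕ) :
    ((cons1 ts N M k a).map (cval fun m => f (fs m))).sum
      = (ts.map fun t => shv (Φ t) N M k a).sum := by
  unfold cons1 shv
  cases hb : (Nat.ble k N && Nat.ble a M)
  · simp
  · simp only [cond_true]
    rw [sum_consM]
    have h1 : ∀ l : List ℕ, (l.map fun m => (ts.map fun t => wt f t m).sum).sum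
        = (ts.map fun t => (l.map fun m => Φ t (fs m)).sum).sum := by
      intro l
      induction l with
      | nil => simp
      | cons m l ih =>
        rw [List.map_cons, List.sum_cons, ih]
        have : ∀ (l' : List Term) (u v : Term → ℝ),
            (l'.map u).sum + (l'.map v).sum = (l'.map fun t => u t + v t).sum := by
          intro l' u v
          induction l' with
          | nil => simp
          | cons a l' ih2 => simp only [List.map_cons, List.sum_cons, ← ih2]; ring
        rw [this]
        apply sum_congr_list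
        intro t ht
        rw [List.map_cons, List.sum_cons, hΦ t ht m]
    exact h1 _

/-- Regrouping by blocks. -/
theorem regroup {G : List (ℕ × ℤ)} {B A : List (ℕ × ℕ × ℕ × ℕ × ℤ)} (h : Adm 8 G B A)
    (f : Finset ℕ → ℝ) :
    ∑ T ∈ (range (8 + 1)).powerset, ((∏ i ∈ T, i.factorial : ℕ) : ℝ) * form G B A f T
      = ∑ N ∈ range 14, ∑ M ∈ range 60,
        ((consS N M (gl (terms G B A))).map (cval fun m => f (fs m))).sum := by
  classical
  have hts := tsem h f
  set ts := terms G B A with hts_def
  -- choose the functions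
  let ψ : Term → Finset ℕ → ℝ := fun t => if ht : TSem f t then ht.choose else 0
  have hψ : ∀ t ∈ ts, ∀ m, tval (fun m => f (fs m)) m t = ψ t (fs m) := by
    intro t ht m
    have h1 := (hts t ht).1
    simp only [ψ, dif_pos h1]
    exact h1.choose_spec m
  let Φ : Term → Finset ℕ → ℝ := fun t T => ((∏ i ∈ T, i.factorial : ℕ) : ℝ) * ψ t T
  have hw : ∀ m, (∏ i ∈ fs m, i.factorial : ℕ) = wm m 9 := fun m => wm_eq m 9
  have hΦ : ∀ t ∈ ts, ∀ m, wt f t m = Φ t (fs m) := by
    intro t ht m
    simp only [wt, Φ, hw, hψ t ht m]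
  have hl : ∑ T ∈ (range (8 + 1)).powerset, ((∏ i ∈ T, i.factorial : ℕ) : ℝ) * form G B A f T
      = ∑ T ∈ (range 9).powerset, (ts.map fun t => Φ t T).sum := by
    apply Finset.sum_congr rfl
    intro T hT
    obtain ⟨m, rfl⟩ := exists_mask T fun i hi => by
      have := Finset.mem_powerset.1 hT hi; simpa using this
    rw [form_eq h f m, ← List.sum_map_mul_left]
    apply sum_congr_list
    intro t ht
    rw [hψ t ht m]
  rw [hl, sum_swap]
  have h1 : (ts.map fun t => ∑ T ∈ (range 9).powerset, Φ t T).sum
      = (ts.map fun t => ∑ N ∈ range 14, ∑ M ∈ range 60, shv (Φ t) N M t.k t.a).sum := by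
    apply sum_congr_list
    intro t ht
    obtain ⟨_, h2, h3⟩ := hts t ht
    exact sum_shv (Φ t) t.k t.a (by omega) h3
  rw [h1, ← sum_swap2]
  apply Finset.sum_congr rfl
  intro N _
  rw [← sum_swap2]
  apply Finset.sum_congr rfl
  intro M _
  rw [sum_consS, gl, List.map_map]
  have h4 := group_sum ks ks_nodup ts (fun k a t => shv (Φ t) N M k a)
    (fun t ht => mem_ks (hts t ht).2.1 (hts t ht).2.2)
  rw [← h4]
  apply sum_congr_list
  intro p _
  simp only [Function.comp]
  rw [sum_cons1 f Φ (grp ts p.1 p.2) (fun t ht => hΦ t (List.mem_of_mem_filter ht))]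

/-- the check of a block -/
def chk (l : List (ℕ × ℕ × List Term)) (N M : ℕ) : Bool :=
  okC (enum 9 N M) (consS N M l) && psd 40 (acc (enum 9 N M) (consS N M l))


end Crest.Agent.R340.LP665
end

-- ▼ part R340/LPU_249

/-!
# Unattainable blocks contribute nothing (helper249, R340, S0533)

A block `(N, M)` with no set of orbitals `< 9` having `N` elements and sum `M` need not be checked.
-/

set_option autoImplicit false

namespace Crest.Agent.R340.LP665

open Finset Cert132

/-- `h` vanishes on the sets of orbitals `< 9` with `N` elements and sum `M` -/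
def Van (N M : ℕ) (h : Finset ℕ → ℝ) : Prop :=
  ∀ T : Finset ℕ, (∀ i ∈ T, i < 9) → T.card = N → ∑ i ∈ T, i = M → h T = 0

theorem van_dl {N M j : ℕ} {h : Finset ℕ → ℝ} (hv : Van (N + 1) (M + j) h) (hj : j < 9) :
    Van N M (dl j h) := by
  intro T hT hN hM
  unfold dl
  split_ifs with hjT
  · rfl
  · rw [hv (insert j T) ?_ ?_ ?_, smul_zero]
    · intro i hi
      rcases Finset.mem_insert.1 hi with rfl | hi
      · exact hj
      · exact hT i hi
    · rw [Finset.card_insert_of_notMem hjT, hN]
    · rw [Finset.sum_insert hjT, hM]; omega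

theorem van_wl {N M q : ℕ} {h : Finset ℕ → ℝ} (hv : Van (N + 2) (M + (q + 1)) h) (hq : q < 8) :
    Van N M (wl q h) := by
  intro T hT hN hM
  unfold wl
  refine Finset.sum_eq_zero fun i hi => ?_
  have hi' : i < q / 2 + 1 := Finset.mem_range.1 hi
  have h1 : Van (N + 1) (M + (q + 1 - i)) (dl i h) := by
    apply van_dl _ (by omega)
    have : M + (q + 1 - i) + i = M + (q + 1) := by omega
    rw [this]
    exact hv
  rw [(van_dl h1 (by omega)) T hT hN hM, smul_zero]

theorem tvan {G : List (ℕ × ℤ)} {B A : List (ℕ × ℕ × ℕ × ℕ × ℤ)} (h : Adm 8 G B A)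
    (f : Finset ℕ → ℝ) {N M : ℕ} (hv : Van N M f) :
    ∀ t ∈ terms G B A, t.k ≤ N → t.a ≤ M → ∀ m, (fs m).card = N - t.k →
      ∑ i ∈ fs m, i = M - t.a → tval (fun m => f (fs m)) m t = 0 := by
  obtain ⟨hG, hB, hA⟩ := h
  have hlt : ∀ m, ∀ i ∈ fs m, i < 9 := fun m i hi => (mem_fs.1 hi).1
  intro t ht
  simp only [terms, List.mem_append, List.mem_map] at ht
  rcases ht with ⟨x, hx, rfl⟩ | ⟨x, hx, rfl⟩ | ⟨x, hx, rfl⟩
  · intro hk ha m hc hs
    simp only at hk ha hc hs
    have hv' : Van (N - 2 + 2) (M - (x.1 + 1) + (x.1 + 1)) f := by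
      rw [Nat.sub_add_cancel hk, Nat.sub_add_cancel ha]; exact hv
    have e := (van_wl hv' (hG x hx)) (fs m) (hlt m) hc hs
    simp only [tval, sem_wlL (sem_F0 f) (hG x hx) m, e]
    ring
  · obtain ⟨h1, h2, h3, h4⟩ := hB x hx
    intro hk ha m hc hs
    simp only at hk ha hc hs
    have hv' : Van (N - 3 + 1 + 2) (M - (x.1 + 1 + x.2.1) + x.2.1 + (x.1 + 1)) f := by
      have e1 : N - 3 + 1 + 2 = N := by omega
      have e2 : M - (x.1 + 1 + x.2.1) + x.2.1 + (x.1 + 1) = M := by omega
      rw [e1, e2]; exact hv
    have e := (van_dl (van_wl hv' h1) (by omega : x.2.1 < 9)) (fs m) (hlt m) hc hs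
    have e1 := sem_dlL (sem_wlL (sem_F0 f) h1) (j := x.2.1) (by omega) m
    simp only [tval, e1, e]
    ring
  · obtain ⟨h1, h2, h3, h4⟩ := hA x hx
    intro hk ha m hc hs
    simp only at hk ha hc hs
    have hv' : Van (N - 4 + 2 + 2) (M - (x.1 + 1 + (x.2.1 + 1)) + (x.2.1 + 1) + (x.1 + 1)) f := by
      have e1 : N - 4 + 2 + 2 = N := by omega
      have e2 : M - (x.1 + 1 + (x.2.1 + 1)) + (x.2.1 + 1) + (x.1 + 1) = M := by omega
      rw [e1, e2]; exact hv
    have e := (van_wl (van_wl hv' h1) h2) (fs m) (hlt m) hc hs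
    have e1 := sem_wlL (sem_wlL (sem_F0 f) h1) h2 m
    simp only [tval, e1, e]
    ring

theorem mem_enum {N M m : ℕ} (hm : m ∈ enum 9 N M) : (fs m).card = N ∧ ∑ i ∈ fs m, i = M := by
  by_contra hc
  have h1 := sum_enum (fun T => if (T.card = N ∧ ∑ i ∈ T, i = M) then (0 : ℝ) else 1) 9 N M le_rfl
  have h2 : ∑ T ∈ (range 9).powerset with (T.card = N ∧ ∑ i ∈ T, i = M),
      (if (T.card = N ∧ ∑ i ∈ T, i = M) then (0 : ℝ) else 1) = 0 := by
    refine Finset.sum_eq_zero fun T hT => ?_
    rw [if_pos (Finset.mem_filter.1 hT).2]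
  rw [h2] at h1
  have h3 : (1 : ℝ) ≤ ((enum 9 N M).map fun m =>
      (if ((fs m).card = N ∧ ∑ i ∈ fs m, i = M) then (0 : ℝ) else 1)).sum := by
    refine List.single_le_sum ?_ 1 ?_
    · intro x hx
      obtain ⟨m', _, rfl⟩ := List.mem_map.1 hx
      split_ifs <;> norm_num
    · refine List.mem_map.2 ⟨m, hm, ?_⟩
      rw [if_neg hc]
  rw [← h1] at h3
  norm_num at h3

theorem van_of_enum_nil {N M : ℕ} (he : enum 9 N M = []) (f : Finset ℕ → ℝ) : Van N M f := by
  intro T hT hN hM
  exfalso
  have h1 := sum_enum (fun _ => (1 : ℝ)) 9 N M le_rfl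
  rw [he, List.map_nil, List.sum_nil, Finset.sum_const, nsmul_eq_mul, mul_one, Nat.cast_eq_zero,
    Finset.card_eq_zero] at h1
  have h2 : T ∈ (range 9).powerset.filter (fun T => T.card = N ∧ ∑ i ∈ T, i = M) :=
    Finset.mem_filter.2 ⟨Finset.mem_powerset.2 fun i hi => Finset.mem_range.2 (hT i hi), hN, hM⟩
  rw [h1] at h2
  exact absurd h2 (Finset.notMem_empty _)

theorem block_zero {G : List (ℕ × ℤ)} {B A : List (ℕ × ℕ × ℕ × ℕ × ℤ)} (h : Adm 8 G B A)
    (f : Finset ℕ → ℝ) {N M : ℕ} (he : enum 9 N M = []) :
    ((consS N M (gl (terms G B A))).map (cval fun m => f (fs m))).sum = 0 := by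
  have hv := van_of_enum_nil he f
  have ht := tvan h f hv
  rw [sum_consS, gl, List.map_map]
  apply List.sum_eq_zero
  intro y hy
  obtain ⟨p, _, rfl⟩ := List.mem_map.1 hy
  simp only [Function.comp]
  unfold cons1
  cases hb : (Nat.ble p.1 N && Nat.ble p.2 M)
  · simp
  · simp only [cond_true]
    rw [Bool.and_eq_true] at hb
    have hk := Nat.le_of_ble_eq_true hb.1
    have ha := Nat.le_of_ble_eq_true hb.2
    rw [sum_consM]
    apply List.sum_eq_zero
    intro z hz
    obtain ⟨m, hm, rfl⟩ := List.mem_map.1 hz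
    apply List.sum_eq_zero
    intro w hw
    obtain ⟨t, ht', rfl⟩ := List.mem_map.1 hw
    obtain ⟨hc, hs⟩ := mem_enum hm
    rw [grp, List.mem_filter, Bool.and_eq_true] at ht'
    have e1 := Nat.eq_of_beq_eq_true ht'.2.1
    have e2 := Nat.eq_of_beq_eq_true ht'.2.2
    have hc' : (fs m).card = N - t.k := by rw [e1]; exact hc
    have hs' : ∑ i ∈ fs m, i = M - t.a := by rw [e2]; exact hs
    rw [wt, ht t ht'.1 (by omega) (by omega) m hc' hs', mul_zero]

/-- positivity from the checks of the attainable blocks -/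
theorem psd_of_chk2 {G : List (ℕ × ℤ)} {B A : List (ℕ × ℕ × ℕ × ℕ × ℤ)} (h : Adm 8 G B A)
    (hc : ∀ N < 14, ∀ M < 60, enum 9 N M = [] ∨ chk (gl (terms G B A)) N M = true) :
    PSD 8 G B A := by
  intro f
  rw [regroup h f]
  apply Finset.sum_nonneg
  intro N hN
  apply Finset.sum_nonneg
  intro M hM
  rcases hc N (Finset.mem_range.1 hN) M (Finset.mem_range.1 hM) with he | hb
  · exact (block_zero h f he).ge
  · simp only [chk, Bool.and_eq_true] at hb
    exact sum_nonneg_of_check _ _ _ _ hb.1 hb.2

/-- the attainable range -/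
def att (N M : ℕ) : Bool :=
  Nat.ble N 9 && (Nat.ble (Nat.mul N (Nat.sub N 1)) (Nat.mul 2 M) &&
    Nat.ble (Nat.mul 2 M) (Nat.sub (Nat.mul 16 N) (Nat.mul N (Nat.sub N 1))))

theorem att_chk : ∀ T ∈ (range 9).powerset, att T.card (∑ i ∈ T, i) = true := by decide +kernel

theorem att_iff {N M : ℕ} : att N M = true ↔ N ≤ 9 ∧ N * (N - 1) ≤ 2 * M ∧
    2 * M ≤ 16 * N - N * (N - 1) := by
  unfold att
  rw [Bool.and_eq_true, Bool.and_eq_true]
  constructor
  · rintro ⟨h1, h2, h3⟩
    exact ⟨Nat.le_of_ble_eq_true h1, Nat.le_of_ble_eq_true h2, Nat.le_of_ble_eq_true h3⟩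
  · rintro ⟨h1, h2, h3⟩
    exact ⟨Nat.ble_eq_true_of_le h1, Nat.ble_eq_true_of_le h2, Nat.ble_eq_true_of_le h3⟩

theorem enum_nil {N M : ℕ} (h : ¬ att N M = true) : enum 9 N M = [] := by
  refine List.eq_nil_iff_forall_not_mem.2 fun m hm => h ?_
  obtain ⟨h1, h2⟩ := mem_enum hm
  have h3 := att_chk (fs m) (Finset.mem_powerset.2 fun i hi => Finset.mem_range.2 (mem_fs.1 hi).1)
  rwa [h1, h2] at h3

/-- positivity from the checks of the attainable blocks, final form -/
theorem psd_of_chk3 {G : List (ℕ × ℤ)} {B A : List (ℕ × ℕ × ℕ × ℕ × ℤ)} (h : Adm 8 G B A)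
    (hc : ∀ N M, N ≤ 9 → N * (N - 1) ≤ 2 * M → 2 * M ≤ 16 * N - N * (N - 1) →
      chk (gl (terms G B A)) N M = true) :
    PSD 8 G B A := by
  refine psd_of_chk2 h fun N _ M _ => ?_
  by_cases ha : att N M = true
  · obtain ⟨h1, h2, h3⟩ := att_iff.1 ha
    exact Or.inr (hc N M h1 h2 h3)
  · exact Or.inl (enum_nil ha)

end Crest.Agent.R340.LP665
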