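import Crest.Agent.R340.GG_467
import Crest.Agent.R340.Peel_924
import Crest.Agent.R340.Rot3_303
import Crest.Agent.R340.KnI_249
import Crest.Agent.R340.Avg_814
import Crest.Agent.R340.Pl8_249

-- ▼ part R340/Near1_515
section

/-!
# NEAR export, part 1 (helper515, R340, orphan O9)

Trace functional on Fock space, the lowest eigenprojection of a self-adjoint operator, and the
criterion: `Y ≥ 0` as soon as `0 ≤ Re tr (P Y)` for every orthogonal projection `P` that commutes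
with the whole (star-closed part of the) commutant of `Y`.
-/

set_option autoImplicit false
set_option linter.unusedSectionVars false

namespace Crest.Agent.R340.Near515

open Finset Fock649 GG467

section Trace

variable {κ : Type*} [Fintype κ]

/-- trace on Fock space -/
noncomputable def tr (A : Op κ) : ℂ := LinearMap.trace ℂ (Fk κ) (A.ap : Fk κ →ₗ[ℂ] Fk κ)

theorem tr_add (A B : Op κ) : tr (A + B) = tr A + tr B := map_add (LinearMap.trace ℂ (Fk κ)) _ _




theorem tr_smul (a : ℂ) (A : Op κ) : tr (a • A) = a * tr A :=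
  map_smul (LinearMap.trace ℂ (Fk κ)) a _

theorem tr_mul_comm (A B : Op κ) : tr (A * B) = tr (B * A) :=
  LinearMap.trace_mul_comm ℂ _ _

/-- the trace as a linear map -/
noncomputable def trL : Op κ →ₗ[ℂ] ℂ where
  toFun := tr
  map_add' := tr_add
  map_smul' := tr_smul


/-- the trace as a continuous linear map -/
noncomputable def trC : Op κ →L[ℂ] ℂ := LinearMap.toContinuousLinearMap trL

theorem trC_apply (A : Op κ) : trC A = tr A := rfl

/-- the standard orthonormal basis -/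
noncomputable abbrev bF (κ : Type*) [Fintype κ] : OrthonormalBasis (Finset κ) ℂ (Fk κ) :=
  EuclideanSpace.basisFun (Finset κ) ℂ

theorem tr_eq_sum (A : Op κ) : tr A = ∑ S : Finset κ, inner ℂ (bF κ S) (A (bF κ S)) :=
  LinearMap.trace_eq_sum_inner (A.ap : Fk κ →ₗ[ℂ] Fk κ) (bF κ)

theorem tr_star_mul_self_eq (A : Op κ) :
    tr (star A * A) = ((∑ S : Finset κ, ‖A (bF κ S)‖ ^ 2 : ℝ) : ℂ) := by
  rw [tr_eq_sum]
  push_cast
  refine Finset.sum_congr rfl fun S _ => ?_
  exact inner_star_mul_self A _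

theorem tr_star_mul_self_nonneg (A : Op κ) : 0 ≤ (tr (star A * A)).re := by
  rw [tr_star_mul_self_eq, Complex.ofReal_re]
  positivity

theorem tr_star_mul_self_pos {A : Op κ} (hA : A ≠ 0) : 0 < (tr (star A * A)).re := by
  rw [tr_star_mul_self_eq, Complex.ofReal_re]
  by_contra hcon
  apply hA
  have h0 : ∀ S ∈ (Finset.univ : Finset (Finset κ)), 0 ≤ ‖A (bF κ S)‖ ^ 2 :=
    fun S _ => by positivity
  have h1 : ∑ S : Finset κ, ‖A (bF κ S)‖ ^ 2 = 0 :=
    le_antisymm (not_lt.1 hcon) (Finset.sum_nonneg h0)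
  rw [Finset.sum_eq_zero_iff_of_nonneg h0] at h1
  have h2 : (A.ap : Fk κ →ₗ[ℂ] Fk κ) = 0 := by
    refine (bF κ).toBasis.ext fun S => ?_
    have h4 := h1 S (Finset.mem_univ S)
    have h5 : A (bF κ S) = 0 := by simpa using h4
    rw [OrthonormalBasis.coe_toBasis]
    exact h5
  refine Op.ext fun v => ?_
  exact LinearMap.congr_fun h2 v

theorem tr_star (A : Op κ) : tr (star A) = (starRingEnd ℂ) (tr A) := by
  rw [tr_eq_sum, tr_eq_sum, map_sum]
  refine Finset.sum_congr rfl fun S _ => ?_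
  rw [inner_star_right, inner_conj_symm]


end Trace

section Lowest

variable {κ : Type*} [Fintype κ]

/-- a self-adjoint operator which is not `≥ 0` has a negative eigenvalue -/
theorem exists_neg_eigenvector {Y : Op κ} (hY : star Y = Y) (h : ¬ 0 ≤ Y) :
    ∃ (e : ℝ) (v : Fk κ), e < 0 ∧ v ≠ 0 ∧ Y v = (e : ℂ) • v := by
  have hs : ∀ x y : Fk κ, (inner ℂ (Y x) y : ℂ) = inner ℂ x (Y y) := by
    intro v w
    have := inner_star_left Y v w
    rwa [hY] at this
  have hex : ∃ v : Fk κ, (inner ℂ v (Y v) : ℂ).re < 0 := by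
    by_contra hcon
    push Not at hcon
    exact h ((Op.nonneg_iff Y).2 ⟨hY, hcon⟩)
  obtain ⟨v, hv⟩ := hex
  have hv0 : v ≠ 0 := by
    rintro rfl
    simp at hv
  have htop : (⊤ : Submodule ℂ (Fk κ)) ≠ ⊥ := by
    intro hb
    apply hv0
    have : v ∈ (⊥ : Submodule ℂ (Fk κ)) := hb ▸ Submodule.mem_top
    simpa using this
  obtain ⟨lam, χ, -, hχ1, hχ2, hχ3⟩ := Peel924.exists_min_eigen ⊤ htop Y.ap hs
  refine ⟨lam, χ, ?_, ?_, ?_⟩
  · have h1 := hχ3 v Submodule.mem_top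
    by_contra hcon
    push Not at hcon
    have h2 : 0 ≤ lam * ‖v‖ ^ 2 := by positivity
    have h3 : lam * ‖v‖ ^ 2 < 0 := lt_of_le_of_lt h1 hv
    linarith
  · rintro rfl
    simp at hχ1
  · refine ext_inner_left ℂ fun w => ?_
    rw [inner_smul_right]
    exact hχ2 w Submodule.mem_top

/-- **Criterion for positivity.** -/
theorem nonneg_of_proj {Y : Op κ} (hY : star Y = Y)
    (h : ∀ P : Op κ, star P = P → P * P = P →
      (∀ T : Op κ, T * Y = Y * T → star T * Y = Y * star T → T * P = P * T) →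
      0 ≤ (tr (P * Y)).re) : 0 ≤ Y := by
  by_contra hcon
  obtain ⟨e, v, he, hv0, hv⟩ := exists_neg_eigenvector hY hcon
  set P : Op κ := PK (Y - (e : ℂ) • 1) with hP
  have hPs : star P = P := star_PK _
  have hPP : P * P = P := PK_mul_self _
  have hYP : Y * P = (e : ℂ) • P := by
    have h1 : (Y - (e : ℂ) • 1) * P = 0 := mul_PK _
    rw [sub_mul, smul_mul_assoc, one_mul, sub_eq_zero] at h1
    exact h1
  have h1 := h P hPs hPP (fun T hT hT' => by
    refine commute_PK ?_ ?_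
    · rw [mul_sub, sub_mul, hT, smul_mul_assoc, mul_smul_comm, one_mul, mul_one]
    · rw [mul_sub, sub_mul, hT', smul_mul_assoc, mul_smul_comm, one_mul, mul_one])
  rw [tr_mul_comm, hYP, tr_smul, Complex.re_ofReal_mul] at h1
  have hP0 : P ≠ 0 := by
    intro h0
    apply hv0
    have h2 : P v = v := by
      rw [hP]
      refine pj_of_mem ?_
      rw [mem_ker, sub_ap, smul_ap, one_ap, hv, sub_self]
    rw [← h2, h0]
    rfl
  have h3 : 0 < (tr P).re := by
    have := tr_star_mul_self_pos hP0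
    rwa [hPs, hPP] at this
  have h4 : e * (tr P).re < 0 := mul_neg_of_neg_of_pos he h3
  linarith

end Lowest

end Crest.Agent.R340.Near515
end

-- ▼ part R340/Near2_515
section

/-!
# NEAR export, part 2 (helper515, R340, orphan O9)

Infinitesimal rotations: an operator which commutes with all second quantised rotations `Rg Q g`
(`g` unitary) commutes with the ladder operator `UN Q`, its adjoint and `ZN Q`.
-/

set_option autoImplicit false
set_option linter.unusedSectionVars false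

namespace Crest.Agent.R340.Near515

open Finset Fock649 Polynomial Matrix CS809 Gam303 Rot303 Kn249

noncomputable section

/-! ## derivative of the second quantisation at `1` -/

section Gam

variable {ι : Type*} [LinearOrder ι] [Fintype ι]

theorem hasDerivAt_ap (A : Op ι) {f : ℝ → Fk ι} {f' : Fk ι} {x : ℝ} (h : HasDerivAt f f' x) :
    HasDerivAt (fun t => A (f t)) (A f') x :=
  (ContinuousLinearMap.restrictScalars ℝ A.ap).hasFDerivAt.comp_hasDerivAt x h

theorem cr_mv_e (U : Matrix ι ι ℂ) (m : ι) (v : Fk ι) :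
    cr (mv U (e m)) v = ∑ i, U i m • d i v := by
  unfold cr
  rw [sum_ap]
  refine Finset.sum_congr rfl fun i _ => ?_
  rw [smul_ap, mv_e]

theorem hasDerivAt_Gam_ket {U : ℝ → Matrix ι ι ℂ} {U' : Matrix ι ι ℂ} (h1 : U 0 = 1)
    (hU : ∀ i k, HasDerivAt (fun t => U t i k) (U' i k) 0) (S : Finset ι) :
    HasDerivAt (fun t => Gam (U t) (ket S)) (dG U' (ket S)) 0 := by
  induction S using Finset.induction_on_min with
  | empty =>
    have e1 : (fun t => Gam (U t) (ket (∅ : Finset ι))) = fun _ => ket ∅ := by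
      funext t; exact Gam_vac (U t)
    have e2 : dG U' (ket (∅ : Finset ι)) = 0 := by
      unfold dG
      rw [sum_ap]
      refine Finset.sum_eq_zero fun i _ => ?_
      rw [sum_ap]
      refine Finset.sum_eq_zero fun j _ => ?_
      rw [smul_ap, mul_ap, c_ket]
      simp
    rw [e1, e2]
    exact hasDerivAt_const _ _
  | insert m S h ih =>
    have e1 : (fun t => Gam (U t) (ket (insert m S))) =
        fun t => ∑ i, U t i m • d i (Gam (U t) (ket S)) := by
      funext t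
      rw [Gam_ket_insert_min _ h, cr_mv_e]
    have e2 : dG U' (ket (insert m S)) =
        ∑ i, ((U 0) i m • d i (dG U' (ket S)) + U' i m • d i (Gam (U 0) (ket S))) := by
      rw [Finset.sum_add_distrib, ← cr_mv_e, ← cr_mv_e, h1, mv_one, cr_e, Gam_one, one_ap,
        ket_insert_min h, ← mul_ap, ← mul_ap]
      have h3 := dG_comm_cr U' (e m)
      rw [cr_e] at h3
      have h4 : dG U' * d m = d m * dG U' + cr (mv U' (e m)) := by
        rw [← h3]; abel
      rw [h4, add_ap]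
    rw [e1, e2]
    refine HasDerivAt.fun_sum fun i _ => ?_
    exact (hU i m).smul (hasDerivAt_ap (d i) ih)

/-- derivative of the second quantisation at `1`, strongly -/
theorem hasDerivAt_Gam {U : ℝ → Matrix ι ι ℂ} {U' : Matrix ι ι ℂ} (h1 : U 0 = 1)
    (hU : ∀ i k, HasDerivAt (fun t => U t i k) (U' i k) 0) (v : Fk ι) :
    HasDerivAt (fun t => Gam (U t) v) (dG U' v) 0 := by
  have e1 : ∀ A : Op ι, A v = ∑ S, v S • A (ket S) := by
    intro A
    have h2 : A.ap v = A.ap (∑ S, v S • ket S) := by rw [← fk_eq_sum v]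
    rw [h2, map_sum]
    exact Finset.sum_congr rfl fun S _ => map_smul _ _ _
  rw [e1 (dG U')]
  have e2 : (fun t => Gam (U t) v) = fun t => ∑ S, v S • Gam (U t) (ket S) := by
    funext t; exact e1 _
  rw [e2]
  refine HasDerivAt.fun_sum fun S _ => ?_
  exact (hasDerivAt_Gam_ket h1 hU S).const_smul (v S)

theorem comm_of_Gam {U : ℝ → Matrix ι ι ℂ} {U' : Matrix ι ι ℂ} (h1 : U 0 = 1)
    (hU : ∀ i k, HasDerivAt (fun t => U t i k) (U' i k) 0) {A : Op ι}
    (hA : ∀ t, Gam (U t) * A = A * Gam (U t)) : dG U' * A = A * dG U' := by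
  refine Op.ext fun v => ?_
  have h2 := hasDerivAt_Gam h1 hU (A v)
  have h3 := hasDerivAt_ap A (hasDerivAt_Gam h1 hU v)
  have h4 : (fun t => Gam (U t) (A v)) = fun t => A (Gam (U t) v) := by
    funext t
    rw [← mul_ap, hA, mul_ap]
  rw [h4] at h2
  rw [mul_ap, mul_ap]
  exact h2.unique h3

end Gam

/-! ## derivative of `sp` at `1` -/

section Sp

/-- coefficientwise differentiability of a curve of polynomials -/
def Dif (f : ℝ → ℂ[X]) : Prop := ∀ m, DifferentiableAt ℝ (fun t => (f t).coeff m) 0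

theorem Dif.mul {f h : ℝ → ℂ[X]} (hf : Dif f) (hh : Dif h) : Dif fun t => f t * h t := by
  intro m
  simp only [coeff_mul]
  exact DifferentiableAt.fun_sum fun x _ => (hf _).mul (hh _)

theorem Dif.pow {f : ℝ → ℂ[X]} (hf : Dif f) (n : ℕ) : Dif fun t => f t ^ n := by
  induction n with
  | zero => intro m; simp only [pow_zero]; exact differentiableAt_const _
  | succ n ih => simp only [pow_succ]; exact ih.mul hf

theorem dif_lf {g : ℝ → Matrix (Fin 2) (Fin 2) ℂ}
    (hg : ∀ a b, DifferentiableAt ℝ (fun t => g t a b) 0) (a : Fin 2) :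
    Dif fun t => lf (g t) a := by
  have hC : ∀ b, Dif fun t => (C (g t a b) : ℂ[X]) := by
    intro b m
    rcases Nat.eq_zero_or_pos m with rfl | hm
    · simp only [coeff_C_zero]; exact hg a b
    · simp only [coeff_C_of_ne_zero hm.ne']; exact differentiableAt_const _
  intro m
  simp only [lf, coeff_add]
  refine (hC 0 m).add ?_
  exact (hC 1).mul (h := fun _ => X) (fun _ => differentiableAt_const _) m

theorem differentiableAt_sp (Q : ℕ) {g : ℝ → Matrix (Fin 2) (Fin 2) ℂ}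
    (hg : ∀ a b, DifferentiableAt ℝ (fun t => g t a b) 0) (i k : Fin (Q + 1)) :
    DifferentiableAt ℝ (fun t => sp Q (g t) i k) 0 := by
  simp only [sp, of_apply]
  exact (differentiableAt_const _).mul ((((dif_lf hg 0).pow _).mul ((dif_lf hg 1).pow _)) _)

/-- the raising matrix `∑ λ_k e_{k+1,k}` -/
def Lp (Q : ℕ) : Matrix (Fin (Q + 1)) (Fin (Q + 1)) ℂ :=
  Matrix.of fun i j => if (i : ℕ) = j + 1 then ((Kn249.lam Q j : ℝ) : ℂ) else 0

/-- the lowering matrix `∑ λ_k e_{k,k+1}` -/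
def Lm (Q : ℕ) : Matrix (Fin (Q + 1)) (Fin (Q + 1)) ℂ :=
  Matrix.of fun i j => if (j : ℕ) = i + 1 then ((Kn249.lam Q i : ℝ) : ℂ) else 0

/-- the differential of `sp` at `1` -/
def dsp (Q : ℕ) (x : Matrix (Fin 2) (Fin 2) ℂ) : Matrix (Fin (Q + 1)) (Fin (Q + 1)) ℂ :=
  x 0 0 • Matrix.diagonal (fun k : Fin (Q + 1) => ((Q : ℂ) - (k : ℕ))) +
    x 1 1 • Matrix.diagonal (fun k : Fin (Q + 1) => ((k : ℕ) : ℂ)) + x 1 0 • Lp Q + x 0 1 • Lm Q

theorem lam_sb (Q k : ℕ) (_hk : k < Q) : Kn249.lam Q k * sb Q k = (k + 1) * sb Q (k + 1) := by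
  unfold Kn249.lam sb
  have h1 : ((Nat.choose Q (k + 1) : ℕ) : ℝ) * (k + 1) = (Nat.choose Q k : ℕ) * ((Q - k : ℕ) : ℝ) := by
    have := Nat.choose_succ_right_eq Q k
    exact_mod_cast this
  rw [← Real.sqrt_mul (by positivity)]
  have h2 : ((k : ℝ) + 1) * ((Q - k : ℕ) : ℝ) * (Nat.choose Q k : ℕ) =
      ((k : ℝ) + 1) ^ 2 * (Nat.choose Q (k + 1) : ℕ) := by
    linear_combination (-((k : ℝ) + 1)) * h1
  rw [h2, Real.sqrt_mul (by positivity), Real.sqrt_sq (by positivity)]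

theorem lam_sb' (Q k : ℕ) (_hk : k < Q) :
    Kn249.lam Q k * sb Q (k + 1) = ((Q - k : ℕ) : ℝ) * sb Q k := by
  unfold Kn249.lam sb
  have h1 : ((Nat.choose Q (k + 1) : ℕ) : ℝ) * (k + 1) = (Nat.choose Q k : ℕ) * ((Q - k : ℕ) : ℝ) := by
    have := Nat.choose_succ_right_eq Q k
    exact_mod_cast this
  rw [← Real.sqrt_mul (by positivity)]
  have h2 : ((k : ℝ) + 1) * ((Q - k : ℕ) : ℝ) * (Nat.choose Q (k + 1) : ℕ) =
      ((Q - k : ℕ) : ℝ) ^ 2 * (Nat.choose Q k : ℕ) := by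
    linear_combination (((Q - k : ℕ) : ℝ)) * h1
  rw [h2, Real.sqrt_mul (by positivity), Real.sqrt_sq (by positivity)]

theorem Lp_mulVec_kap (Q : ℕ) (ζ : Fin 2 → ℂ) (j : Fin (Q + 1)) :
    (Lp Q *ᵥ kap Q ζ) j = ((sb Q j : ℝ) : ℂ) *
      (ζ 0 ^ (Q - (j : ℕ)) * ζ 0 * (((j : ℕ) : ℂ) * ζ 1 ^ ((j : ℕ) - 1))) := by
  obtain ⟨j, hj⟩ := j
  simp only [Lp, mulVec, dotProduct, of_apply, kap]
  rcases Nat.eq_zero_or_pos j with rfl | h0
  · rw [Finset.sum_eq_zero]
    · simp
    · intro i _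
      rw [if_neg (by simp), zero_mul]
  · obtain ⟨k, rfl⟩ : ∃ k, j = k + 1 := ⟨j - 1, by omega⟩
    have hk : k < Q := by omega
    rw [Finset.sum_eq_single (⟨k, by omega⟩ : Fin (Q + 1))]
    · rw [if_pos rfl, ← mul_assoc, ← Complex.ofReal_mul]
      simp only
      rw [lam_sb Q k hk]
      have e1 : Q - k = Q - (k + 1) + 1 := by omega
      rw [e1, pow_succ, Nat.add_sub_cancel]
      push_cast
      ring
    · intro b _ hb
      rw [if_neg, zero_mul]
      intro h
      apply hb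
      ext
      simp only at h ⊢
      omega
    · intro h; exact absurd (Finset.mem_univ _) h

theorem Lm_mulVec_kap (Q : ℕ) (ζ : Fin 2 → ℂ) (j : Fin (Q + 1)) :
    (Lm Q *ᵥ kap Q ζ) j = ((sb Q j : ℝ) : ℂ) *
      ((((Q - (j : ℕ) : ℕ) : ℂ) * ζ 0 ^ (Q - (j : ℕ) - 1)) * (ζ 1 ^ (j : ℕ) * ζ 1)) := by
  obtain ⟨j, hj⟩ := j
  simp only [Lm, mulVec, dotProduct, of_apply, kap]
  rcases Nat.lt_or_ge j Q with h0 | h0
  · rw [Finset.sum_eq_single (⟨j + 1, by omega⟩ : Fin (Q + 1))]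
    · rw [if_pos rfl, ← mul_assoc, ← Complex.ofReal_mul]
      simp only
      rw [lam_sb' Q j h0]
      have e1 : Q - (j + 1) = Q - j - 1 := by omega
      rw [e1, pow_succ]
      push_cast
      ring
    · intro b _ hb
      rw [if_neg, zero_mul]
      intro h
      apply hb
      ext
      simp only at h ⊢
      omega
    · intro h; exact absurd (Finset.mem_univ _) h
  · have h1 : j = Q := by omega
    subst h1
    rw [Finset.sum_eq_zero]
    · simp
    · intro i _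
      rw [if_neg, zero_mul]
      have := i.2
      omega

/-- `dsp` on coherent vectors -/
theorem dsp_mulVec_kap (Q : ℕ) (x : Matrix (Fin 2) (Fin 2) ℂ) (ζ : Fin 2 → ℂ) (j : Fin (Q + 1)) :
    (dsp Q x *ᵥ kap Q ζ) j = ((sb Q j : ℝ) : ℂ) *
      ((((Q - (j : ℕ) : ℕ) : ℂ) * ζ 0 ^ (Q - (j : ℕ) - 1) * (x *ᵥ ζ) 0) * ζ 1 ^ (j : ℕ) +
        ζ 0 ^ (Q - (j : ℕ)) * (((j : ℕ) : ℂ) * ζ 1 ^ ((j : ℕ) - 1) * (x *ᵥ ζ) 1)) := by
  unfold dsp
  have hj : (j : ℕ) ≤ Q := Nat.lt_succ_iff.1 j.2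
  rw [Matrix.add_mulVec, Matrix.add_mulVec, Matrix.add_mulVec, Matrix.smul_mulVec,
    Matrix.smul_mulVec, Matrix.smul_mulVec, Matrix.smul_mulVec]
  simp only [Pi.add_apply, Pi.smul_apply, smul_eq_mul, Lp_mulVec_kap, Lm_mulVec_kap,
    Matrix.mulVec_diagonal]
  have e0 : (x *ᵥ ζ) 0 = x 0 0 * ζ 0 + x 0 1 * ζ 1 := by
    simp [Matrix.mulVec, dotProduct, Fin.sum_univ_two]
  have e1 : (x *ᵥ ζ) 1 = x 1 0 * ζ 0 + x 1 1 * ζ 1 := by
    simp [Matrix.mulVec, dotProduct, Fin.sum_univ_two]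
  rw [e0, e1]
  simp only [kap]
  have e2 : ((Q : ℂ) - (j : ℕ)) * ζ 0 ^ (Q - (j : ℕ)) =
      ((Q - (j : ℕ) : ℕ) : ℂ) * ζ 0 ^ (Q - (j : ℕ) - 1) * ζ 0 := by
    rcases Nat.eq_or_lt_of_le hj with h | h
    · rw [h]; simp
    · have e3 : Q - (j : ℕ) = Q - (j : ℕ) - 1 + 1 := by omega
      conv_lhs => rw [e3, pow_succ]
      rw [Nat.cast_sub hj]
      ring
  have e3 : ((j : ℕ) : ℂ) * ζ 1 ^ (j : ℕ) = ((j : ℕ) : ℂ) * ζ 1 ^ ((j : ℕ) - 1) * ζ 1 := by
    rcases Nat.eq_zero_or_pos (j : ℕ) with h | h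
    · rw [h]; simp
    · have e3 : (j : ℕ) = (j : ℕ) - 1 + 1 := by omega
      conv_lhs => rw [e3, pow_succ]
      rw [← e3]; ring
  linear_combination (x 0 0 * ((sb Q j : ℝ) : ℂ) * ζ 1 ^ (j : ℕ)) * e2 +
    (x 1 1 * ((sb Q j : ℝ) : ℂ) * ζ 0 ^ (Q - (j : ℕ))) * e3

theorem hasDerivAt_sp (Q : ℕ) {g : ℝ → Matrix (Fin 2) (Fin 2) ℂ} {x : Matrix (Fin 2) (Fin 2) ℂ}
    (h1 : g 0 = 1) (hg : ∀ a b, HasDerivAt (fun t => g t a b) (x a b) 0) (i k : Fin (Q + 1)) :
    HasDerivAt (fun t => sp Q (g t) i k) (dsp Q x i k) 0 := by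
  have hd : ∀ i k, DifferentiableAt ℝ (fun t => sp Q (g t) i k) 0 :=
    fun i k => differentiableAt_sp Q (fun a b => (hg a b).differentiableAt) i k
  set N : Matrix (Fin (Q + 1)) (Fin (Q + 1)) ℂ :=
    Matrix.of fun i k => deriv (fun t => sp Q (g t) i k) 0 with hN
  have hN' : ∀ i k, HasDerivAt (fun t => sp Q (g t) i k) (N i k) 0 := fun i k => (hd i k).hasDerivAt
  have key : N = dsp Q x := by
    refine ext_kap fun ζ => ?_
    funext j
    have a1 : HasDerivAt (fun t => (sp Q (g t) *ᵥ kap Q ζ) j) ((N *ᵥ kap Q ζ) j) 0 := by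
      simp only [mulVec, dotProduct]
      exact HasDerivAt.fun_sum fun k _ => (hN' j k).mul_const _
    have a2 : (fun t => (sp Q (g t) *ᵥ kap Q ζ) j) = fun t => ((sb Q j : ℝ) : ℂ) *
        ((g t *ᵥ ζ) 0 ^ (Q - (j : ℕ)) * (g t *ᵥ ζ) 1 ^ (j : ℕ)) := by
      funext t
      rw [sp_mulVec_kap]
      rfl
    have a3 : ∀ a, HasDerivAt (fun t => (g t *ᵥ ζ) a) ((x *ᵥ ζ) a) 0 := by
      intro a
      simp only [mulVec, dotProduct]
      exact HasDerivAt.fun_sum fun k _ => (hg a k).mul_const _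
    have a4 : ∀ a, (g 0 *ᵥ ζ) a = ζ a := by intro a; rw [h1, Matrix.one_mulVec]
    have a5 := (((a3 0).pow (Q - (j : ℕ))).mul ((a3 1).pow (j : ℕ))).const_mul ((sb Q j : ℝ) : ℂ)
    rw [a2] at a1
    have a6 := a1.unique a5
    rw [a6, dsp_mulVec_kap]
    simp only [Pi.pow_apply, a4]
  rw [← key]
  exact hN' i k

end Sp

/-! ## operators commuting with all rotations commute with the ladders -/

section Comm

variable {Q : ℕ}

theorem comm_dG_dsp {A : Op (Fin (Q + 1))}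
    (hA : ∀ g : Matrix (Fin 2) (Fin 2) ℂ, g * gᴴ = 1 → Rg Q g * A = A * Rg Q g)
    {g : ℝ → Matrix (Fin 2) (Fin 2) ℂ} {x : Matrix (Fin 2) (Fin 2) ℂ} (h1 : g 0 = 1)
    (hu : ∀ t, g t * (g t)ᴴ = 1) (hg : ∀ a b, HasDerivAt (fun t => g t a b) (x a b) 0) :
    dG (dsp Q x) * A = A * dG (dsp Q x) :=
  comm_of_Gam (U := fun t => sp Q (g t)) (by simp only [h1, sp_one])
    (hasDerivAt_sp Q h1 hg) (fun t => hA (g t) (hu t))

/-- real rotation -/
def g1 (t : ℝ) : Matrix (Fin 2) (Fin 2) ℂ :=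
  !![(Real.cos t : ℂ), -(Real.sin t : ℂ); (Real.sin t : ℂ), (Real.cos t : ℂ)]

/-- imaginary rotation -/
def g2 (t : ℝ) : Matrix (Fin 2) (Fin 2) ℂ :=
  !![(Real.cos t : ℂ), Complex.I * (Real.sin t : ℂ); Complex.I * (Real.sin t : ℂ), (Real.cos t : ℂ)]

/-- phase -/
def g3 (t : ℝ) : Matrix (Fin 2) (Fin 2) ℂ :=
  !![1, 0; 0, (Real.cos t : ℂ) + Complex.I * (Real.sin t : ℂ)]

theorem cs (t : ℝ) : (Real.cos t : ℂ) * (Real.cos t : ℂ) + (Real.sin t : ℂ) * (Real.sin t : ℂ) = 1 := by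
  have := Real.cos_sq_add_sin_sq t
  have h : ((Real.cos t ^ 2 + Real.sin t ^ 2 : ℝ) : ℂ) = 1 := by rw [this]; simp
  push_cast at h ⊢
  linear_combination h

theorem fin2_ext {a b c d : ℂ} (h1 : a = 1) (h2 : b = 0) (h3 : c = 0) (h4 : d = 1) :
    (!![a, b; c, d] : Matrix (Fin 2) (Fin 2) ℂ) = 1 := by
  rw [h1, h2, h3, h4, Matrix.one_fin_two]

theorem ct_fin_two (a b c d : ℂ) : (!![a, b; c, d] : Matrix (Fin 2) (Fin 2) ℂ)ᴴ =
    !![(starRingEnd ℂ) a, (starRingEnd ℂ) c; (starRingEnd ℂ) b, (starRingEnd ℂ) d] := by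
  ext i j
  fin_cases i <;> fin_cases j <;> rfl

theorem g1_unitary (t : ℝ) : g1 t * (g1 t)ᴴ = 1 := by
  have h := cs t
  rw [g1, ct_fin_two, Matrix.mul_fin_two]
  simp only [map_neg, Complex.conj_ofReal]
  exact fin2_ext (by linear_combination h) (by ring) (by ring) (by linear_combination h)

theorem g2_unitary (t : ℝ) : g2 t * (g2 t)ᴴ = 1 := by
  have h := cs t
  rw [g2, ct_fin_two, Matrix.mul_fin_two]
  simp only [map_mul, Complex.conj_ofReal, Complex.conj_I]
  have hI := Complex.I_mul_I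
  exact fin2_ext (by linear_combination h - ((Real.sin t : ℂ) ^ 2) * hI) (by ring) (by ring)
    (by linear_combination h - ((Real.sin t : ℂ) ^ 2) * hI)

theorem g3_unitary (t : ℝ) : g3 t * (g3 t)ᴴ = 1 := by
  have h := cs t
  rw [g3, ct_fin_two, Matrix.mul_fin_two]
  simp only [map_mul, map_add, map_one, map_zero, Complex.conj_ofReal, Complex.conj_I]
  have hI := Complex.I_mul_I
  exact fin2_ext (by ring) (by ring) (by ring)
    (by linear_combination h - ((Real.sin t : ℂ) ^ 2) * hI)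

theorem g1_zero : g1 0 = 1 := by
  rw [g1]; exact fin2_ext (by simp) (by simp) (by simp) (by simp)

theorem g2_zero : g2 0 = 1 := by
  rw [g2]; exact fin2_ext (by simp) (by simp) (by simp) (by simp)

theorem g3_zero : g3 0 = 1 := by
  rw [g3]; exact fin2_ext (by simp) (by simp) (by simp) (by simp)

theorem hasDerivAt_cos0 : HasDerivAt (fun t : ℝ => (Real.cos t : ℂ)) 0 0 := by
  have := (Real.hasDerivAt_cos 0).ofReal_comp
  simpa using this

theorem hasDerivAt_sin0 : HasDerivAt (fun t : ℝ => (Real.sin t : ℂ)) 1 0 := by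
  have := (Real.hasDerivAt_sin 0).ofReal_comp
  simpa using this

theorem g1_deriv (a b : Fin 2) : HasDerivAt (fun t => g1 t a b)
    ((!![0, -1; 1, 0] : Matrix (Fin 2) (Fin 2) ℂ) a b) 0 := by
  fin_cases a <;> fin_cases b
  · exact hasDerivAt_cos0
  · exact hasDerivAt_sin0.fun_neg
  · exact hasDerivAt_sin0
  · exact hasDerivAt_cos0

theorem g2_deriv (a b : Fin 2) : HasDerivAt (fun t => g2 t a b)
    ((!![0, Complex.I; Complex.I, 0] : Matrix (Fin 2) (Fin 2) ℂ) a b) 0 := by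
  have h := hasDerivAt_sin0.const_mul Complex.I
  rw [mul_one] at h
  fin_cases a <;> fin_cases b
  · exact hasDerivAt_cos0
  · exact h
  · exact h
  · exact hasDerivAt_cos0

theorem g3_deriv (a b : Fin 2) : HasDerivAt (fun t => g3 t a b)
    ((!![0, 0; 0, Complex.I] : Matrix (Fin 2) (Fin 2) ℂ) a b) 0 := by
  have h := hasDerivAt_cos0.fun_add (hasDerivAt_sin0.const_mul Complex.I)
  rw [mul_one, zero_add] at h
  fin_cases a <;> fin_cases b
  · exact hasDerivAt_const _ _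
  · exact hasDerivAt_const _ _
  · exact hasDerivAt_const _ _
  · exact h

theorem UN_eq : UN Q = dG (Lm Q) := rfl

theorem Lm_ct : (Lm Q)ᴴ = Lp Q := by
  ext i j
  simp only [Lm, Lp, Matrix.conjTranspose_apply, Matrix.of_apply]
  split_ifs
  · exact Complex.conj_ofReal _
  · exact star_zero _

theorem star_UN : star (UN Q) = dG (Lp Q) := by
  rw [UN_eq, star_dG, Lm_ct]

/-- **An operator commuting with all rotations commutes with the ladders.** -/
theorem comm_of_Rg {A : Op (Fin (Q + 1))}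
    (hA : ∀ g : Matrix (Fin 2) (Fin 2) ℂ, g * gᴴ = 1 → Rg Q g * A = A * Rg Q g) :
    UN Q * A = A * UN Q ∧ star (UN Q) * A = A * star (UN Q) ∧ ZN Q * A = A * ZN Q := by
  have e1 := comm_dG_dsp hA g1_zero g1_unitary g1_deriv
  have e2 := comm_dG_dsp hA g2_zero g2_unitary g2_deriv
  have e3 := comm_dG_dsp hA g3_zero g3_unitary g3_deriv
  have d1 : dsp Q !![0, -1; 1, 0] = Lp Q - Lm Q := by
    unfold dsp
    simp only [Matrix.of_apply, Matrix.cons_val', Matrix.cons_val_zero, Matrix.cons_val_one,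
      Matrix.cons_val_fin_one, Fin.isValue, zero_smul, one_smul, neg_smul]
    abel
  have d2 : dsp Q !![0, Complex.I; Complex.I, 0] = Complex.I • (Lp Q + Lm Q) := by
    unfold dsp
    simp only [Matrix.of_apply, Matrix.cons_val', Matrix.cons_val_zero, Matrix.cons_val_one,
      Matrix.cons_val_fin_one, Fin.isValue, zero_smul, smul_add, zero_add]
  have d3 : dsp Q !![0, 0; 0, Complex.I] =
      Complex.I • Matrix.diagonal (fun k : Fin (Q + 1) => ((k : ℕ) : ℂ)) := by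
    unfold dsp
    simp only [Matrix.of_apply, Matrix.cons_val', Matrix.cons_val_zero, Matrix.cons_val_one,
      Matrix.cons_val_fin_one, Fin.isValue, zero_smul, zero_add, add_zero]
  have hI : Complex.I ≠ 0 := Complex.I_ne_zero
  rw [d1, dG_sub, sub_mul, mul_sub] at e1
  rw [d2, dG_smul, dG_add, smul_mul_assoc, mul_smul_comm, add_mul, mul_add] at e2
  rw [d3, dG_smul, smul_mul_assoc, mul_smul_comm] at e3
  have e2' := smul_right_injective (Op (Fin (Q + 1))) hI e2
  have e3' := smul_right_injective (Op (Fin (Q + 1))) hI e3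
  have h2 : (2 : ℂ) ≠ 0 := two_ne_zero
  refine ⟨?_, ?_, e3'⟩
  · rw [UN_eq]
    refine smul_right_injective (Op (Fin (Q + 1))) h2 ?_
    change (2 : ℂ) • (dG (Lm Q) * A) = (2 : ℂ) • (A * dG (Lm Q))
    have h3 : (2 : ℂ) • (dG (Lm Q) * A) = (dG (Lp Q) * A + dG (Lm Q) * A) -
        (dG (Lp Q) * A - dG (Lm Q) * A) := by rw [two_smul]; abel
    have h4 : (2 : ℂ) • (A * dG (Lm Q)) = (A * dG (Lp Q) + A * dG (Lm Q)) -
        (A * dG (Lp Q) - A * dG (Lm Q)) := by rw [two_smul]; abel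
    rw [h3, h4, e1]
    congr 1
  · rw [star_UN]
    refine smul_right_injective (Op (Fin (Q + 1))) h2 ?_
    change (2 : ℂ) • (dG (Lp Q) * A) = (2 : ℂ) • (A * dG (Lp Q))
    have h3 : (2 : ℂ) • (dG (Lp Q) * A) = (dG (Lp Q) * A + dG (Lm Q) * A) +
        (dG (Lp Q) * A - dG (Lm Q) * A) := by rw [two_smul]; abel
    have h4 : (2 : ℂ) • (A * dG (Lp Q)) = (A * dG (Lp Q) + A * dG (Lm Q)) +
        (A * dG (Lp Q) - A * dG (Lm Q)) := by rw [two_smul]; abel
    rw [h3, h4, e1]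
    congr 1

end Comm

end

end Crest.Agent.R340.Near515
end

-- ▼ part R340/Near3_515

/-!
# NEAR export, part 3 (helper515, R340, orphan O9)

From `∀ t : Inv Q, γ * t.a ≤ t.N pw` (helper249's `near`) to the operator inequality

`γ H ≤ H² - ∑_q B_q^* H B_q + (2Q-1) ∫ (B_0(g))^* (∑_{p<pw} B_p(g)^* B_p(g)) B_0(g) dμ(g)`

on the whole Fock space (`μ` = Haar probability on `U(2)`).
-/

set_option autoImplicit false
set_option linter.unusedSectionVars false

namespace Crest.Agent.R340.Near515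

open Finset Fock649 Matrix CS809 Gam303 Rot303 Kn249 Avg814 MeasureTheory Br320
open Crest.Agent.R124.Haar

noncomputable section

variable {Q : ℕ}

/-! ## the average over rotations -/

theorem unit_coe (g : G2) : (g : Matrix (Fin 2) (Fin 2) ℂ) * (g : Matrix (Fin 2) (Fin 2) ℂ)ᴴ = 1 := by
  have := Matrix.mem_unitaryGroup_iff.1 g.2
  rwa [Matrix.star_eq_conjTranspose] at this

/-- average over all rotations -/
def avg (A : Op (Fin (Q + 1))) : Op (Fin (Q + 1)) :=
  ∫ g : G2, cj (g : Matrix (Fin 2) (Fin 2) ℂ) A ∂hm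

theorem continuous_cj_coe (A : Op (Fin (Q + 1))) :
    Continuous fun g : G2 => cj (g : Matrix (Fin 2) (Fin 2) ℂ) A :=
  (continuous_cj A).comp continuous_subtype_val

theorem integrable_cj (A : Op (Fin (Q + 1))) :
    Integrable (fun g : G2 => cj (g : Matrix (Fin 2) (Fin 2) ℂ) A) hm :=
  integrable_of_cont (continuous_cj_coe A)

theorem avg_add (A B : Op (Fin (Q + 1))) : avg (A + B) = avg A + avg B := by
  unfold avg
  rw [← integral_add (integrable_cj A) (integrable_cj B)]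
  simp only [cj_add]

theorem avg_sub (A B : Op (Fin (Q + 1))) : avg (A - B) = avg A - avg B := by
  unfold avg
  rw [← integral_sub (integrable_cj A) (integrable_cj B)]
  simp only [cj_sub]

theorem avg_smul (a : ℂ) (A : Op (Fin (Q + 1))) : avg (a • A) = a • avg A := by
  unfold avg
  rw [← integral_smul]
  simp only [cj_smul]

/-- the average is invariant -/
theorem cj_avg (h : G2) (A : Op (Fin (Q + 1))) :
    cj (h : Matrix (Fin 2) (Fin 2) ℂ) (avg A) = avg A := by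
  have h1 : cj (h : Matrix (Fin 2) (Fin 2) ℂ) (avg A) =
      ∫ g : G2, cj ((h * g : G2) : Matrix (Fin 2) (Fin 2) ℂ) A ∂hm := by
    change Rg Q (h : Matrix (Fin 2) (Fin 2) ℂ) *
      (∫ g : G2, cj (g : Matrix (Fin 2) (Fin 2) ℂ) A ∂hm) * star (Rg Q h) = _
    rw [mul_integral_op (integrable_cj A), integral_mul_op ((integrable_cj A).const_mul _)]
    refine integral_congr_ae (Filter.Eventually.of_forall fun g => ?_)
    simp only
    rw [coe_mul', ← cj_cj]
    rfl
  rw [h1]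
  exact integral_mul_left' (fun g : G2 => cj (g : Matrix (Fin 2) (Fin 2) ℂ) A) h

theorem Rg_mul_avg {g : Matrix (Fin 2) (Fin 2) ℂ} (hg : g * gᴴ = 1) (A : Op (Fin (Q + 1))) :
    Rg Q g * avg A = avg A * Rg Q g := by
  have hg' : g ∈ Matrix.unitaryGroup (Fin 2) ℂ := by
    rw [Matrix.mem_unitaryGroup_iff, Matrix.star_eq_conjTranspose]; exact hg
  have h := cj_avg (Q := Q) ⟨g, hg'⟩ A
  unfold cj at h
  calc Rg Q g * avg A = Rg Q g * avg A * (star (Rg Q g) * Rg Q g) := by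
        rw [star_Rg_mul hg, mul_one]
    _ = avg A * Rg Q g := by rw [← mul_assoc, h]

/-- trace against an invariant operator -/
theorem tr_mul_avg {P : Op (Fin (Q + 1))}
    (hP : ∀ g : Matrix (Fin 2) (Fin 2) ℂ, g * gᴴ = 1 → Rg Q g * P = P * Rg Q g)
    (A : Op (Fin (Q + 1))) : tr (P * avg A) = tr (P * A) := by
  have h1 : ∀ g : G2, tr (P * cj (g : Matrix (Fin 2) (Fin 2) ℂ) A) = tr (P * A) := by
    intro g
    unfold cj
    have e1 : P * (Rg Q g * A * star (Rg Q g)) = (P * Rg Q g * A) * star (Rg Q g) := by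
      noncomm_ring
    rw [e1, tr_mul_comm, ← hP _ (unit_coe g)]
    have e2 : star (Rg Q (g : Matrix (Fin 2) (Fin 2) ℂ)) * (Rg Q g * P * A) =
        (star (Rg Q g) * Rg Q g) * (P * A) := by noncomm_ring
    rw [e2, star_Rg_mul (unit_coe g), one_mul]
  have h2 : tr (P * avg A) = ∫ g : G2, tr (P * cj (g : Matrix (Fin 2) (Fin 2) ℂ) A) ∂hm := by
    unfold avg
    rw [mul_integral_op (integrable_cj A), ← trC_apply]
    exact (trC.integral_comp_comm ((integrable_cj A).const_mul P)).symm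
  rw [h2]
  simp only [h1]
  rw [integral_const]
  simp


/-- averaging an operator multiplied with an invariant one -/
theorem avg_mul_of_inv {K : Op (Fin (Q + 1))}
    (hK : ∀ g : Matrix (Fin 2) (Fin 2) ℂ, g * gᴴ = 1 → cj g K = K) (A : Op (Fin (Q + 1))) :
    avg (A * K) = avg A * K := by
  unfold avg
  rw [integral_mul_op (integrable_cj A)]
  refine integral_congr_ae (Filter.Eventually.of_forall fun g => ?_)
  simp only
  rw [cj_mul (unit_coe g), hK _ (unit_coe g)]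

/-- the average of `B_p^* K B_p` for an invariant `K` -/
theorem avg_conj {K : Op (Fin (Q + 1))}
    (hK : ∀ g : Matrix (Fin 2) (Fin 2) ℂ, g * gᴴ = 1 → cj g K = K) (p : Fin (2 * Q - 1)) :
    (2 * (Q : ℂ) - 1) • avg (star (Bp Q p) * K * Bp Q p) =
      ∑ q, star (Bp Q q) * K * Bp Q q := by
  have h1 : ∀ g : G2, cj (g : Matrix (Fin 2) (Fin 2) ℂ) (star (Bp Q p) * K * Bp Q p) =
      ∑ q, ∑ r, (D2 Q (g : Matrix (Fin 2) (Fin 2) ℂ) q p *
        star (D2 Q (g : Matrix (Fin 2) (Fin 2) ℂ) r p)) • (star (Bp Q q) * K * Bp Q r) := by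
    intro g
    have hg := unit_coe g
    rw [cj_mul hg, cj_mul hg, hK _ hg, ← cj_star]
    change star (Bg Q g p) * K * Bg Q g p = _
    rw [star_Bg_eq hg, Bg_eq hg, smul_mul_assoc, smul_mul_smul_comm, det_mul_star hg, one_smul,
      Finset.sum_mul, Finset.sum_mul_sum]
    refine Finset.sum_congr rfl fun q _ => Finset.sum_congr rfl fun r _ => ?_
    rw [smul_mul_assoc, smul_mul_smul_comm]
  have hint : ∀ q r, Integrable (fun g : G2 => (D2 Q (g : Matrix (Fin 2) (Fin 2) ℂ) q p *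
        star (D2 Q (g : Matrix (Fin 2) (Fin 2) ℂ) r p)) • (star (Bp Q q) * K * Bp Q r)) hm := by
    intro q r
    exact integrable_of_cont
      (((continuous_D2_entry Q q p).mul (continuous_D2_entry Q r p).star).smul continuous_const)
  unfold avg
  simp only [h1]
  rw [integral_finsetSum _ fun q _ => integrable_finsetSum _ fun r _ => hint q r]
  have h2 : ∀ q r, ∫ g : G2, (D2 Q (g : Matrix (Fin 2) (Fin 2) ℂ) q p *
        star (D2 Q (g : Matrix (Fin 2) (Fin 2) ℂ) r p)) • (star (Bp Q q) * K * Bp Q r) ∂hm =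
      (if q = r then (2 * (Q : ℂ) - 1)⁻¹ else 0) • (star (Bp Q q) * K * Bp Q r) := by
    intro q r
    rw [integral_smul_const, schur_D2]
    simp
  rw [Finset.smul_sum]
  refine Finset.sum_congr rfl fun q _ => ?_
  rw [integral_finsetSum _ fun r _ => hint q r]
  simp only [h2, ite_smul, zero_smul, Finset.sum_ite_eq, Finset.mem_univ, if_true, smul_smul]
  have hne : (2 * (Q : ℂ) - 1) ≠ 0 := by
    have hQ : 1 ≤ Q := by
      rcases Nat.eq_zero_or_pos Q with rfl | h
      · exact (IsEmpty.elim (inferInstance : IsEmpty (Fin 0)) p)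
      · exact h
    have : (2 * (Q : ℂ) - 1) = ((2 * Q - 1 : ℕ) : ℂ) := by
      rw [Nat.cast_sub (by omega)]; push_cast; ring
    rw [this]
    exact_mod_cast (by omega : 2 * Q - 1 ≠ 0)
  rw [mul_inv_cancel₀ hne, one_smul]

/-! ## the near inequality -/

/-- the near term `B_0^* (∑_{p<pw} B_p^* B_p) B_0` -/
def nearT (Q pw : ℕ) : Op (Fin (Q + 1)) :=
  ∑ p ∈ range pw, star (WN Q p * WN Q 0) * (WN Q p * WN Q 0)

theorem star_nearT (pw : ℕ) : star (nearT Q pw) = nearT Q pw := by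
  unfold nearT
  rw [star_sum]
  refine Finset.sum_congr rfl fun p _ => ?_
  rw [star_mul, star_star]

theorem star_avg (A : Op (Fin (Q + 1))) : star (avg A) = avg (star A) := by
  unfold avg
  rw [star_integral_op]
  refine integral_congr_ae (Filter.Eventually.of_forall fun g => ?_)
  simp only
  rw [← cj_star]


/-- the near operator `H² - ∑_q B_q^* H B_q + (2Q-1) avg(near) - γ H` -/
def nearY (Q pw : ℕ) (γ : ℝ) : Op (Fin (Q + 1)) :=
  HH Q * HH Q - ∑ q, star (Bp Q q) * HH Q * Bp Q q + (2 * (Q : ℂ) - 1) • avg (nearT Q pw) -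
    (γ : ℂ) • HH Q

/-- the `q = 0` representative of `nearY` -/
def nearX (Q pw : ℕ) (γ : ℝ) : Op (Fin (Q + 1)) :=
  star (WN Q 0) * (WN Q 0 * HN Q - HN Q * WN Q 0) + nearT Q pw -
    (γ : ℂ) • (star (WN Q 0) * WN Q 0)


theorem nearY_eq (hQ : 1 ≤ Q) (pw : ℕ) (γ : ℝ) :
    nearY Q pw γ = (2 * (Q : ℂ) - 1) • avg (nearX Q pw γ) := by
  have hp : 0 < 2 * Q - 1 := by omega
  set p0 : Fin (2 * Q - 1) := ⟨0, hp⟩ with hp0
  have hW : WN Q 0 = Bp Q p0 := rfl
  have e1 : (2 * (Q : ℂ) - 1) • avg (star (Bp Q p0) * Bp Q p0) = HH Q := by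
    have := avg_conj (Q := Q) (K := 1) (fun g hg => cj_one hg) p0
    simp only [mul_one] at this
    rw [this]
    rfl
  have e2 := avg_conj (Q := Q) (K := HH Q) (fun g hg => cj_HH hg) p0
  have e3 : avg (star (Bp Q p0) * Bp Q p0 * HH Q) = avg (star (Bp Q p0) * Bp Q p0) * HH Q :=
    avg_mul_of_inv (fun g hg => cj_HH hg) _
  have e4 : nearX Q pw γ = star (Bp Q p0) * Bp Q p0 * HH Q - star (Bp Q p0) * HH Q * Bp Q p0 +
      nearT Q pw - (γ : ℂ) • (star (Bp Q p0) * Bp Q p0) := by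
    unfold nearX
    rw [hW, HN_eq_HH, mul_sub]
    simp only [mul_assoc]
  rw [e4, avg_sub, avg_add, avg_sub, avg_smul, e3, smul_sub, smul_add, smul_sub, e2,
    ← smul_mul_assoc, e1, smul_comm, e1]
  rfl

theorem re_tr_nearX_nonneg {P : Op (Fin (Q + 1))} (hPs : star P = P) (hPP : P * P = P)
    (hP : ∀ g : Matrix (Fin 2) (Fin 2) ℂ, g * gᴴ = 1 → Rg Q g * P = P * Rg Q g) (pw : ℕ) (γ : ℝ)
    (hnear : ∀ t : Inv Q, γ * t.a ≤ t.N pw) : 0 ≤ (tr (P * nearX Q pw γ)).re := by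
  obtain ⟨hU, hV, hZ⟩ := comm_of_Rg hP
  let t : Inv Q :=
    { τ := trL.comp (LinearMap.mulLeft ℂ P)
      pos := fun A => by
        change 0 ≤ (tr (P * (star A * A))).re
        have e1 : tr (P * (star A * A)) = tr (star (A * P) * (A * P)) := by
          rw [star_mul, hPs]
          conv_lhs => rw [← hPP, mul_assoc, tr_mul_comm]
          congr 1
        rw [e1]
        exact tr_star_mul_self_nonneg _
      herm := fun A => by
        change tr (P * star A) = (starRingEnd ℂ) (tr (P * A))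
        rw [← tr_star, star_mul, hPs, tr_mul_comm]
      invU := fun A => by
        change tr (P * (UN Q * A)) = tr (P * (A * UN Q))
        rw [← mul_assoc, ← hU, mul_assoc, tr_mul_comm, mul_assoc]
      invV := fun A => by
        change tr (P * (star (UN Q) * A)) = tr (P * (A * star (UN Q)))
        rw [← mul_assoc, ← hV, mul_assoc, tr_mul_comm, mul_assoc]
      invZ := fun A => by
        change tr (P * (ZN Q * A)) = tr (P * (A * ZN Q))
        rw [← mul_assoc, ← hZ, mul_assoc, tr_mul_comm, mul_assoc] }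
  have h1 := hnear t
  have h2 : tr (P * nearX Q pw γ) = t.τ (nearX Q pw γ) := rfl
  have h3 : (t.τ (nearX Q pw γ)).re = t.N pw - γ * t.a := by
    unfold nearX nearT Inv.N Inv.a
    rw [map_sub, map_add, map_smul, map_sum, smul_eq_mul, Complex.sub_re, Complex.add_re,
      Complex.re_ofReal_mul, Complex.re_sum]
    ring
  rw [h2, h3]
  linarith

theorem star_HH (Q : ℕ) : star (HH Q) = HH Q := by
  rw [← HN_eq_HH]; exact Kn249.star_HN Q

theorem star_nearY (pw : ℕ) (γ : ℝ) : star (nearY Q pw γ) = nearY Q pw γ := by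
  unfold nearY
  have h1 : star (2 * (Q : ℂ) - 1) = 2 * (Q : ℂ) - 1 := by simp
  have h2 : star ((γ : ℝ) : ℂ) = (γ : ℂ) := Complex.conj_ofReal γ
  rw [star_sub, star_add, star_sub, star_mul, star_HH, star_smul, star_smul, h1, h2, star_avg,
    star_nearT, star_HH, star_sum]
  congr 3
  refine Finset.sum_congr rfl fun q _ => ?_
  rw [star_mul, star_mul, star_star, star_HH, mul_assoc]

/-- **The near inequality, operator form.** -/
theorem nearY_nonneg (hQ : 1 ≤ Q) (pw : ℕ) (γ : ℝ) (hnear : ∀ t : Inv Q, γ * t.a ≤ t.N pw) :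
    0 ≤ nearY Q pw γ := by
  refine nonneg_of_proj (star_nearY pw γ) fun P hPs hPP hP => ?_
  have hcomm : ∀ g : Matrix (Fin 2) (Fin 2) ℂ, g * gᴴ = 1 →
      Rg Q g * nearY Q pw γ = nearY Q pw γ * Rg Q g := by
    intro g hg
    rw [nearY_eq hQ, mul_smul_comm, smul_mul_assoc, Rg_mul_avg hg]
  have hP' : ∀ g : Matrix (Fin 2) (Fin 2) ℂ, g * gᴴ = 1 → Rg Q g * P = P * Rg Q g := by
    intro g hg
    refine hP _ (hcomm g hg) ?_
    have h := congrArg star (hcomm g hg)
    rw [star_mul, star_mul, star_nearY] at h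
    exact h.symm
  rw [nearY_eq hQ, mul_smul_comm, tr_smul, tr_mul_avg hP']
  have h1 : (2 * (Q : ℂ) - 1) = ((2 * (Q : ℝ) - 1 : ℝ) : ℂ) := by push_cast; ring
  rw [h1, Complex.re_ofReal_mul]
  refine mul_nonneg ?_ (re_tr_nearX_nonneg hPs hPP hP' pw γ hnear)
  have : (1 : ℝ) ≤ Q := by exact_mod_cast hQ
  linarith

/-- **NEAR** (the form consumed by the descent argument): for every Fock vector `ψ`,
`γ ⟨ψ,Hψ⟩ ≤ ‖Hψ‖² - ∑_q ⟨B_qψ, H B_qψ⟩ + (2Q-1) ∫ ∑_{p<pw} ‖B_p(g) B_0(g) ψ‖² dμ(g)`. -/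
theorem near_form (hQ : 1 ≤ Q) (pw : ℕ) (hpw : pw ≤ 2 * Q - 1) (γ : ℝ)
    (hnear : ∀ t : Inv Q, γ * t.a ≤ t.N pw) (ψ : Fk (Fin (Q + 1))) :
    γ * (inner ℂ ψ (HH Q ψ) : ℂ).re ≤ ‖HH Q ψ‖ ^ 2 -
      ∑ q, (inner ℂ (Bp Q q ψ) (HH Q (Bp Q q ψ)) : ℂ).re +
      (2 * (Q : ℝ) - 1) * ∫ g : G2, ∑ p : Fin pw,
        ‖Bg Q (g : Matrix (Fin 2) (Fin 2) ℂ) (Fin.castLE hpw p)
          (Bg Q g ⟨0, by omega⟩ ψ)‖ ^ 2 ∂hm := by
  have h0 := (Op.nonneg_iff _).1 (nearY_nonneg hQ pw γ hnear)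
  have h1 := h0.2 ψ
  unfold nearY at h1
  rw [sub_ap, add_ap, sub_ap, smul_ap, smul_ap, inner_sub_right, inner_add_right, inner_sub_right,
    inner_smul_right, inner_smul_right, Complex.sub_re, Complex.add_re, Complex.sub_re,
    Complex.re_ofReal_mul] at h1
  have e1 : (inner ℂ ψ ((HH Q * HH Q) ψ) : ℂ).re = ‖HH Q ψ‖ ^ 2 := by
    have : inner ℂ ψ ((star (HH Q) * HH Q) ψ) = ((‖HH Q ψ‖ : ℂ)) ^ 2 := inner_star_mul_self _ _
    rw [star_HH] at this
    rw [this, ← Complex.ofReal_pow, Complex.ofReal_re]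
  have e2 : (inner ℂ ψ ((∑ q, star (Bp Q q) * HH Q * Bp Q q) ψ) : ℂ).re =
      ∑ q, (inner ℂ (Bp Q q ψ) (HH Q (Bp Q q ψ)) : ℂ).re := by
    rw [sum_ap, inner_sum, Complex.re_sum]
    refine Finset.sum_congr rfl fun q _ => ?_
    rw [mul_ap, mul_ap, inner_star_right]
  have h2 : (2 * (Q : ℂ) - 1) = ((2 * (Q : ℝ) - 1 : ℝ) : ℂ) := by push_cast; ring
  have e3 : ((2 * (Q : ℂ) - 1) * inner ℂ ψ (avg (nearT Q pw) ψ) : ℂ).re =
      (2 * (Q : ℝ) - 1) * ∫ g : G2, ∑ p : Fin pw,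
        ‖Bg Q (g : Matrix (Fin 2) (Fin 2) ℂ) (Fin.castLE hpw p)
          (Bg Q g ⟨0, by omega⟩ ψ)‖ ^ 2 ∂hm := by
    rw [h2, Complex.re_ofReal_mul]
    congr 1
    unfold avg
    rw [re_inner_integral_ap (integrable_cj _)]
    refine integral_congr_ae (Filter.Eventually.of_forall fun g => ?_)
    simp only
    unfold nearT
    rw [cj_sum, sum_ap, inner_sum, Complex.re_sum, Finset.sum_range]
    refine Finset.sum_congr rfl fun p _ => ?_
    have hg := unit_coe g
    rw [cj_mul hg, ← cj_star, cj_mul hg, inner_star_mul_self, ← Complex.ofReal_pow,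
      Complex.ofReal_re]
    rfl
  rw [e1, e2, e3] at h1
  linarith

end

end Crest.Agent.R340.Near515
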