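import Crest.Agent.R340.Pl1_249
import Crest.Agent.R340.KnI2_249

-- ▼ part R340/Pl3_249
section

set_option autoImplicit false
open scoped BigOperators
open Finset

namespace Crest.Agent.R340.Pl249

/-- Positivity of a planar correlator. -/
def PSD (G : ℕ → ℕ → ℕ → ℕ → ℝ) : Prop :=
  ∀ (n : ℕ) (x y : ℕ → ℕ) (u : ℕ → ℝ),
    0 ≤ ∑ i ∈ range n, ∑ j ∈ range n, u i * u j * G (x i) (y i) (x j) (y j)

theorem ev_ev_eq (α : ℝ) (G : ℕ → ℕ → ℕ → ℕ → ℝ) (m : ℕ) :
    ev α m (fun q k => ev α m (G q k)) = ∑ i ∈ range (m + 1), ∑ j ∈ range (m + 1),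
      (-α) ^ (m - i) * (-α) ^ (m - j) * G i (m - i) j (m - j) := by
  unfold ev
  refine Finset.sum_congr rfl fun i _ => ?_
  rw [Finset.mul_sum]
  refine Finset.sum_congr rfl fun j _ => ?_
  ring

theorem gam_nonneg {G : ℕ → ℕ → ℕ → ℕ → ℝ} (α : ℝ) (h : PSD G) (m : ℕ) : 0 ≤ gam α G m := by
  unfold gam
  apply div_nonneg _ (sq_nonneg _)
  rw [ev_ev_eq]
  exact h (m + 1) (fun i => i) (fun i => m - i) (fun i => (-α) ^ (m - i))



theorem gam_zero_of_vanish {G : ℕ → ℕ → ℕ → ℕ → ℝ} (α : ℝ) (m : ℕ)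
    (h : ∀ q k q' j : ℕ, q + k = m → q' + j = m → G q k q' j = 0) : gam α G m = 0 := by
  unfold gam
  rw [ev_ev_eq]
  rw [Finset.sum_eq_zero, zero_div]
  intro i hi
  refine Finset.sum_eq_zero fun j hj => ?_
  have hi' : i ≤ m := by simpa [Nat.lt_succ_iff] using hi
  have hj' : j ≤ m := by simpa [Nat.lt_succ_iff] using hj
  rw [h i (m - i) j (m - j) (by omega) (by omega)]
  ring

/-- If the weight-`m` block has rank one with a vector killed by the evaluation, the channel
vanishes. -/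
theorem gam_zero_of_rank_one {G : ℕ → ℕ → ℕ → ℕ → ℝ} (α : ℝ) (m : ℕ) (f : ℕ → ℕ → ℝ) (z : ℝ)
    (h : ∀ q k q' j : ℕ, q + k = m → q' + j = m → G q k q' j = f q k * f q' j * z)
    (hf : ev α m f = 0) : gam α G m = 0 := by
  unfold gam
  have h1 : ev α m (fun q k => ev α m (G q k)) = 0 := by
    rw [ev_congr α m _ (fun q k => 0 * f q k)]
    · rw [ev_smul, zero_mul]
    · intro a b hab
      rw [ev_congr α m (G a b) (fun q' j => (f a b * z) * f q' j)]
      · rw [ev_smul, hf]; ring
      · intro q' j hqj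
        rw [h a b q' j hab hqj]; ring
  rw [h1, zero_div]

/-- Odd channels vanish for exchange-symmetric correlators (`α = 1`). -/
theorem gam_odd {G : ℕ → ℕ → ℕ → ℕ → ℝ} (m : ℕ) (hm : Odd m)
    (hx : ∀ q k q' j : ℕ, G q k q' j = G k q q' j) : gam 1 G m = 0 := by
  unfold gam
  set f : ℕ → ℕ → ℝ := fun q k => ev 1 m (G q k) with hf
  have hfs : ∀ q k, f q k = f k q := by
    intro q k
    simp only [hf]
    congr 1
    funext a b
    exact hx q k a b
  have h1 : ev 1 m f = - ev 1 m f := by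
    unfold ev
    conv_lhs => rw [← Finset.sum_range_reflect]
    rw [← Finset.sum_neg_distrib]
    refine Finset.sum_congr rfl fun i hi => ?_
    have hi' : i ≤ m := by simpa [Nat.lt_succ_iff] using hi
    have e1 : m + 1 - 1 - i = m - i := by omega
    have e2 : m - (m - i) = i := by omega
    rw [e1, e2, hfs (m - i) i]
    have e3 : (-1 : ℝ) ^ (m - i) = - (-1) ^ i := by
      have h4 : (-1 : ℝ) ^ (m - i) * (-1) ^ i = -1 := by
        rw [← pow_add, Nat.sub_add_cancel hi']
        exact hm.neg_one_pow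
      have h5 : (-1 : ℝ) ^ i * (-1) ^ i = 1 := by
        rw [← mul_pow]; norm_num
      have h6 : (-1 : ℝ) ^ (m - i) = (-1 : ℝ) ^ (m - i) * ((-1) ^ i * (-1) ^ i) := by
        rw [h5, mul_one]
      rw [h6, ← mul_assoc, h4]; ring
    rw [e3]; ring
  have h2 : ev 1 m f = 0 := by linarith
  rw [h2, zero_div]

end Crest.Agent.R340.Pl249
end

-- ▼ part R340/Pl4_249
section

set_option autoImplicit false
open scoped BigOperators Topology
open Finset Filter

namespace Crest.Agent.R340.Pl249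

/-- Translation relations at finite flux: `m` = coefficients for the first index,
`l` = coefficients for the second index. -/
structure FR (m l : ℕ → ℝ) (G : ℕ → ℕ → ℕ → ℕ → ℝ) : Prop where
  sym : ∀ q k q' j : ℕ, G q k q' j = G q' j q k
  wt : ∀ q k q' j : ℕ, q + k ≠ q' + j → G q k q' j = 0
  tr : ∀ q k q' j : ℕ, m q * G (q + 1) k q' j + l k * G q (k + 1) q' j =
    (if q' = 0 then 0 else m (q' - 1) * G q k (q' - 1) j) +
    (if j = 0 then 0 else l (j - 1) * G q k q' (j - 1))


/-- the same for sequences that are eventually bounded along the ultrafilter -/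
theorem ulim_exists' (U : Ultrafilter ℕ) (f : ℕ → ℝ) (C : ℝ) (h : ∀ᶠ n in (U : Filter ℕ), |f n| ≤ C) :
    ∃ x, Tendsto f U (𝓝 x) := by
  have hc : IsCompact (Set.Icc (-C) C) := isCompact_Icc
  have hm : Set.Icc (-C) C ∈ (U.map f) := by
    rw [Ultrafilter.mem_map]
    filter_upwards [h] with n hn
    exact abs_le.mp hn
  obtain ⟨x, -, hx⟩ := hc.ultrafilter_le_nhds' (U.map f) hm
  exact ⟨x, hx⟩

/-- Limit of the translation relations. -/
theorem FR.limit {F : Filter ℕ} [F.NeBot] {m l : ℕ → ℕ → ℝ} {r : ℕ → ℝ} {mi li : ℕ → ℝ}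
    {G : ℕ → ℕ → ℕ → ℕ → ℕ → ℝ} {Gi : ℕ → ℕ → ℕ → ℕ → ℝ}
    (hG : ∀ q k q' j : ℕ, Tendsto (fun n => G n q k q' j) F (𝓝 (Gi q k q' j)))
    (hm : ∀ q, Tendsto (fun n => m n q / r n) F (𝓝 (mi q)))
    (hl : ∀ k, Tendsto (fun n => l n k / r n) F (𝓝 (li k)))
    (h : ∀ n, FR (m n) (l n) (G n)) : FR mi li Gi := by
  refine ⟨?_, ?_, ?_⟩
  · intro q k q' j
    refine tendsto_nhds_unique (hG q k q' j) ?_
    have := hG q' j q k
    refine this.congr fun n => ?_
    exact ((h n).sym q k q' j).symm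
  · intro q k q' j hw
    refine tendsto_nhds_unique (hG q k q' j) ?_
    refine (tendsto_const_nhds (x := (0 : ℝ))).congr fun n => ?_
    exact ((h n).wt q k q' j hw).symm
  · intro q k q' j
    have h1 : Tendsto (fun n => m n q / r n * G n (q + 1) k q' j + l n k / r n * G n q (k + 1) q' j)
        F (𝓝 (mi q * Gi (q + 1) k q' j + li k * Gi q (k + 1) q' j)) :=
      ((hm q).mul (hG _ _ _ _)).add ((hl k).mul (hG _ _ _ _))
    have h2 : Tendsto (fun n => (if q' = 0 then 0 else m n (q' - 1) / r n * G n q k (q' - 1) j) +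
        (if j = 0 then 0 else l n (j - 1) / r n * G n q k q' (j - 1)))
        F (𝓝 ((if q' = 0 then 0 else mi (q' - 1) * Gi q k (q' - 1) j) +
        (if j = 0 then 0 else li (j - 1) * Gi q k q' (j - 1)))) := by
      refine Tendsto.add ?_ ?_
      · by_cases h0 : q' = 0
        · simp only [h0, if_true]; exact tendsto_const_nhds
        · simp only [h0, if_false]; exact (hm _).mul (hG _ _ _ _)
      · by_cases h0 : j = 0
        · simp only [h0, if_true]; exact tendsto_const_nhds
        · simp only [h0, if_false]; exact (hl _).mul (hG _ _ _ _)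
    refine tendsto_nhds_unique h1 (h2.congr fun n => ?_)
    have h3 := (h n).tr q k q' j
    have e1 : m n q / r n * G n (q + 1) k q' j + l n k / r n * G n q (k + 1) q' j =
        (m n q * G n (q + 1) k q' j + l n k * G n q (k + 1) q' j) / r n := by ring
    rw [e1, h3, add_div]
    congr 1
    · split_ifs
      · simp
      · ring
    · split_ifs
      · simp
      · ring

/-- Scaling factor `√(q!/x^q) √(k!/y^k)`. -/
noncomputable def sc (x y : ℝ) (q k : ℕ) : ℝ :=
  Real.sqrt ((q.factorial : ℝ) / x ^ q) * Real.sqrt ((k.factorial : ℝ) / y ^ k)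

theorem sc_pos {x y : ℝ} (hx : 0 < x) (hy : 0 < y) (q k : ℕ) : 0 < sc x y q k := by
  unfold sc
  have h1 : (0 : ℝ) < (q.factorial : ℝ) := by exact_mod_cast Nat.factorial_pos q
  have h2 : (0 : ℝ) < (k.factorial : ℝ) := by exact_mod_cast Nat.factorial_pos k
  positivity

theorem sqrt_fact_succ {x : ℝ} (hx : 0 < x) (q : ℕ) :
    Real.sqrt (x * (q + 1)) * Real.sqrt (((q + 1).factorial : ℝ) / x ^ (q + 1)) =
      (q + 1) * Real.sqrt ((q.factorial : ℝ) / x ^ q) := by
  rw [← Real.sqrt_mul (by positivity)]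
  have e1 : x * (q + 1) * (((q + 1).factorial : ℝ) / x ^ (q + 1)) =
      ((q + 1 : ℝ)) ^ 2 * ((q.factorial : ℝ) / x ^ q) := by
    rw [Nat.factorial_succ]
    push_cast
    field_simp
    ring
  rw [e1, Real.sqrt_mul (by positivity), Real.sqrt_sq (by positivity)]

theorem sqrt_fact_pred {x : ℝ} (hx : 0 < x) (q : ℕ) (hq : q ≠ 0) :
    Real.sqrt (x * ((q - 1 : ℕ) + 1 : ℝ)) * Real.sqrt (((q - 1).factorial : ℝ) / x ^ (q - 1)) =
      x * Real.sqrt ((q.factorial : ℝ) / x ^ q) := by
  obtain ⟨q, rfl⟩ : ∃ n, q = n + 1 := ⟨q - 1, by omega⟩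
  rw [Nat.add_sub_cancel, ← Real.sqrt_mul (by positivity)]
  have e1 : x * ((q : ℝ) + 1) * ((q.factorial : ℝ) / x ^ q) =
      x ^ 2 * (((q + 1).factorial : ℝ) / x ^ (q + 1)) := by
    rw [Nat.factorial_succ]
    push_cast
    field_simp
    ring
  rw [e1, Real.sqrt_mul (by positivity), Real.sqrt_sq hx.le]

/-- Rescaling to the rational planar relations. -/
theorem FR.rel {α c : ℝ} (hα : 0 < α) (hc : 0 < c) {G : ℕ → ℕ → ℕ → ℕ → ℝ}
    (h : FR (fun q => Real.sqrt (c * α * (q + 1))) (fun k => Real.sqrt (c * (k + 1))) G) :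
    Rel α c (fun q k q' j => G q k q' j / (sc (c * α) c q k * sc (c * α) c q' j)) := by
  have hx : 0 < c * α := by positivity
  refine ⟨?_, ?_, ?_⟩
  · intro q k q' j
    rw [h.sym q k q' j, mul_comm (sc (c * α) c q k)]
  · intro q k q' j hw
    rw [h.wt q k q' j hw, zero_div]
  · intro q k q' j
    have hs : ∀ q k, sc (c * α) c q k ≠ 0 := fun q k => (sc_pos hx hc q k).ne'
    have htr := h.tr q k q' j
    have a1 : (q + 1 : ℝ) / sc (c * α) c (q + 1) k =
        Real.sqrt (c * α * (q + 1)) / sc (c * α) c q k := by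
      rw [div_eq_div_iff (hs _ _) (hs _ _)]
      unfold sc
      have := sqrt_fact_succ hx q
      linear_combination -Real.sqrt ((k.factorial : ℝ) / c ^ k) * this
    have a2 : (k + 1 : ℝ) / sc (c * α) c q (k + 1) =
        Real.sqrt (c * (k + 1)) / sc (c * α) c q k := by
      rw [div_eq_div_iff (hs _ _) (hs _ _)]
      unfold sc
      have := sqrt_fact_succ hc k
      linear_combination -Real.sqrt ((q.factorial : ℝ) / (c * α) ^ q) * this
    have a3 : q' ≠ 0 → Real.sqrt (c * α * ((q' - 1 : ℕ) + 1)) / sc (c * α) c q' j =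
        c * α / sc (c * α) c (q' - 1) j := by
      intro h0
      rw [div_eq_div_iff (hs _ _) (hs _ _)]
      unfold sc
      have := sqrt_fact_pred hx q' h0
      linear_combination Real.sqrt ((j.factorial : ℝ) / c ^ j) * this
    have a4 : j ≠ 0 → Real.sqrt (c * ((j - 1 : ℕ) + 1)) / sc (c * α) c q' j =
        c / sc (c * α) c q' (j - 1) := by
      intro h0
      rw [div_eq_div_iff (hs _ _) (hs _ _)]
      unfold sc
      have := sqrt_fact_pred hc j h0
      linear_combination Real.sqrt ((q'.factorial : ℝ) / (c * α) ^ q') * this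
    have b1 : (q + 1 : ℝ) * (G (q + 1) k q' j / (sc (c * α) c (q + 1) k * sc (c * α) c q' j)) =
        (Real.sqrt (c * α * (q + 1)) * G (q + 1) k q' j) /
          (sc (c * α) c q k * sc (c * α) c q' j) := by
      calc _ = ((q + 1 : ℝ) / sc (c * α) c (q + 1) k) * (G (q + 1) k q' j / sc (c * α) c q' j) := by
            field_simp
        _ = _ := by rw [a1]; field_simp
    have b2 : (k + 1 : ℝ) * (G q (k + 1) q' j / (sc (c * α) c q (k + 1) * sc (c * α) c q' j)) =
        (Real.sqrt (c * (k + 1)) * G q (k + 1) q' j) /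
          (sc (c * α) c q k * sc (c * α) c q' j) := by
      calc _ = ((k + 1 : ℝ) / sc (c * α) c q (k + 1)) * (G q (k + 1) q' j / sc (c * α) c q' j) := by
            field_simp
        _ = _ := by rw [a2]; field_simp
    have t1 : (if q' = 0 then 0 else Real.sqrt (c * α * ((q' - 1 : ℕ) + 1)) * G q k (q' - 1) j) /
        (sc (c * α) c q k * sc (c * α) c q' j) =
        c * (if q' = 0 then 0 else α * (G q k (q' - 1) j /
          (sc (c * α) c q k * sc (c * α) c (q' - 1) j))) := by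
      split_ifs with h0
      · simp
      · have := a3 h0
        calc _ = (Real.sqrt (c * α * ((q' - 1 : ℕ) + 1)) / sc (c * α) c q' j) *
              (G q k (q' - 1) j / sc (c * α) c q k) := by field_simp
          _ = _ := by rw [this]; field_simp
    have t2 : (if j = 0 then 0 else Real.sqrt (c * ((j - 1 : ℕ) + 1)) * G q k q' (j - 1)) /
        (sc (c * α) c q k * sc (c * α) c q' j) =
        c * (if j = 0 then 0 else 1 * (G q k q' (j - 1) /
          (sc (c * α) c q k * sc (c * α) c q' (j - 1)))) := by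
      split_ifs with h0
      · simp
      · have := a4 h0
        calc _ = (Real.sqrt (c * ((j - 1 : ℕ) + 1)) / sc (c * α) c q' j) *
              (G q k q' (j - 1) / sc (c * α) c q k) := by field_simp
          _ = _ := by rw [this]; field_simp
    rw [b1, b2, ← add_div, htr, add_div, t1, t2, ← mul_add]
    rfl

theorem PSD.scale {G : ℕ → ℕ → ℕ → ℕ → ℝ} (h : PSD G) (s : ℕ → ℕ → ℝ) :
    PSD (fun q k q' j => G q k q' j / (s q k * s q' j)) := by
  intro n x y u
  have := h n x y (fun i => u i / s (x i) (y i))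
  refine this.trans_eq ?_
  refine Finset.sum_congr rfl fun i _ => Finset.sum_congr rfl fun j _ => ?_
  rw [div_mul_div_comm, div_mul_eq_mul_div, mul_div_assoc]

theorem PSD.limit {F : Filter ℕ} [F.NeBot] {G : ℕ → ℕ → ℕ → ℕ → ℕ → ℝ} {Gi : ℕ → ℕ → ℕ → ℕ → ℝ}
    (hG : ∀ q k q' j : ℕ, Tendsto (fun n => G n q k q' j) F (𝓝 (Gi q k q' j)))
    (h : ∀ n, PSD (G n)) : PSD Gi := by
  intro n x y u
  have h1 : Tendsto (fun N => ∑ i ∈ range n, ∑ j ∈ range n,
      u i * u j * G N (x i) (y i) (x j) (y j)) F (𝓝 (∑ i ∈ range n, ∑ j ∈ range n,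
      u i * u j * Gi (x i) (y i) (x j) (y j))) :=
    tendsto_finsetSum _ fun i _ => tendsto_finsetSum _ fun j _ => (hG _ _ _ _).const_mul _
  exact ge_of_tendsto' h1 fun N => h N n x y u

end Crest.Agent.R340.Pl249
end

-- ▼ part R340/Pl5_249

set_option autoImplicit false
open scoped BigOperators ComplexConjugate
open Finset

namespace Crest.Agent.R340.Kn249

open Crest.Agent.R340.Fock649 Crest.MathPhysics.Laughlin Crest.Agent.R340.Pl249

/-- Ladder identities at flux `Q`. -/
structure LadQ (Q : ℕ) : Prop where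
  Uc : ∀ k, UN Q * cN Q k - cN Q k * UN Q = -(((lam Q k : ℝ) : ℂ) • cN Q (k + 1))
  Vc0 : star (UN Q) * cN Q 0 - cN Q 0 * star (UN Q) = 0
  Vc : ∀ k, star (UN Q) * cN Q (k + 1) - cN Q (k + 1) * star (UN Q) =
    -(((lam Q k : ℝ) : ℂ) • cN Q k)
  UW : ∀ q, UN Q * WN Q q - WN Q q * UN Q = -(((mu Q q : ℝ) : ℂ) • WN Q (q + 1))
  VW0 : star (UN Q) * WN Q 0 - WN Q 0 * star (UN Q) = 0
  VW : ∀ q, star (UN Q) * WN Q (q + 1) - WN Q (q + 1) * star (UN Q) =
    -(((mu Q q : ℝ) : ℂ) • WN Q q)
  Zc : ∀ k : ℕ, ZN Q * cN Q k - cN Q k * ZN Q = -((k : ℂ) • cN Q k)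
  ZW : ∀ q : ℕ, ZN Q * WN Q q - WN Q q * ZN Q = -(((q : ℂ) + 1) • WN Q q)
  Zs : star (ZN Q) = ZN Q
  WW : ∀ p q, WN Q p * WN Q q = WN Q q * WN Q p

/-- A positive functional invariant under the rotations of the sphere. -/
structure Inv (Q : ℕ) where
  τ : Op (Fin (Q + 1)) →ₗ[ℂ] ℂ
  pos : ∀ A, 0 ≤ (τ (star A * A)).re
  herm : ∀ A, τ (star A) = conj (τ A)
  invU : ∀ A, τ (UN Q * A) = τ (A * UN Q)
  invV : ∀ A, τ (star (UN Q) * A) = τ (A * star (UN Q))
  invZ : ∀ A, τ (ZN Q * A) = τ (A * ZN Q)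

variable {Q : ℕ}

/-- real correlator of a doubly indexed family of operators -/
noncomputable def Inv.cor (t : Inv Q) (T : ℕ → ℕ → Op (Fin (Q + 1))) (q k q' j : ℕ) : ℝ :=
  (t.τ (star (T q k) * T q' j)).re

theorem Inv.cor_sym (t : Inv Q) (T : ℕ → ℕ → Op (Fin (Q + 1))) (q k q' j : ℕ) :
    t.cor T q k q' j = t.cor T q' j q k := by
  unfold Inv.cor
  have : star (T q' j) * T q k = star (star (T q k) * T q' j) := by rw [star_mul, star_star]
  rw [this, t.herm, Complex.conj_re]

theorem Inv.cor_psd (t : Inv Q) (T : ℕ → ℕ → Op (Fin (Q + 1))) : PSD (t.cor T) := by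
  intro n x y u
  have h := t.pos (∑ i ∈ range n, ((u i : ℝ) : ℂ) • T (x i) (y i))
  refine h.trans_eq ?_
  rw [star_sum, Finset.sum_mul, map_sum, Complex.re_sum]
  refine Finset.sum_congr rfl fun i _ => ?_
  rw [Finset.mul_sum, map_sum, Complex.re_sum]
  refine Finset.sum_congr rfl fun j _ => ?_
  rw [star_smul, smul_mul_assoc, mul_smul_comm, map_smul, map_smul]
  unfold Inv.cor
  simp only [RCLike.star_def, Complex.conj_ofReal, smul_eq_mul]
  rw [← mul_assoc, ← Complex.ofReal_mul, Complex.re_ofReal_mul]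

theorem comm_mul {A : Type*} [Ring A] (V X Y : A) :
    V * (X * Y) - (X * Y) * V = (V * X - X * V) * Y + X * (V * Y - Y * V) := by noncomm_ring

theorem Inv.cor_FR (t : Inv Q) (T : ℕ → ℕ → Op (Fin (Q + 1))) (m l : ℕ → ℝ) (e : ℝ)
    (hZs : star (ZN Q) = ZN Q)
    (hU : ∀ q k, UN Q * T q k - T q k * UN Q =
      -(((m q : ℝ) : ℂ) • T (q + 1) k + ((l k : ℝ) : ℂ) • T q (k + 1)))
    (hV : ∀ q k, star (UN Q) * T q k - T q k * star (UN Q) =
      -((if q = 0 then 0 else ((m (q - 1) : ℝ) : ℂ) • T (q - 1) k) +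
        (if k = 0 then 0 else ((l (k - 1) : ℝ) : ℂ) • T q (k - 1))))
    (hZ : ∀ q k : ℕ, ZN Q * T q k - T q k * ZN Q = -((((q : ℝ) + k + e : ℝ) : ℂ) • T q k)) :
    FR m l (t.cor T) := by
  have hc : ∀ q k q' j, t.cor T q k q' j = (t.τ (star (T q k) * T q' j)).re := fun _ _ _ _ => rfl
  refine ⟨t.cor_sym T, ?_, ?_⟩
  · intro q k q' j hw
    have h1 : t.τ (ZN Q * (star (T q k) * T q' j) - (star (T q k) * T q' j) * ZN Q) = 0 := by
      rw [map_sub, t.invZ, sub_self]
    rw [comm_mul] at h1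
    have h2 : ZN Q * star (T q k) - star (T q k) * ZN Q =
        (((q : ℝ) + k + e : ℝ) : ℂ) • star (T q k) := by
      have h3 := congrArg star (hZ q k)
      rw [star_sub, star_mul, star_mul, hZs, star_neg, star_smul, RCLike.star_def,
        Complex.conj_ofReal] at h3
      rw [← neg_sub, h3, neg_neg]
    rw [h2, hZ, smul_mul_assoc, mul_neg, mul_smul_comm, ← sub_eq_add_neg, ← sub_smul, map_smul,
      ← Complex.ofReal_sub, smul_eq_mul] at h1
    rw [hc]
    have h4 : ((q : ℝ) + k + e) - ((q' : ℝ) + j + e) ≠ 0 := by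
      intro h5
      apply hw
      have h6 : (q : ℝ) + k = q' + j := by linarith
      exact_mod_cast h6
    have h7 : t.τ (star (T q k) * T q' j) = 0 := by
      rcases mul_eq_zero.mp h1 with h | h
      · exfalso; apply h4; exact_mod_cast h
      · exact h
    rw [h7, Complex.zero_re]
  · intro q k q' j
    have h1 : t.τ (star (UN Q) * (star (T q k) * T q' j) -
        (star (T q k) * T q' j) * star (UN Q)) = 0 := by
      rw [map_sub, t.invV, sub_self]
    rw [comm_mul] at h1
    have h2 : star (UN Q) * star (T q k) - star (T q k) * star (UN Q) =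
        ((m q : ℝ) : ℂ) • star (T (q + 1) k) + ((l k : ℝ) : ℂ) • star (T q (k + 1)) := by
      have h3 := congrArg star (hU q k)
      rw [star_sub, star_mul, star_mul, star_neg, star_add, star_smul, star_smul,
        RCLike.star_def, Complex.conj_ofReal, Complex.conj_ofReal] at h3
      rw [← neg_sub, h3, neg_neg]
    rw [h2, hV, add_mul, smul_mul_assoc, smul_mul_assoc, mul_neg, mul_add, map_add, map_neg,
      map_add, map_add, map_smul, map_smul] at h1
    have h5 := congrArg Complex.re h1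
    simp only [smul_eq_mul, Complex.add_re, Complex.neg_re, Complex.re_ofReal_mul,
      Complex.zero_re] at h5
    have e1 : (t.τ (star (T q k) *
        (if q' = 0 then 0 else ((m (q' - 1) : ℝ) : ℂ) • T (q' - 1) j))).re =
        if q' = 0 then 0 else m (q' - 1) * t.cor T q k (q' - 1) j := by
      split_ifs with h0
      · simp
      · rw [mul_smul_comm, map_smul, smul_eq_mul, Complex.re_ofReal_mul, hc]
    have e2 : (t.τ (star (T q k) *
        (if j = 0 then 0 else ((l (j - 1) : ℝ) : ℂ) • T q' (j - 1)))).re =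
        if j = 0 then 0 else l (j - 1) * t.cor T q k q' (j - 1) := by
      split_ifs with h0
      · simp
      · rw [mul_smul_comm, map_smul, smul_eq_mul, Complex.re_ofReal_mul, hc]
    rw [e1, e2] at h5
    rw [hc, hc]
    linarith

/-- three-body family `T q k = c_k W_q` -/
noncomputable def T3 (Q : ℕ) (q k : ℕ) : Op (Fin (Q + 1)) := cN Q k * WN Q q

/-- four-body family `T q s = W_s W_q` -/
noncomputable def T4 (Q : ℕ) (q s : ℕ) : Op (Fin (Q + 1)) := WN Q s * WN Q q

theorem Inv.FR3 (hL : LadQ Q) (t : Inv Q) : FR (mu Q) (lam Q) (t.cor (T3 Q)) := by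
  refine t.cor_FR (T3 Q) (mu Q) (lam Q) 1 hL.Zs ?_ ?_ ?_
  · intro q k
    unfold T3
    rw [comm_mul, hL.Uc, hL.UW]
    simp only [neg_mul, mul_neg, smul_mul_assoc, mul_smul_comm]
    abel
  · intro q k
    unfold T3
    rw [comm_mul]
    have e1 : star (UN Q) * cN Q k - cN Q k * star (UN Q) =
        -(if k = 0 then 0 else ((lam Q (k - 1) : ℝ) : ℂ) • cN Q (k - 1)) := by
      rcases k with _ | k
      · rw [hL.Vc0]; simp
      · rw [hL.Vc]; simp
    have e2 : star (UN Q) * WN Q q - WN Q q * star (UN Q) =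
        -(if q = 0 then 0 else ((mu Q (q - 1) : ℝ) : ℂ) • WN Q (q - 1)) := by
      rcases q with _ | q
      · rw [hL.VW0]; simp
      · rw [hL.VW]; simp
    rw [e1, e2]
    split_ifs <;> simp only [neg_mul, mul_neg, smul_mul_assoc, mul_smul_comm, zero_mul, mul_zero,
      neg_zero, add_zero, zero_add] <;> try abel
  · intro q k
    unfold T3
    rw [comm_mul, hL.Zc, hL.ZW]
    simp only [neg_mul, mul_neg, smul_mul_assoc, mul_smul_comm]
    rw [← neg_add, ← add_smul]
    congr 2
    push_cast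
    ring

theorem Inv.FR4 (hL : LadQ Q) (t : Inv Q) : FR (mu Q) (mu Q) (t.cor (T4 Q)) := by
  refine t.cor_FR (T4 Q) (mu Q) (mu Q) 2 hL.Zs ?_ ?_ ?_
  · intro q k
    unfold T4
    rw [comm_mul, hL.UW, hL.UW]
    simp only [neg_mul, mul_neg, smul_mul_assoc, mul_smul_comm]
    abel
  · intro q k
    unfold T4
    rw [comm_mul]
    have e2 : ∀ q, star (UN Q) * WN Q q - WN Q q * star (UN Q) =
        -(if q = 0 then 0 else ((mu Q (q - 1) : ℝ) : ℂ) • WN Q (q - 1)) := by
      intro q
      rcases q with _ | q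
      · rw [hL.VW0]; simp
      · rw [hL.VW]; simp
    rw [e2, e2]
    split_ifs <;> simp only [neg_mul, mul_neg, smul_mul_assoc, mul_smul_comm, zero_mul, mul_zero,
      neg_zero, add_zero, zero_add] <;> try abel
  · intro q k
    unfold T4
    rw [comm_mul, hL.ZW, hL.ZW]
    simp only [neg_mul, mul_neg, smul_mul_assoc, mul_smul_comm]
    rw [← neg_add, ← add_smul]
    congr 2
    push_cast
    ring

/-- `τ` is monotone. -/
theorem Inv.re_nonneg (t : Inv Q) {A : Op (Fin (Q + 1))} (hA : 0 ≤ A) : 0 ≤ (t.τ A).re := by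
  obtain ⟨B, rfl⟩ := CStarAlgebra.nonneg_iff_eq_star_mul_self.mp hA
  exact t.pos B

theorem Inv.re_mono (t : Inv Q) {A B : Op (Fin (Q + 1))} (h : A ≤ B) : (t.τ A).re ≤ (t.τ B).re := by
  have := t.re_nonneg (sub_nonneg.mpr h)
  rw [map_sub, Complex.sub_re] at this
  linarith

/-- `τ((XW)^*(XW)) ≤ ‖X‖² τ(W^*W)` -/
theorem Inv.conj_le (t : Inv Q) (X W : Op (Fin (Q + 1))) :
    (t.τ (star (X * W) * (X * W))).re ≤ ‖X‖ ^ 2 * (t.τ (star W * W)).re := by
  have h1 : star X * X ≤ algebraMap ℝ (Op (Fin (Q + 1))) (‖X‖ ^ 2) :=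
    CStarAlgebra.star_mul_le_algebraMap_norm_sq
  have h2 := star_left_conjugate_le_conjugate h1 W
  have h3 := t.re_mono h2
  have e1 : star W * (star X * X) * W = star (X * W) * (X * W) := by
    rw [star_mul]; noncomm_ring
  have e2 : star W * algebraMap ℝ (Op (Fin (Q + 1))) (‖X‖ ^ 2) * W =
      (((‖X‖ ^ 2 : ℝ)) : ℂ) • (star W * W) := by
    rw [Algebra.algebraMap_eq_smul_one, mul_smul_comm, mul_one, smul_mul_assoc]
    exact (Complex.coe_smul _ _).symm
  rw [e1, e2, map_smul, smul_eq_mul, Complex.re_ofReal_mul] at h3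
  exact h3

/-- off-diagonal correlators are bounded by diagonal ones -/
theorem Inv.abs_cor_le (t : Inv Q) (T : ℕ → ℕ → Op (Fin (Q + 1))) (q k q' j : ℕ) :
    |t.cor T q k q' j| ≤ (t.cor T q k q k + t.cor T q' j q' j) / 2 := by
  have h := t.cor_psd T
  have hs := t.cor_sym T q k q' j
  rw [abs_le]
  constructor
  · have h3 := h 2 (fun l => if l = 0 then q else q') (fun l => if l = 0 then k else j)
      (fun l => if l = 0 then 1 else 1)
    simp only [Finset.sum_range_succ, Finset.sum_range_zero, if_true, one_ne_zero, if_false,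
      zero_add] at h3
    rw [← hs] at h3
    linarith
  · have h3 := h 2 (fun l => if l = 0 then q else q') (fun l => if l = 0 then k else j)
      (fun l => if l = 0 then 1 else -1)
    simp only [Finset.sum_range_succ, Finset.sum_range_zero, if_true, one_ne_zero, if_false,
      zero_add] at h3
    rw [← hs] at h3
    linarith

theorem norm_cN_le (Q k : ℕ) : ‖cN Q k‖ ≤ 1 := by
  unfold cN
  split_ifs with h
  · rw [norm_c]
  · simp

theorem Inv.cor3_diag_le (t : Inv Q) (q k : ℕ) :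
    t.cor (T3 Q) q k q k ≤ (t.τ (star (WN Q q) * WN Q q)).re := by
  have h := t.conj_le (cN Q k) (WN Q q)
  have h1 : ‖cN Q k‖ ^ 2 ≤ 1 := by
    have := norm_cN_le Q k
    have h0 := norm_nonneg (cN Q k)
    nlinarith
  have h2 := t.pos (WN Q q)
  unfold Inv.cor T3
  nlinarith

theorem Inv.cor4_diag_le (t : Inv Q) (q s : ℕ) :
    t.cor (T4 Q) q s q s ≤ ‖WN Q s‖ ^ 2 * (t.τ (star (WN Q q) * WN Q q)).re :=
  t.conj_le (WN Q s) (WN Q q)

/-- `τ(W_q^* W_q)` does not depend on `q`. -/
theorem Inv.norm_W (hL : LadQ Q) (t : Inv Q) (q : ℕ) (hq : q < 2 * Q - 1) :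
    (t.τ (star (WN Q q) * WN Q q)).re = (t.τ (star (WN Q 0) * WN Q 0)).re := by
  induction q with
  | zero => rfl
  | succ q ih =>
    rw [← ih (by omega)]
    have h1 : t.τ (star (UN Q) * (star (WN Q q) * WN Q (q + 1)) -
        (star (WN Q q) * WN Q (q + 1)) * star (UN Q)) = 0 := by
      rw [map_sub, t.invV, sub_self]
    rw [comm_mul] at h1
    have h2 : star (UN Q) * star (WN Q q) - star (WN Q q) * star (UN Q) =
        ((mu Q q : ℝ) : ℂ) • star (WN Q (q + 1)) := by
      have h3 := congrArg star (hL.UW q)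
      rw [star_sub, star_mul, star_mul, star_neg, star_smul, RCLike.star_def,
        Complex.conj_ofReal] at h3
      rw [← neg_sub, h3, neg_neg]
    rw [h2, hL.VW, smul_mul_assoc, mul_neg, mul_smul_comm, map_add, map_neg, map_smul,
      map_smul] at h1
    have h5 := congrArg Complex.re h1
    simp only [smul_eq_mul, Complex.add_re, Complex.neg_re, Complex.re_ofReal_mul,
      Complex.zero_re] at h5
    have hmu : mu Q q ≠ 0 := by
      unfold mu
      apply Real.sqrt_ne_zero'.mpr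
      have : 0 < 2 * Q - 2 - q := by omega
      have h6 : (0 : ℝ) < ((2 * Q - 2 - q : ℕ) : ℝ) := by exact_mod_cast this
      positivity
    have h7 : mu Q q * ((t.τ (star (WN Q (q + 1)) * WN Q (q + 1))).re -
        (t.τ (star (WN Q q) * WN Q q)).re) = 0 := by linarith
    rcases mul_eq_zero.mp h7 with h | h
    · exact absurd h hmu
    · linarith

end Crest.Agent.R340.Kn249
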